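import Crest.Agent.R135.ArcFlat
import Mathlib
import Crest.Prelude.Def_MumfordShah

-- ▼ part R135/ArcGraph
section

/-!
# R135: the planar graph lemma near a half-line (block ARC)
-/

set_option autoImplicit false

open Set Filter Topology
open scoped NNReal

namespace Crest.Agent.R135.Arc

set_option maxHeartbeats 2000000 in
/-- Near the half-line, `K` is the graph of a function with small slopes, which is locally
`C^{1,γ}` in Campanato form. -/
theorem RayHyp.graph {K : Set (ℝ × ℝ)} {r0 C γ c : ℝ} (H : RayHyp K r0 C γ c) :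
    ∃ r3 c1 C' : ℝ, 0 < r3 ∧ r3 < r0 ∧ 0 < c1 ∧ 0 < C' ∧ ∃ f : ℝ → ℝ, f 0 = 0 ∧
      (∀ p q, 0 < p → p ≤ r3 → |q| ≤ p / 4 → ((p, q) ∈ K ↔ q = f p)) ∧
      (∀ p, 0 < p → p ≤ r3 → |f p| ≤ p / 10 ∧ |f p| ≤ C' * p ^ (1 + γ)) ∧
      (∀ x, 0 < x → x ≤ r3 → ∀ ρ, 0 < ρ → ρ ≤ c1 * x → ∃ m, ∀ h, |h| ≤ ρ → 0 ≤ x + h →
        x + h ≤ r3 → |f (x + h) - f x - m * h| ≤ C' * ρ * (ρ / x) ^ γ) := by
  obtain ⟨r1, c1, hr1, hr10, hc1, hc1t, hCc, hCr, hgood⟩ := H.good
  have hC := H.Cpos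
  have hγ := H.γpos
  have h2γ : (0:ℝ) < (2:ℝ) ^ γ := by positivity
  -- smallness in the sector
  have hk : ∀ s, 0 < s → s ≤ 2 * r1 → C * s ^ (1+γ) ≤ s * (c1 / 800) := by
    intro s hs hs2
    rw [Real.rpow_add hs, Real.rpow_one]
    have : s ^ γ ≤ (2 * r1) ^ γ := Real.rpow_le_rpow hs.le (by linarith) hγ.le
    have h5 : C * s ^ γ ≤ c1 / 800 := by
      have : C * s ^ γ ≤ C * (2 * r1) ^ γ := by gcongr
      linarith
    calc C * (s * s ^ γ) = s * (C * s ^ γ) := by ring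
      _ ≤ s * (c1 / 800) := by gcongr
  have hsm : ∀ p q, (p, q) ∈ K → 0 < p → p < r1 → |q| ≤ p / 4 → |q| ≤ p * (c1 / 800) := by
    intro p q hpq hp hpr hq
    exact (H.far p q hpq hp (by linarith) hq).trans (hk p hp (by linarith))
  -- error at scale ρ
  have hE : ∀ p ρ, 0 < p → 0 < ρ → ρ ≤ c1 * p →
      2 * (2:ℝ) ^ γ * C * ρ * (ρ / p) ^ γ ≤ ρ / 400 := by
    intro p ρ hp hρ hρc
    have h1 : (ρ / p) ^ γ ≤ c1 ^ γ := by
      refine Real.rpow_le_rpow (by positivity) ?_ hγ.le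
      rw [div_le_iff₀ hp]; exact hρc
    calc 2 * (2:ℝ) ^ γ * C * ρ * (ρ / p) ^ γ ≤ 2 * (2:ℝ) ^ γ * C * ρ * c1 ^ γ := by gcongr
      _ = 2 * ρ * ((2:ℝ) ^ γ * C * c1 ^ γ) := by ring
      _ ≤ 2 * ρ * (1 / 800) := by gcongr
      _ = ρ / 400 := by ring
  -- Lipschitz property
  have hlip : ∀ p q p' q', (p, q) ∈ K → (p', q') ∈ K → 0 < p → p < r1 → 0 < p' → p' < r1 →
      |q| ≤ p / 4 → |q'| ≤ p' / 4 → |q' - q| ≤ |p' - p| / 10 := by
    intro p q p' q' h h' hp hpr hp' hpr' hq hq'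
    by_contra hcon
    push Not at hcon
    have hq2 := hsm p q h hp hpr hq
    have hq2' := hsm p' q' h' hp' hpr' hq'
    have hlow : |q' - q| ≤ (p' + p) * (c1 / 800) := by
      have := abs_sub q' q
      linarith
    set δ := max |p' - p| |q' - q| with hδ
    have hδ1 : |p' - p| ≤ δ := le_max_left _ _
    have hδ2 : |q' - q| ≤ δ := le_max_right _ _
    have hqpos : 0 < |q' - q| := lt_of_le_of_lt (by positivity) hcon
    have hδpos : 0 < δ := hqpos.trans_le hδ2
    by_cases hδc : δ ≤ c1 * p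
    · obtain ⟨u, v, hu, hv, hF⟩ := hgood p q h hp hpr hq δ hδpos hδc
      have h1 := hF.2.1 p' q' h' hδ1 hδ2
      have h2 := h1.trans (hE p δ hp hδpos hδc)
      have hu2 : 9/10 ≤ u := by
        have := hF.1
        have hv' := abs_le.1 hv
        nlinarith
      have hu1 := (abs_le_one_of_sq_add hF.1).1
      have h3 : |(q' - q) * u| ≤ δ / 400 + |p' - p| * (1/25) := by
        have : (q' - q) * u = ((q' - q) * u - (p' - p) * v) + (p' - p) * v := by ring
        rw [this]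
        refine (abs_add_le _ _).trans ?_
        rw [abs_mul (p' - p) v]
        gcongr
      rw [abs_mul, abs_of_pos hu] at h3
      have h4 : |q' - q| * (9/10) ≤ δ / 400 + |p' - p| * (1/25) := by
        refine le_trans ?_ h3
        gcongr
      have h5 : δ ≤ |p' - p| + |q' - q| := by
        refine max_le ?_ ?_
        · linarith [abs_nonneg (q' - q)]
        · linarith [abs_nonneg (p' - p)]
      linarith [abs_nonneg (p' - p)]
    · push Not at hδc
      -- δ > c1 p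
      rcases le_or_gt p' (2 * p) with hpp | hpp
      · have h5 : |q' - q| ≤ 3 * (δ / 800) := by
          have : (p' + p) * (c1 / 800) ≤ (3 * p) * (c1 / 800) := by
            gcongr
            linarith
          have : (3 * p) * (c1 / 800) = 3 * (c1 * p / 800) := by ring
          have : c1 * p / 800 ≤ δ / 800 := by linarith
          linarith
        have h6 : δ = |p' - p| := by
          rcases le_total |p' - p| |q' - q| with hle | hle
          · exfalso
            have : δ = |q' - q| := by rw [hδ, max_eq_right hle]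
            rw [this] at h5
            linarith
          · rw [hδ, max_eq_left hle]
        rw [h6] at h5
        linarith [abs_nonneg (p' - p)]
      · have h7 : p' / 2 ≤ |p' - p| := by
          have := le_abs_self (p' - p)
          linarith
        have : (p' + p) * (c1 / 800) ≤ (2 * p') * (c1 / 800) := by
          gcongr
          linarith
        have h8 : (2 * p') * (c1 / 800) ≤ p' / 400 := by nlinarith
        linarith
  -- existence
  have hex : ∀ p, 0 < p → p ≤ r1 / 2 → ∃ q, (p, q) ∈ K ∧ |q| ≤ p / 4 := by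
    intro P hP hPr
    obtain ⟨p₀, q₀, hm₀, hp₀, hq₀⟩ := H.near (P / 2) (by linarith) (by linarith)
    have hs := hk (P / 2) (by linarith) (by linarith)
    have hs2 : P / 2 * (c1 / 800) ≤ P / 2 / 100 := by
      have : c1 / 800 ≤ 1 / 100 := by linarith
      nlinarith
    have hp₀' := abs_le.1 (hp₀.trans (hs.trans hs2))
    have hq₀' : |q₀| ≤ P / 2 / 100 := hq₀.trans (hs.trans hs2)
    set B : Set (ℝ × ℝ) := {z | z ∈ closure K ∧ p₀ ≤ z.1 ∧ z.1 ≤ P ∧ |z.2| ≤ z.1 / 4} with hB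
    have hBc : IsCompact B := by
      have hsub : B ⊆ Icc p₀ P ×ˢ Icc (-P) P := by
        rintro ⟨a, b⟩ ⟨_, h1, h2, h3⟩
        simp only at h1 h2 h3
        have h4 := abs_le.1 h3
        refine ⟨⟨h1, h2⟩, ⟨?_, ?_⟩⟩
        · simp only; linarith [h4.1]
        · simp only; linarith [h4.2]
      refine IsCompact.of_isClosed_subset (isCompact_Icc.prod isCompact_Icc) ?_ hsub
      have : B = closure K ∩ ({z | p₀ ≤ z.1} ∩ ({z | z.1 ≤ P} ∩ {z | |z.2| ≤ z.1 / 4})) := by
        ext z; simp only [hB, mem_ofPred_eq, mem_inter_iff]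
      rw [this]
      refine isClosed_closure.inter ((isClosed_le continuous_const continuous_fst).inter
        ((isClosed_le continuous_fst continuous_const).inter
        (isClosed_le (continuous_snd.abs) (continuous_fst.div_const 4))))
    have hBne : B.Nonempty := by
      refine ⟨(p₀, q₀), subset_closure hm₀, le_rfl, ?_, ?_⟩
      · simp only; linarith
      · simp only; linarith
    obtain ⟨z, hzB, hzmax⟩ := hBc.exists_isMaxOn hBne continuous_fst.continuousOn
    obtain ⟨hz1, hz2, hz3, hz4⟩ := hzB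
    have hz0 : 0 < z.1 := by linarith
    have hzr1 : z.1 < r1 := by linarith
    have hzK : z ∈ K := H.closed z hz1 hz0 (by linarith) hz4
    rcases eq_or_lt_of_le hz3 with heq | hlt
    · refine ⟨z.2, ?_, ?_⟩
      · rw [← heq]; exact hzK
      · rw [← heq]; exact hz4
    · exfalso
      set ρ := min (c1 * z.1) (P - z.1) with hρ
      have hρ0 : 0 < ρ := lt_min (by positivity) (by linarith)
      have hρ1 : ρ ≤ c1 * z.1 := min_le_left _ _
      have hρ2 : ρ ≤ P - z.1 := min_le_right _ _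
      obtain ⟨u, v, hu, hv, hF⟩ := hgood z.1 z.2 hzK hz0 hzr1 hz4 ρ hρ0 hρ1
      have hEE := hE z.1 ρ hz0 hρ0 hρ1
      obtain ⟨p', q', hm, hp', hq'⟩ := hF.2.2 (ρ / 2) (by rw [abs_of_pos (by linarith)]; linarith)
      have hu2 : 9/10 ≤ u := by
        have := hF.1
        have hv' := abs_le.1 hv
        nlinarith
      have hu1 := abs_le.1 (abs_le_one_of_sq_add hF.1).1
      have hv' := abs_le.1 hv
      have h1 := abs_le.1 (hp'.trans hEE)
      have h2 := abs_le.1 (hq'.trans hEE)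
      have h3 : ρ / 2 * (9/10) ≤ ρ / 2 * u := by gcongr
      have h3' : ρ / 2 * u ≤ ρ / 2 := by nlinarith [hu1.2]
      have h4 : ρ / 2 * v ≤ ρ / 2 * (1/25) := by gcongr; exact hv'.2
      have h4' : ρ / 2 * (-(1/25)) ≤ ρ / 2 * v := by gcongr; exact hv'.1
      have h5 := abs_le.1 hz4
      have hp1 : z.1 < p' := by linarith [h1.1]
      have hp2 : p' ≤ P := by linarith [h1.2]
      have hq1 : |q'| ≤ p' / 4 := by
        rw [abs_le]
        constructor
        · linarith [h1.1, h2.1, h5.1]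
        · linarith [h1.1, h2.2, h5.2]
      have hmem : (p', q') ∈ B := ⟨subset_closure hm, by simp only; linarith, hp2, hq1⟩
      have := hzmax hmem
      simp only [mem_ofPred_eq] at this
      linarith
  classical
  set f : ℝ → ℝ := fun p => if h : 0 < p ∧ p ≤ r1 / 2 then (hex p h.1 h.2).choose else 0 with hf
  have hfs : ∀ p, 0 < p → p ≤ r1 / 2 → (p, f p) ∈ K ∧ |f p| ≤ p / 4 := by
    intro p h1 h2
    have : f p = (hex p h1 h2).choose := by simp only [hf]; rw [dif_pos ⟨h1, h2⟩]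
    rw [this]
    exact (hex p h1 h2).choose_spec
  have hf0 : f 0 = 0 := by simp only [hf]; rw [dif_neg (by simp)]
  refine ⟨r1 / 2, c1, max C (4 * (2:ℝ) ^ γ * C), by linarith, by linarith, hc1,
    lt_max_of_lt_left hC, f, hf0, ?_, ?_, ?_⟩
  · intro p q hp hpr hq
    obtain ⟨h1, h2⟩ := hfs p hp hpr
    constructor
    · intro h
      have h3 := hlip p (f p) p q h1 h hp (by linarith) hp (by linarith) h2 hq
      rw [sub_self, abs_zero, zero_div] at h3
      have := abs_eq_zero.1 (le_antisymm h3 (abs_nonneg _))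
      linarith
    · rintro rfl; exact h1
  · intro p hp hpr
    obtain ⟨h1, h2⟩ := hfs p hp hpr
    refine ⟨?_, ?_⟩
    · have := hsm p (f p) h1 hp (by linarith) h2
      nlinarith
    · refine (H.far p (f p) h1 hp (by linarith) h2).trans ?_
      gcongr
      exact le_max_left _ _
  · intro x hx hxr ρ hρ hρc
    obtain ⟨h1, h2⟩ := hfs x hx hxr
    obtain ⟨u, v, hu, hv, hF⟩ := hgood x (f x) h1 hx (by linarith) h2 ρ hρ hρc
    have hu2 : 9/10 ≤ u := by
      have := hF.1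
      have hv' := abs_le.1 hv
      nlinarith
    refine ⟨v / u, ?_⟩
    intro h hh hxh0 hxh
    have hh' := abs_le.1 hh
    have hxpos : 0 < x + h := by nlinarith
    obtain ⟨h3, h4⟩ := hfs (x + h) hxpos hxh
    have h5 := hlip x (f x) (x + h) (f (x + h)) h1 h3 hx (by linarith) hxpos (by linarith) h2 h4
    have e1 : x + h - x = h := by ring
    rw [e1] at h5
    have h6 := hF.2.1 (x + h) (f (x + h)) h3 (by rw [e1]; exact hh) (by linarith [abs_nonneg h])
    rw [e1] at h6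
    have h7 : f (x + h) - f x - v / u * h = ((f (x + h) - f x) * u - h * v) / u := by
      field_simp
    rw [h7, abs_div, abs_of_pos hu, div_le_iff₀ hu]
    refine h6.trans ?_
    have h8 : 0 < ρ * (ρ / x) ^ γ := by positivity
    have h9 : 4 * (2:ℝ) ^ γ * C ≤ max C (4 * (2:ℝ) ^ γ * C) := le_max_right _ _
    have h10 : 2 * (2:ℝ) ^ γ * C ≤ max C (4 * (2:ℝ) ^ γ * C) * u := by
      calc 2 * (2:ℝ) ^ γ * C ≤ (4 * (2:ℝ) ^ γ * C) * (9/10) := by nlinarith [mul_pos h2γ hC]
        _ ≤ max C (4 * (2:ℝ) ^ γ * C) * u := by gcongr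
    calc 2 * (2:ℝ) ^ γ * C * ρ * (ρ / x) ^ γ = (2 * (2:ℝ) ^ γ * C) * (ρ * (ρ / x) ^ γ) := by ring
      _ ≤ (max C (4 * (2:ℝ) ^ γ * C) * u) * (ρ * (ρ / x) ^ γ) := by gcongr
      _ = _ := by ring

end Crest.Agent.R135.Arc
end

-- ▼ part R135/Arc1D
section

/-!
# R135: one-dimensional Campanato lemma (block ARC)
-/

set_option autoImplicit false

open Set Filter Topology
open scoped NNReal

namespace Crest.Agent.R135.Arc

/-- Campanato-type condition on `[a,b]`: at every point and every scale `f` is affine up to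
`C ρ^(1+γ)`. -/
def Camp (f : ℝ → ℝ) (a b C γ : ℝ) : Prop :=
  ∀ x ∈ Icc a b, ∀ ρ, 0 < ρ → ρ ≤ b - a → ∃ m : ℝ, ∀ h : ℝ, |h| ≤ ρ → x + h ∈ Icc a b →
    |f (x + h) - f x - m * h| ≤ C * ρ ^ (1 + γ)

theorem camp_point {f : ℝ → ℝ} {a b C γ : ℝ} (hab : a < b) (hC : 0 ≤ C) (hγ : 0 < γ)
    (hf : Camp f a b C γ) {x : ℝ} (hx : x ∈ Icc a b) :
    ∃ m : ℝ, ∀ h : ℝ, x + h ∈ Icc a b →
      |f (x + h) - f x - m * h| ≤
        (C + 4 * C / (1 - (2:ℝ) ^ (-γ))) * 2 ^ (1 + γ) * |h| ^ (1 + γ) := by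
  have hba : 0 < b - a := by linarith
  set q : ℝ := (2:ℝ) ^ (-γ) with hq
  have hq0 : 0 < q := by positivity
  have hq1 : q < 1 := by
    rw [hq]; exact Real.rpow_lt_one_of_one_lt_of_neg (by norm_num) (by linarith)
  set ρ : ℕ → ℝ := fun n => (b - a) * (1/2 : ℝ) ^ n with hρ
  have hρ0 : ∀ n, 0 < ρ n := fun n => by positivity
  have hρle : ∀ n, ρ n ≤ b - a := fun n => by
    have : (1/2:ℝ) ^ n ≤ 1 := pow_le_one₀ (by norm_num) (by norm_num)
    simp only [hρ]; nlinarith
  have hρs : ∀ n, ρ (n+1) = ρ n / 2 := fun n => by simp only [hρ, pow_succ]; ring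
  have hex : ∀ n : ℕ, ∃ m : ℝ, ∀ h : ℝ, |h| ≤ ρ n → x + h ∈ Icc a b →
      |f (x + h) - f x - m * h| ≤ C * (ρ n) ^ (1 + γ) := fun n => hf x hx (ρ n) (hρ0 n) (hρle n)
  choose m hm using hex
  -- consecutive slopes
  have hstep : ∀ n, dist (m n) (m (n+1)) ≤ (4 * C * (b-a) ^ γ) * q ^ n := by
    intro n
    obtain ⟨h, hh1, hh2⟩ : ∃ h : ℝ, |h| = ρ (n+1) ∧ x + h ∈ Icc a b := by
      by_cases hc : x + ρ (n+1) ≤ b
      · exact ⟨ρ (n+1), abs_of_pos (hρ0 _), by have := hx.1; have := hρ0 (n+1); linarith, hc⟩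
      · refine ⟨-ρ (n+1), by rw [abs_neg]; exact abs_of_pos (hρ0 _), ?_, ?_⟩
        · push Not at hc
          have h1 := hρle n
          have h2 := hρs n
          linarith
        · have := hx.2; have := hρ0 (n+1); linarith
    have hρn1 : ρ (n+1) ≤ ρ n := by rw [hρs]; have := hρ0 n; linarith
    have e1 := hm n h (by rw [hh1]; exact hρn1) hh2
    have e2 := hm (n+1) h (by rw [hh1]) hh2
    have e3 : |(m n - m (n+1)) * h| ≤ C * (ρ n) ^ (1+γ) + C * (ρ (n+1)) ^ (1+γ) := by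
      have : (m n - m (n+1)) * h = (f (x + h) - f x - m (n+1) * h) - (f (x + h) - f x - m n * h) := by
        ring
      rw [this]
      refine (abs_sub _ _).trans ?_
      linarith
    have e4 : (ρ (n+1)) ^ (1+γ) ≤ (ρ n) ^ (1+γ) :=
      Real.rpow_le_rpow (hρ0 _).le hρn1 (by linarith)
    have e5 : (ρ n) ^ (1+γ) = (ρ n) * (ρ n) ^ γ := by
      rw [Real.rpow_add (hρ0 n), Real.rpow_one]
    have e6 : (ρ n) ^ γ = (b-a) ^ γ * q ^ n := by
      simp only [hρ]
      rw [Real.mul_rpow hba.le (by positivity)]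
      congr 1
      rw [hq, ← Real.rpow_natCast, ← Real.rpow_natCast, ← Real.rpow_mul (by norm_num),
        ← Real.rpow_mul (by norm_num), one_div, Real.inv_rpow (by norm_num),
        ← Real.rpow_neg (by norm_num)]
      congr 1; ring
    rw [abs_mul, hh1, hρs] at e3
    have e7 : |m n - m (n+1)| * (ρ n / 2) ≤ 2 * C * (ρ n * ((b-a) ^ γ * q ^ n)) := by
      have : C * (ρ (n+1)) ^ (1+γ) ≤ C * (ρ n) ^ (1+γ) := mul_le_mul_of_nonneg_left e4 hC
      rw [hρs] at this
      rw [e5, e6] at this e3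
      linarith
    have e8 : |m n - m (n+1)| ≤ 4 * C * ((b-a) ^ γ * q ^ n) := by
      have h0 := hρ0 n
      by_contra hcon
      push Not at hcon
      have := mul_lt_mul_of_pos_right hcon (half_pos h0)
      linarith
    rw [Real.dist_eq]
    linarith
  obtain ⟨L, hL⟩ := cauchySeq_tendsto_of_complete (cauchySeq_of_le_geometric q _ hq1 hstep)
  have hdist : ∀ n, dist (m n) L ≤ (4 * C * (b-a) ^ γ) * q ^ n / (1 - q) :=
    fun n => dist_le_of_le_geometric_of_tendsto q _ hq1 hstep hL n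
  refine ⟨L, fun h hh => ?_⟩
  rcases eq_or_ne h 0 with rfl | hne
  · simp
    positivity
  have habs : 0 < |h| := abs_pos.mpr hne
  have hle : |h| ≤ b - a := by
    rw [abs_le]; constructor <;> [have := hh.1; have := hh.2] <;> have := hx.1 <;> have := hx.2 <;>
      linarith
  obtain ⟨n, hn1, hn2⟩ := exists_nat_pow_near_of_lt_one (x := |h| / (b-a)) (y := (1/2:ℝ))
    (by positivity) (by rw [div_le_one hba]; exact hle) (by norm_num) (by norm_num)
  have hn3 : |h| ≤ ρ n := by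
    rw [div_le_iff₀ hba] at hn2; simp only [hρ]; linarith
  have hn4 : ρ n ≤ 2 * |h| := by
    rw [lt_div_iff₀ hba, pow_succ] at hn1; simp only [hρ]; linarith
  have e1 := hm n h hn3 hh
  have e6 : (b-a) ^ γ * q ^ n = (ρ n) ^ γ := by
      simp only [hρ]
      rw [Real.mul_rpow hba.le (by positivity)]
      congr 1
      rw [hq, ← Real.rpow_natCast, ← Real.rpow_natCast, ← Real.rpow_mul (by norm_num),
        ← Real.rpow_mul (by norm_num), one_div, Real.inv_rpow (by norm_num),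
        ← Real.rpow_neg (by norm_num)]
      congr 1; ring
  have e2 : |m n - L| ≤ 4 * C / (1 - q) * (ρ n) ^ γ := by
    have := hdist n
    rw [Real.dist_eq] at this
    rw [← e6]
    refine this.trans (le_of_eq ?_)
    ring
  have e3 : |f (x + h) - f x - L * h| ≤ C * (ρ n) ^ (1+γ) + 4 * C / (1 - q) * (ρ n) ^ γ * |h| := by
    have : f (x + h) - f x - L * h = (f (x + h) - f x - m n * h) + (m n - L) * h := by ring
    rw [this]
    refine (abs_add_le _ _).trans ?_
    rw [abs_mul]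
    have := mul_le_mul_of_nonneg_right e2 habs.le
    linarith
  have h1q : 0 < 1 - q := by linarith
  have e4 : (ρ n) ^ γ * |h| ≤ (ρ n) ^ (1+γ) := by
    rw [Real.rpow_add (hρ0 n), Real.rpow_one, mul_comm]
    exact mul_le_mul_of_nonneg_right hn3 (by have := hρ0 n; positivity)
  have e5 : (ρ n) ^ (1+γ) ≤ 2 ^ (1+γ) * |h| ^ (1+γ) := by
    rw [← Real.mul_rpow (by norm_num) habs.le]
    exact Real.rpow_le_rpow (hρ0 n).le hn4 (by linarith)
  calc |f (x + h) - f x - L * h|
      ≤ C * (ρ n) ^ (1+γ) + 4 * C / (1 - q) * (ρ n) ^ γ * |h| := e3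
    _ = C * (ρ n) ^ (1+γ) + 4 * C / (1 - q) * ((ρ n) ^ γ * |h|) := by ring
    _ ≤ C * (ρ n) ^ (1+γ) + 4 * C / (1 - q) * (ρ n) ^ (1+γ) := by
        have := mul_le_mul_of_nonneg_left e4 (show 0 ≤ 4 * C / (1-q) by positivity)
        linarith
    _ = (C + 4 * C / (1 - q)) * (ρ n) ^ (1+γ) := by ring
    _ ≤ (C + 4 * C / (1 - q)) * (2 ^ (1+γ) * |h| ^ (1+γ)) :=
        mul_le_mul_of_nonneg_left e5 (by positivity)
    _ = _ := by ring

/-- Campanato in dimension one. -/
theorem camp_c1 {f : ℝ → ℝ} {a b C γ : ℝ} (hab : a < b) (hC : 0 ≤ C) (hγ : 0 < γ)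
    (hf : Camp f a b C γ) :
    ∃ (f' : ℝ → ℝ) (C' : ℝ), 0 ≤ C' ∧
      (∀ x ∈ Icc a b, ∀ y ∈ Icc a b, |f y - f x - f' x * (y - x)| ≤ C' * |y - x| ^ (1 + γ)) ∧
      (∀ x ∈ Icc a b, HasDerivWithinAt f (f' x) (Icc a b) x) ∧
      (∀ x ∈ Icc a b, ∀ y ∈ Icc a b, |f' x - f' y| ≤ C' * |x - y| ^ γ) := by
  have hq1 : (2:ℝ) ^ (-γ) < 1 := Real.rpow_lt_one_of_one_lt_of_neg (by norm_num) (by linarith)
  set D : ℝ := (C + 4 * C / (1 - (2:ℝ) ^ (-γ))) * 2 ^ (1 + γ) with hD
  have hD0 : 0 ≤ D := by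
    have : 0 < 1 - (2:ℝ) ^ (-γ) := by linarith
    positivity
  have hpt : ∀ x : ℝ, ∃ m : ℝ, x ∈ Icc a b → ∀ h : ℝ, x + h ∈ Icc a b →
      |f (x + h) - f x - m * h| ≤ D * |h| ^ (1 + γ) := by
    intro x
    by_cases hx : x ∈ Icc a b
    · obtain ⟨m, hm⟩ := camp_point hab hC hγ hf hx
      exact ⟨m, fun _ => hm⟩
    · exact ⟨0, fun h => absurd h hx⟩
  choose f' hf' using hpt
  have key : ∀ x ∈ Icc a b, ∀ y ∈ Icc a b, |f y - f x - f' x * (y - x)| ≤ D * |y - x| ^ (1 + γ) := by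
    intro x hx y hy
    have := hf' x hx (y - x) (by rw [add_sub_cancel]; exact hy)
    rwa [add_sub_cancel] at this
  refine ⟨f', 2 * D, by positivity, ?_, ?_, ?_⟩
  · intro x hx y hy
    have := key x hx y hy
    have h2 : 0 ≤ D * |y - x| ^ (1 + γ) := by positivity
    linarith
  · intro x hx
    rw [hasDerivWithinAt_iff_isLittleO]
    rw [Asymptotics.isLittleO_iff]
    intro c hc
    -- D |y-x|^γ ≤ c near x
    have hcont : Tendsto (fun y : ℝ => D * |y - x| ^ γ) (𝓝[Icc a b] x) (𝓝 0) := by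
      have h1 : Tendsto (fun y : ℝ => D * |y - x| ^ γ) (𝓝 x) (𝓝 (D * |x - x| ^ γ)) := by
        apply Tendsto.const_mul
        apply Tendsto.rpow_const
        · exact ((continuous_id.sub continuous_const).abs).tendsto x
        · right; exact hγ.le
      rw [sub_self, abs_zero, Real.zero_rpow hγ.ne', mul_zero] at h1
      exact h1.mono_left nhdsWithin_le_nhds
    filter_upwards [hcont.eventually (gt_mem_nhds hc), self_mem_nhdsWithin] with y hy1 hy2
    rw [Real.norm_eq_abs, Real.norm_eq_abs, smul_eq_mul, mul_comm (y - x)]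
    refine (key x hx y hy2).trans ?_
    rcases eq_or_ne y x with rfl | hne
    · simp [Real.zero_rpow (by linarith : (1 + γ) ≠ 0)]
    · have hpos : 0 < |y - x| := abs_pos.mpr (sub_ne_zero.mpr hne)
      rw [Real.rpow_add hpos, Real.rpow_one]
      nlinarith
  · intro x hx y hy
    rcases eq_or_ne x y with rfl | hne
    · simp [Real.zero_rpow hγ.ne']
    · have hpos : 0 < |x - y| := abs_pos.mpr (sub_ne_zero.mpr hne)
      have e1 := key x hx y hy
      have e2 := key y hy x hx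
      rw [abs_sub_comm y x] at e1
      have e3 : |(f' x - f' y) * (x - y)| ≤ 2 * D * |x - y| ^ (1+γ) := by
        have : (f' x - f' y) * (x - y) = (f y - f x - f' x * (y - x)) + (f x - f y - f' y * (x - y)) := by
          ring
        rw [this]
        refine (abs_add_le _ _).trans ?_
        linarith
      rw [abs_mul, Real.rpow_add hpos, Real.rpow_one] at e3
      by_contra hcon
      push Not at hcon
      have := mul_lt_mul_of_pos_right hcon hpos
      linarith

end Crest.Agent.R135.Arc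
end

-- ▼ part R135/ArcInterp
section

/-!
# R135: from local Campanato estimates with degenerating constants to a global one (block ARC)
-/

set_option autoImplicit false

open Set Filter Topology
open scoped NNReal

namespace Crest.Agent.R135.Arc

theorem rpow_interp {ρ X γ : ℝ} (hρ : 0 < ρ) (hX : 0 < X) (hγ : 0 < γ) :
    (ρ * (ρ / X) ^ γ) ^ (1 - γ / (1 + 2 * γ)) * (X ^ (1 + γ)) ^ (γ / (1 + 2 * γ)) =
      ρ ^ (1 + γ ^ 2 / (1 + 2 * γ)) := by
  have h1 : 0 < ρ / X := by positivity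
  have h12 : (1 + 2 * γ) ≠ 0 := by positivity
  have e : ρ * (ρ / X) ^ γ = Real.exp ((1 + γ) * Real.log ρ - γ * Real.log X) := by
    rw [Real.rpow_def_of_pos h1, Real.log_div hρ.ne' hX.ne']
    nth_rewrite 1 [← Real.exp_log hρ]
    rw [← Real.exp_add]
    congr 1; ring
  rw [e, Real.rpow_def_of_pos hX, Real.rpow_def_of_pos hρ, ← Real.exp_mul, ← Real.exp_mul,
    ← Real.exp_add]
  congr 1
  field_simp
  ring

theorem camp_of_local {f : ℝ → ℝ} {a b C γ c : ℝ} (_ha : a ≤ 0) (_hb : 0 ≤ b) (hab : a < b)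
    (hC : 0 < C) (hγ : 0 < γ) (hc : 0 < c)
    (h0 : ∀ x ∈ Icc a b, |f x| ≤ C * |x| ^ (1 + γ))
    (hloc : ∀ x ∈ Icc a b, x ≠ 0 → ∀ ρ, 0 < ρ → ρ ≤ c * |x| → ∃ m, ∀ h, |h| ≤ ρ →
      x + h ∈ Icc a b → |f (x + h) - f x - m * h| ≤ C * ρ * (ρ / |x|) ^ γ) :
    ∃ C', 0 < C' ∧ Camp f a b C' (γ ^ 2 / (1 + 2 * γ)) := by
  set γ' := γ ^ 2 / (1 + 2 * γ) with hγ'
  have h12 : 0 < 1 + 2 * γ := by positivity
  have hγ'0 : 0 < γ' := by positivity
  have hγγ' : γ' ≤ γ := by
    rw [hγ', div_le_iff₀ h12]; nlinarith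
  set L := b - a with hL
  have hL0 : 0 < L := by linarith
  have h1γ : 0 < 1 + γ := by linarith
  set D₁ := 2 * C * (1 + 1 / c) ^ (1 + γ) * L ^ (γ - γ') with hD₁
  set D₂ := 2 * C * (1 + c) ^ (1 + γ) with hD₂
  have hD₁0 : 0 < D₁ := by positivity
  have hD₂0 : 0 < D₂ := by positivity
  refine ⟨D₁ + D₂, by positivity, ?_⟩
  intro x hx ρ hρ hρL
  rcases lt_or_ge (c * |x|) ρ with hcase | hcase
  · refine ⟨0, fun h hh hxh => ?_⟩
    have hx1 : |x| ≤ ρ / c := by rw [le_div_iff₀ hc]; linarith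
    have hx2 : |x| ≤ (1 + 1 / c) * ρ := by
      refine hx1.trans ?_
      rw [add_mul, one_mul, one_div, inv_mul_eq_div]; linarith
    have hx3 : |x + h| ≤ (1 + 1 / c) * ρ := by
      refine (abs_add_le _ _).trans ?_
      rw [add_mul, one_mul, one_div, inv_mul_eq_div]; linarith
    have b1 := h0 x hx
    have b2 := h0 (x + h) hxh
    have b3 : |x| ^ (1 + γ) ≤ (1 + 1 / c) ^ (1 + γ) * ρ ^ (1 + γ) := by
      rw [← Real.mul_rpow (by positivity) hρ.le]
      exact Real.rpow_le_rpow (abs_nonneg _) hx2 h1γ.le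
    have b4 : |x + h| ^ (1 + γ) ≤ (1 + 1 / c) ^ (1 + γ) * ρ ^ (1 + γ) := by
      rw [← Real.mul_rpow (by positivity) hρ.le]
      exact Real.rpow_le_rpow (abs_nonneg _) hx3 h1γ.le
    have b5 : ρ ^ (1 + γ) ≤ L ^ (γ - γ') * ρ ^ (1 + γ') := by
      have : ρ ^ (1 + γ) = ρ ^ (γ - γ') * ρ ^ (1 + γ') := by
        rw [← Real.rpow_add hρ]; congr 1; ring
      rw [this]
      gcongr
    calc |f (x + h) - f x - 0 * h| = |f (x + h) - f x| := by rw [zero_mul, sub_zero]
      _ ≤ |f (x + h)| + |f x| := abs_sub _ _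
      _ ≤ C * ((1 + 1 / c) ^ (1 + γ) * ρ ^ (1 + γ)) + C * ((1 + 1 / c) ^ (1 + γ) * ρ ^ (1 + γ)) := by
          gcongr
          · exact b2.trans (by gcongr)
          · exact b1.trans (by gcongr)
      _ = 2 * C * (1 + 1 / c) ^ (1 + γ) * ρ ^ (1 + γ) := by ring
      _ ≤ 2 * C * (1 + 1 / c) ^ (1 + γ) * (L ^ (γ - γ') * ρ ^ (1 + γ')) := by gcongr
      _ = D₁ * ρ ^ (1 + γ') := by rw [hD₁]; ring
      _ ≤ (D₁ + D₂) * ρ ^ (1 + γ') := by gcongr; linarith
  · have hX : 0 < |x| := by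
      by_contra hcon
      have : |x| = 0 := le_antisymm (not_lt.1 hcon) (abs_nonneg _)
      rw [this, mul_zero] at hcase
      linarith
    have hx0 : x ≠ 0 := abs_pos.1 hX
    set θ := γ / (1 + 2 * γ) with hθ
    have hθ0 : 0 < θ := by positivity
    have hθ1 : θ < 1 := by rw [hθ, div_lt_one h12]; linarith
    have hint := rpow_interp hρ hX hγ
    set A := ρ * (ρ / |x|) ^ γ with hA
    set B := |x| ^ (1 + γ) with hB
    have hA0 : 0 < A := by positivity
    have hB0 : 0 < B := by positivity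
    rw [← hθ, ← hγ'] at hint
    have hsplit : ∀ s : ℝ, 0 < s → s = s ^ (1 - θ) * s ^ θ := by
      intro s hs
      rw [← Real.rpow_add hs]; simp
    have hCD : C ≤ D₂ := by
      have : (1:ℝ) ≤ (1 + c) ^ (1 + γ) := Real.one_le_rpow (by linarith) h1γ.le
      rw [hD₂]; nlinarith
    rcases le_total A B with hAB | hAB
    · obtain ⟨m, hm⟩ := hloc x hx hx0 ρ hρ hcase
      refine ⟨m, fun h hh hxh => (hm h hh hxh).trans ?_⟩
      have hA1 : A ≤ ρ ^ (1 + γ') := by
        rw [← hint]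
        calc A = A ^ (1 - θ) * A ^ θ := hsplit A hA0
          _ ≤ A ^ (1 - θ) * B ^ θ := by gcongr
      calc C * ρ * (ρ / |x|) ^ γ = C * A := by rw [hA]; ring
        _ ≤ (D₁ + D₂) * ρ ^ (1 + γ') := by
            gcongr
            linarith
    · refine ⟨0, fun h hh hxh => ?_⟩
      have hB1 : B ≤ ρ ^ (1 + γ') := by
        rw [← hint]
        calc B = B ^ (1 - θ) * B ^ θ := hsplit B hB0
          _ ≤ A ^ (1 - θ) * B ^ θ := by
              gcongr
      have b1 := h0 x hx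
      have b2 := h0 (x + h) hxh
      have hx2 : |x| ≤ (1 + c) * |x| := by nlinarith
      have hx3 : |x + h| ≤ (1 + c) * |x| := by
        refine (abs_add_le _ _).trans ?_
        rw [add_mul, one_mul]; linarith
      have b3 : |x| ^ (1 + γ) ≤ (1 + c) ^ (1 + γ) * |x| ^ (1 + γ) := by
        rw [← Real.mul_rpow (by positivity) hX.le]
        exact Real.rpow_le_rpow (abs_nonneg _) hx2 h1γ.le
      have b4 : |x + h| ^ (1 + γ) ≤ (1 + c) ^ (1 + γ) * |x| ^ (1 + γ) := by
        rw [← Real.mul_rpow (by positivity) hX.le]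
        exact Real.rpow_le_rpow (abs_nonneg _) hx3 h1γ.le
      calc |f (x + h) - f x - 0 * h| = |f (x + h) - f x| := by rw [zero_mul, sub_zero]
        _ ≤ |f (x + h)| + |f x| := abs_sub _ _
        _ ≤ C * ((1 + c) ^ (1 + γ) * |x| ^ (1 + γ)) + C * ((1 + c) ^ (1 + γ) * |x| ^ (1 + γ)) := by
            gcongr
            · exact b2.trans (by gcongr)
            · exact b1.trans (by gcongr)
        _ = D₂ * B := by rw [hD₂, hB]; ring
        _ ≤ D₂ * ρ ^ (1 + γ') := by gcongr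
        _ ≤ (D₁ + D₂) * ρ ^ (1 + γ') := by gcongr; linarith

end Crest.Agent.R135.Arc
end

-- ▼ part R135/ArcFrame

/-!
# R135: orthonormal frames in the plane, graphs as `IsHolderArc` (block ARC)
-/

set_option autoImplicit false

open Set Filter Topology Metric
open scoped NNReal

namespace Crest.Agent.R135.Arc

abbrev E2 := EuclideanSpace ℝ (Fin 2)

/-- rotation by ninety degrees -/
def J (v : E2) : E2 := !₂[-(v 1), v 0]

@[simp] theorem J_zero' (v : E2) : (J v) 0 = -(v 1) := by simp [J]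
@[simp] theorem J_one' (v : E2) : (J v) 1 = v 0 := by simp [J]

theorem inner_eq (v w : E2) : inner ℝ v w = v 0 * w 0 + v 1 * w 1 := by
  rw [PiLp.inner_apply, Fin.sum_univ_two]
  simp [mul_comm]

theorem norm_sq_eq (v : E2) : ‖v‖ ^ 2 = v 0 ^ 2 + v 1 ^ 2 := by
  rw [EuclideanSpace.norm_sq_eq, Fin.sum_univ_two]
  simp

theorem inner_J_self (v : E2) : inner ℝ v (J v) = 0 := by
  rw [inner_eq]; simp; ring

theorem norm_J (v : E2) : ‖J v‖ = ‖v‖ := by
  have h : ‖J v‖ ^ 2 = ‖v‖ ^ 2 := by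
    rw [norm_sq_eq, norm_sq_eq]; simp; ring
  exact (sq_eq_sq₀ (norm_nonneg _) (norm_nonneg _)).1 h

theorem J_neg (v : E2) : J (-v) = - J v := by
  ext i; fin_cases i <;> simp

theorem frame_eq {e : E2} (he : ‖e‖ = 1) (z : E2) :
    z = inner ℝ z e • e + inner ℝ z (J e) • J e := by
  have h : e 0 ^ 2 + e 1 ^ 2 = 1 := by rw [← norm_sq_eq, he]; norm_num
  ext i
  fin_cases i
  · simp only [Fin.zero_eta, PiLp.add_apply, PiLp.smul_apply, smul_eq_mul, inner_eq, J_zero', J_one']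
    linear_combination (-(z 0)) * h
  · simp only [Fin.mk_one, PiLp.add_apply, PiLp.smul_apply, smul_eq_mul, inner_eq, J_zero', J_one']
    linear_combination (-(z 1)) * h

theorem norm_sq_frame {e : E2} (he : ‖e‖ = 1) (a b : ℝ) :
    ‖a • e + b • J e‖ ^ 2 = a ^ 2 + b ^ 2 := by
  have h : e 0 ^ 2 + e 1 ^ 2 = 1 := by rw [← norm_sq_eq, he]; norm_num
  rw [norm_sq_eq]
  simp only [PiLp.add_apply, PiLp.smul_apply, smul_eq_mul, J_zero', J_one']
  linear_combination (a ^ 2 + b ^ 2) * h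

theorem inner_frame_left {e : E2} (he : ‖e‖ = 1) (a b : ℝ) :
    inner ℝ (a • e + b • J e) e = a := by
  have h : e 0 ^ 2 + e 1 ^ 2 = 1 := by rw [← norm_sq_eq, he]; norm_num
  rw [inner_eq]
  simp only [PiLp.add_apply, PiLp.smul_apply, smul_eq_mul, J_zero', J_one']
  linear_combination a * h

theorem inner_frame_right {e : E2} (he : ‖e‖ = 1) (a b : ℝ) :
    inner ℝ (a • e + b • J e) (J e) = b := by
  have h : e 0 ^ 2 + e 1 ^ 2 = 1 := by rw [← norm_sq_eq, he]; norm_num
  rw [inner_eq]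
  simp only [PiLp.add_apply, PiLp.smul_apply, smul_eq_mul, J_zero', J_one']
  linear_combination b * h

/-- the point with coordinates `(p,q)` in the frame `(e, Je)` based at `x0` -/
def pt (x0 e : E2) (p q : ℝ) : E2 := x0 + (p • e + q • J e)

theorem pt_zero (x0 e : E2) : pt x0 e 0 0 = x0 := by simp [pt]

theorem pt_coords {x0 e : E2} (he : ‖e‖ = 1) (z : E2) :
    pt x0 e (inner ℝ (z - x0) e) (inner ℝ (z - x0) (J e)) = z := by
  rw [pt, ← frame_eq he]; abel

theorem inner_pt_left {x0 e : E2} (he : ‖e‖ = 1) (p q : ℝ) : inner ℝ (pt x0 e p q - x0) e = p := by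
  rw [pt, add_sub_cancel_left, inner_frame_left he]

theorem inner_pt_right {x0 e : E2} (he : ‖e‖ = 1) (p q : ℝ) :
    inner ℝ (pt x0 e p q - x0) (J e) = q := by
  rw [pt, add_sub_cancel_left, inner_frame_right he]

theorem dist_pt_sq {x0 e : E2} (he : ‖e‖ = 1) (p q p' q' : ℝ) :
    dist (pt x0 e p q) (pt x0 e p' q') ^ 2 = (p - p') ^ 2 + (q - q') ^ 2 := by
  rw [dist_eq_norm]
  have : pt x0 e p q - pt x0 e p' q' = (p - p') • e + (q - q') • J e := by
    simp only [pt, sub_smul]; abel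
  rw [this, norm_sq_frame he]

theorem abs_le_dist_pt {x0 e : E2} (he : ‖e‖ = 1) (p q p' q' : ℝ) :
    |p - p'| ≤ dist (pt x0 e p q) (pt x0 e p' q') ∧
      |q - q'| ≤ dist (pt x0 e p q) (pt x0 e p' q') := by
  have h := dist_pt_sq (x0 := x0) he p q p' q'
  constructor
  · exact abs_le_of_sq_le_sq (by nlinarith [sq_nonneg (q - q')]) dist_nonneg |> abs_le.2 ∘ abs_le.1
  · exact abs_le_of_sq_le_sq (by nlinarith [sq_nonneg (p - p')]) dist_nonneg |> abs_le.2 ∘ abs_le.1

theorem dist_pt_le {x0 e : E2} (he : ‖e‖ = 1) {p q p' q' r : ℝ} (hr : 0 ≤ r)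
    (hp : |p - p'| ≤ r / 2) (hq : |q - q'| ≤ r / 2) :
    dist (pt x0 e p q) (pt x0 e p' q') ≤ r := by
  have h := dist_pt_sq (x0 := x0) he p q p' q'
  have h1 : (p - p') ^ 2 ≤ (r / 2) ^ 2 := sq_le_sq' (by linarith [(abs_le.1 hp).1]) (abs_le.1 hp).2
  have h2 : (q - q') ^ 2 ≤ (r / 2) ^ 2 := sq_le_sq' (by linarith [(abs_le.1 hq).1]) (abs_le.1 hq).2
  refine abs_le_of_sq_le_sq' ?_ hr |>.2
  nlinarith

theorem continuous_pt (x0 e : E2) : Continuous (fun z : ℝ × ℝ => pt x0 e z.1 z.2) := by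
  unfold pt; fun_prop

/-- the set `K` in frame coordinates -/
def coord (x0 e : E2) (K : Set E2) : Set (ℝ × ℝ) := {z | pt x0 e z.1 z.2 ∈ K}

theorem mem_coord {x0 e : E2} {K : Set E2} {p q : ℝ} : (p, q) ∈ coord x0 e K ↔ pt x0 e p q ∈ K :=
  Iff.rfl

theorem closure_coord {x0 e : E2} {K : Set E2} {z : ℝ × ℝ} (hz : z ∈ closure (coord x0 e K)) :
    pt x0 e z.1 z.2 ∈ closure K :=
  (continuous_pt x0 e).closure_preimage_subset K hz

/-- two-sided flatness of `K` at `y`, scale `ρ`, direction `e`, error `E` -/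
def Flat (K : Set E2) (y e : E2) (ρ E : ℝ) : Prop :=
  ‖e‖ = 1 ∧ (∀ z ∈ K, dist z y ≤ ρ → |inner ℝ (z - y) (J e)| ≤ E) ∧
    (∀ t : ℝ, |t| ≤ ρ → ∃ z ∈ K, dist z (y + t • e) ≤ E)

theorem Flat.flatAt {K : Set E2} {x0 e₀ e : E2} {p q ρ E : ℝ} (he₀ : ‖e₀‖ = 1) (hρ : 0 ≤ ρ)
    (h : Flat K (pt x0 e₀ p q) e ρ E) :
    FlatAt (coord x0 e₀ K) p q (inner ℝ e e₀) (inner ℝ e (J e₀)) (ρ / 2) E := by
  obtain ⟨he, h1, h2⟩ := h
  set u := inner ℝ e e₀ with hu
  set v := inner ℝ e (J e₀) with hv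
  have hfe : e = u • e₀ + v • J e₀ := frame_eq he₀ e
  have huv : u ^ 2 + v ^ 2 = 1 := by
    rw [← norm_sq_frame he₀, ← hfe, he]; norm_num
  have he00 : e₀ 0 ^ 2 + e₀ 1 ^ 2 = 1 := by rw [← norm_sq_eq, he₀]; norm_num
  refine ⟨huv, ?_, ?_⟩
  · intro p' q' hm hp hq
    have h3 := h1 (pt x0 e₀ p' q') hm (dist_pt_le he₀ hρ hp hq)
    have h4 : inner ℝ (pt x0 e₀ p' q' - pt x0 e₀ p q) (J e) = (q' - q) * u - (p' - p) * v := by
      have e1 : pt x0 e₀ p' q' - pt x0 e₀ p q = (p' - p) • e₀ + (q' - q) • J e₀ := by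
        simp only [pt, sub_smul]; abel
      rw [e1, hfe, inner_eq]
      simp only [PiLp.add_apply, PiLp.smul_apply, smul_eq_mul, J_zero', J_one']
      linear_combination ((q' - q) * u - (p' - p) * v) * he00
    rwa [h4] at h3
  · intro t ht
    obtain ⟨z, hz, hd⟩ := h2 t (by
      refine ht.trans ?_
      linarith)
    refine ⟨inner ℝ (z - x0) e₀, inner ℝ (z - x0) (J e₀), ?_, ?_⟩
    · rw [mem_coord, pt_coords he₀]; exact hz
    · have e2 : pt x0 e₀ p q + t • e = pt x0 e₀ (p + t * u) (q + t * v) := by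
        rw [hfe]; simp only [pt, smul_add, add_smul, smul_smul]; abel
      have h5 := abs_le_dist_pt (x0 := x0) he₀ (inner ℝ (z - x0) e₀) (inner ℝ (z - x0) (J e₀))
        (p + t * u) (q + t * v)
      rw [pt_coords he₀, ← e2] at h5
      exact ⟨h5.1.trans hd, h5.2.trans hd⟩

open Crest.AnalysisR.PDE.MumfordShah

/-- A `C^{1,α}` graph in a frame is a Hölder arc. -/
theorem isHolderArc_graph {x0 e : E2} (he : ‖e‖ = 1) {a b : ℝ} (hab : a < b) {f f' : ℝ → ℝ}
    {α : ℝ≥0} {C : ℝ} (hC : 0 ≤ C)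
    (hf : ∀ x ∈ Icc a b, HasDerivWithinAt f (f' x) (Icc a b) x)
    (hf' : ∀ x ∈ Icc a b, ∀ y ∈ Icc a b, |f' x - f' y| ≤ C * |x - y| ^ (α : ℝ)) :
    IsHolderArc α (fun t => pt x0 e (a + (b - a) * t) (f (a + (b - a) * t)))
      (fun t => (b - a) • e + ((b - a) * f' (a + (b - a) * t)) • J e) := by
  have hba : 0 < b - a := by linarith
  have hmap : ∀ t ∈ Icc (0:ℝ) 1, a + (b - a) * t ∈ Icc a b := by
    intro t ht
    constructor
    · nlinarith [ht.1, ht.2]
    · nlinarith [ht.1, ht.2]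
  refine ⟨?_, ?_, ?_, ?_⟩
  · intro s hs t ht hst
    have h1 := congrArg (fun z => inner ℝ (z - x0) e) hst
    simp only [inner_pt_left he] at h1
    have h2 : (b - a) * s = (b - a) * t := by linarith
    exact mul_left_cancel₀ hba.ne' h2
  · intro t ht
    have hlin : HasDerivWithinAt (fun t : ℝ => a + (b - a) * t) (b - a) (Icc 0 1) t := by
      have := ((hasDerivWithinAt_id t (Icc (0:ℝ) 1)).const_mul (b - a)).const_add a
      simpa using this
    have hcomp : HasDerivWithinAt (fun t : ℝ => f (a + (b - a) * t))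
        (f' (a + (b - a) * t) * (b - a)) (Icc 0 1) t :=
      (hf _ (hmap t ht)).comp t hlin (fun s hs => hmap s hs)
    have h1 := (hlin.smul_const e).add (hcomp.smul_const (J e))
    have h2 := h1.const_add x0
    rw [mul_comm (f' _) (b - a)] at h2
    exact h2
  · intro t ht h0
    have := congrArg (fun z => inner ℝ z e) h0
    simp only [inner_frame_left he, inner_zero_left] at this
    linarith
  · refine ⟨⟨(b - a) * (C * (b - a) ^ (α : ℝ)), by positivity⟩, ?_⟩
    intro s hs t ht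
    rw [edist_dist, edist_dist]
    have hnn : (0:ℝ) ≤ (b - a) * (C * (b - a) ^ (α : ℝ)) := by positivity
    have key : dist ((b - a) • e + ((b - a) * f' (a + (b - a) * s)) • J e)
        ((b - a) • e + ((b - a) * f' (a + (b - a) * t)) • J e) ≤
        ((b - a) * (C * (b - a) ^ (α : ℝ))) * dist s t ^ (α : ℝ) := by
      rw [dist_eq_norm]
      have e1 : (b - a) • e + ((b - a) * f' (a + (b - a) * s)) • J e -
          ((b - a) • e + ((b - a) * f' (a + (b - a) * t)) • J e) =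
          ((b - a) * (f' (a + (b - a) * s) - f' (a + (b - a) * t))) • J e := by
        rw [mul_sub (b - a) (f' _) (f' _), sub_smul ((b - a) * f' _)]; abel
      rw [e1, norm_smul, norm_J, he, mul_one, Real.norm_eq_abs, abs_mul, abs_of_pos hba, mul_assoc]
      refine mul_le_mul_of_nonneg_left ?_ hba.le
      refine (hf' _ (hmap s hs) _ (hmap t ht)).trans ?_
      have e2 : a + (b - a) * s - (a + (b - a) * t) = (b - a) * (s - t) := by ring
      rw [e2, abs_mul, abs_of_pos hba, Real.mul_rpow hba.le (abs_nonneg _), Real.dist_eq, mul_assoc]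
    calc ENNReal.ofReal (dist _ _) ≤
        ENNReal.ofReal (((b - a) * (C * (b - a) ^ (α : ℝ))) * dist s t ^ (α : ℝ)) :=
          ENNReal.ofReal_le_ofReal key
      _ = _ := by
          rw [ENNReal.ofReal_mul hnn, ENNReal.ofReal_rpow_of_nonneg dist_nonneg α.coe_nonneg]
          congr 1
          rw [ENNReal.ofReal, Real.toNNReal_of_nonneg hnn]
          rfl

end Crest.Agent.R135.Arc
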