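import Crest.Agent.R135.ArcFrame

-- ▼ part R135/ArcStar
section

/-!
# R135: power flatness near a star gives `C^{1,α}` arcs (block ARC)
-/

set_option autoImplicit false

open Set Filter Topology Metric
open scoped NNReal

namespace Crest.Agent.R135.Arc

open Crest.AnalysisR.PDE.MumfordShah

/-- `K` is, near `x0`, power-close to the star with rays `x0 + ℝ₊ e k`, and it is power-flat near the
other points `y` of `K`, at the scales `ρ ≤ c |y - x0|`, with a constant that may degenerate as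
`y → x0`. -/
structure StarHyp {ι : Type*} (K : Set E2) (x0 : E2) (e : ι → E2) (r0 C γ c : ℝ) : Prop where
  r0pos : 0 < r0
  Cpos : 0 < C
  γpos : 0 < γ
  cpos : 0 < c
  unit : ∀ k, ‖e k‖ = 1
  sep : ∀ j k, j ≠ k → inner ℝ (e j) (e k) ≤ -(1 / 2 : ℝ)
  mem : x0 ∈ K
  closed : closure K ∩ ball x0 r0 ⊆ K
  far : ∀ z ∈ K, z ≠ x0 → dist z x0 < r0 → ∃ k, ∃ t : ℝ, 0 ≤ t ∧
    dist z (x0 + t • e k) ≤ C * (dist z x0) ^ (1 + γ)
  near : ∀ k, ∀ t, 0 < t → t < r0 → ∃ z ∈ K, dist z (x0 + t • e k) ≤ C * t ^ (1 + γ)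
  flat : ∀ y ∈ K, y ≠ x0 → dist y x0 < r0 → ∀ ρ, 0 < ρ → ρ ≤ c * dist y x0 →
    ∃ v, Flat K y v ρ (C * ρ * (ρ / dist y x0) ^ γ)

theorem inner_J_le {e v : E2} (he : ‖e‖ = 1) (hv : ‖v‖ = 1) : |inner ℝ (J e) v| ≤ 1 := by
  have := abs_real_inner_le_norm (J e) v
  rwa [norm_J, he, hv, mul_one] at this

variable {ι : Type*} {K : Set E2} {x0 : E2} {e : ι → E2} {r0 C γ c : ℝ}

theorem dist_pt_x0_sq {e : E2} (he : ‖e‖ = 1) (x0 : E2) (p q : ℝ) :
    dist (pt x0 e p q) x0 ^ 2 = p ^ 2 + q ^ 2 := by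
  have := dist_pt_sq (x0 := x0) he p q 0 0
  rw [pt_zero] at this
  simpa using this

/-- smallness radius for the power terms -/
theorem exists_small (hC : 0 < C) (hγ : 0 < γ) {ε : ℝ} (hε : 0 < ε) {r0 : ℝ} (hr0 : 0 < r0) :
    ∃ r, 0 < r ∧ r < r0 ∧ ∀ s, 0 < s → s ≤ r → C * s ^ (1 + γ) ≤ ε * s := by
  have hlim1 : Tendsto (fun s : ℝ => C * s ^ γ) (𝓝[>] 0) (𝓝 0) := by
    have h1 : Tendsto (fun s : ℝ => s ^ γ) (𝓝[>] 0) (𝓝 0) := by
      have := (Real.continuousAt_rpow_const 0 γ (Or.inr hγ.le)).tendsto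
      rw [Real.zero_rpow hγ.ne'] at this
      exact this.mono_left nhdsWithin_le_nhds
    simpa using h1.const_mul C
  have hev1 : ∀ᶠ s in 𝓝[>] (0:ℝ), C * s ^ γ < ε := hlim1.eventually (gt_mem_nhds hε)
  have hev2 : ∀ᶠ s in 𝓝[>] (0:ℝ), s < r0 := nhdsWithin_le_nhds (Iio_mem_nhds hr0)
  obtain ⟨r, ⟨h1, h2⟩, h3⟩ := ((hev1.and hev2).and self_mem_nhdsWithin).exists
  have h3 : 0 < r := h3
  refine ⟨r, h3, h2, fun s hs hsr => ?_⟩
  rw [Real.rpow_add hs, Real.rpow_one]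
  have h4 : s ^ γ ≤ r ^ γ := Real.rpow_le_rpow hs.le hsr hγ.le
  calc C * (s * s ^ γ) = s * (C * s ^ γ) := by ring
    _ ≤ s * (C * r ^ γ) := by gcongr
    _ ≤ s * ε := by gcongr
    _ = ε * s := by ring

/-- a point of `K` near `x0` lies in the thin sector around one of the rays -/
theorem StarHyp.sector (H : StarHyp K x0 e r0 C γ c) {r : ℝ} (hr0 : r ≤ r0)
    (hr : ∀ s, 0 < s → s ≤ r → C * s ^ (1 + γ) ≤ 1 / 100 * s) {z : E2} (hz : z ∈ K) (hzx : z ≠ x0)
    (hzr : dist z x0 < r) :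
    ∃ k p q, z = pt x0 (e k) p q ∧ 0 < p ∧ dist z x0 ≤ 101 / 100 * p ∧ |q| ≤ p / 50 ∧
      |q| ≤ C * (dist z x0) ^ (1 + γ) := by
  obtain ⟨k, t, ht, hd⟩ := H.far z hz hzx (hzr.trans_le hr0)
  have hd0 : 0 < dist z x0 := dist_pos.2 hzx
  have he := H.unit k
  set p := inner ℝ (z - x0) (e k) with hp
  set q := inner ℝ (z - x0) (J (e k)) with hq
  have hzpt : z = pt x0 (e k) p q := (pt_coords he z).symm
  have hray : x0 + t • e k = pt x0 (e k) t 0 := by simp [pt]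
  have h1 := abs_le_dist_pt (x0 := x0) he p q t 0
  rw [← hzpt, ← hray, sub_zero] at h1
  have hsm := hr (dist z x0) hd0 hzr.le
  have h2 : |p - t| ≤ 1 / 100 * dist z x0 := h1.1.trans (hd.trans hsm)
  have h3 : |q| ≤ 1 / 100 * dist z x0 := h1.2.trans (hd.trans hsm)
  have h4 : dist z x0 ^ 2 = p ^ 2 + q ^ 2 := by
    conv_lhs => rw [hzpt]
    exact dist_pt_x0_sq he x0 p q
  have h5 := abs_le.1 h2
  have h6 := abs_le.1 h3
  have hq2 : q ^ 2 ≤ (1 / 100 * dist z x0) ^ 2 := sq_le_sq' (by linarith [h6.1]) h6.2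
  have hppos : 0 < p := by
    by_contra hcon
    push Not at hcon
    have : -(1 / 100 * dist z x0) ≤ p := by linarith [h5.1]
    nlinarith
  have hdp : dist z x0 ≤ 101 / 100 * p := by
    by_contra hcon
    push Not at hcon
    nlinarith
  exact ⟨k, p, q, hzpt, hppos, hdp, by nlinarith, h1.2.trans hd⟩

/-- a point in the thin sector of one ray is not in front of another ray -/
theorem StarHyp.not_front (H : StarHyp K x0 e r0 C γ c) {j k : ι} (hjk : j ≠ k) {p q : ℝ}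
    (hp : 0 < p) (hq : |q| ≤ p / 4) : inner ℝ (pt x0 (e k) p q - x0) (e j) < 0 := by
  have h1 := H.sep k j hjk.symm
  have h2 := abs_le.1 (inner_J_le (H.unit k) (H.unit j))
  have h3 := abs_le.1 hq
  rw [pt, add_sub_cancel_left, inner_add_left, inner_smul_left, inner_smul_left]
  simp only [conj_trivial]
  have h4 : q * inner ℝ (J (e k)) (e j) ≤ p / 4 := by
    have := abs_mul q (inner ℝ (J (e k)) (e j))
    have h5 := le_abs_self (q * inner ℝ (J (e k)) (e j))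
    have h6 : |q| * |inner ℝ (J (e k)) (e j)| ≤ p / 4 * 1 := by
      gcongr
      exact inner_J_le (H.unit k) (H.unit j)
    linarith
  nlinarith

theorem StarHyp.rayHyp (H : StarHyp K x0 e r0 C γ c) (k : ι) :
    ∃ r0' C' c', r0' ≤ r0 ∧ RayHyp (coord x0 (e k) K) r0' C' γ c' := by
  have hC := H.Cpos
  have hγ := H.γpos
  obtain ⟨r, hr0, hrr, hr⟩ := exists_small hC hγ (ε := 1/100) (by norm_num) H.r0pos
  have he := H.unit k
  have h2γ : (0:ℝ) < (2:ℝ) ^ (1 + γ) := by positivity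
  have h2γ1 : (1:ℝ) ≤ (2:ℝ) ^ (1 + γ) := Real.one_le_rpow (by norm_num) (by linarith)
  have hdist : ∀ p q : ℝ, 0 < p → |q| ≤ p / 4 → dist (pt x0 (e k) p q) x0 ≤ 2 * p ∧
      p ≤ dist (pt x0 (e k) p q) x0 := by
    intro p q hp hq
    have h1 := dist_pt_x0_sq he x0 p q
    have h2 : q ^ 2 ≤ (p / 4) ^ 2 := sq_le_sq' (by linarith [(abs_le.1 hq).1]) (abs_le.1 hq).2
    constructor
    · refine (abs_le_of_sq_le_sq' ?_ (by linarith)).2
      nlinarith
    · refine (abs_le_of_sq_le_sq' ?_ dist_nonneg).2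
      nlinarith [sq_nonneg q]
  refine ⟨r / 2, 2 * (2:ℝ) ^ (1 + γ) * C, c / 2, by linarith, by linarith, by positivity, hγ,
    by have := H.cpos; linarith, ?_, ?_, ?_, ?_⟩
  · rintro ⟨p, q⟩ hz hp hpr hq
    simp only at hp hpr hq
    refine H.closed ⟨closure_coord hz, ?_⟩
    rw [mem_ball]
    exact lt_of_le_of_lt (hdist p q hp hq).1 (by linarith)
  · intro p q hm hp hpr hq
    rw [mem_coord] at hm
    obtain ⟨hd1, hd2⟩ := hdist p q hp hq
    have hne : pt x0 (e k) p q ≠ x0 := by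
      intro h; rw [h, dist_self] at hd2; linarith
    obtain ⟨j, p', q', hz, hp', -, hq', hq'2⟩ := H.sector hrr.le hr hm hne (by linarith)
    have hjk : j = k := by
      by_contra hjk
      have h1 := H.not_front hjk hp hq
      rw [hz, inner_pt_left (H.unit j)] at h1
      linarith
    subst hjk
    have hqq : q = q' := by
      have := congrArg (fun z => inner ℝ (z - x0) (J (e j))) hz
      simpa only [inner_pt_right (H.unit j)] using this
    rw [hqq]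
    refine hq'2.trans ?_
    have h3 : dist (pt x0 (e j) p q) x0 ^ (1 + γ) ≤ (2:ℝ) ^ (1 + γ) * p ^ (1 + γ) := by
      rw [← Real.mul_rpow (by norm_num) hp.le]
      exact Real.rpow_le_rpow dist_nonneg hd1 (by linarith)
    have h0 : 0 < p ^ (1 + γ) := by positivity
    calc C * dist (pt x0 (e j) p q) x0 ^ (1 + γ) ≤ C * ((2:ℝ) ^ (1 + γ) * p ^ (1 + γ)) := by gcongr
      _ ≤ 2 * (2:ℝ) ^ (1 + γ) * C * p ^ (1 + γ) := by nlinarith [mul_pos (mul_pos hC h2γ) h0]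
  · intro t ht htr
    obtain ⟨z, hz, hd⟩ := H.near k t ht (by linarith)
    refine ⟨inner ℝ (z - x0) (e k), inner ℝ (z - x0) (J (e k)), ?_, ?_, ?_⟩
    · rw [mem_coord, pt_coords he]; exact hz
    all_goals
      have hray : x0 + t • e k = pt x0 (e k) t 0 := by simp [pt]
      have h1 := abs_le_dist_pt (x0 := x0) he (inner ℝ (z - x0) (e k))
        (inner ℝ (z - x0) (J (e k))) t 0
      rw [pt_coords he, ← hray, sub_zero] at h1
      have h0 : 0 < t ^ (1 + γ) := by positivity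
      have h4 : C * t ^ (1 + γ) ≤ 2 * (2:ℝ) ^ (1 + γ) * C * t ^ (1 + γ) := by
        gcongr
        nlinarith
    · exact h1.1.trans (hd.trans h4)
    · exact h1.2.trans (hd.trans h4)
  · intro p q hm hp hpr hq ρ hρ hρc
    rw [mem_coord] at hm
    obtain ⟨hd1, hd2⟩ := hdist p q hp hq
    have hne : pt x0 (e k) p q ≠ x0 := by
      intro h; rw [h, dist_self] at hd2; linarith
    obtain ⟨v, hv⟩ := H.flat _ hm hne (by linarith) (2 * ρ) (by linarith) (by
      have : c * p ≤ c * dist (pt x0 (e k) p q) x0 := by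
        have := H.cpos
        gcongr
      linarith)
    refine ⟨_, _, (hv.flatAt he (by linarith)).mono (by linarith) ?_⟩
    have h5 : (2 * ρ / dist (pt x0 (e k) p q) x0) ^ γ ≤ (2:ℝ) ^ γ * (ρ / p) ^ γ := by
      rw [← Real.mul_rpow (by norm_num) (by positivity)]
      refine Real.rpow_le_rpow (by positivity) ?_ hγ.le
      rw [← mul_div_assoc]
      gcongr
    have h6 : (2:ℝ) ^ (1 + γ) = 2 * (2:ℝ) ^ γ := by
      rw [Real.rpow_add (by norm_num), Real.rpow_one]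
    have h7 : 0 < (ρ / p) ^ γ := by positivity
    have h8 : 0 < (2:ℝ) ^ γ := by positivity
    calc C * (2 * ρ) * (2 * ρ / dist (pt x0 (e k) p q) x0) ^ γ ≤
        C * (2 * ρ) * ((2:ℝ) ^ γ * (ρ / p) ^ γ) := by gcongr
      _ ≤ 2 * (2:ℝ) ^ (1 + γ) * C * ρ * (ρ / p) ^ γ := by
        rw [h6]
        nlinarith [mul_pos (mul_pos (mul_pos hC hρ) h7) h8]

/-- The graph description of `K` near the centre of the star. -/
theorem StarHyp.graph [Finite ι] [Nonempty ι] (H : StarHyp K x0 e r0 C γ c) :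
    ∃ (r : ℝ) (f : ι → ℝ → ℝ) (C' c' : ℝ), 0 < r ∧ 2 * r < r0 ∧ 0 < C' ∧ 0 < c' ∧
      (∀ k, f k 0 = 0) ∧
      (∀ k x, 0 < x → x ≤ r → |f k x| ≤ x / 10 ∧ |f k x| ≤ C' * x ^ (1 + γ)) ∧
      (∀ k x, 0 < x → x ≤ r → ∀ ρ, 0 < ρ → ρ ≤ c' * x → ∃ m, ∀ h, |h| ≤ ρ → 0 ≤ x + h →
        x + h ≤ r → |f k (x + h) - f k x - m * h| ≤ C' * ρ * (ρ / x) ^ γ) ∧
      (∀ s, 0 < s → s ≤ r → ∀ z, (z ∈ K ∧ dist z x0 < 101 / 100 * s ∧
        ∀ k, inner ℝ (z - x0) (e k) < s) ↔ ∃ k p, 0 ≤ p ∧ p < s ∧ z = pt x0 (e k) p (f k p)) := by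
  have hC := H.Cpos
  have hγ := H.γpos
  have hex : ∀ k, ∃ r3 c1 C' : ℝ, 0 < r3 ∧ 0 < c1 ∧ 0 < C' ∧ ∃ f : ℝ → ℝ, f 0 = 0 ∧
      (∀ p q, 0 < p → p ≤ r3 → |q| ≤ p / 4 → ((p, q) ∈ coord x0 (e k) K ↔ q = f p)) ∧
      (∀ p, 0 < p → p ≤ r3 → |f p| ≤ p / 10 ∧ |f p| ≤ C' * p ^ (1 + γ)) ∧
      (∀ x, 0 < x → x ≤ r3 → ∀ ρ, 0 < ρ → ρ ≤ c1 * x → ∃ m, ∀ h, |h| ≤ ρ → 0 ≤ x + h →
        x + h ≤ r3 → |f (x + h) - f x - m * h| ≤ C' * ρ * (ρ / x) ^ γ) := by
    intro k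
    obtain ⟨r0', C₀, c₀, -, hR⟩ := H.rayHyp k
    obtain ⟨r3, c1, C', h1, -, h3, h4, f, h5⟩ := hR.graph
    exact ⟨r3, c1, C', h1, h3, h4, f, h5⟩
  choose r3 c1 C' hr3 hc1 hC' f hf0 hfiff hfb hfl using hex
  obtain ⟨ra, hra0, hrar, hra⟩ := exists_small hC hγ (ε := 1/100) (by norm_num) H.r0pos
  -- uniform constants
  have hmin : ∀ g : ι → ℝ, (∀ k, 0 < g k) → ∃ m, 0 < m ∧ ∀ k, m ≤ g k := by
    intro g hg
    obtain ⟨k, hk⟩ := Finite.exists_min g
    exact ⟨g k, hg k, hk⟩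
  obtain ⟨rb, hrb0, hrb⟩ := hmin r3 hr3
  obtain ⟨cm, hcm0, hcm⟩ := hmin c1 hc1
  obtain ⟨k₀, hk₀⟩ := Finite.exists_max C'
  set r := min rb (ra / 4) with hr
  have hr0 : 0 < r := lt_min hrb0 (by linarith)
  have hrrb : r ≤ rb := min_le_left _ _
  have hrra : r ≤ ra / 4 := min_le_right _ _
  refine ⟨r, f, C' k₀, cm, hr0, by linarith, hC' k₀, hcm0, hf0, ?_, ?_, ?_⟩
  · intro k x hx hxr
    obtain ⟨h1, h2⟩ := hfb k x hx (by linarith [hrb k])
    refine ⟨h1, h2.trans ?_⟩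
    gcongr
    exact hk₀ k
  · intro k x hx hxr ρ hρ hρc
    obtain ⟨m, hm⟩ := hfl k x hx (by linarith [hrb k]) ρ hρ (hρc.trans (by
      gcongr
      exact hcm k))
    refine ⟨m, fun h hh h1 h2 => (hm h hh h1 (by linarith [hrb k])).trans ?_⟩
    gcongr
    exact hk₀ k
  · intro s hs hsr z
    constructor
    · rintro ⟨hz, hzd, hzk⟩
      by_cases hzx : z = x0
      · obtain ⟨k⟩ := (inferInstance : Nonempty ι)
        exact ⟨k, 0, le_rfl, hs, by rw [hf0, pt_zero, hzx]⟩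
      · obtain ⟨k, p, q, hzpt, hp, hpd, hq, -⟩ := H.sector hrar.le hra hz hzx (by linarith)
        have hps : p < s := by
          have := hzk k
          rwa [hzpt, inner_pt_left (H.unit k)] at this
        refine ⟨k, p, hp.le, hps, ?_⟩
        have hqf : q = f k p := by
          refine (hfiff k p q hp (by linarith [hrb k]) (by linarith)).1 ?_
          rw [mem_coord, ← hzpt]; exact hz
        rw [hzpt, hqf]
    · rintro ⟨k, p, hp, hps, rfl⟩
      rcases eq_or_lt_of_le hp with rfl | hp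
      · rw [hf0, pt_zero]
        refine ⟨H.mem, by rw [dist_self]; linarith, fun j => ?_⟩
        simpa using hs
      · obtain ⟨h1, h2⟩ := hfb k p hp (by linarith [hrb k])
        refine ⟨?_, ?_, ?_⟩
        · rw [← mem_coord]
          exact (hfiff k p (f k p) hp (by linarith [hrb k]) (by linarith)).2 rfl
        · have h3 := dist_pt_x0_sq (H.unit k) x0 p (f k p)
          have h4 : f k p ^ 2 ≤ (p / 10) ^ 2 :=
            sq_le_sq' (by linarith [(abs_le.1 h1).1]) (abs_le.1 h1).2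
          refine lt_of_le_of_lt (b := 101/100 * p) ?_ (by linarith)
          refine (abs_le_of_sq_le_sq' ?_ (by linarith)).2
          nlinarith
        · intro j
          by_cases hjk : j = k
          · subst hjk
            rw [inner_pt_left (H.unit j)]; exact hps
          · have := H.not_front hjk hp (q := f k p) (by linarith)
            linarith

end Crest.Agent.R135.Arc
end

-- ▼ part R135/ArcPoint
section

/-!
# R135: the three kinds of points from power closeness to a fixed star (block ARC)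
-/

set_option autoImplicit false

open Set Filter Topology Metric
open scoped NNReal

namespace Crest.Agent.R135.Arc

open Crest.AnalysisR.PDE.MumfordShah

variable {ι : Type*} {K : Set E2} {x0 : E2} {e : ι → E2} {r0 C γ c : ℝ}

/-- the neighbourhood used in the final statements -/
def starNhd (x0 : E2) (e : ι → E2) (r : ℝ) : Set E2 :=
  ball x0 (101 / 100 * r) ∩ ⋂ k, {z | inner ℝ (z - x0) (e k) < r}

theorem isOpen_starNhd [Finite ι] (x0 : E2) (e : ι → E2) (r : ℝ) : IsOpen (starNhd x0 e r) := by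
  refine isOpen_ball.inter (isOpen_iInter_of_finite fun k => ?_)
  exact isOpen_lt (by fun_prop) continuous_const

theorem mem_starNhd {z : E2} {r : ℝ} : z ∈ starNhd x0 e r ↔
    dist z x0 < 101 / 100 * r ∧ ∀ k, inner ℝ (z - x0) (e k) < r := by
  simp [starNhd, mem_ball]

theorem self_mem_starNhd {r : ℝ} (hr : 0 < r) : x0 ∈ starNhd x0 e r := by
  rw [mem_starNhd]
  refine ⟨by rw [dist_self]; linarith, fun k => by simpa using hr⟩

/-- derivative zero at the centre -/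
theorem deriv_zero_of_power {f : ℝ → ℝ} {m C C' γ γ' a b : ℝ} (hγ : 0 < γ) (hγ' : 0 < γ')
    (hb : 0 < b) (ha : a ≤ 0) (h1 : ∀ x ∈ Icc a b, |f x - f 0 - m * (x - 0)| ≤ C * |x - 0| ^ (1 + γ))
    (h2 : ∀ x ∈ Icc a b, |f x| ≤ C' * |x| ^ (1 + γ')) : m = 0 := by
  have hf0 : f 0 = 0 := by
    have := h2 0 ⟨ha, hb.le⟩
    rw [abs_zero, Real.zero_rpow (by linarith), mul_zero] at this
    exact abs_eq_zero.1 (le_antisymm this (abs_nonneg _))
  have hlim : ∀ γ : ℝ, 0 < γ → Tendsto (fun s : ℝ => s ^ γ) (𝓝[>] 0) (𝓝 0) := by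
    intro γ hγ
    have := (Real.continuousAt_rpow_const 0 γ (Or.inr hγ.le)).tendsto
    rw [Real.zero_rpow hγ.ne'] at this
    exact this.mono_left nhdsWithin_le_nhds
  have hlim2 : Tendsto (fun s : ℝ => C * s ^ γ + C' * s ^ γ') (𝓝[>] 0) (𝓝 0) := by
    simpa using ((hlim γ hγ).const_mul C).add ((hlim γ' hγ').const_mul C')
  have hev : ∀ᶠ s in 𝓝[>] (0:ℝ), |m| ≤ C * s ^ γ + C' * s ^ γ' := by
    have hIio : ∀ᶠ s in 𝓝[>] (0:ℝ), s < b := nhdsWithin_le_nhds (Iio_mem_nhds hb)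
    filter_upwards [hIio, self_mem_nhdsWithin] with s hsb hs
    have hs : 0 < s := hs
    have hmem : s ∈ Icc a b := ⟨by linarith, hsb.le⟩
    have e1 := h1 s hmem
    have e2 := h2 s hmem
    rw [hf0, sub_zero, sub_zero, abs_of_pos hs] at e1
    rw [abs_of_pos hs] at e2
    rw [Real.rpow_add hs, Real.rpow_one] at e1 e2
    have e3 : |m * s| ≤ C * (s * s ^ γ) + C' * (s * s ^ γ') := by
      have : m * s = -(f s - m * s) + f s := by ring
      rw [this]
      refine (abs_add_le _ _).trans ?_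
      rw [abs_neg]
      linarith
    rw [abs_mul, abs_of_pos hs] at e3
    have e4 : s * |m| ≤ s * (C * s ^ γ + C' * s ^ γ') := by
      calc s * |m| = |m| * s := by ring
        _ ≤ _ := e3
        _ = _ := by ring
    exact le_of_mul_le_mul_left e4 hs
  have := ge_of_tendsto hlim2 hev
  exact abs_eq_zero.1 (le_antisymm this (abs_nonneg _))

/-- one ray: the graph function is `C^{1,γ'}` -/
theorem ray_c1 {f : ℝ → ℝ} {r C' c' : ℝ} (hr : 0 < r) (hC' : 0 < C') (hc' : 0 < c') (hγ : 0 < γ)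
    (hf0 : f 0 = 0)
    (hfb : ∀ x, 0 < x → x ≤ r → |f x| ≤ x / 10 ∧ |f x| ≤ C' * x ^ (1 + γ))
    (hfl : ∀ x, 0 < x → x ≤ r → ∀ ρ, 0 < ρ → ρ ≤ c' * x → ∃ m, ∀ h, |h| ≤ ρ → 0 ≤ x + h →
        x + h ≤ r → |f (x + h) - f x - m * h| ≤ C' * ρ * (ρ / x) ^ γ) :
    ∃ (f' : ℝ → ℝ) (C'' : ℝ), 0 ≤ C'' ∧ f' 0 = 0 ∧
      (∀ x ∈ Icc 0 r, HasDerivWithinAt f (f' x) (Icc 0 r) x) ∧
      (∀ x ∈ Icc 0 r, ∀ y ∈ Icc 0 r, |f' x - f' y| ≤ C'' * |x - y| ^ (γ ^ 2 / (1 + 2 * γ))) := by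
  have hγ' : 0 < γ ^ 2 / (1 + 2 * γ) := by positivity
  have h0 : ∀ x ∈ Icc 0 r, |f x| ≤ C' * |x| ^ (1 + γ) := by
    intro x hx
    rcases eq_or_lt_of_le hx.1 with rfl | hx0
    · rw [hf0, abs_zero, Real.zero_rpow (by linarith), mul_zero]
    · rw [abs_of_pos hx0]
      exact (hfb x hx0 hx.2).2
  obtain ⟨C₁, hC₁, hcamp⟩ := camp_of_local (f := f) le_rfl hr.le hr hC' hγ hc' h0 (by
    intro x hx hx0 ρ hρ hρc
    have hx1 : 0 < x := lt_of_le_of_ne hx.1 (Ne.symm hx0)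
    rw [abs_of_pos hx1] at hρc ⊢
    obtain ⟨m, hm⟩ := hfl x hx1 hx.2 ρ hρ hρc
    exact ⟨m, fun h hh hxh => hm h hh hxh.1 hxh.2⟩)
  obtain ⟨f', C'', hC'', h1, h2, h3⟩ := camp_c1 hr hC₁.le hγ' hcamp
  refine ⟨f', C'', hC'', ?_, h2, h3⟩
  exact deriv_zero_of_power hγ' hγ hr le_rfl (h1 0 ⟨le_rfl, hr.le⟩) h0

theorem StarHyp.isArcEndPoint {Ω : Set E2} [Unique ι] (H : StarHyp K x0 e r0 C γ c)
    (hΩ : ball x0 r0 ⊆ Ω) : IsArcEndPoint Ω K x0 := by
  obtain ⟨r, f, C', c', hr, hr2, hC', hc', hf0, hfb, hfl, hgr⟩ := H.graph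
  have hγ := H.γpos
  obtain ⟨f', C'', hC'', hf'0, hd, hH⟩ := ray_c1 hr hC' hc' hγ (hf0 default) (hfb default) (hfl default)
  have hγ' : 0 < γ ^ 2 / (1 + 2 * γ) := by positivity
  refine ⟨starNhd x0 e r, isOpen_starNhd _ _ _, ?_, self_mem_starNhd hr,
    ⟨γ ^ 2 / (1 + 2 * γ), hγ'.le⟩, hγ', _, _,
    isHolderArc_graph (x0 := x0) (H.unit default) hr hC'' hd hH, ?_, ?_⟩
  · intro z hz
    rw [mem_starNhd] at hz
    exact hΩ (mem_ball.2 (by linarith [hz.1]))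
  · ext z
    rw [mem_inter_iff, mem_starNhd, hgr r hr le_rfl z]
    constructor
    · rintro ⟨k, p, hp, hpr, rfl⟩
      refine ⟨p / r, ⟨by positivity, by rwa [div_lt_one hr]⟩, ?_⟩
      have : 0 + (r - 0) * (p / r) = p := by field_simp; ring
      simp only [this]
      rw [Unique.eq_default k]
    · rintro ⟨t, ht, rfl⟩
      refine ⟨default, r * t, by have := ht.1; positivity, by nlinarith [ht.2], ?_⟩
      simp
  · simp only [mul_zero, add_zero]
    rw [hf0, pt_zero]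

theorem StarHyp.isTripleJunctionPoint {Ω : Set E2} {e : Fin 3 → E2} (H : StarHyp K x0 e r0 C γ c)
    (h120 : ∀ j k, j ≠ k → inner ℝ (e j) (e k) = -(1 / 2 : ℝ))
    (hΩ : ball x0 r0 ⊆ Ω) : IsTripleJunctionPoint Ω K x0 := by
  obtain ⟨r, f, C', c', hr, hr2, hC', hc', hf0, hfb, hfl, hgr⟩ := H.graph
  have hγ := H.γpos
  choose f' C'' hC'' hf'0 hd hH using fun k =>
    ray_c1 hr hC' hc' hγ (hf0 k) (hfb k) (hfl k)
  have hγ' : 0 < γ ^ 2 / (1 + 2 * γ) := by positivity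
  have himg : ∀ k z, z ∈ (fun t => pt x0 (e k) (0 + (r - 0) * t) (f k (0 + (r - 0) * t))) '' Ico 0 1 ↔
      ∃ p, 0 ≤ p ∧ p < r ∧ z = pt x0 (e k) p (f k p) := by
    intro k z
    constructor
    · rintro ⟨t, ht, rfl⟩
      refine ⟨r * t, by have := ht.1; positivity, by nlinarith [ht.2], ?_⟩
      simp
    · rintro ⟨p, hp, hpr, rfl⟩
      refine ⟨p / r, ⟨by positivity, by rwa [div_lt_one hr]⟩, ?_⟩
      have : 0 + (r - 0) * (p / r) = p := by field_simp; ring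
      simp only [this]
  refine ⟨starNhd x0 e r, isOpen_starNhd _ _ _, ?_, self_mem_starNhd hr,
    ⟨γ ^ 2 / (1 + 2 * γ), hγ'.le⟩, hγ',
    fun k t => pt x0 (e k) (0 + (r - 0) * t) (f k (0 + (r - 0) * t)),
    fun k t => (r - 0) • e k + ((r - 0) * f' k (0 + (r - 0) * t)) • J (e k),
    fun k => isHolderArc_graph (x0 := x0) (H.unit k) hr (hC'' k) (hd k) (hH k), ?_, ?_, ?_, ?_⟩
  · intro z hz
    rw [mem_starNhd] at hz
    exact hΩ (mem_ball.2 (by linarith [hz.1]))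
  · intro k
    simp only [mul_zero, add_zero]
    rw [hf0, pt_zero]
  · ext z
    rw [mem_inter_iff, mem_starNhd, hgr r hr le_rfl z, mem_iUnion]
    simp only [himg]
  · intro j k hjk
    ext z
    rw [mem_inter_iff, himg, himg, mem_singleton_iff]
    constructor
    · rintro ⟨⟨p, hp, hpr, h1⟩, ⟨p', hp', hpr', h2⟩⟩
      rcases eq_or_lt_of_le hp' with hp0 | hp0
      · rw [h2, ← hp0, hf0, pt_zero]
      · exfalso
        have h3 := H.not_front hjk hp0 (q := f k p') (by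
          have := (hfb k p' hp0 hpr'.le).1
          linarith)
        rw [← h2, h1, inner_pt_left (H.unit j)] at h3
        linarith
    · rintro rfl
      exact ⟨⟨0, le_rfl, hr, by rw [hf0, pt_zero]⟩, ⟨0, le_rfl, hr, by rw [hf0, pt_zero]⟩⟩
  · intro j k hjk
    simp only [mul_zero, add_zero, hf'0, zero_smul, sub_zero]
    rw [inner_smul_left, inner_smul_right, h120 j k hjk, norm_smul, norm_smul, H.unit j, H.unit k]
    simp only [conj_trivial, Real.norm_eq_abs, abs_of_pos hr]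
    ring

theorem StarHyp.isArcInteriorPoint {Ω : Set E2} {e : Fin 2 → E2} (H : StarHyp K x0 e r0 C γ c)
    (he : e 1 = - e 0) (hΩ : ball x0 r0 ⊆ Ω) : IsArcInteriorPoint Ω K x0 := by
  obtain ⟨r, f, C', c', hr, hr2, hC', hc', hf0, hfb, hfl, hgr⟩ := H.graph
  have hγ := H.γpos
  have hγ' : 0 < γ ^ 2 / (1 + 2 * γ) := by positivity
  set g : ℝ → ℝ := fun x => if 0 ≤ x then f 0 x else -(f 1 (-x)) with hg
  have hgpos : ∀ x, 0 ≤ x → g x = f 0 x := fun x hx => by simp only [hg]; rw [if_pos hx]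
  have hgneg : ∀ x, x ≤ 0 → g x = -(f 1 (-x)) := by
    intro x hx
    rcases eq_or_lt_of_le hx with rfl | hx
    · rw [hgpos 0 le_rfl, neg_zero, hf0, hf0, neg_zero]
    · simp only [hg]; rw [if_neg (not_le.2 hx)]
  have hg0 : ∀ x ∈ Icc (-r) r, |g x| ≤ C' * |x| ^ (1 + γ) := by
    intro x hx
    rcases lt_trichotomy x 0 with hx0 | rfl | hx0
    · rw [hgneg x hx0.le, abs_neg, abs_of_neg hx0]
      exact (hfb 1 (-x) (by linarith) (by linarith [hx.1])).2
    · rw [hgpos 0 le_rfl, hf0, abs_zero, Real.zero_rpow (by linarith), mul_zero]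
    · rw [hgpos x hx0.le, abs_of_pos hx0]
      exact (hfb 0 x hx0 hx.2).2
  have hc'' : 0 < min c' (1/2) := lt_min hc' (by norm_num)
  obtain ⟨C₁, hC₁, hcamp⟩ := camp_of_local (f := g) (a := -r) (b := r) (by linarith) hr.le
    (by linarith) hC' hγ hc'' hg0 (by
    intro x hx hx0 ρ hρ hρc
    have hρc1 : ρ ≤ c' * |x| := hρc.trans (by gcongr; exact min_le_left _ _)
    have hρc2 : ρ ≤ 1/2 * |x| := hρc.trans (by gcongr; exact min_le_right _ _)
    rcases lt_or_gt_of_ne hx0 with hx1 | hx1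
    · rw [abs_of_neg hx1] at hρc1 hρc2 ⊢
      obtain ⟨m, hm⟩ := hfl 1 (-x) (by linarith) (by linarith [hx.1]) ρ hρ hρc1
      refine ⟨m, fun h hh hxh => ?_⟩
      have hh' := abs_le.1 hh
      have h1 := hm (-h) (by rwa [abs_neg]) (by linarith) (by linarith [hxh.1])
      rw [hgneg x hx1.le, hgneg (x + h) (by linarith)]
      rw [← abs_neg]
      have e1 : -x + -h = -(x + h) := by ring
      rw [e1] at h1
      convert h1 using 2
      ring
    · rw [abs_of_pos hx1] at hρc1 hρc2 ⊢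
      obtain ⟨m, hm⟩ := hfl 0 x hx1 hx.2 ρ hρ hρc1
      refine ⟨m, fun h hh hxh => ?_⟩
      have hh' := abs_le.1 hh
      have h1 := hm h hh (by linarith) hxh.2
      rw [hgpos x hx1.le, hgpos (x + h) (by linarith)]
      exact h1)
  obtain ⟨g', C'', hC'', -, h2, h3⟩ := camp_c1 (by linarith) hC₁.le hγ' hcamp
  have hptneg : ∀ p q : ℝ, pt x0 (e 1) p q = pt x0 (e 0) (-p) (-q) := by
    intro p q
    simp only [pt, he, J_neg, smul_neg, neg_smul]
  refine ⟨starNhd x0 e r, isOpen_starNhd _ _ _, ?_, self_mem_starNhd hr,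
    ⟨γ ^ 2 / (1 + 2 * γ), hγ'.le⟩, hγ', _, _,
    isHolderArc_graph (x0 := x0) (H.unit 0) (by linarith) hC'' h2 h3, ?_, ?_⟩
  · intro z hz
    rw [mem_starNhd] at hz
    exact hΩ (mem_ball.2 (by linarith [hz.1]))
  · ext z
    rw [mem_inter_iff, mem_starNhd, hgr r hr le_rfl z]
    constructor
    · rintro ⟨k, p, hp, hpr, rfl⟩
      fin_cases k
      · refine ⟨(p + r) / (2 * r), ⟨by positivity, ?_⟩, ?_⟩
        · rw [div_lt_one (by positivity)]; linarith
        · have : -r + (r - -r) * ((p + r) / (2 * r)) = p := by field_simp; ring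
          simp only [this]
          rw [hgpos p hp]; rfl
      · refine ⟨(r - p) / (2 * r), ⟨div_pos (by linarith) (by linarith), ?_⟩, ?_⟩
        · rw [div_lt_one (by positivity)]; linarith
        · have : -r + (r - -r) * ((r - p) / (2 * r)) = -p := by field_simp; ring
          simp only [this]
          rw [hgneg (-p) (by linarith), neg_neg]
          exact (hptneg p (f 1 p)).symm
    · rintro ⟨t, ht, rfl⟩
      simp only
      set x := -r + (r - -r) * t with hx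
      have hx1 : -r < x := by have := ht.1; rw [hx]; nlinarith
      have hx2 : x < r := by have := ht.2; rw [hx]; nlinarith
      rcases le_total 0 x with h | h
      · exact ⟨0, x, h, hx2, by rw [hgpos x h]⟩
      · refine ⟨1, -x, by linarith, by linarith, ?_⟩
        rw [hptneg, hgneg x h, neg_neg]
  · refine ⟨1/2, ⟨by norm_num, by norm_num⟩, ?_⟩
    have : -r + (r - -r) * (1/2) = 0 := by ring
    simp only [this]
    rw [hgpos 0 le_rfl, hf0, pt_zero]

end Crest.Agent.R135.Arc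
end

-- ▼ part R135/ArcMove

/-!
# R135: from a star whose directions depend on the scale to a fixed star (block ARC)

Main results: `isArcInteriorPoint_of_flat`, `isArcEndPoint_of_moving`,
`isTripleJunctionPoint_of_moving`, `isArcInteriorPoint_of_moving`.
-/

set_option autoImplicit false

open Set Filter Topology Metric
open scoped NNReal

namespace Crest.Agent.R135.Arc

open Crest.AnalysisR.PDE.MumfordShah

/-- the rotation with cosine `c` and sine `s` -/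
def rt (c s : ℝ) (v : E2) : E2 := c • v + s • J v




theorem norm_rt {c s : ℝ} (h : c ^ 2 + s ^ 2 = 1) (v : E2) : ‖rt c s v‖ = ‖v‖ := by
  have h1 : ‖rt c s v‖ ^ 2 = ‖v‖ ^ 2 := by
    rw [norm_sq_eq, norm_sq_eq]
    simp only [rt, PiLp.add_apply, PiLp.smul_apply, smul_eq_mul, J_zero', J_one']
    linear_combination (v 0 ^ 2 + v 1 ^ 2) * h
  exact (sq_eq_sq₀ (norm_nonneg _) (norm_nonneg _)).1 h1

theorem rt_sub (c s : ℝ) (v w : E2) : rt c s v - rt c s w = rt c s (v - w) := by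
  ext i; fin_cases i <;> simp [rt] <;> ring

theorem rt_rt (c s c' s' : ℝ) (v : E2) :
    rt c s (rt c' s' v) = rt (c * c' - s * s') (c * s' + s * c') v := by
  ext i; fin_cases i <;> simp [rt] <;> ring

theorem rt_one (v : E2) : rt 1 0 v = v := by simp [rt]

theorem inner_rt {c s c' s' : ℝ} {e : E2} (he : ‖e‖ = 1) :
    inner ℝ (rt c s e) (rt c' s' e) = c * c' + s * s' := by
  have h : e 0 ^ 2 + e 1 ^ 2 = 1 := by rw [← norm_sq_eq, he]; norm_num
  rw [inner_eq]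
  simp only [rt, PiLp.add_apply, PiLp.smul_apply, smul_eq_mul, J_zero', J_one']
  linear_combination (c * c' + s * s') * h

/-- a finite group of rotations, given by the cosines and sines -/
structure RotGroup {ι : Type*} (a b : ι → ℝ) : Prop where
  unit : ∀ k, a k ^ 2 + b k ^ 2 = 1
  one : ∃ k, a k = 1 ∧ b k = 0
  inv : ∀ k, ∃ k', a k' = a k ∧ b k' = - b k
  mul : ∀ j k, ∃ l, a l = a j * a k - b j * b k ∧ b l = a j * b k + b j * a k
  sep : ∀ j k, j ≠ k → a j * a k + b j * b k ≤ -(1 / 2 : ℝ)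

/-- in the ball `B(x0,ρ)` the set `K` is `E`-close (both ways) to the star with rays
`x0 + ℝ₊ R_k e` -/
def StarAt {ι : Type*} (a b : ι → ℝ) (K : Set E2) (x0 e : E2) (ρ E : ℝ) : Prop :=
  ‖e‖ = 1 ∧
  (∀ z ∈ K, dist z x0 ≤ ρ → ∃ k, ∃ t : ℝ, 0 ≤ t ∧ dist z (x0 + t • rt (a k) (b k) e) ≤ E) ∧
  (∀ k, ∀ t : ℝ, 0 ≤ t → t ≤ ρ → ∃ z ∈ K, dist z (x0 + t • rt (a k) (b k) e) ≤ E)

variable {ι : Type*} {a b : ι → ℝ} {K : Set E2} {x0 : E2} {r0 C γ c : ℝ}

theorem StarAt.rot (hG : RotGroup a b) {e : E2} {ρ E : ℝ} (h : StarAt a b K x0 e ρ E) (k : ι) :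
    StarAt a b K x0 (rt (a k) (b k) e) ρ E := by
  obtain ⟨h0, h1, h2⟩ := h
  refine ⟨by rw [norm_rt (hG.unit k), h0], ?_, ?_⟩
  · intro z hz hd
    obtain ⟨j, t, ht, hd'⟩ := h1 z hz hd
    obtain ⟨k', hk1, hk2⟩ := hG.inv k
    obtain ⟨l, hl1, hl2⟩ := hG.mul j k'
    refine ⟨l, t, ht, ?_⟩
    have : rt (a l) (b l) (rt (a k) (b k) e) = rt (a j) (b j) e := by
      rw [rt_rt, hl1, hl2, hk1, hk2]
      have hu := hG.unit k
      congr 1
      · linear_combination (a j) * hu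
      · linear_combination (b j) * hu
    rw [this]; exact hd'
  · intro j t ht htρ
    obtain ⟨l, hl1, hl2⟩ := hG.mul j k
    obtain ⟨z, hz, hd⟩ := h2 l t ht htρ
    refine ⟨z, hz, ?_⟩
    rw [rt_rt, ← hl1, ← hl2]; exact hd

/-- comparison of the stars at two consecutive scales -/
theorem StarAt.step (hG : RotGroup a b) {e e' : E2} {ρ E ρ' E' : ℝ} (h : StarAt a b K x0 e ρ E)
    (h' : StarAt a b K x0 e' ρ' E') (hρ' : 0 < ρ') (hρ : ρ' + E' ≤ ρ) (_hE : 0 ≤ E) :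
    ∃ e'', StarAt a b K x0 e'' ρ' E' ∧ dist e'' e ≤ 2 * (E + E') / ρ' := by
  obtain ⟨i, hi1, hi2⟩ := hG.one
  obtain ⟨z, hz, hd⟩ := h'.2.2 i ρ' hρ'.le le_rfl
  rw [hi1, hi2, rt_one] at hd
  have hzx : dist z x0 ≤ ρ := by
    have : dist (x0 + ρ' • e') x0 = ρ' := by
      rw [dist_eq_norm, add_sub_cancel_left, norm_smul, h'.1, mul_one, Real.norm_eq_abs,
        abs_of_pos hρ']
    linarith [dist_triangle z (x0 + ρ' • e') x0]
  obtain ⟨k, s, hs, hd2⟩ := h.2.1 z hz hzx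
  have hη : ‖ρ' • e' - s • rt (a k) (b k) e‖ ≤ E + E' := by
    have h3 := dist_triangle_left (x0 + ρ' • e') (x0 + s • rt (a k) (b k) e) z
    rw [dist_eq_norm] at h3
    have : x0 + ρ' • e' - (x0 + s • rt (a k) (b k) e) = ρ' • e' - s • rt (a k) (b k) e := by abel
    rw [this] at h3
    linarith
  have hnr : ‖rt (a k) (b k) e‖ = 1 := by rw [norm_rt (hG.unit k), h.1]
  have hst : |ρ' - s| ≤ E + E' := by
    have h4 := abs_norm_sub_norm_le (ρ' • e') (s • rt (a k) (b k) e)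
    rw [norm_smul, norm_smul, h'.1, hnr, mul_one, mul_one, Real.norm_eq_abs, Real.norm_eq_abs,
      abs_of_pos hρ', abs_of_nonneg hs] at h4
    linarith
  have h5 : ‖ρ' • (e' - rt (a k) (b k) e)‖ ≤ 2 * (E + E') := by
    have : ρ' • (e' - rt (a k) (b k) e) =
        (ρ' • e' - s • rt (a k) (b k) e) - (ρ' - s) • rt (a k) (b k) e := by
      rw [smul_sub, sub_smul]; abel
    rw [this]
    refine (norm_sub_le _ _).trans ?_
    rw [norm_smul, hnr, mul_one, Real.norm_eq_abs]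
    linarith
  rw [norm_smul, Real.norm_eq_abs, abs_of_pos hρ'] at h5
  obtain ⟨k', hk1, hk2⟩ := hG.inv k
  refine ⟨rt (a k') (b k') e', h'.rot hG k', ?_⟩
  rw [le_div_iff₀ hρ', mul_comm]
  have h6 : rt (a k') (b k') (rt (a k) (b k) e) = e := by
    rw [rt_rt, hk1, hk2]
    have hu := hG.unit k
    have e1 : a k * a k - -b k * b k = 1 := by linear_combination hu
    have e2 : a k * b k + -b k * a k = 0 := by ring
    rw [e1, e2, rt_one]
  have h7 : dist (rt (a k') (b k') e') e = ‖e' - rt (a k) (b k) e‖ := by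
    conv_lhs => rw [← h6]
    rw [dist_eq_norm, rt_sub, norm_rt (hG.unit k')]
  rw [h7]; exact h5

/-- dependent choice -/
theorem exists_seq_dep {X : Type*} (P : ℕ → X → Prop) (Q : ℕ → X → X → Prop) {x : X} (hx : P 0 x)
    (h : ∀ n x, P n x → ∃ y, P (n + 1) y ∧ Q n x y) :
    ∃ s : ℕ → X, (∀ n, P n (s n)) ∧ ∀ n, Q n (s n) (s (n + 1)) := by
  choose! g hg using h
  let s : ℕ → X := fun n => Nat.rec x (fun n y => g n y) n
  have hs : ∀ n, P n (s n) := by
    intro n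
    induction n with
    | zero => exact hx
    | succ n ih => exact (hg n (s n) ih).1
  exact ⟨s, hs, fun n => (hg n (s n) (hs n)).2⟩

/-- power closeness to stars with directions depending on the scale implies power closeness to a
fixed star -/
theorem exists_fixed_star (hG : RotGroup a b) (hr0 : 0 < r0) (hC : 0 < C) (hγ : 0 < γ)
    (h : ∀ ρ, 0 < ρ → ρ < r0 → ∃ e, StarAt a b K x0 e ρ (C * ρ ^ (1 + γ))) :
    ∃ (e : E2) (r C' : ℝ), 0 < r ∧ r < r0 ∧ 0 < C' ∧ C ≤ C' ∧ ‖e‖ = 1 ∧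
      (∀ z ∈ K, z ≠ x0 → dist z x0 < r → ∃ k, ∃ t : ℝ, 0 ≤ t ∧
        dist z (x0 + t • rt (a k) (b k) e) ≤ C' * (dist z x0) ^ (1 + γ)) ∧
      (∀ k, ∀ t, 0 < t → t < r → ∃ z ∈ K,
        dist z (x0 + t • rt (a k) (b k) e) ≤ C' * t ^ (1 + γ)) := by
  obtain ⟨r, hr, hrr0, hrs⟩ := exists_small hC hγ (ε := 1/2) (by norm_num) hr0
  set q : ℝ := (2:ℝ) ^ (-γ) with hq
  have hq0 : 0 < q := by positivity
  have hq1 : q < 1 := by
    rw [hq]; exact Real.rpow_lt_one_of_one_lt_of_neg (by norm_num) (by linarith)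
  set R : ℕ → ℝ := fun n => r * (1/2 : ℝ) ^ n with hR
  have hR0 : ∀ n, 0 < R n := fun n => by positivity
  have hRs : ∀ n, R (n+1) = R n / 2 := fun n => by simp only [hR, pow_succ]; ring
  have hRle : ∀ n, R n ≤ r := fun n => by
    have : (1/2:ℝ) ^ n ≤ 1 := pow_le_one₀ (by norm_num) (by norm_num)
    simp only [hR]; nlinarith
  have hRγ : ∀ n, (R n) ^ γ = r ^ γ * q ^ n := by
    intro n
    simp only [hR]
    rw [Real.mul_rpow hr.le (by positivity)]
    congr 1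
    rw [hq, ← Real.rpow_natCast, ← Real.rpow_natCast, ← Real.rpow_mul (by norm_num),
      ← Real.rpow_mul (by norm_num), one_div, Real.inv_rpow (by norm_num),
      ← Real.rpow_neg (by norm_num)]
    congr 1; ring
  have hRpow : ∀ n, (R n) ^ (1 + γ) = R n * (R n) ^ γ := fun n => by
    rw [Real.rpow_add (hR0 n), Real.rpow_one]
  obtain ⟨e0, he0⟩ := h r hr hrr0
  have hR00 : R 0 = r := by simp [hR]
  obtain ⟨s, hs1, hs2⟩ := exists_seq_dep
    (P := fun n e => StarAt a b K x0 e (R n) (C * (R n) ^ (1 + γ)))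
    (Q := fun n e e' => dist e' e ≤ (8 * C * r ^ γ) * q ^ n)
    (x := e0) (by rw [hR00]; exact he0) (by
      intro n e he
      obtain ⟨e', he'⟩ := h (R (n+1)) (hR0 _) (lt_of_le_of_lt (hRle _) hrr0)
      have hsm := hrs (R (n+1)) (hR0 _) (hRle _)
      have hpn : 0 < (R n) ^ (1 + γ) := Real.rpow_pos_of_pos (hR0 n) _
      obtain ⟨e'', h1, h2⟩ := he.step hG he' (hR0 _) (by
        rw [hRs] at hsm ⊢; linarith [hR0 n]) (by positivity)
      refine ⟨e'', h1, h2.trans ?_⟩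
      rw [div_le_iff₀ (hR0 _)]
      have hle : (R (n+1)) ^ (1 + γ) ≤ (R n) ^ (1 + γ) :=
        Real.rpow_le_rpow (hR0 _).le (by rw [hRs]; linarith [hR0 n]) (by linarith)
      have e1 : 8 * C * r ^ γ * q ^ n * R (n+1) = 4 * (C * (R n) ^ (1 + γ)) := by
        rw [hRpow, hRγ, hRs]; ring
      rw [e1]
      have : C * (R (n+1)) ^ (1 + γ) ≤ C * (R n) ^ (1 + γ) := by gcongr
      linarith)
  -- the limit direction
  have hgeo : ∀ n, dist (s n) (s (n+1)) ≤ (8 * C * r ^ γ) * q ^ n := fun n => by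
    rw [dist_comm]; exact hs2 n
  have hcau : CauchySeq s := cauchySeq_of_le_geometric q _ hq1 hgeo
  obtain ⟨e, he⟩ := cauchySeq_tendsto_of_complete hcau
  have hlim : ∀ n, dist (s n) e ≤ (8 * C * r ^ γ) * q ^ n / (1 - q) :=
    fun n => dist_le_of_le_geometric_of_tendsto q _ hq1 hgeo he n
  have hen : ‖e‖ = 1 := by
    have h1 : Tendsto (fun n => ‖s n‖) atTop (𝓝 ‖e‖) := he.norm
    have h2 : (fun n => ‖s n‖) = fun _ => (1:ℝ) := funext fun n => (hs1 n).1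
    rw [h2] at h1
    exact (tendsto_nhds_unique h1 tendsto_const_nhds)
  set A : ℝ := 8 * C / (1 - q) with hA
  have h1q : 0 < 1 - q := by linarith
  have hA0 : 0 < A := by positivity
  have hlim2 : ∀ n, dist (s n) e ≤ A * (R n) ^ γ := by
    intro n
    refine (hlim n).trans (le_of_eq ?_)
    rw [hRγ, hA]; field_simp
  have h2γ : (1:ℝ) ≤ (2:ℝ) ^ (1 + γ) := Real.one_le_rpow (by norm_num) (by linarith)
  refine ⟨e, r, (C + 2 * A) * (2:ℝ) ^ (1 + γ), hr, hrr0, by positivity, ?_, hen, ?_, ?_⟩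
  · nlinarith
  · intro z hz hzx hzr
    have hd0 : 0 < dist z x0 := dist_pos.2 hzx
    have hx1 : dist z x0 / r ≤ 1 := by rw [div_le_one hr]; exact hzr.le
    obtain ⟨n, hn1, hn2⟩ := exists_nat_pow_near_of_lt_one (y := (1/2:ℝ)) (x := dist z x0 / r)
      (by positivity) hx1 (by norm_num) (by norm_num)
    have hn3 : dist z x0 ≤ R n := by
      rw [div_le_iff₀ hr] at hn2
      simp only [hR]; linarith
    have hn4 : R n < 2 * dist z x0 := by
      rw [lt_div_iff₀ hr, pow_succ] at hn1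
      simp only [hR]; linarith
    obtain ⟨k, t, ht, hd⟩ := (hs1 n).2.1 z hz hn3
    refine ⟨k, t, ht, ?_⟩
    have hsm := hrs (R n) (hR0 _) (hRle _)
    have hu := hG.unit k
    have htle : t ≤ 2 * R n := by
      have h3 : dist (x0 + t • rt (a k) (b k) (s n)) x0 = t := by
        rw [dist_eq_norm, add_sub_cancel_left, norm_smul, norm_rt hu, (hs1 n).1, mul_one,
          Real.norm_eq_abs, abs_of_nonneg ht]
      have h4 := dist_triangle_left (x0 + t • rt (a k) (b k) (s n)) x0 z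
      have := hR0 n
      linarith
    have h5 : dist (x0 + t • rt (a k) (b k) (s n)) (x0 + t • rt (a k) (b k) e) ≤
        2 * R n * (A * (R n) ^ γ) := by
      rw [dist_eq_norm]
      have : x0 + t • rt (a k) (b k) (s n) - (x0 + t • rt (a k) (b k) e) =
          t • rt (a k) (b k) (s n - e) := by
        rw [← rt_sub, smul_sub]; abel
      rw [this, norm_smul, norm_rt hu, Real.norm_eq_abs, abs_of_nonneg ht, ← dist_eq_norm]
      have := hR0 n
      gcongr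
      exact hlim2 n
    have h6 := dist_triangle z (x0 + t • rt (a k) (b k) (s n)) (x0 + t • rt (a k) (b k) e)
    have h7 : (R n) ^ (1 + γ) ≤ (2:ℝ) ^ (1 + γ) * (dist z x0) ^ (1 + γ) := by
      rw [← Real.mul_rpow (by norm_num) hd0.le]
      exact Real.rpow_le_rpow (hR0 n).le hn4.le (by linarith)
    calc dist z (x0 + t • rt (a k) (b k) e) ≤ C * (R n) ^ (1 + γ) + 2 * R n * (A * (R n) ^ γ) := by
          linarith
      _ = (C + 2 * A) * (R n) ^ (1 + γ) := by rw [hRpow]; ring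
      _ ≤ (C + 2 * A) * ((2:ℝ) ^ (1 + γ) * (dist z x0) ^ (1 + γ)) := by gcongr
      _ = _ := by ring
  · intro k t ht htr
    have hx1 : t / r ≤ 1 := by rw [div_le_one hr]; exact htr.le
    obtain ⟨n, hn1, hn2⟩ := exists_nat_pow_near_of_lt_one (y := (1/2:ℝ)) (x := t / r)
      (by positivity) hx1 (by norm_num) (by norm_num)
    have hn3 : t ≤ R n := by
      rw [div_le_iff₀ hr] at hn2
      simp only [hR]; linarith
    have hn4 : R n < 2 * t := by
      rw [lt_div_iff₀ hr, pow_succ] at hn1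
      simp only [hR]; linarith
    obtain ⟨z, hz, hd⟩ := (hs1 n).2.2 k t ht.le hn3
    refine ⟨z, hz, ?_⟩
    have hu := hG.unit k
    have h5 : dist (x0 + t • rt (a k) (b k) (s n)) (x0 + t • rt (a k) (b k) e) ≤
        2 * R n * (A * (R n) ^ γ) := by
      rw [dist_eq_norm]
      have : x0 + t • rt (a k) (b k) (s n) - (x0 + t • rt (a k) (b k) e) =
          t • rt (a k) (b k) (s n - e) := by
        rw [← rt_sub, smul_sub]; abel
      rw [this, norm_smul, norm_rt hu, Real.norm_eq_abs, abs_of_nonneg ht.le, ← dist_eq_norm]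
      have := hR0 n
      have h8 := hlim2 n
      gcongr
      linarith
    have h6 := dist_triangle z (x0 + t • rt (a k) (b k) (s n)) (x0 + t • rt (a k) (b k) e)
    have h7 : (R n) ^ (1 + γ) ≤ (2:ℝ) ^ (1 + γ) * t ^ (1 + γ) := by
      rw [← Real.mul_rpow (by norm_num) ht.le]
      exact Real.rpow_le_rpow (hR0 n).le hn4.le (by linarith)
    calc dist z (x0 + t • rt (a k) (b k) e) ≤ C * (R n) ^ (1 + γ) + 2 * R n * (A * (R n) ^ γ) := by
          linarith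
      _ = (C + 2 * A) * (R n) ^ (1 + γ) := by rw [hRpow]; ring
      _ ≤ (C + 2 * A) * ((2:ℝ) ^ (1 + γ) * t ^ (1 + γ)) := by gcongr
      _ = _ := by ring

/-- moving star + degenerating flatness ⟹ `StarHyp` -/
theorem exists_starHyp (hG : RotGroup a b) (hr0 : 0 < r0) (hC : 0 < C) (hγ : 0 < γ) (hc : 0 < c)
    (hmem : x0 ∈ K) (hcl : closure K ∩ ball x0 r0 ⊆ K)
    (hstar : ∀ ρ, 0 < ρ → ρ < r0 → ∃ e, StarAt a b K x0 e ρ (C * ρ ^ (1 + γ)))
    (hflat : ∀ y ∈ K, y ≠ x0 → dist y x0 < r0 → ∀ ρ, 0 < ρ → ρ ≤ c * dist y x0 →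
      ∃ v, Flat K y v ρ (C * ρ * (ρ / dist y x0) ^ γ)) :
    ∃ (e : E2) (r C' : ℝ), ‖e‖ = 1 ∧ r < r0 ∧
      StarHyp K x0 (fun k => rt (a k) (b k) e) r C' γ c := by
  obtain ⟨e, r, C', hr, hrr, hC', hCC, hen, hfar, hnear⟩ := exists_fixed_star hG hr0 hC hγ hstar
  refine ⟨e, r, C', hen, hrr, ⟨hr, hC', hγ, hc, ?_, ?_, hmem, ?_, hfar, hnear, ?_⟩⟩
  · intro k; rw [norm_rt (hG.unit k), hen]
  · intro j k hjk; rw [inner_rt hen]; exact hG.sep j k hjk
  · rintro z ⟨hz1, hz2⟩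
    exact hcl ⟨hz1, ball_subset_ball hrr.le hz2⟩
  · intro y hy hyx hyr ρ hρ hρc
    obtain ⟨v, h0, h1, h2⟩ := hflat y hy hyx (hyr.trans hrr) ρ hρ hρc
    have hd0 : 0 < dist y x0 := dist_pos.2 hyx
    have hle : C * ρ * (ρ / dist y x0) ^ γ ≤ C' * ρ * (ρ / dist y x0) ^ γ := by gcongr
    refine ⟨v, h0, fun z hz hd => (h1 z hz hd).trans hle, fun t ht => ?_⟩
    obtain ⟨z, hz, hd⟩ := h2 t ht
    exact ⟨z, hz, hd.trans hle⟩

/-- tip -/
def a1 : Fin 1 → ℝ := fun _ => 1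
/-- tip -/
def b1 : Fin 1 → ℝ := fun _ => 0
/-- line -/
def a2 : Fin 2 → ℝ := ![1, -1]
/-- line -/
def b2 : Fin 2 → ℝ := ![0, 0]
/-- triple junction -/
noncomputable def a3 : Fin 3 → ℝ := ![1, -(1/2), -(1/2)]
/-- triple junction -/
noncomputable def b3 : Fin 3 → ℝ := ![0, Real.sqrt 3 / 2, -(Real.sqrt 3 / 2)]

theorem rotGroup1 : RotGroup a1 b1 := by
  refine ⟨fun k => by simp [a1, b1], ⟨0, by simp [a1, b1]⟩, fun k => ⟨k, by simp [a1, b1]⟩,
    fun j k => ⟨0, by simp [a1, b1]⟩, fun j k hjk => absurd (Subsingleton.elim j k) hjk⟩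

theorem rotGroup2 : RotGroup a2 b2 := by
  refine ⟨fun k => ?_, ⟨0, by simp [a2, b2]⟩, fun k => ⟨k, by fin_cases k <;> simp [a2, b2]⟩,
    fun j k => ?_, fun j k hjk => ?_⟩
  · fin_cases k <;> simp [a2, b2]
  · fin_cases j <;> fin_cases k
    · exact ⟨0, by simp [a2, b2]⟩
    · exact ⟨1, by simp [a2, b2]⟩
    · exact ⟨1, by simp [a2, b2]⟩
    · exact ⟨0, by simp [a2, b2]⟩
  · fin_cases j <;> fin_cases k <;> simp_all [a2, b2] <;> norm_num

theorem rotGroup3 : RotGroup a3 b3 := by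
  have h3 : Real.sqrt 3 * Real.sqrt 3 = 3 := Real.mul_self_sqrt (by norm_num)
  refine ⟨fun k => ?_, ⟨0, by simp [a3, b3]⟩, fun k => ?_, fun j k => ?_, fun j k hjk => ?_⟩
  · fin_cases k
    · simp [a3, b3]
    · simp [a3, b3]; nlinarith
    · simp [a3, b3]; nlinarith
  · fin_cases k
    · exact ⟨0, by simp [a3, b3]⟩
    · exact ⟨2, by simp [a3, b3]⟩
    · exact ⟨1, by simp [a3, b3]⟩
  · fin_cases j <;> fin_cases k
    · exact ⟨0, by simp [a3, b3]⟩
    · exact ⟨1, by simp [a3, b3]⟩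
    · exact ⟨2, by simp [a3, b3]⟩
    · exact ⟨1, by simp [a3, b3]⟩
    · refine ⟨2, ?_, ?_⟩
      · simp [a3, b3]; nlinarith
      · simp [a3, b3]; nlinarith
    · refine ⟨0, ?_, ?_⟩
      · simp [a3, b3]; nlinarith
      · simp [a3, b3]; nlinarith
    · exact ⟨2, by simp [a3, b3]⟩
    · refine ⟨0, ?_, ?_⟩
      · simp [a3, b3]; nlinarith
      · simp [a3, b3]; nlinarith
    · refine ⟨1, ?_, ?_⟩
      · simp [a3, b3]; nlinarith
      · simp [a3, b3]; nlinarith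
  · fin_cases j <;> fin_cases k
    · exact absurd rfl hjk
    · simp [a3, b3]
    · simp [a3, b3]
    · simp [a3, b3]
    · exact absurd rfl hjk
    · simp [a3, b3]; nlinarith
    · simp [a3, b3]
    · simp [a3, b3]; nlinarith
    · exact absurd rfl hjk

theorem sep3 (j k : Fin 3) (hjk : j ≠ k) : a3 j * a3 k + b3 j * b3 k = -(1 / 2 : ℝ) := by
  have h3 : Real.sqrt 3 * Real.sqrt 3 = 3 := Real.mul_self_sqrt (by norm_num)
  fin_cases j <;> fin_cases k
  · exact absurd rfl hjk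
  · simp [a3, b3]
  · simp [a3, b3]
  · simp [a3, b3]
  · exact absurd rfl hjk
  · simp [a3, b3]; nlinarith
  · simp [a3, b3]
  · simp [a3, b3]; nlinarith
  · exact absurd rfl hjk

/-- **Tip.** -/
theorem isArcEndPoint_of_moving {Ω : Set E2} (hr0 : 0 < r0) (hC : 0 < C) (hγ : 0 < γ) (hc : 0 < c)
    (hmem : x0 ∈ K) (hcl : closure K ∩ ball x0 r0 ⊆ K) (hΩ : ball x0 r0 ⊆ Ω)
    (hstar : ∀ ρ, 0 < ρ → ρ < r0 → ∃ e, StarAt a1 b1 K x0 e ρ (C * ρ ^ (1 + γ)))
    (hflat : ∀ y ∈ K, y ≠ x0 → dist y x0 < r0 → ∀ ρ, 0 < ρ → ρ ≤ c * dist y x0 →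
      ∃ v, Flat K y v ρ (C * ρ * (ρ / dist y x0) ^ γ)) : IsArcEndPoint Ω K x0 := by
  obtain ⟨e, r, C', -, hrr, H⟩ := exists_starHyp rotGroup1 hr0 hC hγ hc hmem hcl hstar hflat
  exact H.isArcEndPoint ((ball_subset_ball hrr.le).trans hΩ)

/-- **Triple junction.** -/
theorem isTripleJunctionPoint_of_moving {Ω : Set E2} (hr0 : 0 < r0) (hC : 0 < C) (hγ : 0 < γ)
    (hc : 0 < c) (hmem : x0 ∈ K) (hcl : closure K ∩ ball x0 r0 ⊆ K) (hΩ : ball x0 r0 ⊆ Ω)
    (hstar : ∀ ρ, 0 < ρ → ρ < r0 → ∃ e, StarAt a3 b3 K x0 e ρ (C * ρ ^ (1 + γ)))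
    (hflat : ∀ y ∈ K, y ≠ x0 → dist y x0 < r0 → ∀ ρ, 0 < ρ → ρ ≤ c * dist y x0 →
      ∃ v, Flat K y v ρ (C * ρ * (ρ / dist y x0) ^ γ)) : IsTripleJunctionPoint Ω K x0 := by
  obtain ⟨e, r, C', he, hrr, H⟩ := exists_starHyp rotGroup3 hr0 hC hγ hc hmem hcl hstar hflat
  refine H.isTripleJunctionPoint (fun j k hjk => ?_) ((ball_subset_ball hrr.le).trans hΩ)
  rw [inner_rt he]; exact sep3 j k hjk

/-- **Regular point**, star version. -/
theorem isArcInteriorPoint_of_moving {Ω : Set E2} (hr0 : 0 < r0) (hC : 0 < C) (hγ : 0 < γ)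
    (hc : 0 < c) (hmem : x0 ∈ K) (hcl : closure K ∩ ball x0 r0 ⊆ K) (hΩ : ball x0 r0 ⊆ Ω)
    (hstar : ∀ ρ, 0 < ρ → ρ < r0 → ∃ e, StarAt a2 b2 K x0 e ρ (C * ρ ^ (1 + γ)))
    (hflat : ∀ y ∈ K, y ≠ x0 → dist y x0 < r0 → ∀ ρ, 0 < ρ → ρ ≤ c * dist y x0 →
      ∃ v, Flat K y v ρ (C * ρ * (ρ / dist y x0) ^ γ)) : IsArcInteriorPoint Ω K x0 := by
  obtain ⟨e, r, C', he, hrr, H⟩ := exists_starHyp rotGroup2 hr0 hC hγ hc hmem hcl hstar hflat
  refine H.isArcInteriorPoint ?_ ((ball_subset_ball hrr.le).trans hΩ)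
  simp [a2, b2, rt]

theorem Flat.starAt {y e : E2} {ρ E : ℝ} (_hρ : 0 ≤ ρ) (h : Flat K y e ρ E) :
    StarAt a2 b2 K y e ρ E := by
  obtain ⟨he, h1, h2⟩ := h
  have e0 : rt (a2 0) (b2 0) e = e := by simp [a2, b2, rt]
  have e1 : rt (a2 1) (b2 1) e = -e := by simp [a2, b2, rt]
  refine ⟨he, ?_, ?_⟩
  · intro z hz hd
    have h3 := h1 z hz hd
    set p := inner ℝ (z - y) e with hp
    set q := inner ℝ (z - y) (J e) with hq
    have hzy : z = y + (p • e + q • J e) := by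
      have := frame_eq he (z - y)
      rw [← hp, ← hq] at this
      rw [← this]; abel
    have hdd : dist z (y + p • e) ≤ E := by
      rw [dist_eq_norm]
      have : z - (y + p • e) = q • J e := by rw [hzy]; abel
      rw [this, norm_smul, norm_J, he, mul_one, Real.norm_eq_abs]
      exact h3
    rcases le_total 0 p with h | h
    · exact ⟨0, p, h, by rw [e0]; exact hdd⟩
    · refine ⟨1, -p, by linarith, ?_⟩
      rw [e1, neg_smul_neg]; exact hdd
  · intro k t ht htρ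
    fin_cases k
    · obtain ⟨z, hz, hd⟩ := h2 t (by rw [abs_of_nonneg ht]; exact htρ)
      refine ⟨z, hz, ?_⟩
      show dist z (y + t • rt (a2 0) (b2 0) e) ≤ E
      rw [e0]; exact hd
    · obtain ⟨z, hz, hd⟩ := h2 (-t) (by rw [abs_neg, abs_of_nonneg ht]; exact htρ)
      refine ⟨z, hz, ?_⟩
      show dist z (y + t • rt (a2 1) (b2 1) e) ≤ E
      rw [e1, smul_neg, ← neg_smul]; exact hd

/-- **Regular point**, power flatness at all points and scales. -/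
theorem isArcInteriorPoint_of_flat {Ω : Set E2} (hr0 : 0 < r0) (hC : 0 < C) (hγ : 0 < γ)
    (hmem : x0 ∈ K) (hcl : closure K ∩ ball x0 r0 ⊆ K) (hΩ : ball x0 r0 ⊆ Ω)
    (hflat : ∀ y ∈ K, dist y x0 < r0 → ∀ ρ, 0 < ρ → ρ < r0 →
      ∃ v, Flat K y v ρ (C * ρ ^ (1 + γ))) : IsArcInteriorPoint Ω K x0 := by
  have hM : 0 < max 1 (r0 ^ γ) := lt_max_of_lt_left one_pos
  refine isArcInteriorPoint_of_moving (c := 1/2) (C := C * max 1 (r0 ^ γ)) hr0 (by positivity) hγ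
    (by norm_num) hmem hcl hΩ ?_ ?_
  · intro ρ hρ hρr
    obtain ⟨v, hv⟩ := hflat x0 hmem (by rw [dist_self]; exact hr0) ρ hρ hρr
    have hle : C * ρ ^ (1 + γ) ≤ C * max 1 (r0 ^ γ) * ρ ^ (1 + γ) := by
      have h1 : 0 < ρ ^ (1 + γ) := by positivity
      have h2 : (1:ℝ) ≤ max 1 (r0 ^ γ) := le_max_left _ _
      nlinarith [mul_pos hC h1]
    refine ⟨v, Flat.starAt hρ.le ⟨hv.1, fun z hz hd => (hv.2.1 z hz hd).trans hle, fun t ht => ?_⟩⟩
    obtain ⟨z, hz, hd⟩ := hv.2.2 t ht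
    exact ⟨z, hz, hd.trans hle⟩
  · intro y hy hyx hyr ρ hρ hρc
    have hd0 : 0 < dist y x0 := dist_pos.2 hyx
    obtain ⟨v, hv⟩ := hflat y hy hyr ρ hρ (by linarith)
    have hle : C * ρ ^ (1 + γ) ≤ C * max 1 (r0 ^ γ) * ρ * (ρ / dist y x0) ^ γ := by
      rw [Real.rpow_add hρ, Real.rpow_one]
      have h1 : ρ ^ γ ≤ r0 ^ γ * (ρ / dist y x0) ^ γ := by
        rw [← Real.mul_rpow hr0.le (by positivity)]
        refine Real.rpow_le_rpow hρ.le ?_ hγ.le
        rw [← mul_div_assoc, le_div_iff₀ hd0]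
        nlinarith
      have h2 : r0 ^ γ ≤ max 1 (r0 ^ γ) := le_max_right _ _
      have h3 : 0 < (ρ / dist y x0) ^ γ := by positivity
      calc C * (ρ * ρ ^ γ) ≤ C * (ρ * (max 1 (r0 ^ γ) * (ρ / dist y x0) ^ γ)) := by
            gcongr
            exact h1.trans (by gcongr)
        _ = _ := by ring
    refine ⟨v, hv.1, fun z hz hd => (hv.2.1 z hz hd).trans hle, fun t ht => ?_⟩
    obtain ⟨z, hz, hd⟩ := hv.2.2 t ht
    exact ⟨z, hz, hd.trans hle⟩

end Crest.Agent.R135.Arc
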