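import Crest.Agent.R135.CrackAlg
import Crest.Agent.R135.Wirt
import Crest.Agent.R135.IF_B4
import Crest.Agent.R135.PolarG

-- ▼ part R135/BonEq1
section

/-!
# R135: equality case of Bonnet's inequality on an arc of length `2π` (helper898)
-/

set_option autoImplicit false

open MeasureTheory Set Filter Topology intervalIntegral
open scoped Real Interval

noncomputable section

namespace Crest.Agent.R135

/-- a primitive with vanishing `L²` norm of the derivative is constant -/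
theorem IsPrim.eq_of_sq_zero {a b : ℝ} (hab : a ≤ b) {F F1 : ℝ → ℝ} (hF : IsPrim a b F F1)
    (hF1 : IsL2 a b F1) (h0 : ∫ x in a..b, F1 x ^ 2 = 0) :
    (∀ᵐ x ∂(volume.restrict (Ioc a b)), F1 x = 0) ∧ ∀ x ∈ Icc a b, F x = F a := by
  have h1 : ∀ᵐ x ∂(volume.restrict (Ioc a b)), F1 x = 0 := by
    rw [intervalIntegral.integral_of_le hab] at h0
    have hi := hF1.sq hab
    rw [intervalIntegrable_iff_integrableOn_Ioc_of_le hab] at hi
    have := (setIntegral_eq_zero_iff_of_nonneg_ae (Eventually.of_forall fun x => sq_nonneg (F1 x))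
      hi).1 h0
    filter_upwards [this] with x hx
    simpa using hx
  refine ⟨h1, fun x hx => ?_⟩
  rw [hF.2 x hx]
  have : ∫ t in a..x, F1 t = 0 := by
    rw [intervalIntegral.integral_of_le hx.1]
    apply integral_eq_zero_of_ae
    exact ae_mono (Measure.restrict_mono (Ioc_subset_Ioc_right hx.2) le_rfl) h1
  rw [this, add_zero]

/-- **Equality case of Bonnet's inequality** on an arc of length `2π`. -/
theorem arc_eq {F F1 H : ℝ → ℝ} (hF : IsPrim 0 (2*π) F F1) (hF1 : IsL2 0 (2*π) F1)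
    (hH : IsL2 0 (2*π) H) (hH0 : ∫ x in (0:ℝ)..(2*π), H x = 0)
    (heq : (∫ x in (0:ℝ)..(2*π), F1 x ^ 2) + ∫ x in (0:ℝ)..(2*π), H x ^ 2
      ≤ ∫ x in (0:ℝ)..(2*π), F x * H x) :
    ∃ m a : ℝ, (∀ x ∈ Icc (0:ℝ) (2*π), F x = m + a * Real.cos (x/2)) ∧
      (∀ᵐ x ∂(volume.restrict (Ioc 0 (2*π))), F1 x = -(a/2) * Real.sin (x/2)) ∧
      (∀ᵐ x ∂(volume.restrict (Ioc 0 (2*π))), H x = (a/2) * Real.cos (x/2)) := by
  have hpi := Real.pi_pos
  have h2pi : (0:ℝ) ≤ 2*π := by positivity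
  obtain ⟨m, hm⟩ : ∃ m : ℝ, m = (2*π)⁻¹ * ∫ x in (0:ℝ)..(2*π), F x := ⟨_, rfl⟩
  have hFL := hF.isL2 h2pi
  have hFi := hFL.intervalIntegrable h2pi
  have hcc : Continuous fun x : ℝ => Real.cos (x/2) := by fun_prop
  have hsc : Continuous fun x : ℝ => Real.sin (x/2) := by fun_prop
  have hcL : IsL2 0 (2*π) (fun x : ℝ => Real.cos (x/2)) := isL2_of_continuousOn hcc.continuousOn
  have hsL : IsL2 0 (2*π) (fun x : ℝ => Real.sin (x/2)) := isL2_of_continuousOn hsc.continuousOn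
  have hconst : ∀ c : ℝ, IsL2 0 (2*π) (fun _ : ℝ => c) := fun c =>
    isL2_of_continuousOn continuousOn_const
  have ic : ∫ x in (0:ℝ)..(2*π), Real.cos (x/2) = 0 := by
    rw [CrackAlg.int_cos_half]
    have : (2*π)/2 = π := by ring
    rw [this]; simp
  have ic2 : ∫ x in (0:ℝ)..(2*π), Real.cos (x/2) ^ 2 = π := by
    rw [CrackAlg.int_cos_half_sq]; simp
  have is2 : ∫ x in (0:ℝ)..(2*π), Real.sin (x/2) ^ 2 = π := by
    rw [CrackAlg.int_sin_half_sq]; simp
  obtain ⟨a, ha⟩ : ∃ a : ℝ, a = π⁻¹ * ∫ x in (0:ℝ)..(2*π), Real.cos (x/2) * F x := ⟨_, rfl⟩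
  have hcF : ∫ x in (0:ℝ)..(2*π), Real.cos (x/2) * F x = π * a := by
    rw [ha]; field_simp
  have hFm : ∫ x in (0:ℝ)..(2*π), F x = 2 * π * m := by
    rw [hm]; field_simp
  -- G
  set G : ℝ → ℝ := fun x => F x - m - a * Real.cos (x/2) with hG
  set G1 : ℝ → ℝ := fun x => F1 x + (a/2) * Real.sin (x/2) with hG1
  have hcosprim : IsPrim 0 (2*π) (fun x => Real.cos (x/2)) (fun x => -(1/2) * Real.sin (x/2)) := by
    apply isPrim_of_hasDerivAt h2pi
    · intro x _
      have h := ((hasDerivAt_id x).div_const 2).cos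
      refine h.congr_deriv ?_
      simp only [id_eq]; ring
    · fun_prop
  have hsinprim : IsPrim 0 (2*π) (fun x => Real.sin (x/2)) (fun x => (1/2) * Real.cos (x/2)) := by
    apply isPrim_of_hasDerivAt h2pi
    · intro x _
      have h := ((hasDerivAt_id x).div_const 2).sin
      refine h.congr_deriv ?_
      simp only [id_eq]; ring
    · fun_prop
  have hGp : IsPrim 0 (2*π) G G1 := by
    refine ⟨hF.1.add ((hsc.intervalIntegrable _ _).const_mul _), fun x hx => ?_⟩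
    simp only [hG, hG1]
    have hxi : IntervalIntegrable F1 volume 0 x := hF.1.mono_set (by
      rw [uIcc_of_le hx.1, uIcc_of_le h2pi]; exact Icc_subset_Icc le_rfl hx.2)
    rw [intervalIntegral.integral_add hxi ((hsc.intervalIntegrable _ _).const_mul _)]
    have e1 := hF.2 x hx
    have e2 := hcosprim.2 x hx
    simp only [intervalIntegral.integral_const_mul] at e2 ⊢
    rw [e1, e2]; ring
  have hG1L : IsL2 0 (2*π) G1 := hF1.add (hsL.const_mul _)
  have hGL : IsL2 0 (2*π) G := (hFL.sub (hconst m)).sub (hcL.const_mul a)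
  have hG0 : ∫ x in (0:ℝ)..(2*π), G x = 0 := by
    simp only [hG]
    rw [intervalIntegral.integral_sub (hFi.sub intervalIntegrable_const)
      ((hcc.intervalIntegrable _ _).const_mul _),
      intervalIntegral.integral_sub hFi intervalIntegrable_const,
      intervalIntegral.integral_const_mul, ic, hFm]
    simp
  have hGc : ∫ x in (0:ℝ)..(2*π), Real.cos (x/2) * G x = 0 := by
    have e : ∀ x, Real.cos (x/2) * G x = Real.cos (x/2) * F x - m * Real.cos (x/2)
        - a * Real.cos (x/2)^2 := by intro x; simp only [hG]; ring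
    simp_rw [e]
    rw [intervalIntegral.integral_sub, intervalIntegral.integral_sub,
      intervalIntegral.integral_const_mul, intervalIntegral.integral_const_mul, ic, ic2, hcF]
    · ring
    · exact hcL.mul h2pi hFL
    · exact (hcc.intervalIntegrable _ _).const_mul _
    · exact (hcL.mul h2pi hFL).sub ((hcc.intervalIntegrable _ _).const_mul _)
    · exact (hcL.sq h2pi).const_mul _
  have w := CrackAlg.wirt_second hGp hG1L hG0 hGc
  -- ∫ sin (x/2) G1 = 0
  have hsG : ∫ x in (0:ℝ)..(2*π), Real.sin (x/2) * G1 x = 0 := by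
    have ib := hsinprim.ibp h2pi hGp
    -- ∫ G1 * sin = G(2π) sin π - G 0 sin 0 - ∫ G * (1/2 cos)
    have e1 : ∫ x in (0:ℝ)..(2*π), G1 x * Real.sin (x/2) = ∫ x in (0:ℝ)..(2*π), Real.sin (x/2) * G1 x := by
      congr 1; ext x; ring
    have e2 : ∫ x in (0:ℝ)..(2*π), G x * (1/2 * Real.cos (x/2))
        = (1/2) * ∫ x in (0:ℝ)..(2*π), Real.cos (x/2) * G x := by
      rw [← intervalIntegral.integral_const_mul]; congr 1; ext x; ring
    rw [e1, e2, hGc] at ib
    have e3 : (2*π)/2 = π := by ring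
    rw [ib, e3]; simp
  -- energy of F1
  have eF1 : ∫ x in (0:ℝ)..(2*π), F1 x ^ 2 = (∫ x in (0:ℝ)..(2*π), G1 x ^ 2) + (a^2/4) * π := by
    have e : ∀ x, F1 x ^ 2 = G1 x ^ 2 - a * (Real.sin (x/2) * G1 x) + (a^2/4) * Real.sin (x/2)^2 := by
      intro x; simp only [hG1]; ring
    simp_rw [e]
    rw [intervalIntegral.integral_add, intervalIntegral.integral_sub,
      intervalIntegral.integral_const_mul, intervalIntegral.integral_const_mul, is2, hsG]
    · ring
    · exact hG1L.sq h2pi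
    · exact (hsL.mul h2pi hG1L).const_mul _
    · exact (hG1L.sq h2pi).sub ((hsL.mul h2pi hG1L).const_mul _)
    · exact (hsL.sq h2pi).const_mul _
  set Q : ℝ → ℝ := fun x => (G x + a * Real.cos (x/2)) / 2 - H x with hQ
  have hQL : IsL2 0 (2*π) Q := by
    have : IsL2 0 (2*π) (fun x => (1/2) * (G x + a * Real.cos (x/2)) - H x) :=
      ((hGL.add (hcL.const_mul a)).const_mul (1/2)).sub hH
    convert this using 1
    ext x; simp only [hQ]; ring
  -- ∫ F H
  have eFH : ∫ x in (0:ℝ)..(2*π), F x * H x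
      = (1/4) * (∫ x in (0:ℝ)..(2*π), G x ^ 2) + (a^2/4) * π + (∫ x in (0:ℝ)..(2*π), H x ^ 2)
        - ∫ x in (0:ℝ)..(2*π), Q x ^ 2 := by
    have e : ∀ x, F x * H x = (1/4) * G x ^ 2 + (a/2) * (Real.cos (x/2) * G x)
        + (a^2/4) * Real.cos (x/2)^2 + H x ^ 2 - Q x ^ 2 + m * H x := by
      intro x; simp only [hQ, hG]; ring
    simp_rw [e]
    have i1 := (hGL.sq h2pi).const_mul (1/4)
    have i2 := (hcL.mul h2pi hGL).const_mul (a/2)
    have i3 := (hcL.sq h2pi).const_mul (a^2/4)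
    have i4 := hH.sq h2pi
    have i5 := hQL.sq h2pi
    have i6 := (hH.intervalIntegrable h2pi).const_mul m
    rw [intervalIntegral.integral_add ((((i1.add i2).add i3).add i4).sub i5) i6,
      intervalIntegral.integral_sub (((i1.add i2).add i3).add i4) i5,
      intervalIntegral.integral_add ((i1.add i2).add i3) i4,
      intervalIntegral.integral_add (i1.add i2) i3,
      intervalIntegral.integral_add i1 i2]
    simp only [intervalIntegral.integral_const_mul]
    rw [hGc, ic2, hH0]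
    ring
  rw [eF1, eFH] at heq
  have p1 : 0 ≤ ∫ x in (0:ℝ)..(2*π), G1 x ^ 2 :=
    intervalIntegral.integral_nonneg h2pi fun x _ => sq_nonneg _
  have p2 : 0 ≤ ∫ x in (0:ℝ)..(2*π), Q x ^ 2 :=
    intervalIntegral.integral_nonneg h2pi fun x _ => sq_nonneg _
  have z1 : ∫ x in (0:ℝ)..(2*π), G1 x ^ 2 = 0 := by nlinarith
  have z2 : ∫ x in (0:ℝ)..(2*π), Q x ^ 2 = 0 := by nlinarith
  obtain ⟨g1, g2⟩ := hGp.eq_of_sq_zero h2pi hG1L z1
  have hGz : ∀ x ∈ Icc (0:ℝ) (2*π), G x = 0 := by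
    have e : ∫ x in (0:ℝ)..(2*π), G x = ∫ x in (0:ℝ)..(2*π), G 0 :=
      intervalIntegral.integral_congr fun x hx => g2 x (by rwa [uIcc_of_le h2pi] at hx)
    rw [hG0, intervalIntegral.integral_const, smul_eq_mul] at e
    have : G 0 = 0 := by
      have h1 : (2*π - 0) ≠ 0 := by rw [sub_zero]; positivity
      rcases mul_eq_zero.1 e.symm with h | h
      · exact absurd h h1
      · exact h
    intro x hx
    rw [g2 x hx, this]
  refine ⟨m, a, fun x hx => ?_, ?_, ?_⟩
  · have := hGz x hx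
    simp only [hG] at this
    linarith
  · filter_upwards [g1] with x hx
    simp only [hG1] at hx
    linarith
  · have hQz : ∀ᵐ x ∂(volume.restrict (Ioc (0:ℝ) (2*π))), Q x = 0 := by
      rw [intervalIntegral.integral_of_le h2pi] at z2
      have hi := hQL.sq h2pi
      rw [intervalIntegrable_iff_integrableOn_Ioc_of_le h2pi] at hi
      have := (setIntegral_eq_zero_iff_of_nonneg_ae (Eventually.of_forall fun x => sq_nonneg (Q x))
        hi).1 z2
      filter_upwards [this] with x hx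
      simpa using hx
    filter_upwards [hQz, ae_restrict_mem measurableSet_Ioc] with x hx hxm
    have := hGz x (Ioc_subset_Icc_self hxm)
    simp only [hQ, this] at hx
    linarith

end Crest.Agent.R135
end
end

-- ▼ part R135/BonMono
section

/-!
# R135: monotonicity of `D(r)/r` (helper898)
-/

set_option autoImplicit false

open MeasureTheory Set Filter Topology Metric
open scoped Real ENNReal NNReal ContDiff Gradient

noncomputable section

namespace Crest.Agent.R135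

/-- One dimensional lemma: `D = ∫ E`, `D ≤ t E` a.e. implies that `D(t)/t` is nondecreasing. -/
theorem mono_div_of_ineq {D E : ℝ → ℝ} (hi : ∀ r, 0 ≤ r → IntervalIntegrable E volume 0 r)
    (hD : ∀ r, 0 ≤ r → D r = ∫ t in (0:ℝ)..r, E t)
    (hae : ∀ᵐ t ∂(volume.restrict (Ioi (0:ℝ))), D t ≤ t * E t) :
    MonotoneOn (fun r => D r / r) (Ioi 0) := by
  intro r1 h1 r2 h2 h12
  have h1' : (0:ℝ) < r1 := h1
  have h2' : (0:ℝ) < r2 := h2
  have hii : ∀ a b, 0 ≤ a → 0 ≤ b → IntervalIntegrable E volume a b := fun a b ha hb =>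
    (hi a ha).symm.trans (hi b hb)
  have hP : IsPrim r1 r2 D E := by
    refine ⟨hii r1 r2 h1'.le h2'.le, fun t ht => ?_⟩
    have ht0 : 0 ≤ t := h1'.le.trans ht.1
    rw [hD t ht0, hD r1 h1'.le,
      intervalIntegral.integral_add_adjacent_intervals (hi r1 h1'.le) (hii r1 t h1'.le ht0)]
  have hQ : IsPrim r1 r2 (fun t => t⁻¹) (fun t => -(t^2)⁻¹) := by
    apply isPrim_of_hasDerivAt h12
    · intro t ht
      have ht0 : t ≠ 0 := (lt_of_lt_of_le h1' ht.1).ne'
      exact hasDerivAt_inv ht0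
    · intro t ht
      have ht0 : t ≠ 0 := (lt_of_lt_of_le h1' ht.1).ne'
      exact (ContinuousAt.neg (ContinuousAt.inv₀ (by fun_prop) (by positivity))).continuousWithinAt
  have ib := hP.ibp h12 hQ
  have hDc := hP.continuousOn h12
  have hcQ1 : ContinuousOn (fun t : ℝ => -(t^2)⁻¹) (Icc r1 r2) := by
    intro t ht
    have ht0 : t ≠ 0 := (lt_of_lt_of_le h1' ht.1).ne'
    exact (ContinuousAt.neg (ContinuousAt.inv₀ (by fun_prop) (by positivity))).continuousWithinAt
  have hcQ : ContinuousOn (fun t : ℝ => t⁻¹) (uIcc r1 r2) := by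
    rw [uIcc_of_le h12]
    intro t ht
    have ht0 : t ≠ 0 := (lt_of_lt_of_le h1' ht.1).ne'
    exact (ContinuousAt.inv₀ (by fun_prop) ht0).continuousWithinAt
  have i1 : IntervalIntegrable (fun t => -(t^2)⁻¹ * D t) volume r1 r2 := by
    apply ContinuousOn.intervalIntegrable
    rw [uIcc_of_le h12]
    exact hcQ1.mul hDc
  have i2 : IntervalIntegrable (fun t => t⁻¹ * E t) volume r1 r2 :=
    (hii r1 r2 h1'.le h2'.le).continuousOn_mul hcQ
  have key : D r2 / r2 - D r1 / r1 = ∫ t in r1..r2, (-(t^2)⁻¹ * D t + t⁻¹ * E t) := by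
    rw [intervalIntegral.integral_add i1 i2]
    have : D r2 / r2 - D r1 / r1 = r2⁻¹ * D r2 - r1⁻¹ * D r1 := by ring
    rw [this]
    linarith
  have hnn : 0 ≤ ∫ t in r1..r2, (-(t^2)⁻¹ * D t + t⁻¹ * E t) := by
    apply intervalIntegral.integral_nonneg_of_ae_restrict h12
    have hsub : Icc r1 r2 ⊆ Ioi 0 := fun t ht => lt_of_lt_of_le h1' ht.1
    have := ae_restrict_of_ae_restrict_of_subset hsub hae
    filter_upwards [this, ae_restrict_mem measurableSet_Icc] with t ht htm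
    have ht0 : 0 < t := hsub htm
    have e : -(t^2)⁻¹ * D t + t⁻¹ * E t = (t^2)⁻¹ * (t * E t - D t) := by
      field_simp
      ring
    rw [Pi.zero_apply, e]
    exact mul_nonneg (by positivity) (by linarith)
  show D r1 / r1 ≤ D r2 / r2
  linarith

end Crest.Agent.R135
end
end

-- ▼ part R135/BonCone1
section

/-!
# R135: cone theorem, step 1: profile on almost every circle (helper898)
-/

set_option autoImplicit false

open MeasureTheory Set Filter Topology Metric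
open scoped Real ENNReal NNReal ContDiff Gradient

noncomputable section

namespace Crest.Agent.R135

namespace Bon

/-- profile of `u` on the circle `∂B_r(x)` with crack angle `θ₀`. -/
structure Prof (e : ℝ) (u : E2 → ℝ) (K : Set E2) (x : E2) (r θ₀ m a : ℝ) : Prop where
  crack : K ∩ sphere x r = {cpt x r θ₀}
  amp : a ^ 2 = 2 * e * r / π
  val : ∀ θ ∈ Ioo θ₀ (θ₀ + 2 * π), u (cpt x r θ) = m + a * Real.cos ((θ - θ₀) / 2)
  tan : ∀ θ ∈ Ioo θ₀ (θ₀ + 2 * π), r * inner ℝ (gradient u (cpt x r θ)) (tau θ)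
    = -(a/2) * Real.sin ((θ - θ₀) / 2)
  rad : ∀ θ ∈ Ioo θ₀ (θ₀ + 2 * π), r * inner ℝ (gradient u (cpt x r θ)) (dir θ)
    = (a/2) * Real.cos ((θ - θ₀) / 2)

lemma dir_shift (θ : ℝ) (n : ℤ) : dir (θ + 2 * π * n) = dir θ :=
  dir_eq_dir_iff.2 ⟨n, by ring⟩

lemma cpt_shift (x : E2) (r θ : ℝ) (n : ℤ) : cpt x r (θ + 2 * π * n) = cpt x r θ := by
  simp only [cpt, dir_shift]

lemma tau_shift (θ : ℝ) (n : ℤ) : tau (θ + 2 * π * n) = tau θ := by
  have h1 : Real.sin (θ + 2 * π * n) = Real.sin θ := by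
    have := Real.sin_add_int_mul_two_pi θ n
    rw [← this]; congr 1; ring
  have h2 : Real.cos (θ + 2 * π * n) = Real.cos θ := by
    have := Real.cos_add_int_mul_two_pi θ n
    rw [← this]; congr 1; ring
  simp only [tau, h1, h2]

theorem Prof.shift {e : ℝ} {u : E2 → ℝ} {K : Set E2} {x : E2} {r θ₀ m a : ℝ}
    (h : Prof e u K x r θ₀ m a) (n : ℤ) :
    Prof e u K x r (θ₀ + 2 * π * n) m a := by
  have key : ∀ θ ∈ Ioo (θ₀ + 2 * π * n) (θ₀ + 2 * π * n + 2 * π),
      ∃ θ' ∈ Ioo θ₀ (θ₀ + 2 * π), θ = θ' + 2 * π * n := by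
    intro θ hθ
    exact ⟨θ - 2 * π * n, ⟨by linarith [hθ.1], by linarith [hθ.2]⟩, by ring⟩
  have hc : ∀ θ' : ℝ, (θ' + 2 * π * n - (θ₀ + 2 * π * n)) / 2
      = (θ' - θ₀) / 2 := fun θ' => by ring
  refine ⟨?_, h.amp, ?_, ?_, ?_⟩
  · rw [cpt_shift]; exact h.crack
  · intro θ hθ
    obtain ⟨θ', h', rfl⟩ := key θ hθ
    rw [cpt_shift, hc]; exact h.val θ' h'
  · intro θ hθ
    obtain ⟨θ', h', rfl⟩ := key θ hθ
    rw [cpt_shift, tau_shift, hc]; exact h.tan θ' h'
  · intro θ hθ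
    obtain ⟨θ', h', rfl⟩ := key θ hθ
    rw [cpt_shift, dir_shift, hc]; exact h.rad θ' h'

/-- the crack angle can be chosen with a given non-crack angle in the window -/
theorem Prof.window {e : ℝ} {u : E2 → ℝ} {K : Set E2} {x : E2} {r θ₀ m a : ℝ}
    (h : Prof e u K x r θ₀ m a) {θ : ℝ} (hθ : cpt x r θ ∉ K) :
    ∃ n : ℤ, θ ∈ Ioo (θ₀ + 2 * π * n) (θ₀ + 2 * π * n + 2 * π) := by
  have hpi := Real.two_pi_pos
  refine ⟨⌊(θ - θ₀) / (2 * π)⌋, ?_, ?_⟩
  · have h1 := Int.floor_le ((θ - θ₀) / (2 * π))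
    rw [le_div_iff₀ hpi] at h1
    rcases h1.lt_or_eq with h2 | h2
    · linarith
    · exfalso
      apply hθ
      have : θ = θ₀ + 2 * π * (⌊(θ - θ₀) / (2 * π)⌋ : ℤ) := by linarith
      rw [this, cpt_shift]
      have : cpt x r θ₀ ∈ K ∩ sphere x r := by rw [h.crack]; rfl
      exact this.1
  · have h1 := Int.lt_floor_add_one ((θ - θ₀) / (2 * π))
    rw [div_lt_iff₀ hpi] at h1
    linarith

/-- gradient of the class function off `K` -/
lemma hasGradientAt {U : Set E2} {lam : ℝ} {u : E2 → ℝ} {K : Set E2} (h : IsQM U lam u K)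
    (hUK : IsOpen (U \ K)) {y : E2} (hy : y ∈ U \ K) : HasGradientAt u (gradient u y) y := by
  have h1 : DifferentiableAt ℝ u y :=
    (h.c1.contDiffAt (hUK.mem_nhds hy)).differentiableAt (by simp)
  exact h1.hasGradientAt

lemma isOpen_compl_of_isQM {lam : ℝ} {u : E2 → ℝ} {K : Set E2} (h : IsQM univ lam u K) :
    IsClosed K := by
  have := h.closed
  rw [inter_univ] at this
  exact isClosed_of_closure_subset this

lemma hasGradientAt_univ {lam : ℝ} {u : E2 → ℝ} {K : Set E2} (h : IsQM univ lam u K)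
    {y : E2} (hy : y ∉ K) : HasGradientAt u (gradient u y) y :=
  hasGradientAt h (by
    rw [← compl_eq_univ_sdiff]; exact (isOpen_compl_of_isQM h).isOpen_compl) ⟨mem_univ _, hy⟩

lemma continuousOn_gradient {lam : ℝ} {u : E2 → ℝ} {K : Set E2} (h : IsQM univ lam u K) :
    ContinuousOn (gradient u) Kᶜ := by
  have h1 : ContDiffOn ℝ 1 u Kᶜ := by rw [compl_eq_univ_sdiff]; exact h.c1
  have ho : IsOpen Kᶜ := (isOpen_compl_of_isQM h).isOpen_compl
  have h2 := h1.continuousOn_fderiv_of_isOpen ho le_rfl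
  exact (InnerProductSpace.toDual ℝ E2).symm.continuous.comp_continuousOn h2

/-- almost every circle carries an `L²` gradient -/
theorem ae_good {u : E2 → ℝ} {K : Set E2} (h : IsQM univ 0 u K) (x : E2) :
    ∀ᵐ r ∂(volume.restrict (Ioi (0:ℝ))), GoodCirc K (gradient u) x r := by
  have hR : ∀ n : ℕ, ∀ᵐ t : ℝ, t ∈ Ioo 0 (n:ℝ) → GoodCirc K (gradient u) x t := by
    intro n
    apply ae_goodCirc'
    · exact (measure_mono (inter_subset_inter_right _ ball_subset_closedBall)).trans_lt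
        (h.len_fin x n (subset_univ _))
    · have h1 := (continuousOn_gradient h).aestronglyMeasurable (μ := volume)
        (isOpen_compl_of_isQM h).isOpen_compl.measurableSet
      exact h1.mono_measure (Measure.restrict_mono (fun y hy => hy.2) le_rfl)
    · exact (lintegral_mono_set (sdiff_subset_sdiff_left ball_subset_closedBall)).trans_lt
        (h.dir_fin x n (subset_univ _))
  rw [ae_restrict_iff' measurableSet_Ioi]
  filter_upwards [ae_all_iff.2 hR] with t ht ht0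
  obtain ⟨n, hn⟩ := exists_nat_gt t
  exact ht n ⟨ht0, hn⟩

/-- shift of a primitive -/
lemma isPrim_shift {a b c : ℝ} {F F1 : ℝ → ℝ} (h : IsPrim (a + c) (b + c) F F1) :
    IsPrim a b (fun x => F (x + c)) (fun x => F1 (x + c)) := by
  refine ⟨?_, fun x hx => ?_⟩
  · have := h.1.comp_add_right c
    simpa using this
  · have h1 := h.2 (x + c) ⟨by linarith [hx.1], by linarith [hx.2]⟩
    simp only
    rw [h1, intervalIntegral.integral_comp_add_right]

lemma isL2_shift {a b c : ℝ} {f : ℝ → ℝ} (h : IsL2 (a + c) (b + c) f) :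
    IsL2 a b (fun x => f (x + c)) := by
  have hmp : MeasurePreserving (fun x : ℝ => x + c) (volume.restrict (Ioc a b))
      (volume.restrict (Ioc (a + c) (b + c))) := by
    have h1 := (measurePreserving_add_right (volume : Measure ℝ) c).restrict_preimage
      (s := Ioc (a + c) (b + c)) measurableSet_Ioc
    have : (fun x : ℝ => x + c) ⁻¹' (Ioc (a + c) (b + c)) = Ioc a b := by
      ext x; simp
    rwa [this] at h1
  exact h.comp_measurePreserving hmp

/-- on almost every circle the equality case of Bonnet's inequality holds -/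
theorem cone_circle {u : E2 → ℝ} {K : Set E2} (h : IsQM univ 0 u K) {x : E2}
    (hz : ZeroFlux u K x) {e : ℝ} (he : 0 < e) (hD : ∀ r, 0 < r → Dr u K x r = e * r) :
    ∀ᵐ r ∂(volume.restrict (Ioi (0:ℝ))), ∃ θ₀ m a, Prof e u K x r θ₀ m a := by
  have hpi := Real.pi_pos
  have hcirc : ∀ᵐ r ∂(volume.restrict (Ioi (0:ℝ))), HasDerivAt (fun s => Dr u K x s) (cirE u x r) r := by
    rw [ae_restrict_iff' measurableSet_Ioi]
    have hn : ∀ n : ℕ, ∀ᵐ r : ℝ, r ∈ Ioo 0 (n:ℝ) → HasDerivAt (fun s => Dr u K x s) (cirE u x r) r := by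
      intro n
      have := h.ae_circle (x := x) (R := n) (subset_univ _)
      rw [ae_restrict_iff' measurableSet_Ioo] at this
      filter_upwards [this] with r hr hm
      exact (hr hm).2.2
    filter_upwards [ae_all_iff.2 hn] with t ht ht0
    obtain ⟨n, hn⟩ := exists_nat_gt t
    exact ht n ⟨ht0, hn⟩
  filter_upwards [ae_good h x, hcirc, hz, energy_identity h x, bonnet_arc h x, bonnet_empty h x,
    ae_restrict_mem measurableSet_Ioi] with r hg hd hzr hei hba hbe hr0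
  have hr : 0 < r := hr0
  -- circle energy
  have hcE : cirE u x r = e := by
    have h1 : HasDerivAt (fun s => Dr u K x s) e r := by
      have h2 : HasDerivAt (fun s => e * s) e r := by
        simpa using (hasDerivAt_id r).const_mul e
      refine h2.congr_of_eventuallyEq ?_
      filter_upwards [Ioi_mem_nhds hr] with s hs using hD s hs
    exact hd.unique h1
  have hDr := hD r hr
  -- the circle meets K
  have hne : (K ∩ sphere x r).Nonempty := by
    by_contra hc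
    have := hbe (not_nonempty_iff_eq_empty.1 hc)
    rw [hDr, hcE] at this
    nlinarith
  obtain ⟨y, hyK, hys⟩ := hne
  obtain ⟨θ₀, -, hθ₀⟩ := exists_cpt_eq hr hys 0
  have hθK : cpt x r θ₀ ∈ K := by rw [hθ₀]; exact hyK
  -- uniqueness
  have huniq : ∀ θ ∈ Ioo θ₀ (θ₀ + 2 * π), cpt x r θ ∉ K := by
    intro θ₁ hθ₁ hK1
    set A := max (θ₁ - θ₀) (θ₀ + 2 * π - θ₁) with hA
    have hA1 : A < 2 * π := max_lt (by linarith [hθ₁.2]) (by linarith [hθ₁.1])
    have hlen : ∀ a b, IsArc K x r a b → b - a ≤ A := by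
      rintro a b ⟨hab, hb2, haK, hbK, hno⟩
      -- shift so that a ∈ [θ₀, θ₀+2π)
      obtain ⟨n, hn⟩ : ∃ n : ℤ, θ₀ + 2 * π * n ≤ a ∧ a < θ₀ + 2 * π * n + 2 * π := by
        refine ⟨⌊(a - θ₀) / (2 * π)⌋, ?_, ?_⟩
        · have h1 := Int.floor_le ((a - θ₀) / (2 * π))
          rw [le_div_iff₀ (by positivity)] at h1
          linarith
        · have h1 := Int.lt_floor_add_one ((a - θ₀) / (2 * π))
          rw [div_lt_iff₀ (by positivity)] at h1
          linarith
      rcases lt_or_ge a (θ₁ + 2 * π * n) with hlt | hge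
      · -- b ≤ θ₁ + 2πn
        have : b ≤ θ₁ + 2 * π * n := by
          by_contra hc
          push Not at hc
          exact hno (θ₁ + 2 * π * n) ⟨hlt, hc⟩ (by rw [cpt_shift]; exact hK1)
        exact le_max_of_le_left (by linarith [hn.1])
      · have : b ≤ θ₀ + 2 * π * ((n + 1 : ℤ) : ℝ) := by
          by_contra hc
          push Not at hc
          refine hno (θ₀ + 2 * π * ((n + 1 : ℤ) : ℝ)) ⟨?_, hc⟩ (by rw [cpt_shift]; exact hθK)
          push_cast
          linarith [hn.2]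
        push_cast at this
        exact le_max_of_le_right (by linarith)
    have h1 := hba ⟨y, hyK, hys⟩ hzr A hlen
    rw [hDr, hcE] at h1
    have h2 : A / (2 * π) * (r * e) < 1 * (r * e) := by
      apply mul_lt_mul_of_pos_right _ (by positivity)
      rw [div_lt_one (by positivity)]; exact hA1
    linarith
  have hcrack : K ∩ sphere x r = {cpt x r θ₀} := by
    ext z
    constructor
    · rintro ⟨hzK, hzs⟩
      obtain ⟨θ, hθ, rfl⟩ := exists_cpt_eq hr hzs θ₀
      rcases hθ.1.eq_or_lt with h1 | h1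
      · rw [← h1]; rfl
      · exact absurd hzK (huniq θ ⟨h1, hθ.2⟩)
    · rintro rfl
      exact ⟨hθK, cpt_mem_sphere hr.le⟩
  -- gradients on the arc
  have hgrad : ∀ θ ∈ Ioo θ₀ (θ₀ + 2 * π), HasGradientAt u (gradient u (cpt x r θ)) (cpt x r θ) :=
    fun θ hθ => hasGradientAt_univ h (huniq θ hθ)
  obtain ⟨F, hF, hFu⟩ := hg.exists_isPrim (by linarith : θ₀ < θ₀ + 2 * π) hgrad
  set Q : ℝ → ℝ := fun θ => r * inner ℝ (gradient u (cpt x r θ)) (tau θ) with hQ
  set H : ℝ → ℝ := fun θ => r * inner ℝ (gradient u (cpt x r θ)) (dir θ) with hH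
  have hQL : IsL2 θ₀ (θ₀ + 2 * π) Q := (hg.isL2_tau _ _).const_mul r
  have hHL : IsL2 θ₀ (θ₀ + 2 * π) H := (hg.isL2_dir _ _).const_mul r
  have e0 : (0:ℝ) + θ₀ = θ₀ := zero_add _
  have e1 : 2 * π + θ₀ = θ₀ + 2 * π := add_comm _ _
  have hle : θ₀ ≤ θ₀ + 2 * π := by linarith
  -- flux
  have hflux : ∫ θ in θ₀..(θ₀ + 2 * π), H θ = 0 := by
    have := hzr θ₀ (θ₀ + 2 * π) ⟨by linarith, le_rfl, hθK, by
      have := cpt_shift x r θ₀ 1
      simp only [Int.cast_one, mul_one] at this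
      rw [this]; exact hθK, huniq⟩
    rw [flux] at this
    simp only [hH]
    rw [intervalIntegral.integral_const_mul]
    exact this
  -- energy
  have hE : (∫ θ in θ₀..(θ₀ + 2 * π), Q θ ^ 2) + ∫ θ in θ₀..(θ₀ + 2 * π), H θ ^ 2 = e * r := by
    have h1 := hg.integral_sq_split hle
    have h2 : circI (fun y => ‖gradient u y‖ ^ 2) x r
        = ∫ θ in θ₀..(θ₀ + 2 * π), ‖gradient u (cpt x r θ)‖ ^ 2 := circI_eq_shift _ _ _ _
    have h3 : r * ∫ θ in θ₀..(θ₀ + 2 * π), ‖gradient u (cpt x r θ)‖ ^ 2 = e := by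
      rw [← h2]; exact hcE
    have h4 : (∫ θ in θ₀..(θ₀ + 2 * π), Q θ ^ 2)
        = r ^ 2 * ∫ θ in θ₀..(θ₀ + 2 * π), (inner ℝ (gradient u (cpt x r θ)) (tau θ)) ^ 2 := by
      rw [← intervalIntegral.integral_const_mul]
      congr 1; ext θ; simp only [hQ]; ring
    have h5 : (∫ θ in θ₀..(θ₀ + 2 * π), H θ ^ 2)
        = r ^ 2 * ∫ θ in θ₀..(θ₀ + 2 * π), (inner ℝ (gradient u (cpt x r θ)) (dir θ)) ^ 2 := by
      rw [← intervalIntegral.integral_const_mul]
      congr 1; ext θ; simp only [hH]; ring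
    rw [h4, h5, ← h3, h1]; ring
  -- energy identity
  have hFH : ∫ θ in θ₀..(θ₀ + 2 * π), F θ * H θ = e * r := by
    have h1 : ∫ θ in θ₀..(θ₀ + 2 * π), F θ * H θ
        = ∫ θ in θ₀..(θ₀ + 2 * π), u (cpt x r θ) * H θ := by
      rw [intervalIntegral.integral_of_le hle, intervalIntegral.integral_of_le hle,
        integral_Ioc_eq_integral_Ioo, integral_Ioc_eq_integral_Ioo]
      exact setIntegral_congr_fun measurableSet_Ioo fun θ hθ => by
        rw [hFu hθ]
    have h2 : ∫ θ in θ₀..(θ₀ + 2 * π), u (cpt x r θ) * H θ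
        = r * ∫ θ in (-π)..π, u (cpt x r θ) * inner ℝ (gradient u (cpt x r θ)) (dir θ) := by
      have hper : Function.Periodic
          (fun θ => u (cpt x r θ) * inner ℝ (gradient u (cpt x r θ)) (dir θ)) (2 * π) := by
        intro θ
        simp only [cpt_periodic x r θ, dir_periodic θ]
      have h3 := hper.intervalIntegral_add_eq (-π) θ₀
      have h4 : -π + 2 * π = π := by ring
      rw [h4] at h3
      rw [h3, ← intervalIntegral.integral_const_mul]
      congr 1; ext θ; simp only [hH]; ring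
    rw [h1, h2, ← hei, hDr]
  -- shift to (0, 2π)
  have hF' : IsPrim 0 (2 * π) (fun φ => F (φ + θ₀)) (fun φ => Q (φ + θ₀)) := by
    apply isPrim_shift
    rw [e0, e1]; exact hF
  have hQ' : IsL2 0 (2 * π) (fun φ => Q (φ + θ₀)) := by
    apply isL2_shift
    rw [e0, e1]; exact hQL
  have hH' : IsL2 0 (2 * π) (fun φ => H (φ + θ₀)) := by
    apply isL2_shift
    rw [e0, e1]; exact hHL
  have sh : ∀ g : ℝ → ℝ, ∫ φ in (0:ℝ)..(2 * π), g (φ + θ₀) = ∫ θ in θ₀..(θ₀ + 2 * π), g θ := by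
    intro g
    rw [intervalIntegral.integral_comp_add_right, e0, e1]
  obtain ⟨m, a, k1, k2, k3⟩ := arc_eq hF' hQ' hH' (by rw [sh H]; exact hflux) (by
    rw [sh (fun θ => Q θ ^ 2), sh (fun θ => H θ ^ 2), sh (fun θ => F θ * H θ), hE, hFH])
  -- continuity on the open arc
  have hgc : ContinuousOn (fun θ => gradient u (cpt x r θ)) (Ioo θ₀ (θ₀ + 2 * π)) := by
    have hc : Continuous (cpt x r) :=
      (continuous_cpt x).comp (Continuous.prodMk continuous_const continuous_id)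
    exact (continuousOn_gradient h).comp hc.continuousOn fun θ hθ => huniq θ hθ
  have up : ∀ f g : ℝ → ℝ, ContinuousOn f (Ioo θ₀ (θ₀ + 2 * π)) → Continuous g →
      (∀ᵐ φ ∂(volume.restrict (Ioc (0:ℝ) (2 * π))), f (φ + θ₀) = g (φ + θ₀)) →
      ∀ θ ∈ Ioo θ₀ (θ₀ + 2 * π), f θ = g θ := by
    intro f g hf hgc hae θ hθ
    have h1 : EqOn (fun φ => f (φ + θ₀)) (fun φ => g (φ + θ₀)) (Ioo 0 (2 * π)) := by
      refine Measure.eqOn_open_of_ae_eq (μ := volume) ?_ isOpen_Ioo ?_ ?_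
      · exact ae_restrict_of_ae_restrict_of_subset Ioo_subset_Ioc_self hae
      · refine hf.comp (by fun_prop) fun φ hφ => ⟨by linarith [hφ.1], by linarith [hφ.2]⟩
      · exact (hgc.comp (by fun_prop)).continuousOn
    have h2 := h1 (x := θ - θ₀) ⟨by linarith [hθ.1], by linarith [hθ.2]⟩
    simpa using h2
  have hQc : ContinuousOn Q (Ioo θ₀ (θ₀ + 2 * π)) :=
    continuousOn_const.mul (hgc.inner continuous_tau.continuousOn)
  have hHc : ContinuousOn H (Ioo θ₀ (θ₀ + 2 * π)) :=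
    continuousOn_const.mul (hgc.inner continuous_dir.continuousOn)
  have hQe := up Q (fun θ => -(a/2) * Real.sin ((θ - θ₀) / 2)) hQc (by fun_prop) (by
    filter_upwards [k2] with φ hφ
    rw [hφ]; congr 2; ring)
  have hHe := up H (fun θ => (a/2) * Real.cos ((θ - θ₀) / 2)) hHc (by fun_prop) (by
    filter_upwards [k3] with φ hφ
    rw [hφ]; congr 2; ring)
  refine ⟨θ₀, m, a, hcrack, ?_, ?_, hQe, hHe⟩
  · -- amplitude
    have h1 : ∫ θ in θ₀..(θ₀ + 2 * π), Q θ ^ 2 = a ^ 2 / 4 * π := by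
      rw [← sh (fun θ => Q θ ^ 2), intervalIntegral.integral_congr_ae
        (g := fun φ => a ^ 2 / 4 * Real.sin (φ / 2) ^ 2)]
      · rw [intervalIntegral.integral_const_mul, CrackAlg.int_sin_half_sq]
        simp
      · rw [uIoc_of_le (by positivity), ← ae_restrict_iff' measurableSet_Ioc]
        filter_upwards [k2] with φ hφ
        rw [hφ]; ring
    have h2 : ∫ θ in θ₀..(θ₀ + 2 * π), H θ ^ 2 = a ^ 2 / 4 * π := by
      rw [← sh (fun θ => H θ ^ 2), intervalIntegral.integral_congr_ae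
        (g := fun φ => a ^ 2 / 4 * Real.cos (φ / 2) ^ 2)]
      · rw [intervalIntegral.integral_const_mul, CrackAlg.int_cos_half_sq]
        simp
      · rw [uIoc_of_le (by positivity), ← ae_restrict_iff' measurableSet_Ioc]
        filter_upwards [k3] with φ hφ
        rw [hφ]; ring
    rw [h1, h2] at hE
    rw [eq_div_iff hpi.ne']
    linarith
  · intro θ hθ
    have h1 := k1 (θ - θ₀) ⟨by linarith [hθ.1], by linarith [hθ.2]⟩
    simp only [sub_add_cancel] at h1
    rw [← h1]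
    exact (hFu hθ).symm

end Bon

end Crest.Agent.R135
end
end

-- ▼ part R135/BonCone2
section

/-!
# R135: cone theorem, step 2: the crack direction is constant (helper898)
-/

set_option autoImplicit false

open MeasureTheory Set Filter Topology Metric
open scoped Real ENNReal NNReal ContDiff Gradient

noncomputable section

namespace Crest.Agent.R135

namespace Bon

/-- polar rectangle off `K` around a point off `K` -/
lemma exists_rect {K : Set E2} (hK : IsClosed K) {x : E2} {r₀ θ' : ℝ} (hr : 0 < r₀)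
    (hy : cpt x r₀ θ' ∉ K) : ∃ δ > 0, δ < r₀ ∧ ∀ r ∈ Ioo (r₀ - δ) (r₀ + δ),
      ∀ θ ∈ Ioo (θ' - δ) (θ' + δ), cpt x r θ ∉ K := by
  have h1 : ∀ᶠ p in 𝓝 (r₀, θ'), cpt x p.1 p.2 ∉ K := by
    have h0 : Tendsto (fun p : ℝ × ℝ => cpt x p.1 p.2) (𝓝 (r₀, θ')) (𝓝 (cpt x r₀ θ')) :=
      (continuous_cpt x).continuousAt
    exact h0 (hK.isOpen_compl.mem_nhds hy)
  rw [Metric.eventually_nhds_iff] at h1
  obtain ⟨δ, hδ, h⟩ := h1
  refine ⟨min δ (r₀ / 2), by positivity, (min_le_right _ _).trans_lt (by linarith), ?_⟩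
  intro r hr' θ hθ
  have := h (y := (r, θ)) (by
    rw [Prod.dist_eq, max_lt_iff]
    constructor
    · rw [Real.dist_eq, abs_lt]
      constructor <;> linarith [hr'.1, hr'.2, min_le_left δ (r₀ / 2)]
    · rw [Real.dist_eq, abs_lt]
      constructor <;> linarith [hθ.1, hθ.2, min_le_left δ (r₀ / 2)])
  exact this

lemma continuous_cpt_r (x : E2) (θ : ℝ) : Continuous fun r => cpt x r θ :=
  (continuous_cpt x).comp (Continuous.prodMk continuous_id continuous_const)

lemma continuous_cpt_θ (x : E2) (r : ℝ) : Continuous (cpt x r) :=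
  (continuous_cpt x).comp (Continuous.prodMk continuous_const continuous_id)

/-- window containing a whole interval of angles -/
lemma Prof.window_sub {e : ℝ} {u : E2 → ℝ} {K : Set E2} {x : E2} {r θ₀ m a : ℝ}
    (h : Prof e u K x r θ₀ m a) {θ' δ : ℝ} (hδ : 0 < δ)
    (hI : ∀ θ ∈ Ioo (θ' - δ) (θ' + δ), cpt x r θ ∉ K) :
    ∃ θ₁, Prof e u K x r θ₁ m a ∧ dir θ₁ = dir θ₀ ∧ Ioo (θ' - δ) (θ' + δ) ⊆ Ioo θ₁ (θ₁ + 2 * π) := by
  have hc : θ' ∈ Ioo (θ' - δ) (θ' + δ) := ⟨by linarith, by linarith⟩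
  obtain ⟨n, hn⟩ := h.window (hI θ' hc)
  refine ⟨θ₀ + 2 * π * n, h.shift n, dir_shift _ _, fun θ hθ => ?_⟩
  have hK : cpt x r (θ₀ + 2 * π * n) ∈ K := by
    have : cpt x r (θ₀ + 2 * π * n) ∈ K ∩ sphere x r := by rw [(h.shift n).crack]; rfl
    exact this.1
  have hK2 : cpt x r (θ₀ + 2 * π * n + 2 * π) ∈ K := by
    have := cpt_periodic x r (θ₀ + 2 * π * n)
    rw [this]; exact hK
  constructor
  · by_contra hcon
    push Not at hcon
    exact hI (θ₀ + 2 * π * n) ⟨by linarith [hθ.1], by linarith [hn.1]⟩ hK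
  · by_contra hcon
    push Not at hcon
    exact hI (θ₀ + 2 * π * n + 2 * π) ⟨by linarith [hn.2], by linarith [hθ.2]⟩ hK2

/-- inside a rectangle off `K`, `u(r,θ₁) - u(r,θ₂)` is `√r` times a constant -/
theorem diff_homog {u : E2 → ℝ} {K : Set E2} (h : IsQM univ 0 u K) {x : E2} {e : ℝ}
    (hg : ∀ᵐ r ∂(volume.restrict (Ioi (0:ℝ))), ∃ θ₀ m a, Prof e u K x r θ₀ m a)
    {r₀ θ' δ : ℝ} (hδ : 0 < δ) (hδr : δ < r₀)
    (hR : ∀ r ∈ Ioo (r₀ - δ) (r₀ + δ), ∀ θ ∈ Ioo (θ' - δ) (θ' + δ), cpt x r θ ∉ K)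
    {θ₁ θ₂ : ℝ} (h1 : θ₁ ∈ Ioo (θ' - δ) (θ' + δ)) (h2 : θ₂ ∈ Ioo (θ' - δ) (θ' + δ))
    {r r' : ℝ} (hr : r ∈ Ioo (r₀ - δ) (r₀ + δ)) (hr' : r' ∈ Ioo (r₀ - δ) (r₀ + δ)) :
    (√r)⁻¹ * (u (cpt x r θ₁) - u (cpt x r θ₂)) = (√r')⁻¹ * (u (cpt x r' θ₁) - u (cpt x r' θ₂)) := by
  set J := Ioo (r₀ - δ) (r₀ + δ) with hJ
  have hpos : ∀ t ∈ J, 0 < t := fun t ht => by linarith [ht.1]
  set k : ℝ → ℝ := fun t => u (cpt x t θ₁) - u (cpt x t θ₂) with hk
  set k' : ℝ → ℝ := fun t => inner ℝ (gradient u (cpt x t θ₁)) (dir θ₁)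
    - inner ℝ (gradient u (cpt x t θ₂)) (dir θ₂) with hk'
  have hd : ∀ t ∈ J, HasDerivAt k (k' t) t := fun t ht =>
    (hasDerivAt_ray (hasGradientAt_univ h (hR t ht θ₁ h1))).sub
      (hasDerivAt_ray (hasGradientAt_univ h (hR t ht θ₂ h2)))
  have hgc : ∀ θ ∈ Ioo (θ' - δ) (θ' + δ),
      ContinuousOn (fun t => inner ℝ (gradient u (cpt x t θ)) (dir θ)) J := by
    intro θ hθ
    have h3 : ContinuousOn (fun t => gradient u (cpt x t θ)) J :=
      (continuousOn_gradient h).comp (continuous_cpt_r x θ).continuousOn fun t ht => hR t ht θ hθ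
    exact h3.inner continuousOn_const
  have hk'c : ContinuousOn k' J := (hgc θ₁ h1).sub (hgc θ₂ h2)
  have hkc : ContinuousOn k J := fun t ht => (hd t ht).continuousAt.continuousWithinAt
  have hae : ∀ᵐ t ∂(volume.restrict J), 2 * t * k' t = k t := by
    have hsub : J ⊆ Ioi 0 := fun t ht => hpos t ht
    filter_upwards [ae_restrict_of_ae_restrict_of_subset hsub hg,
      ae_restrict_mem (measurableSet_Ioo : MeasurableSet J)] with t ht htJ
    obtain ⟨θ₀, m, a, hp⟩ := ht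
    obtain ⟨ϑ, hp', -, hsubI⟩ := hp.window_sub hδ (hR t htJ)
    have t0 := hpos t htJ
    have e1 := hp'.val θ₁ (hsubI h1)
    have e2 := hp'.val θ₂ (hsubI h2)
    have e3 := hp'.rad θ₁ (hsubI h1)
    have e4 := hp'.rad θ₂ (hsubI h2)
    simp only [hk, hk']
    rw [e1, e2]
    linear_combination 2 * e3 - 2 * e4
  have heq : EqOn (fun t => 2 * t * k' t) k J :=
    Measure.eqOn_open_of_ae_eq (μ := volume) hae isOpen_Ioo
      ((continuous_const.mul continuous_id).continuousOn.mul hk'c) hkc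
  have hder : ∀ t ∈ J, HasDerivAt (fun t => (√t)⁻¹ * k t) 0 t := by
    intro t ht
    have t0 := hpos t ht
    have hs : HasDerivAt (fun t => √t) (1 / (2 * √t)) t := Real.hasDerivAt_sqrt t0.ne'
    have hs0 : √t ≠ 0 := (Real.sqrt_pos.2 t0).ne'
    have h3 := (hs.inv hs0).mul (hd t ht)
    refine h3.congr_deriv ?_
    have e1 := heq ht
    simp only at e1
    have hsq : √t ^ 2 = t := Real.sq_sqrt t0.le
    have e2 : k' t = k t / (2 * t) := by field_simp; linarith
    simp only [Pi.inv_apply]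
    rw [e2, hsq]
    field_simp
    ring
  have hfin := IsOpen.is_const_of_deriv_eq_zero (f := fun t => (√t)⁻¹ * k t) isOpen_Ioo
    (isPreconnected_Ioo : IsPreconnected J)
    (fun t ht => (hder t ht).differentiableAt.differentiableWithinAt)
    (fun t ht => (hder t ht).deriv) hr hr'
  exact hfin

theorem tan_homog {u : E2 → ℝ} {K : Set E2} (h : IsQM univ 0 u K) {x : E2} {e : ℝ}
    (hg : ∀ᵐ r ∂(volume.restrict (Ioi (0:ℝ))), ∃ θ₀ m a, Prof e u K x r θ₀ m a)
    {r₀ θ' δ : ℝ} (hδ : 0 < δ) (hδr : δ < r₀)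
    (hR : ∀ r ∈ Ioo (r₀ - δ) (r₀ + δ), ∀ θ ∈ Ioo (θ' - δ) (θ' + δ), cpt x r θ ∉ K)
    {θ : ℝ} (hθ : θ ∈ Ioo (θ' - δ) (θ' + δ))
    {r r' : ℝ} (hr : r ∈ Ioo (r₀ - δ) (r₀ + δ)) (hr' : r' ∈ Ioo (r₀ - δ) (r₀ + δ)) :
    (√r)⁻¹ * (r * inner ℝ (gradient u (cpt x r θ)) (tau θ))
      = (√r')⁻¹ * (r' * inner ℝ (gradient u (cpt x r' θ)) (tau θ)) := by
  have hd : ∀ t ∈ Ioo (r₀ - δ) (r₀ + δ), HasDerivAt
      (fun ϑ => (√t)⁻¹ * (u (cpt x t ϑ) - u (cpt x t θ)))
      ((√t)⁻¹ * (t * inner ℝ (gradient u (cpt x t θ)) (tau θ))) θ := by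
    intro t ht
    exact ((hasDerivAt_circle (hasGradientAt_univ h (hR t ht θ hθ))).sub_const _).const_mul _
  have h1 := hd r hr
  have h2 := hd r' hr'
  refine (h1.congr_of_eventuallyEq ?_).unique h2
  filter_upwards [isOpen_Ioo.mem_nhds hθ] with ϑ hϑ
  exact (diff_homog h hg hδ hδr hR hϑ hθ hr hr').symm

/-- inside a rectangle off `K` the crack direction is the same for all good radii -/
theorem dir_const {u : E2 → ℝ} {K : Set E2} (h : IsQM univ 0 u K) {x : E2} {e : ℝ} (he : 0 < e)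
    (hg : ∀ᵐ r ∂(volume.restrict (Ioi (0:ℝ))), ∃ θ₀ m a, Prof e u K x r θ₀ m a)
    {r₀ θ' δ : ℝ} (hδ : 0 < δ) (hδr : δ < r₀)
    (hR : ∀ r ∈ Ioo (r₀ - δ) (r₀ + δ), ∀ θ ∈ Ioo (θ' - δ) (θ' + δ), cpt x r θ ∉ K)
    {r r' : ℝ} (hr : r ∈ Ioo (r₀ - δ) (r₀ + δ)) (hr' : r' ∈ Ioo (r₀ - δ) (r₀ + δ))
    {θ₁ m₁ a₁ θ₂ m₂ a₂ : ℝ} (hp₁ : Prof e u K x r θ₁ m₁ a₁) (hp₂ : Prof e u K x r' θ₂ m₂ a₂) :
    dir θ₁ = dir θ₂ := by
  have hpi := Real.pi_pos
  obtain ⟨φ₁, q₁, d₁, s₁⟩ := hp₁.window_sub hδ (hR r hr)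
  obtain ⟨φ₂, q₂, d₂, s₂⟩ := hp₂.window_sub hδ (hR r' hr')
  rw [← d₁, ← d₂]
  have r0 : 0 < r := by linarith [hr.1]
  have r0' : 0 < r' := by linarith [hr'.1]
  have hs : 0 < √r := Real.sqrt_pos.2 r0
  have hs' : 0 < √r' := Real.sqrt_pos.2 r0'
  have hc : θ' ∈ Ioo (θ' - δ) (θ' + δ) := ⟨by linarith, by linarith⟩
  set α₁ := (√r)⁻¹ * a₁ with hα₁
  set α₂ := (√r')⁻¹ * a₂ with hα₂
  have heq : ∀ θ ∈ Ioo (θ' - δ) (θ' + δ),
      α₁ * Real.sin ((θ - φ₁) / 2) = α₂ * Real.sin ((θ - φ₂) / 2) := by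
    intro θ hθ
    have h1 := tan_homog h hg hδ hδr hR hθ hr hr'
    rw [q₁.tan θ (s₁ hθ), q₂.tan θ (s₂ hθ)] at h1
    simp only [hα₁, hα₂]
    linear_combination (-2) * h1
  have hds : ∀ φ α : ℝ, HasDerivAt (fun θ : ℝ => α * Real.sin ((θ - φ) / 2))
      (α * (Real.cos ((θ' - φ) / 2) * (1 / 2))) θ' := by
    intro φ α
    have h1 : HasDerivAt (fun θ : ℝ => (θ - φ) / 2) (1 / 2) θ' :=
      ((hasDerivAt_id θ').sub_const φ).div_const 2
    exact (h1.sin).const_mul α
  have heq2 : α₁ * Real.cos ((θ' - φ₁) / 2) = α₂ * Real.cos ((θ' - φ₂) / 2) := by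
    have h1 := hds φ₁ α₁
    have h2 := hds φ₂ α₂
    have h3 := (h2.congr_of_eventuallyEq (f₁ := fun θ : ℝ => α₁ * Real.sin ((θ - φ₁) / 2)) (by
      filter_upwards [isOpen_Ioo.mem_nhds hc] with θ hθ using heq θ hθ)).unique h1
    linarith
  have heq1 := heq θ' hc
  have ha1 : α₁ ^ 2 = 2 * e / π := by
    simp only [hα₁]
    rw [mul_pow, q₁.amp, inv_pow, Real.sq_sqrt r0.le]
    field_simp
  have ha2 : α₂ ^ 2 = 2 * e / π := by
    simp only [hα₂]
    rw [mul_pow, q₂.amp, inv_pow, Real.sq_sqrt r0'.le]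
    field_simp
  have hκ : 0 < 2 * e / π := by positivity
  -- cos and sin of the double angles agree
  have hcos : Real.cos (θ' - φ₁) = Real.cos (θ' - φ₂) := by
    have e1 : ∀ φ, Real.cos (θ' - φ) = Real.cos ((θ' - φ) / 2) ^ 2 - Real.sin ((θ' - φ) / 2) ^ 2 := by
      intro φ
      have := Real.cos_two_mul' ((θ' - φ) / 2)
      rw [← this]; congr 1; ring
    rw [e1, e1]
    apply mul_left_cancel₀ hκ.ne'
    calc 2 * e / π * (Real.cos ((θ' - φ₁) / 2) ^ 2 - Real.sin ((θ' - φ₁) / 2) ^ 2)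
        = (α₁ * Real.cos ((θ' - φ₁) / 2)) ^ 2 - (α₁ * Real.sin ((θ' - φ₁) / 2)) ^ 2 := by
          rw [← ha1]; ring
      _ = (α₂ * Real.cos ((θ' - φ₂) / 2)) ^ 2 - (α₂ * Real.sin ((θ' - φ₂) / 2)) ^ 2 := by
          rw [heq1, heq2]
      _ = _ := by rw [← ha2]; ring
  have hsin : Real.sin (θ' - φ₁) = Real.sin (θ' - φ₂) := by
    have e1 : ∀ φ, Real.sin (θ' - φ) = 2 * Real.sin ((θ' - φ) / 2) * Real.cos ((θ' - φ) / 2) := by
      intro φ
      have := Real.sin_two_mul ((θ' - φ) / 2)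
      rw [← this]; congr 1; ring
    rw [e1, e1]
    apply mul_left_cancel₀ hκ.ne'
    calc 2 * e / π * (2 * Real.sin ((θ' - φ₁) / 2) * Real.cos ((θ' - φ₁) / 2))
        = 2 * (α₁ * Real.sin ((θ' - φ₁) / 2)) * (α₁ * Real.cos ((θ' - φ₁) / 2)) := by
          rw [← ha1]; ring
      _ = 2 * (α₂ * Real.sin ((θ' - φ₂) / 2)) * (α₂ * Real.cos ((θ' - φ₂) / 2)) := by
          rw [heq1, heq2]
      _ = _ := by rw [← ha2]; ring
  have hdd : dir (θ' - φ₁) = dir (θ' - φ₂) := by
    apply ext_E2 <;> simp [hcos, hsin]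
  obtain ⟨n, hn⟩ := dir_eq_dir_iff.1 hdd
  exact dir_eq_dir_iff.2 ⟨-n, by push_cast; linarith⟩

/-- a whole circle is never contained in the crack of a cone with positive energy -/
theorem not_sphere_subset {u : E2 → ℝ} {K : Set E2} (h : IsQM univ 0 u K) {x : E2} {e : ℝ}
    (he : 0 < e) (hD : ∀ r, 0 < r → Dr u K x r = e * r) {r : ℝ} (hr : 0 < r) :
    ¬ sphere x r ⊆ K := by
  intro hs
  have hKc := isOpen_compl_of_isQM h
  set w : E2 → ℝ := fun y => if dist y x < r then 0 else u y with hw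
  have hcomp : IsComp univ u K x r w K := by
    refine ⟨subset_univ _, h.closed, h.len_fin x r (subset_univ _), rfl, ?_, ?_, ?_⟩
    · intro y hy
      have hyK : y ∉ K := hy.2
      have hne : dist y x ≠ r := fun hc => hyK (hs hc)
      rcases lt_or_gt_of_ne hne with hlt | hgt
      · -- near `y`, `w = 0`
        refine ⟨0, ball x r ∩ (univ \ K), ?_, ?_⟩
        · exact inter_mem_nhdsWithin _ (isOpen_ball.mem_nhds hlt) |> fun h => by
            rw [inter_comm] at h; exact h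
        · intro a ha b hb
          have ea : w a = 0 := if_pos ha.1
          have eb : w b = 0 := if_pos hb.1
          rw [ea, eb]; simp
      · have hop : IsOpen {z : E2 | r < dist z x} := isOpen_lt continuous_const (by fun_prop)
        have hd : ContDiffAt ℝ 1 u y := h.c1.contDiffAt (by
          rw [← compl_eq_univ_sdiff]; exact hKc.isOpen_compl.mem_nhds hyK)
        obtain ⟨C, t, ht, hC⟩ := hd.exists_lipschitzOnWith
        refine ⟨C, t ∩ {z : E2 | r < dist z x}, ?_, ?_⟩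
        · exact mem_nhdsWithin_of_mem_nhds (inter_mem ht (hop.mem_nhds hgt))
        · intro a ha b hb
          have ea : w a = u a := if_neg (not_lt.2 (le_of_lt ha.2))
          have eb : w b = u b := if_neg (not_lt.2 (le_of_lt hb.2))
          rw [ea, eb]
          exact hC ha.1 hb.1
    · intro y hy
      have : ¬ dist y x < r := fun hlt => hy.2 (Or.inr hlt.le)
      exact if_neg this
    · intro c hc
      exact ⟨c, hc, fun y _ => rfl⟩
  have hmin := h.min x r hr (subset_univ _) w K hcomp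
  rw [zero_mul, ENNReal.ofReal_zero, add_zero, enE, enE] at hmin
  have hfin := h.len_fin x r (subset_univ _)
  have h1 : dirE u K (closedBall x r) ≤ dirE w K (closedBall x r) :=
    (ENNReal.add_le_add_iff_right hfin.ne).1 hmin
  have h2 : dirE w K (closedBall x r) = 0 := by
    have hsub : closedBall x r \ K ⊆ ball x r := by
      intro y hy
      rcases (mem_closedBall.1 hy.1).lt_or_eq with h3 | h3
      · exact h3
      · exact absurd (hs h3) hy.2
    rw [dirE]
    rw [setLIntegral_congr_fun (g := fun _ => 0) (isClosed_closedBall.measurableSet.diff hKc.measurableSet)]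
    · simp
    · intro y hy
      have : w =ᶠ[𝓝 y] fun _ => 0 := by
        filter_upwards [isOpen_ball.mem_nhds (hsub hy)] with z hz
        exact if_pos hz
      have hg : gradient w y = 0 := by
        rw [gradient, this.fderiv_eq]; simp
      simp only [hg]; simp
  have h3 : Dr u K x r = 0 := by
    rw [Dr]
    have : dirE u K (ball x r) ≤ 0 := by
      calc dirE u K (ball x r) ≤ dirE u K (closedBall x r) :=
            lintegral_mono_set (sdiff_subset_sdiff_left ball_subset_closedBall)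
        _ ≤ 0 := h1.trans h2.le
    rw [le_antisymm this zero_le]
    simp
  rw [hD r hr] at h3
  have : 0 < e * r := by positivity
  linarith

end Bon

end Crest.Agent.R135
end
end

-- ▼ part R135/BonCone3
section

/-!
# R135: cone theorem, step 3: one direction for all circles; the half-angle function (helper898)
-/

set_option autoImplicit false

open MeasureTheory Set Filter Topology Metric
open scoped Real ENNReal NNReal ContDiff Gradient

noncomputable section

namespace Crest.Agent.R135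

namespace Bon

/-- a.e. radius is good, so there are good radii in every interval of positive radii -/
lemma exists_good {P : ℝ → Prop} (hg : ∀ᵐ r ∂(volume.restrict (Ioi (0:ℝ))), P r)
    {a b : ℝ} (ha : 0 ≤ a) (hab : a < b) : ∃ r ∈ Ioo a b, P r := by
  have hsub : Ioo a b ⊆ Ioi 0 := fun t ht => lt_of_le_of_lt ha ht.1
  have h1 := ae_restrict_of_ae_restrict_of_subset hsub hg
  have h2 : (volume.restrict (Ioo a b)) ≠ 0 := by
    rw [Ne, Measure.restrict_eq_zero, Real.volume_Ioo]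
    simp only [ENNReal.ofReal_eq_zero, not_le]; linarith
  have : (ae (volume.restrict (Ioo a b))).NeBot := ae_neBot.2 h2
  obtain ⟨r, hr, hr2⟩ := (h1.and (ae_restrict_mem measurableSet_Ioo)).exists
  exact ⟨r, hr2, hr⟩

/-- **the crack direction is the same on almost all circles** -/
theorem exists_dir {u : E2 → ℝ} {K : Set E2} (h : IsQM univ 0 u K) {x : E2} {e : ℝ} (he : 0 < e)
    (hD : ∀ r, 0 < r → Dr u K x r = e * r)
    (hg : ∀ᵐ r ∂(volume.restrict (Ioi (0:ℝ))), ∃ θ₀ m a, Prof e u K x r θ₀ m a) :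
    ∃ ϑ, ∀ᵐ r ∂(volume.restrict (Ioi (0:ℝ))), ∃ m a, Prof e u K x r ϑ m a := by
  have hKc := isOpen_compl_of_isQM h
  set S : E2 → ℝ → Prop := fun d r₀ => ∃ δ > 0, δ ≤ r₀ ∧
    ∀ r ∈ Ioo (r₀ - δ) (r₀ + δ), ∀ θ m a, Prof e u K x r θ m a → dir θ = d with hS
  have hex : ∀ r₀ ∈ Ioi (0:ℝ), ∃ d, S d r₀ := by
    intro r₀ hr₀
    have hr : 0 < r₀ := hr₀
    obtain ⟨y, hys, hyK⟩ := not_subset.1 (not_sphere_subset h he hD hr)
    obtain ⟨θ', -, rfl⟩ := exists_cpt_eq hr hys 0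
    obtain ⟨δ, hδ, hδr, hR⟩ := exists_rect hKc hr hyK
    obtain ⟨r₁, hr₁, θ₁, m₁, a₁, hp₁⟩ := exists_good hg (a := r₀ - δ) (b := r₀ + δ)
      (by linarith) (by linarith)
    exact ⟨dir θ₁, δ, hδ, hδr.le, fun r hr' θ m a hp =>
      dir_const h he hg hδ hδr hR hr' hr₁ hp hp₁⟩
  have huniq : ∀ r₀ ∈ Ioi (0:ℝ), ∀ d d', S d r₀ → S d' r₀ → d = d' := by
    rintro r₀ hr₀ d d' ⟨δ, hδ, hδr, h1⟩ ⟨δ', hδ', hδr', h2⟩
    obtain ⟨r, hr, θ, m, a, hp⟩ := exists_good hg (a := r₀ - min δ δ') (b := r₀ + min δ δ')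
      (by linarith [min_le_left δ δ']) (by linarith [lt_min hδ hδ'])
    rw [← h1 r ⟨by linarith [hr.1, min_le_left δ δ'], by linarith [hr.2, min_le_left δ δ']⟩ θ m a hp,
      ← h2 r ⟨by linarith [hr.1, min_le_right δ δ'], by linarith [hr.2, min_le_right δ δ']⟩ θ m a hp]
  have hconn : ∀ r₀ ∈ Ioi (0:ℝ), ∀ r₁ ∈ Ioi (0:ℝ), ∃ d, S d r₀ ∧ S d r₁ := by
    intro r₀ hr₀ r₁ hr₁
    refine isPreconnected_Ioi.induction₂ (fun r r' => ∃ d, S d r ∧ S d r') ?_ ?_ ?_ hr₀ hr₁
    · intro r hr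
      obtain ⟨d, hd⟩ := hex r hr
      obtain ⟨δ, hδ, hδr, h1⟩ := hd
      filter_upwards [mem_nhdsWithin_of_mem_nhds (Ioo_mem_nhds (a := r - δ/2) (b := r + δ/2)
        (by linarith) (by linarith))] with r' hr'
      refine ⟨d, ⟨δ, hδ, hδr, h1⟩, δ/2, by linarith, by linarith [hr'.1], fun t ht => h1 t ?_⟩
      exact ⟨by linarith [ht.1, hr'.1], by linarith [ht.2, hr'.2]⟩
    · rintro r r' r'' _ hr' _ ⟨d, h1, h2⟩ ⟨d', h3, h4⟩
      have := huniq r' hr' d d' h2 h3
      exact ⟨d, h1, by rw [this]; exact h4⟩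
    · rintro r r' _ _ ⟨d, h1, h2⟩
      exact ⟨d, h2, h1⟩
  obtain ⟨r₁, hr₁, ϑ, m₁, a₁, hp₁⟩ := exists_good hg (a := 0) (b := 1) le_rfl one_pos
  refine ⟨ϑ, ?_⟩
  filter_upwards [hg, ae_restrict_mem measurableSet_Ioi] with r hr hr0
  obtain ⟨θ, m, a, hp⟩ := hr
  obtain ⟨d, h1, h2⟩ := hconn r₁ hr₁.1 r hr0
  have e1 : dir ϑ = d := by
    obtain ⟨δ, hδ, -, h3⟩ := h1
    exact h3 r₁ ⟨by linarith, by linarith⟩ ϑ m₁ a₁ hp₁
  have e2 : dir θ = d := by
    obtain ⟨δ, hδ, -, h3⟩ := h2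
    exact h3 r ⟨by linarith, by linarith⟩ θ m a hp
  obtain ⟨n, hn⟩ := dir_eq_dir_iff.1 (e1.trans e2.symm)
  refine ⟨m, a, ?_⟩
  have : ϑ = θ + 2 * π * n := by linarith
  rw [this]
  exact hp.shift n

/-! ### The half-angle function -/

/-- `|z| - ⟨z, d⟩`, vanishing exactly on the half-line -/
def nN (x : E2) (ϑ : ℝ) (y : E2) : ℝ := ‖y - x‖ - inner ℝ (y - x) (dir ϑ)

/-- `√r cos((θ-ϑ)/2)` on the slit plane -/
def hf (x : E2) (ϑ : ℝ) (y : E2) : ℝ := inner ℝ (y - x) (tau ϑ) / √(2 * nN x ϑ y)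

lemma nN_nonneg (x : E2) (ϑ : ℝ) (y : E2) : 0 ≤ nN x ϑ y := by
  have := real_inner_le_norm (y - x) (dir ϑ)
  rw [norm_dir, mul_one] at this
  rw [nN]; linarith

lemma nN_pos_of_not_ray {x y : E2} {ϑ : ℝ} (hy : y ∉ ray x (dir ϑ)) : 0 < nN x ϑ y := by
  rcases (nN_nonneg x ϑ y).lt_or_eq with h | h
  · exact h
  · exfalso
    apply hy
    have h1 : inner ℝ (y - x) (dir ϑ) = ‖y - x‖ * ‖dir ϑ‖ := by
      rw [norm_dir, mul_one]; rw [nN] at h; linarith
    have h2 := (inner_eq_norm_mul_iff_real).1 h1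
    rw [norm_dir, one_smul] at h2
    exact ⟨‖y - x‖, norm_nonneg _, by rw [← h2]; abel⟩

lemma inner_tau_dir (a b : ℝ) : inner ℝ (dir a) (tau b) = Real.sin (a - b) := by
  rw [inner_E2, Real.sin_sub]; simp; ring

lemma nN_cpt (x : E2) (ϑ : ℝ) {r : ℝ} (hr : 0 ≤ r) (θ : ℝ) :
    nN x ϑ (cpt x r θ) = 2 * r * Real.sin ((θ - ϑ) / 2) ^ 2 := by
  have h1 : cpt x r θ - x = r • dir θ := by simp [cpt]
  rw [nN, h1, norm_smul, norm_dir, Real.norm_of_nonneg hr, inner_smul_left, inner_dir_dir]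
  have h2 : Real.cos (θ - ϑ) = 1 - 2 * Real.sin ((θ - ϑ) / 2) ^ 2 := by
    have h3 : Real.cos (2 * ((θ - ϑ) / 2)) = 1 - 2 * Real.sin ((θ - ϑ) / 2) ^ 2 := by
      rw [Real.cos_two_mul']; linarith [Real.sin_sq_add_cos_sq ((θ - ϑ) / 2)]
    rw [← h3]; congr 1; ring
  rw [h2]; simp; ring

lemma hf_cpt (x : E2) (ϑ : ℝ) {r : ℝ} (hr : 0 < r) {θ : ℝ} (hθ : θ ∈ Ioo ϑ (ϑ + 2 * π)) :
    hf x ϑ (cpt x r θ) = √r * Real.cos ((θ - ϑ) / 2) := by
  have hs : 0 < Real.sin ((θ - ϑ) / 2) :=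
    Real.sin_pos_of_pos_of_lt_pi (by linarith [hθ.1]) (by linarith [hθ.2])
  have h1 : cpt x r θ - x = r • dir θ := by simp [cpt]
  have h2 : √(2 * nN x ϑ (cpt x r θ)) = 2 * √r * Real.sin ((θ - ϑ) / 2) := by
    rw [nN_cpt x ϑ hr.le]
    have : 2 * (2 * r * Real.sin ((θ - ϑ) / 2) ^ 2) = r * (2 * Real.sin ((θ - ϑ) / 2)) ^ 2 := by ring
    rw [this, Real.sqrt_mul hr.le, Real.sqrt_sq (by positivity)]
    ring
  rw [hf, h2, h1, inner_smul_left, inner_tau_dir]
  have h3 : Real.sin (θ - ϑ) = 2 * Real.sin ((θ - ϑ) / 2) * Real.cos ((θ - ϑ) / 2) := by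
    rw [← Real.sin_two_mul]; congr 1; ring
  rw [h3]
  have hsr : 0 < √r := Real.sqrt_pos.2 hr
  simp only [conj_trivial]
  field_simp
  rw [Real.sq_sqrt hr.le]; ring

lemma contDiffAt_hf {x y : E2} {ϑ : ℝ} (hy : 0 < nN x ϑ y) : ContDiffAt ℝ 1 (hf x ϑ) y := by
  have hne : y - x ≠ 0 := by
    intro h0
    rw [nN, h0] at hy; simp at hy
  have h1 : ContDiffAt ℝ 1 (fun y : E2 => ‖y - x‖) y :=
    (contDiffAt_id.sub contDiffAt_const).norm ℝ hne
  have h2 : ContDiffAt ℝ 1 (fun y : E2 => inner ℝ (y - x) (dir ϑ)) y :=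
    (contDiffAt_id.sub contDiffAt_const).inner ℝ contDiffAt_const
  have h3 : ContDiffAt ℝ 1 (fun y : E2 => inner ℝ (y - x) (tau ϑ)) y :=
    (contDiffAt_id.sub contDiffAt_const).inner ℝ contDiffAt_const
  have h4 : ContDiffAt ℝ 1 (fun y : E2 => √(2 * nN x ϑ y)) y :=
    (contDiffAt_const.mul (h1.sub h2)).sqrt (by positivity)
  exact h3.div h4 (Real.sqrt_pos.2 (by positivity)).ne'

lemma continuous_nN (x : E2) (ϑ : ℝ) : Continuous (nN x ϑ) := by
  unfold nN; fun_prop

lemma hasGradientAt_hf {x y : E2} {ϑ : ℝ} (hy : 0 < nN x ϑ y) :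
    HasGradientAt (hf x ϑ) (gradient (hf x ϑ) y) y :=
  ((contDiffAt_hf hy).differentiableAt (by simp)).hasGradientAt

lemma nN_cpt_pos (x : E2) (ϑ : ℝ) {r : ℝ} (hr : 0 < r) {θ : ℝ} (hθ : θ ∈ Ioo ϑ (ϑ + 2 * π)) :
    0 < nN x ϑ (cpt x r θ) := by
  have hs : 0 < Real.sin ((θ - ϑ) / 2) :=
    Real.sin_pos_of_pos_of_lt_pi (by linarith [hθ.1]) (by linarith [hθ.2])
  rw [nN_cpt x ϑ hr.le]; positivity

lemma hf_tan (x : E2) (ϑ : ℝ) {r : ℝ} (hr : 0 < r) {θ : ℝ} (hθ : θ ∈ Ioo ϑ (ϑ + 2 * π)) :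
    r * inner ℝ (gradient (hf x ϑ) (cpt x r θ)) (tau θ) = -(√r / 2) * Real.sin ((θ - ϑ) / 2) := by
  have h1 := hasDerivAt_circle (hasGradientAt_hf (nN_cpt_pos x ϑ hr hθ))
  have h2 : HasDerivAt (fun θ => √r * Real.cos ((θ - ϑ) / 2))
      (√r * (-Real.sin ((θ - ϑ) / 2) * (1 / 2))) θ := by
    have h3 : HasDerivAt (fun θ : ℝ => (θ - ϑ) / 2) (1 / 2) θ :=
      ((hasDerivAt_id θ).sub_const ϑ).div_const 2
    exact (h3.cos).const_mul _
  have h4 := (h2.congr_of_eventuallyEq (f₁ := fun θ => hf x ϑ (cpt x r θ)) (by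
    filter_upwards [isOpen_Ioo.mem_nhds hθ] with ϑ' hϑ' using hf_cpt x ϑ hr hϑ')).unique h1
  rw [← h4]; ring

lemma hf_rad (x : E2) (ϑ : ℝ) {r : ℝ} (hr : 0 < r) {θ : ℝ} (hθ : θ ∈ Ioo ϑ (ϑ + 2 * π)) :
    r * inner ℝ (gradient (hf x ϑ) (cpt x r θ)) (dir θ) = (√r / 2) * Real.cos ((θ - ϑ) / 2) := by
  have h1 := hasDerivAt_ray (hasGradientAt_hf (nN_cpt_pos x ϑ hr hθ))
  have h2 : HasDerivAt (fun t => √t * Real.cos ((θ - ϑ) / 2))
      (1 / (2 * √r) * Real.cos ((θ - ϑ) / 2)) r := (Real.hasDerivAt_sqrt hr.ne').mul_const _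
  have h4 := (h2.congr_of_eventuallyEq (f₁ := fun t => hf x ϑ (cpt x t θ)) (by
    filter_upwards [Ioi_mem_nhds hr] with t ht using hf_cpt x ϑ ht hθ)).unique h1
  rw [← h4]
  have hsr : 0 < √r := Real.sqrt_pos.2 hr
  field_simp
  rw [Real.sq_sqrt hr.le]

end Bon

end Crest.Agent.R135
end
end

-- ▼ part R135/BonCone4
section

/-!
# R135: cone theorem, step 4: the crack is a half-line (helper898)
-/

set_option autoImplicit false

open MeasureTheory Set Filter Topology Metric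
open scoped Real ENNReal NNReal ContDiff Gradient

noncomputable section

namespace Crest.Agent.R135

namespace Bon

lemma cpt_mem_ray (x : E2) (ϑ : ℝ) {r : ℝ} (hr : 0 ≤ r) : cpt x r ϑ ∈ ray x (dir ϑ) :=
  ⟨r, hr, rfl⟩

lemma isClosed_ray (x : E2) (ϑ : ℝ) : IsClosed (ray x (dir ϑ)) := by
  have : ray x (dir ϑ) = {y | nN x ϑ y = 0} := by
    ext y
    constructor
    · rintro ⟨s, hs, rfl⟩
      have := nN_cpt x ϑ hs ϑ
      simpa [cpt] using this
    · intro hy
      by_contra hc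
      exact (nN_pos_of_not_ray hc).ne' hy
  rw [this]
  exact isClosed_eq (continuous_nN x ϑ) continuous_const

lemma nN_eq_zero_of_ray {x y : E2} {ϑ : ℝ} (hy : y ∈ ray x (dir ϑ)) : nN x ϑ y = 0 := by
  obtain ⟨s, hs, rfl⟩ := hy
  have := nN_cpt x ϑ hs ϑ
  simpa [cpt] using this

/-- polar coordinates of a point off the half-line -/
lemma exists_polar {x y : E2} {ϑ : ℝ} (hy : y ∉ ray x (dir ϑ)) :
    ∃ r > 0, ∃ θ ∈ Ioo ϑ (ϑ + 2 * π), cpt x r θ = y := by
  have hne : y ≠ x := by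
    rintro rfl
    exact hy ⟨0, le_rfl, by simp⟩
  have hr : 0 < dist y x := dist_pos.2 hne
  obtain ⟨θ, hθ, he⟩ := exists_cpt_eq hr (mem_sphere.2 rfl) ϑ
  rcases hθ.1.eq_or_lt with h | h
  · exfalso
    apply hy
    rw [← he, ← h]
    exact cpt_mem_ray x ϑ hr.le
  · exact ⟨_, hr, θ, ⟨h, hθ.2⟩, he⟩

section

variable {u : E2 → ℝ} {K : Set E2} {x : E2} {e ϑ : ℝ}

lemma ray_sub (h : IsQM univ 0 u K)
    (hg : ∀ᵐ r ∂(volume.restrict (Ioi (0:ℝ))), ∃ m a, Prof e u K x r ϑ m a) :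
    ray x (dir ϑ) ⊆ K := by
  rintro y ⟨s, hs, rfl⟩
  by_contra hc
  have hKc := isOpen_compl_of_isQM h
  have h0 : Tendsto (fun r : ℝ => cpt x r ϑ) (𝓝 s) (𝓝 (cpt x s ϑ)) :=
    (continuous_cpt_r x ϑ).continuousAt
  have h1 : ∀ᶠ r in 𝓝 s, cpt x r ϑ ∉ K := h0 (hKc.isOpen_compl.mem_nhds hc)
  obtain ⟨δ, hδ, h2⟩ := Metric.eventually_nhds_iff.1 h1
  obtain ⟨r, hr, m, a, hp⟩ := exists_good hg (a := s) (b := s + δ) hs (by linarith)
  have h3 : cpt x r ϑ ∈ K ∩ sphere x r := by rw [hp.crack]; rfl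
  exact h2 (by rw [Real.dist_eq, abs_lt]; constructor <;> linarith [hr.1, hr.2]) h3.1

/-- on a good circle the gradient is a multiple of the gradient of the half-angle function -/
lemma Prof.grad_eq {r m a : ℝ} (hr : 0 < r) (hp : Prof e u K x r ϑ m a) {θ : ℝ}
    (hθ : θ ∈ Ioo ϑ (ϑ + 2 * π)) :
    gradient u (cpt x r θ) = (a / √r) • gradient (hf x ϑ) (cpt x r θ) := by
  have hsr : 0 < √r := Real.sqrt_pos.2 hr
  have h1 := hp.tan θ hθ
  have h2 := hp.rad θ hθ
  have h3 := hf_tan x ϑ hr hθ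
  have h4 := hf_rad x ϑ hr hθ
  set v := gradient u (cpt x r θ) - (a / √r) • gradient (hf x ϑ) (cpt x r θ) with hv
  have hrr : √r * √r = r := Real.mul_self_sqrt hr.le
  have e1 : inner ℝ v (tau θ) = 0 := by
    rw [hv, inner_sub_left, inner_smul_left]
    simp only [conj_trivial]
    apply mul_left_cancel₀ hr.ne'
    have : r * (inner ℝ (gradient u (cpt x r θ)) (tau θ) -
        a / √r * inner ℝ (gradient (hf x ϑ) (cpt x r θ)) (tau θ))
        = r * inner ℝ (gradient u (cpt x r θ)) (tau θ)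
          - a / √r * (r * inner ℝ (gradient (hf x ϑ) (cpt x r θ)) (tau θ)) := by ring
    rw [this, h1, h3]
    field_simp
    ring
  have e2 : inner ℝ v (dir θ) = 0 := by
    rw [hv, inner_sub_left, inner_smul_left]
    simp only [conj_trivial]
    apply mul_left_cancel₀ hr.ne'
    have : r * (inner ℝ (gradient u (cpt x r θ)) (dir θ) -
        a / √r * inner ℝ (gradient (hf x ϑ) (cpt x r θ)) (dir θ))
        = r * inner ℝ (gradient u (cpt x r θ)) (dir θ)
          - a / √r * (r * inner ℝ (gradient (hf x ϑ) (cpt x r θ)) (dir θ)) := by ring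
    rw [this, h2, h4]
    field_simp
    ring
  have h5 : ‖v‖ ^ 2 = 0 := by rw [norm_sq_frame v θ, e1, e2]; simp
  have h6 : v = 0 := by
    rw [← norm_eq_zero]
    exact pow_eq_zero_iff (two_ne_zero) |>.1 h5
  exact sub_eq_zero.1 h6

lemma Prof.sq_eq {r m a : ℝ} (hr : 0 < r) (hp : Prof e u K x r ϑ m a) :
    (a / √r) ^ 2 = 2 * e / π := by
  rw [div_pow, hp.amp, Real.sq_sqrt hr.le]
  field_simp

lemma hf_grad_ne {y : E2} (hy : y ∉ ray x (dir ϑ)) : gradient (hf x ϑ) y ≠ 0 := by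
  obtain ⟨r, hr, θ, hθ, rfl⟩ := exists_polar hy
  intro h0
  have h3 := hf_tan x ϑ hr hθ
  rw [h0, inner_zero_left, mul_zero] at h3
  have hs : 0 < Real.sin ((θ - ϑ) / 2) :=
    Real.sin_pos_of_pos_of_lt_pi (by linarith [hθ.1]) (by linarith [hθ.2])
  have hsr : 0 < √r := Real.sqrt_pos.2 hr
  have : 0 < √r / 2 * Real.sin ((θ - ϑ) / 2) := by positivity
  linarith

lemma continuousAt_grad_hf {y : E2} (hy : y ∉ ray x (dir ϑ)) :
    ContinuousAt (gradient (hf x ϑ)) y := by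
  have ho : IsOpen (ray x (dir ϑ))ᶜ := (isClosed_ray x ϑ).isOpen_compl
  have h1 : ContDiffOn ℝ 1 (hf x ϑ) (ray x (dir ϑ))ᶜ := fun z hz =>
    (contDiffAt_hf (nN_pos_of_not_ray hz)).contDiffWithinAt
  have h2 := h1.continuousOn_fderiv_of_isOpen ho le_rfl
  exact ((InnerProductSpace.toDual ℝ E2).symm.continuous.comp_continuousOn h2).continuousAt
    (ho.mem_nhds hy)

lemma continuousAt_grad_u (h : IsQM univ 0 u K) {y : E2} (hy : y ∉ K) :
    ContinuousAt (gradient u) y :=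
  (continuousOn_gradient h).continuousAt ((isOpen_compl_of_isQM h).isOpen_compl.mem_nhds hy)

/-- off the crack the gradient is a multiple of the gradient of the half-angle function -/
lemma grad_eq (h : IsQM univ 0 u K)
    (hg : ∀ᵐ r ∂(volume.restrict (Ioi (0:ℝ))), ∃ m a, Prof e u K x r ϑ m a) {y : E2} (hy : y ∉ K) :
    ∃ σ : ℝ, σ ^ 2 = 2 * e / π ∧ gradient u y = σ • gradient (hf x ϑ) y := by
  have hyr : y ∉ ray x (dir ϑ) := fun hc => hy (ray_sub h hg hc)
  obtain ⟨r, hr, θ, hθ, rfl⟩ := exists_polar hyr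
  -- some value of σ
  obtain ⟨r₁, hr₁, m₁, a₁, hp₁⟩ := exists_good hg (a := 0) (b := 1) le_rfl one_pos
  set b := a₁ / √r₁ with hb
  have hb2 : b ^ 2 = 2 * e / π := hp₁.sq_eq hr₁.1
  by_contra hcon
  push Not at hcon
  have n1 := hcon b hb2
  have n2 := hcon (-b) (by rw [neg_sq]; exact hb2)
  have hT : Tendsto (fun t : ℝ => cpt x t θ) (𝓝 r) (𝓝 (cpt x r θ)) :=
    (continuous_cpt_r x θ).continuousAt
  have c1 : ContinuousAt (fun z => gradient u z - b • gradient (hf x ϑ) z) (cpt x r θ) :=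
    (continuousAt_grad_u h hy).sub ((continuousAt_grad_hf hyr).const_smul b)
  have c2 : ContinuousAt (fun z => gradient u z - (-b) • gradient (hf x ϑ) z) (cpt x r θ) :=
    (continuousAt_grad_u h hy).sub ((continuousAt_grad_hf hyr).const_smul (-b))
  have o1 : ∀ᶠ t in 𝓝 r, gradient u (cpt x t θ) - b • gradient (hf x ϑ) (cpt x t θ) ≠ 0 :=
    (Tendsto.comp c1 hT).eventually_ne (sub_ne_zero.2 n1)
  have o2 : ∀ᶠ t in 𝓝 r, gradient u (cpt x t θ) - (-b) • gradient (hf x ϑ) (cpt x t θ) ≠ 0 :=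
    (Tendsto.comp c2 hT).eventually_ne (sub_ne_zero.2 n2)
  obtain ⟨δ, hδ, h2⟩ := Metric.eventually_nhds_iff.1 (o1.and o2)
  obtain ⟨t, ht, m, a, hp⟩ := exists_good hg (a := r) (b := r + δ) hr.le (by linarith)
  have ht0 : 0 < t := hr.trans ht.1
  have h3 := h2 (y := t) (by rw [Real.dist_eq, abs_lt]; constructor <;> linarith [ht.1, ht.2])
  have h4 := hp.grad_eq ht0 hθ
  have h5 := hp.sq_eq ht0
  rw [← hb2] at h5
  rcases sq_eq_sq_iff_eq_or_eq_neg.1 h5 with h6 | h6
  · rw [h6] at h4; exact h3.1 (sub_eq_zero.2 h4)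
  · rw [h6] at h4; exact h3.2 (sub_eq_zero.2 h4)

/-- local form of `u` off the crack -/
def LocForm (u : E2 → ℝ) (x : E2) (ϑ : ℝ) (y : E2) (σ c : ℝ) : Prop :=
  ∀ᶠ z in 𝓝 y, u z = σ * hf x ϑ z + c

lemma locForm_grad {y : E2} {σ c : ℝ} (hy : y ∉ ray x (dir ϑ)) (hl : LocForm u x ϑ y σ c) :
    gradient u y = σ • gradient (hf x ϑ) y := by
  have h1 : HasGradientAt (fun z => σ * hf x ϑ z + c) (σ • gradient (hf x ϑ) y) y := by
    have h2 := (hasGradientAt_hf (nN_pos_of_not_ray hy)).hasFDerivAt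
    have h3 := (h2.const_mul σ).add_const c
    rw [hasGradientAt_iff_hasFDerivAt]
    refine h3.congr_fderiv ?_
    simp
  have h4 : HasGradientAt u (σ • gradient (hf x ϑ) y) y := by
    rw [hasGradientAt_iff_hasFDerivAt] at h1 ⊢
    exact h1.congr_of_eventuallyEq hl
  exact h4.gradient

lemma locForm_unique {y : E2} {σ c σ' c' : ℝ} (hy : y ∉ ray x (dir ϑ))
    (h1 : LocForm u x ϑ y σ c) (h2 : LocForm u x ϑ y σ' c') : σ = σ' ∧ c = c' := by
  have e1 := locForm_grad hy h1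
  have e2 := locForm_grad hy h2
  have hσ : σ = σ' := by
    have : (σ - σ') • gradient (hf x ϑ) y = 0 := by rw [sub_smul, ← e1, ← e2, sub_self]
    rcases smul_eq_zero.1 this with h | h
    · linarith
    · exact absurd h (hf_grad_ne hy)
  refine ⟨hσ, ?_⟩
  have a1 := h1.self_of_nhds
  have a2 := h2.self_of_nhds
  rw [hσ] at a1
  linarith

theorem exists_locForm (h : IsQM univ 0 u K) (he : 0 < e)
    (hg : ∀ᵐ r ∂(volume.restrict (Ioi (0:ℝ))), ∃ m a, Prof e u K x r ϑ m a) {y : E2} (hy : y ∉ K) :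
    ∃ σ c : ℝ, σ ^ 2 = 2 * e / π ∧ LocForm u x ϑ y σ c := by
  have hKc := isOpen_compl_of_isQM h
  have hrs := ray_sub h hg
  have hyr : y ∉ ray x (dir ϑ) := fun hc => hy (hrs hc)
  obtain ⟨σ, hσ, hgy⟩ := grad_eq h hg hy
  have hσ0 : σ ≠ 0 := by
    intro h0
    rw [h0] at hσ
    have : 0 < 2 * e / π := by positivity
    rw [← hσ] at this
    simp at this
  -- near y the gradient is σ ∇hf
  have hne : gradient u y + σ • gradient (hf x ϑ) y ≠ 0 := by
    rw [hgy, ← add_smul]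
    exact smul_ne_zero (by intro h0; apply hσ0; linarith) (hf_grad_ne hyr)
  have hc : ContinuousAt (fun z => gradient u z + σ • gradient (hf x ϑ) z) y :=
    (continuousAt_grad_u h hy).add ((continuousAt_grad_hf hyr).const_smul σ)
  have hev0 : ∀ᶠ z in 𝓝 y, z ∉ K := hKc.isOpen_compl.mem_nhds hy
  have hev : ∀ᶠ z in 𝓝 y, z ∉ K ∧ gradient u z + σ • gradient (hf x ϑ) z ≠ 0 :=
    hev0.and (hc.eventually_ne hne)
  obtain ⟨ρ, hρ, hball⟩ := Metric.eventually_nhds_iff_ball.1 hev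
  have hgr : ∀ z ∈ ball y ρ, gradient u z = σ • gradient (hf x ϑ) z := by
    intro z hz
    obtain ⟨σ', hσ', hgz⟩ := grad_eq h hg (hball z hz).1
    have : σ' = σ ∨ σ' = -σ := sq_eq_sq_iff_eq_or_eq_neg.1 (by rw [hσ', hσ])
    rcases this with h1 | h1
    · rw [hgz, h1]
    · exfalso
      apply (hball z hz).2
      rw [hgz, h1, ← add_smul]; simp
  have hd : ∀ z ∈ ball y ρ, HasFDerivAt (fun z => u z - σ * hf x ϑ z) (0 : E2 →L[ℝ] ℝ) z := by
    intro z hz
    have hzK := (hball z hz).1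
    have h1 := (hasGradientAt_univ h hzK).hasFDerivAt
    have h2 := (hasGradientAt_hf (x := x) (ϑ := ϑ)
      (nN_pos_of_not_ray (fun hc => hzK (hrs hc)))).hasFDerivAt
    refine (h1.sub (h2.const_mul σ)).congr_fderiv ?_
    rw [hgr z hz]
    simp
  refine ⟨σ, u y - σ * hf x ϑ y, hσ, ?_⟩
  have hb : ball y ρ ∈ 𝓝 y := ball_mem_nhds y hρ
  filter_upwards [hb] with z hz
  have h1 := (isOpen_ball (x := y) (ε := ρ)).is_const_of_fderiv_eq_zero
    (f := fun z => u z - σ * hf x ϑ z) (𝕜 := ℝ) (convex_ball y ρ).isPreconnected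
    (fun z hz => (hd z hz).differentiableAt.differentiableWithinAt)
    (fun z hz => (hd z hz).fderiv) hz (mem_ball_self hρ)
  linarith

/-- on a good circle all local forms agree -/
theorem Prof.locForm (h : IsQM univ 0 u K) (he : 0 < e)
    (hg : ∀ᵐ r ∂(volume.restrict (Ioi (0:ℝ))), ∃ m a, Prof e u K x r ϑ m a)
    {r m a : ℝ} (hr : 0 < r) (hp : Prof e u K x r ϑ m a) {θ : ℝ}
    (hθ : θ ∈ Ioo ϑ (ϑ + 2 * π)) : LocForm u x ϑ (cpt x r θ) (a / √r) m := by
  have hyr : cpt x r θ ∉ ray x (dir ϑ) := by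
    intro hc
    have := nN_eq_zero_of_ray hc
    exact (nN_cpt_pos x ϑ hr hθ).ne' this
  have hyK : cpt x r θ ∉ K := by
    intro hc
    have : cpt x r θ ∈ K ∩ sphere x r := ⟨hc, cpt_mem_sphere hr.le⟩
    rw [hp.crack] at this
    apply hyr
    rw [mem_singleton_iff.1 this]
    exact cpt_mem_ray x ϑ hr.le
  obtain ⟨σ, c, hσ, hl⟩ := exists_locForm h he hg hyK
  have e1 := locForm_grad hyr hl
  have e2 := hp.grad_eq hr hθ
  have hσe : σ = a / √r := by
    have : (σ - a / √r) • gradient (hf x ϑ) (cpt x r θ) = 0 := by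
      rw [sub_smul, ← e1, ← e2, sub_self]
    rcases smul_eq_zero.1 this with h | h
    · linarith
    · exact absurd h (hf_grad_ne hyr)
  have hv := hp.val θ hθ
  have hv2 := hl.self_of_nhds
  rw [hf_cpt x ϑ hr hθ] at hv2
  have hsr : 0 < √r := Real.sqrt_pos.2 hr
  have hc : c = m := by
    rw [hσe] at hv2
    have : a / √r * (√r * Real.cos ((θ - ϑ) / 2)) = a * Real.cos ((θ - ϑ) / 2) := by
      field_simp
    rw [this] at hv2
    linarith
  rw [← hσe, ← hc]
  exact hl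

end

end Bon

end Crest.Agent.R135
end
end

-- ▼ part R135/BonCone5

/-!
# R135: cone theorem, step 5: the competitor (half-line) and the conclusion (helper898)
-/

set_option autoImplicit false

open MeasureTheory Set Filter Topology Metric
open scoped Real ENNReal NNReal ContDiff Gradient

noncomputable section

namespace Crest.Agent.R135

namespace Bon

lemma volume_K_zero {u : E2 → ℝ} {K : Set E2} (h : IsQM univ 0 u K) : volume K = 0 := by
  have h1 : K ⊆ ⋃ n : ℕ, K ∩ ball 0 (n:ℝ) := by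
    intro y hy
    obtain ⟨n, hn⟩ := exists_nat_gt (dist y 0)
    exact mem_iUnion.2 ⟨n, hy, hn⟩
  refine measure_mono_null h1 ?_
  rw [measure_iUnion_null_iff]
  intro n
  apply volume_eq_zero_of_hausdorff_lt_top
  exact (measure_mono (inter_subset_inter_right _ ball_subset_closedBall)).trans_lt
    (h.len_fin 0 n (subset_univ _))

lemma lip_of_contDiffAt {w : E2 → ℝ} {y : E2} (hd : ContDiffAt ℝ 1 w y) (S : Set E2) :
    ∃ C : ℝ≥0, ∃ t ∈ 𝓝[S] y, LipschitzOnWith C w t := by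
  obtain ⟨C, t, ht, hC⟩ := hd.exists_lipschitzOnWith
  exact ⟨C, t, mem_nhdsWithin_of_mem_nhds ht, hC⟩

lemma lip_of_eventuallyEq {w w' : E2 → ℝ} {y : E2} (he : w =ᶠ[𝓝 y] w') (hd : ContDiffAt ℝ 1 w' y)
    (S : Set E2) : ∃ C : ℝ≥0, ∃ t ∈ 𝓝[S] y, LipschitzOnWith C w t :=
  lip_of_contDiffAt (hd.congr_of_eventuallyEq he) S

variable {u : E2 → ℝ} {K : Set E2} {x : E2} {e ϑ : ℝ}

lemma ray_disjoint_cpt {r : ℝ} (hr : 0 < r) {θ : ℝ} (hθ : θ ∈ Ioo ϑ (ϑ + 2 * π)) :
    cpt x r θ ∉ ray x (dir ϑ) := by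
  intro hc
  exact (nN_cpt_pos x ϑ hr hθ).ne' (nN_eq_zero_of_ray hc)

/-- the crack is the half-line -/
theorem K_eq_ray (h : IsQM univ 0 u K) (he : 0 < e)
    (hg : ∀ᵐ r ∂(volume.restrict (Ioi (0:ℝ))), ∃ m a, Prof e u K x r ϑ m a) :
    K = ray x (dir ϑ) := by
  have hKc := isOpen_compl_of_isQM h
  have hrs := ray_sub h hg
  have hray := isClosed_ray x ϑ
  refine Subset.antisymm ?_ hrs
  -- competitor in a good ball
  have main : ∀ R, 0 < R → (∃ m a, Prof e u K x R ϑ m a) →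
      len ((K ∩ closedBall x R) \ ray x (dir ϑ)) = 0 := by
    rintro R hR ⟨m, a, hp⟩
    set σ := a / √R with hσ
    have hσ2 := hp.sq_eq hR
    rw [← hσ] at hσ2
    set L : Set E2 := (K \ ball x R) ∪ (ray x (dir ϑ) ∩ closedBall x R) with hL
    set w : E2 → ℝ := fun z => if dist z x ≤ R then σ * hf x ϑ z + m else u z with hw
    have hcr : ∀ y ∈ K, dist y x = R → y ∈ ray x (dir ϑ) := by
      intro y hy hd
      have : y ∈ K ∩ sphere x R := ⟨hy, hd⟩
      rw [hp.crack] at this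
      rw [mem_singleton_iff.1 this]
      exact cpt_mem_ray x ϑ hR.le
    have hLK : L ⊆ K := by
      rintro y (⟨hy, -⟩ | ⟨hy, -⟩)
      · exact hy
      · exact hrs hy
    have hLclosed : IsClosed L := by
      apply IsClosed.union
      · rw [sdiff_eq]
        exact hKc.inter isOpen_ball.isClosed_compl
      · exact hray.inter isClosed_closedBall
    -- points off L
    have hin : ∀ y, y ∉ L → dist y x ≤ R → y ∉ ray x (dir ϑ) := fun y hy hd hc =>
      hy (Or.inr ⟨hc, hd⟩)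
    have hout : ∀ y, y ∉ L → R ≤ dist y x → y ∉ K := fun y hy hd hc =>
      hy (Or.inl ⟨hc, fun hb => absurd (mem_ball.1 hb) (not_lt.2 hd)⟩)
    have hloc : ∀ y, y ∉ L → dist y x = R → LocForm u x ϑ y σ m := by
      intro y hy hd
      obtain ⟨r, hr, θ, hθ, rfl⟩ := exists_polar (hin y hy hd.le)
      have : r = R := by rw [← hd, dist_cpt, abs_of_pos hr]
      subst this
      exact hp.locForm h he hg hr hθ
    have hform : ∀ y, y ∉ ray x (dir ϑ) → ContDiffAt ℝ 1 (fun z => σ * hf x ϑ z + m) y := fun y hy =>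
      (contDiffAt_const.mul (contDiffAt_hf (nN_pos_of_not_ray hy))).add contDiffAt_const
    have hinev : ∀ y, y ∉ L → dist y x ≤ R → w =ᶠ[𝓝 y] fun z => σ * hf x ϑ z + m := by
      intro y hy hd
      rcases hd.lt_or_eq with h1 | h1
      · filter_upwards [isOpen_ball.mem_nhds (mem_ball.2 h1)] with z hz
        exact if_pos (mem_ball.1 hz).le
      · filter_upwards [hloc y hy h1] with z hz
        simp only [hw]
        split_ifs
        · rfl
        · exact hz
    have hcomp : IsComp univ u K x R w L := by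
      refine ⟨subset_univ _, ?_, ?_, ?_, ?_, ?_, ?_⟩
      · rw [hLclosed.closure_eq, inter_univ]
      · exact (measure_mono (inter_subset_inter_left _ hLK)).trans_lt
          (h.len_fin x R (subset_univ _))
      · ext y
        constructor
        · rintro ⟨hy, hb⟩
          exact ⟨hLK hy, hb⟩
        · rintro ⟨hy, hb⟩
          exact ⟨Or.inl ⟨hy, fun hc => hb (ball_subset_closedBall hc)⟩, hb⟩
      · intro y hy
        have hyL : y ∉ L := hy.2
        rcases le_or_gt (dist y x) R with h1 | h1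
        · exact lip_of_eventuallyEq (hinev y hyL h1) (hform y (hin y hyL h1)) _
        · have hop : IsOpen {z : E2 | R < dist z x} := isOpen_lt continuous_const (by fun_prop)
          have hyK := hout y hyL h1.le
          have hd : ContDiffAt ℝ 1 u y := h.c1.contDiffAt (by
            rw [← compl_eq_univ_sdiff]; exact hKc.isOpen_compl.mem_nhds hyK)
          refine lip_of_eventuallyEq (w' := u) ?_ hd _
          filter_upwards [hop.mem_nhds h1] with z hz
          exact if_neg (not_le.2 hz)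
      · intro y hy
        have : ¬ dist y x ≤ R := fun hlt => hy.2 (Or.inr hlt)
        exact if_neg this
      · -- Keeps
        intro c hc
        have hcK : ∀ y, y ∉ K → ∀ᶠ z in 𝓝 y, c z = c y := fun y hy => hc y ⟨mem_univ _, hy⟩
        have hcirc : ∀ θ ∈ Ioo ϑ (ϑ + 2 * π), c (cpt x R θ) = c (cpt x R (ϑ + π)) := by
          intro θ hθ
          refine isPreconnected_Ioo.induction₂ (fun θ θ' => c (cpt x R θ) = c (cpt x R θ'))
            ?_ ?_ ?_ hθ ⟨by linarith [Real.pi_pos], by linarith [Real.pi_pos]⟩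
          · intro φ hφ
            have hφK : cpt x R φ ∉ K := by
              intro hcc
              exact ray_disjoint_cpt hR hφ (hcr _ hcc (by simp [abs_of_pos hR]))
            have hT : Tendsto (cpt x R) (𝓝 φ) (𝓝 (cpt x R φ)) :=
              (continuous_cpt_θ x R).continuousAt
            have := hT.eventually (hcK _ hφK)
            exact (this.filter_mono nhdsWithin_le_nhds).mono fun _ h => h.symm
          · intro a b c _ _ _ h1 h2
            exact h1.trans h2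
          · intro a b _ _ h1
            exact h1.symm
        refine ⟨fun z => if dist z x ≤ R then c (cpt x R (ϑ + π)) else c z, ?_, ?_⟩
        · intro y hy
          have hyL : y ∉ L := hy.2
          rcases lt_trichotomy (dist y x) R with h1 | h1 | h1
          · filter_upwards [isOpen_ball.mem_nhds (mem_ball.2 h1)] with z hz
            rw [if_pos (mem_ball.1 hz).le, if_pos h1.le]
          · obtain ⟨r, hr, θ, hθ, rfl⟩ := exists_polar (hin y hyL h1.le)
            have : r = R := by rw [← h1, dist_cpt, abs_of_pos hr]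
            subst this
            have hyK := hout _ hyL h1.ge
            filter_upwards [hcK _ hyK] with z hz
            rw [if_pos h1.le]
            split_ifs
            · rfl
            · rw [hz, hcirc θ hθ]
          · have hop : IsOpen {z : E2 | R < dist z x} := isOpen_lt continuous_const (by fun_prop)
            filter_upwards [hop.mem_nhds h1, hcK _ (hout y hyL h1.le)] with z hz hz2
            rw [if_neg (not_le.2 hz), if_neg (not_le.2 h1), hz2]
        · intro y hy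
          have : ¬ dist y x ≤ R := fun hlt => hy.2 (Or.inr hlt)
          exact if_neg this
    have hmin := h.min x R hR (subset_univ _) w L hcomp
    rw [zero_mul, ENNReal.ofReal_zero, add_zero, enE, enE] at hmin
    -- the Dirichlet energy does not increase
    have hdir : dirE w L (closedBall x R) ≤ dirE u K (closedBall x R) := by
      have hae : (closedBall x R \ L : Set E2) =ᵐ[volume] (ball x R \ K : Set E2) := by
        have h1 : volume (sphere x R) = 0 := Measure.addHaar_sphere volume x R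
        have h2 := volume_K_zero h
        have h3 : ∀ᵐ z ∂(volume : Measure E2), z ∉ sphere x R ∧ z ∉ K := by
          rw [ae_iff]
          refine measure_mono_null (t := sphere x R ∪ K) ?_ (measure_union_null h1 h2)
          intro z hz
          simp only [mem_ofPred_eq, not_and_or, not_not] at hz
          exact hz
        filter_upwards [h3] with z hz
        apply propext
        constructor
        · rintro ⟨h4, -⟩
          refine ⟨?_, hz.2⟩
          rcases (mem_closedBall.1 h4).lt_or_eq with h5 | h5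
          · exact h5
          · exact absurd h5 hz.1
        · rintro ⟨h4, h5⟩
          exact ⟨ball_subset_closedBall h4, fun h6 => h5 (hLK h6)⟩
      rw [dirE, dirE, setLIntegral_congr hae]
      calc ∫⁻ z in ball x R \ K, ‖gradient w z‖ₑ ^ 2 = ∫⁻ z in ball x R \ K, ‖gradient u z‖ₑ ^ 2 := by
            refine setLIntegral_congr_fun (measurableSet_ball.diff hKc.measurableSet) fun z hz => ?_
            have hzr : z ∉ ray x (dir ϑ) := fun hc => hz.2 (hrs hc)
            have hzL : z ∉ L := fun hc => hz.2 (hLK hc)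
            obtain ⟨σ', hσ', hgz⟩ := grad_eq h hg hz.2
            have hgw : gradient w z = σ • gradient (hf x ϑ) z :=
              locForm_grad (u := w) hzr (hinev z hzL (mem_ball.1 hz.1).le)
            have hnorm : ‖gradient w z‖ = ‖gradient u z‖ := by
              rw [hgw, hgz, norm_smul, norm_smul]
              congr 1
              rw [Real.norm_eq_abs, Real.norm_eq_abs]
              exact (sq_eq_sq₀ (abs_nonneg _) (abs_nonneg _)).1 (by rw [sq_abs, sq_abs, hσ2, hσ'])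
            rw [← ofReal_norm, ← ofReal_norm, hnorm]
        _ ≤ _ := lintegral_mono_set (sdiff_subset_sdiff_left ball_subset_closedBall)
    have hfin := h.dir_fin x R (subset_univ _)
    have hlen : len (K ∩ closedBall x R) ≤ len (L ∩ closedBall x R) := by
      have h1 : dirE u K (closedBall x R) + len (K ∩ closedBall x R)
          ≤ dirE u K (closedBall x R) + len (L ∩ closedBall x R) :=
        hmin.trans (add_le_add hdir le_rfl)
      exact (ENNReal.add_le_add_iff_left hfin.ne).1 h1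
    have hLsub : L ∩ closedBall x R ⊆ (K ∩ closedBall x R) ∩ ray x (dir ϑ) := by
      rintro y ⟨hy, hb⟩
      refine ⟨⟨hLK hy, hb⟩, ?_⟩
      rcases hy with ⟨hyK, hyb⟩ | ⟨hy, -⟩
      · refine hcr y hyK ?_
        rcases (mem_closedBall.1 hb).lt_or_eq with h5 | h5
        · exact absurd h5 hyb
        · exact h5
      · exact hy
    have hfl : len (K ∩ closedBall x R) < ⊤ := h.len_fin x R (subset_univ _)
    have hsplit := measure_inter_add_sdiff (μ := (Measure.hausdorffMeasure 1 : Measure E2))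
      (K ∩ closedBall x R) hray.measurableSet
    have h2 : len (K ∩ closedBall x R) ≤ len ((K ∩ closedBall x R) ∩ ray x (dir ϑ)) :=
      hlen.trans (measure_mono hLsub)
    change len ((K ∩ closedBall x R) ∩ ray x (dir ϑ)) + len ((K ∩ closedBall x R) \ ray x (dir ϑ))
      = len (K ∩ closedBall x R) at hsplit
    have hf2 : len ((K ∩ closedBall x R) ∩ ray x (dir ϑ)) < ⊤ :=
      (measure_mono inter_subset_left).trans_lt hfl
    by_contra hne
    have hpos : 0 < len ((K ∩ closedBall x R) \ ray x (dir ϑ)) := pos_iff_ne_zero.2 hne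
    have : len ((K ∩ closedBall x R) ∩ ray x (dir ϑ)) < len (K ∩ closedBall x R) := by
      rw [← hsplit]
      exact ENNReal.lt_add_right hf2.ne hne
    exact absurd h2 (not_le.2 this)
  intro y hy
  by_contra hyr
  obtain ⟨ρ, hρ, hball⟩ := Metric.isOpen_iff.1 hray.isOpen_compl y hyr
  obtain ⟨R, hR, hp⟩ := exists_good hg (a := dist y x + ρ) (b := dist y x + ρ + 1)
    (by positivity) (by linarith)
  have hR0 : 0 < R := lt_of_le_of_lt (by positivity) hR.1
  have h1 := main R hR0 hp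
  have h2 := h.red y hy ρ hρ
  have h3 : K ∩ ball y ρ ⊆ (K ∩ closedBall x R) \ ray x (dir ϑ) := by
    rintro z ⟨hzK, hz⟩
    refine ⟨⟨hzK, ?_⟩, hball hz⟩
    rw [mem_closedBall]
    have : dist z x ≤ dist z y + dist y x := dist_triangle _ _ _
    have h4 := mem_ball.1 hz
    linarith [hR.1]
  have h4 : len (K ∩ ball y ρ) ≤ 0 := h1 ▸ measure_mono h3
  exact absurd h2 (not_lt.2 h4)

/-- **Cone theorem.** -/
theorem cone_ray (h : IsQM univ 0 u K) (hz : ZeroFlux u K x) (he : 0 < e)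
    (hD : ∀ r, 0 < r → Dr u K x r = e * r) :
    ∃ ϑ σ c : ℝ, K = ray x (dir ϑ) ∧ σ ^ 2 = 2 * e / π ∧ ∀ y ∉ K, u y = σ * hf x ϑ y + c := by
  obtain ⟨ϑ, hg⟩ := exists_dir h he hD (cone_circle h hz he hD)
  have hK := K_eq_ray h he hg
  obtain ⟨r₁, hr₁, m₁, a₁, hp₁⟩ := exists_good hg (a := 0) (b := 1) le_rfl one_pos
  refine ⟨ϑ, a₁ / √r₁, m₁, hK, hp₁.sq_eq hr₁.1, ?_⟩
  -- connectedness of the slit plane through polar coordinates
  set S : Set (ℝ × ℝ) := Ioi (0:ℝ) ×ˢ Ioo ϑ (ϑ + 2 * π) with hS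
  have hSc : IsPreconnected S := isPreconnected_Ioi.prod isPreconnected_Ioo
  set P : ℝ × ℝ → ℝ × ℝ → Prop := fun p q => ∃ σ c : ℝ,
    LocForm u x ϑ (cpt x p.1 p.2) σ c ∧ LocForm u x ϑ (cpt x q.1 q.2) σ c with hP
  have hoff : ∀ p ∈ S, cpt x p.1 p.2 ∉ K := fun p hp => by
    rw [hK]; exact ray_disjoint_cpt hp.1 hp.2
  have key : ∀ p ∈ S, ∀ q ∈ S, P p q := by
    intro p hp q hq
    refine hSc.induction₂ P ?_ ?_ ?_ hp hq
    · intro p hp
      obtain ⟨σ, c, -, hl⟩ := exists_locForm h he hg (hoff p hp)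
      have hT : Tendsto (fun q : ℝ × ℝ => cpt x q.1 q.2) (𝓝 p) (𝓝 (cpt x p.1 p.2)) :=
        (continuous_cpt x).continuousAt
      have h1 : ∀ᶠ z in 𝓝 (cpt x p.1 p.2), LocForm u x ϑ z σ c := hl.eventually_nhds
      have h2 := hT.eventually h1
      filter_upwards [mem_nhdsWithin_of_mem_nhds h2] with q hq
      exact ⟨σ, c, hl, hq⟩
    · rintro p q r _ hq _ ⟨σ, c, h1, h2⟩ ⟨σ', c', h3, h4⟩
      obtain ⟨rfl, rfl⟩ := locForm_unique (by rw [← hK]; exact hoff q hq) h2 h3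
      exact ⟨_, _, h1, h4⟩
    · rintro p q _ _ ⟨σ, c, h1, h2⟩
      exact ⟨σ, c, h2, h1⟩
  intro y hy
  obtain ⟨r, hr, θ, hθ, rfl⟩ := exists_polar (hK ▸ hy)
  have hpi := Real.pi_pos
  have hp0 : (r₁, ϑ + π) ∈ S := ⟨hr₁.1, by constructor <;> simp only <;> linarith⟩
  obtain ⟨σ, c, h1, h2⟩ := key (r₁, ϑ + π) hp0 (r, θ) ⟨hr, hθ⟩
  have h3 := hp₁.locForm h he hg hr₁.1 hp0.2
  obtain ⟨rfl, rfl⟩ := locForm_unique (by rw [← hK]; exact hoff _ hp0) h1 h3
  exact h2.self_of_nhds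

end Bon

end Crest.Agent.R135
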