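import Crest.Agent.R135.IFDefs
import Crest.Agent.R135.QMMono

/-! INTERFACE A2: invariances of the class (helper288: Scal1, Scal2; helper140: QMOps, QMMono,
which contain `IsQM.mono`, `IsQM.addConst`, `IsQM.congr`, `IsQM.neg`). -/

set_option autoImplicit false

open MeasureTheory Set Filter Topology Metric
open scoped ENNReal NNReal ContDiff Gradient
open Crest.AnalysisR.PDE.OnePhase Crest.AnalysisR.PDE.MumfordShah

namespace Crest.Agent.R135


theorem IsQM.resc_univ {u : E2 → ℝ} {K : Set E2} (h : IsQM univ 0 u K)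
    (x₀ : E2) {r : ℝ} (hr : 0 < r) : IsQM univ 0 (rescF u x₀ r) (rescK K x₀ r) :=
  h.resc0 x₀ hr


/-- scaling of the Dirichlet energy -/
theorem Dr_resc (u : E2 → ℝ) (K : Set E2) (x₀ x : E2) {r s : ℝ} (hr : 0 < r) :
    Dr (rescF u x₀ r) (rescK K x₀ r) x s = r⁻¹ * Dr u K (x₀ + r • x) (r * s) :=
  Dr_rescF u K x₀ x hr s


theorem volume_K {U : Set E2} {lam : ℝ} {u : E2 → ℝ} {K : Set E2} (h : IsQM U lam u K) :
    volume K = 0 := h.volume_K


end Crest.Agent.R135
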