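import Mathlib
import Crest.Agent.R135.Core
import Crest.Agent.R135.GMT1
import Crest.Agent.R135.Conc2

-- ▼ part R135/Conc1
section

/-!
R135 (helper709): concentration, part 1 (block CONC, step C1).

For an Ahlfors regular set `K` and a function `F` (the norm of the gradient) whose energy in every
ball is at most `C₀ s`, every ball centred on `K` contains a smaller ball of comparable size, centred
on `K`, in which the `L¹` norm of `F` is small: `(∫_{B(y,s)} F)² ≤ e s³`. Direct proof by Tonelli's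
theorem (no compactness).
-/

set_option autoImplicit false

open MeasureTheory Set Filter Topology Metric
open scoped ENNReal NNReal

namespace Crest.Agent.R135

/-- Cauchy–Schwarz on a set -/
theorem sq_lintegral_le (S : Set E2) (F : E2 → ℝ≥0∞) (hF : AEMeasurable F (volume.restrict S)) :
    (∫⁻ x in S, F x) ^ 2 ≤ volume S * ∫⁻ x in S, F x ^ 2 := by
  have h := ENNReal.lintegral_mul_le_Lp_mul_Lq (volume.restrict S) Real.HolderConjugate.two_two hF
    (g := fun _ => (1 : ℝ≥0∞)) aemeasurable_const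
  simp only [Pi.mul_apply, mul_one, ENNReal.one_rpow, lintegral_const, Measure.restrict_apply_univ,
    one_mul] at h
  have h2 : ∀ a : ℝ≥0∞, (a ^ (1 / (2 : ℝ))) ^ 2 = a := by
    intro a
    rw [← ENNReal.rpow_natCast, ← ENNReal.rpow_mul]
    norm_num
  calc (∫⁻ x in S, F x) ^ 2 ≤ ((∫⁻ x in S, F x ^ (2 : ℝ)) ^ (1 / (2 : ℝ)) * (volume S) ^ (1 / (2 : ℝ))) ^ 2 := by
        gcongr
    _ = (∫⁻ x in S, F x ^ (2 : ℝ)) * volume S := by rw [mul_pow, h2, h2]
    _ = volume S * ∫⁻ x in S, F x ^ 2 := by
        rw [mul_comm]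
        simp only [ENNReal.rpow_ofNat]

/-- Tonelli for balls -/
theorem tonelli_ball (μ : Measure E2) [SFinite μ] (G : E2 → ℝ≥0∞) (hG : Measurable G) (t : ℝ) :
    ∫⁻ k, (∫⁻ z in ball k t, G z) ∂μ = ∫⁻ z, G z * μ (ball z t) := by
  have hmeas : MeasurableSet {p : E2 × E2 | dist p.2 p.1 < t} :=
    (isOpen_lt (continuous_snd.dist continuous_fst) continuous_const).measurableSet
  calc ∫⁻ k, (∫⁻ z in ball k t, G z) ∂μ
      = ∫⁻ k, (∫⁻ z, {p : E2 × E2 | dist p.2 p.1 < t}.indicator (fun p => G p.2) (k, z)) ∂μ := by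
        apply lintegral_congr
        intro k
        rw [← lintegral_indicator measurableSet_ball]
        apply lintegral_congr
        intro z
        by_cases h : dist z k < t
        · rw [indicator_of_mem (show z ∈ ball k t from h), indicator_of_mem (show (k, z) ∈ {p : E2 × E2 | dist p.2 p.1 < t} from h)]
        · rw [indicator_of_notMem (show z ∉ ball k t from h), indicator_of_notMem (show (k, z) ∉ {p : E2 × E2 | dist p.2 p.1 < t} from h)]
    _ = ∫⁻ z, (∫⁻ k, {p : E2 × E2 | dist p.2 p.1 < t}.indicator (fun p => G p.2) (k, z) ∂μ) := by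
        apply lintegral_lintegral_swap
        exact ((hG.comp measurable_snd).indicator hmeas).aemeasurable
    _ = ∫⁻ z, G z * μ (ball z t) := by
        apply lintegral_congr
        intro z
        have : (fun k => {p : E2 × E2 | dist p.2 p.1 < t}.indicator (fun p => G p.2) (k, z)) =
            (ball z t).indicator (fun _ => G z) := by
          ext k
          by_cases h : dist z k < t
          · rw [indicator_of_mem (show (k, z) ∈ {p : E2 × E2 | dist p.2 p.1 < t} from h),
              indicator_of_mem (show k ∈ ball z t from by rw [mem_ball, dist_comm]; exact h)]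
          · rw [indicator_of_notMem (show (k, z) ∉ {p : E2 × E2 | dist p.2 p.1 < t} from h),
              indicator_of_notMem (show k ∉ ball z t from by rw [mem_ball, dist_comm]; exact h)]
        rw [this, lintegral_indicator measurableSet_ball, setLIntegral_const]

section Ahlfors

variable {K : Set E2} {x : E2} {r c0 C0 : ℝ}

/-- the neighbourhood of size `t` of an Ahlfors regular set is small -/
theorem volume_thickening_le (hc0 : 0 < c0) (hC0 : 0 < C0)
    (hlow : ∀ y ∈ K, dist y x < r → ∀ s : ℝ, 0 < s → s ≤ r →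
      ENNReal.ofReal (c0 * s) ≤ Measure.hausdorffMeasure 1 (K ∩ ball y s))
    (hup : ∀ y : E2, dist y x < r → ∀ s : ℝ, 0 < s → s ≤ r →
      Measure.hausdorffMeasure 1 (K ∩ closedBall y s) ≤ ENNReal.ofReal (C0 * s))
    {y : E2} {s t : ℝ} (hy : dist y x < r / 2) (hs : 0 < s) (hsr : s ≤ r / 4) (ht : 0 < t)
    (hts : t ≤ s) :
    volume (ball y s ∩ thickening t K) ≤ ENNReal.ofReal (12 * Real.pi * (C0 / c0) * t * s) := by
  set N := ball y s ∩ thickening t K with hN
  have hNm : MeasurableSet N := measurableSet_ball.inter isOpen_thickening.measurableSet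
  set μ : Measure E2 := (Measure.hausdorffMeasure 1).restrict (K ∩ closedBall y (3 * s)) with hμ
  have hμuniv : μ univ ≤ ENNReal.ofReal (C0 * (3 * s)) := by
    rw [hμ, Measure.restrict_apply_univ]
    exact hup y (by linarith) (3 * s) (by linarith) (by linarith)
  have : IsFiniteMeasure μ := ⟨lt_of_le_of_lt hμuniv ENNReal.ofReal_lt_top⟩
  have hton := tonelli_ball μ (N.indicator (fun _ => (1 : ℝ≥0∞))) (measurable_const.indicator hNm) (2 * t)
  -- lower bound for the right-hand side
  have h1 : ENNReal.ofReal (c0 * t) * volume N ≤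
      ∫⁻ z, N.indicator (fun _ => (1 : ℝ≥0∞)) z * μ (ball z (2 * t)) := by
    calc ENNReal.ofReal (c0 * t) * volume N = ∫⁻ z in N, ENNReal.ofReal (c0 * t) := by
          rw [setLIntegral_const]
      _ = ∫⁻ z, N.indicator (fun _ => ENNReal.ofReal (c0 * t)) z := by
          rw [lintegral_indicator hNm]
      _ ≤ _ := by
          apply lintegral_mono
          intro z
          dsimp only
          by_cases hz : z ∈ N
          · rw [indicator_of_mem hz, indicator_of_mem hz, one_mul]
            obtain ⟨hzb, hzt⟩ := hz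
            rw [mem_thickening_iff] at hzt
            obtain ⟨k, hk, hzk⟩ := hzt
            rw [mem_ball] at hzb
            have hkx : dist k x < r := by
              have := dist_triangle k z x
              have h2 := dist_triangle z y x
              rw [dist_comm k z] at this
              linarith
            refine (hlow k hk hkx t ht (by linarith)).trans ?_
            rw [hμ, Measure.restrict_apply measurableSet_ball]
            apply measure_mono
            rintro p ⟨hpK, hpk⟩
            rw [mem_ball] at hpk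
            refine ⟨?_, hpK, ?_⟩
            · rw [mem_ball]
              have := dist_triangle p k z
              rw [dist_comm k z] at this
              linarith
            · rw [mem_closedBall]
              have h3 := dist_triangle p k y
              have h4 := dist_triangle k z y
              rw [dist_comm k z] at h4
              linarith
          · rw [indicator_of_notMem hz, indicator_of_notMem hz]; simp
  -- upper bound for the left-hand side
  have h2 : ∫⁻ k, (∫⁻ z in ball k (2 * t), N.indicator (fun _ => (1 : ℝ≥0∞)) z) ∂μ ≤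
      ENNReal.ofReal (Real.pi * (2 * t) ^ 2) * ENNReal.ofReal (C0 * (3 * s)) := by
    calc ∫⁻ k, (∫⁻ z in ball k (2 * t), N.indicator (fun _ => (1 : ℝ≥0∞)) z) ∂μ
        ≤ ∫⁻ k, ENNReal.ofReal (Real.pi * (2 * t) ^ 2) ∂μ := by
          apply lintegral_mono
          intro k
          calc ∫⁻ z in ball k (2 * t), N.indicator (fun _ => (1 : ℝ≥0∞)) z
              ≤ ∫⁻ z in ball k (2 * t), 1 := by
                apply lintegral_mono
                intro z
                exact indicator_le_self' (fun _ _ => zero_le) z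
            _ = volume (ball k (2 * t)) := by simp
            _ = ENNReal.ofReal (Real.pi * (2 * t) ^ 2) := by
                rw [EuclideanSpace.volume_ball_fin_two, ← ENNReal.ofReal_pow (by positivity),
                  ← ENNReal.ofReal_mul (by positivity), mul_comm]
      _ = ENNReal.ofReal (Real.pi * (2 * t) ^ 2) * μ univ := by rw [lintegral_const]
      _ ≤ _ := by gcongr
  rw [← hton] at h1
  have h3 := h1.trans h2
  rw [← ENNReal.ofReal_mul (by positivity)] at h3
  have hfin : volume N ≠ ⊤ := by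
    apply ne_top_of_le_ne_top _ (measure_mono (inter_subset_left : N ⊆ ball y s))
    exact measure_ball_lt_top.ne
  rw [← ENNReal.ofReal_toReal hfin, ← ENNReal.ofReal_mul (by positivity)] at h3
  rw [← ENNReal.ofReal_toReal hfin]
  apply ENNReal.ofReal_le_ofReal
  have h4 := (ENNReal.ofReal_le_ofReal_iff (by positivity)).1 h3
  have h5 : c0 * (t * (volume N).toReal) ≤ c0 * (t * (12 * Real.pi * (C0 / c0) * t * s)) := by
    have : c0 * (t * (12 * Real.pi * (C0 / c0) * t * s)) = Real.pi * (2 * t) ^ 2 * (C0 * (3 * s)) := by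
      field_simp
      ring
    rw [this]
    linarith
  have h6 := le_of_mul_le_mul_left h5 hc0
  exact le_of_mul_le_mul_left h6 ht

/-- telescoping with a step -/
theorem sum_sub_shift_le (a : ℕ → ℝ) (ha : ∀ k, 0 ≤ a k) (hanti : Antitone a) (N m : ℕ) :
    ∑ k ∈ Finset.range N, (a k - a (k + m)) ≤ m * a 0 := by
  have h1 := Finset.sum_range_add (fun k => a k) N m
  have h2 := Finset.sum_range_add (fun k => a k) m N
  rw [add_comm m N, h1] at h2
  rw [Finset.sum_sub_distrib]
  have h3 : ∑ k ∈ Finset.range N, a (k + m) = ∑ k ∈ Finset.range N, a (m + k) := by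
    apply Finset.sum_congr rfl
    intro k _
    rw [add_comm]
  rw [h3]
  have h4 : 0 ≤ ∑ k ∈ Finset.range m, a (N + k) := Finset.sum_nonneg fun k _ => ha _
  have h5 : ∑ k ∈ Finset.range m, a k ≤ m * a 0 := by
    calc ∑ k ∈ Finset.range m, a k ≤ ∑ _k ∈ Finset.range m, a 0 :=
          Finset.sum_le_sum fun k _ => hanti (Nat.zero_le k)
      _ = m * a 0 := by simp
  linarith

theorem ennreal_add_sq_le (a b : ℝ≥0∞) : (a + b) ^ 2 ≤ 2 * (a ^ 2 + b ^ 2) := by
  rcases eq_or_ne a ⊤ with rfl | ha
  · simp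
  rcases eq_or_ne b ⊤ with rfl | hb
  · simp
  lift a to ℝ≥0 using ha
  lift b to ℝ≥0 using hb
  norm_cast
  exact add_sq_le

/-- Averaging over points of `K` and dyadic scales: somewhere the energy at distance at least
`2^{-m} s` from `K` is small. -/
theorem exists_far_energy_small (hC0 : 0 < C0) (hr : 0 < r) (hx : x ∈ K)
    (hlow : ∀ y ∈ K, dist y x < r → ∀ s : ℝ, 0 < s → s ≤ r →
      ENNReal.ofReal (c0 * s) ≤ Measure.hausdorffMeasure 1 (K ∩ ball y s))
    (hup : ∀ y : E2, dist y x < r → ∀ s : ℝ, 0 < s → s ≤ r →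
      Measure.hausdorffMeasure 1 (K ∩ closedBall y s) ≤ ENNReal.ofReal (C0 * s))
    (hKm : MeasurableSet K) {G : E2 → ℝ≥0∞} (hG : Measurable G)
    (hen : ∫⁻ z in ball x r, G z ≤ ENNReal.ofReal (C0 * r))
    {e : ℝ} (he : 0 < e) (m N : ℕ) (hN : 2 * C0 ^ 2 * m < N * (e * c0)) :
    ∃ y ∈ K, dist y x < r / 2 ∧ ∃ k < N,
      ∫⁻ z in ball y (r / 4 / 2 ^ k) \ thickening (r / 4 / 2 ^ (k + m)) K, G z ≤
        ENNReal.ofReal (e * (r / 4 / 2 ^ k)) := by
  by_contra hcon
  push Not at hcon
  set s : ℕ → ℝ := fun k => r / 4 / 2 ^ k with hs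
  have hspos : ∀ k, 0 < s k := fun k => by simp only [hs]; positivity
  have hsle : ∀ k, s k ≤ r / 4 := fun k => by
    simp only [hs]
    exact div_le_self (by positivity) (one_le_pow₀ (by norm_num))
  have hsanti : Antitone s := by
    intro i j hij
    simp only [hs]
    gcongr
    norm_num
  set A := K ∩ ball x (r / 2) with hA
  set μ : Measure E2 := (Measure.hausdorffMeasure 1).restrict A with hμ
  have hμuniv : μ univ ≤ ENNReal.ofReal (C0 * (r / 2)) := by
    rw [hμ, Measure.restrict_apply_univ]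
    refine le_trans (measure_mono (inter_subset_inter_right K ball_subset_closedBall)) ?_
    exact hup x (by simpa using hr) (r / 2) (by linarith) (by linarith)
  have : IsFiniteMeasure μ := ⟨lt_of_le_of_lt hμuniv ENNReal.ofReal_lt_top⟩
  have hμlow : ENNReal.ofReal (c0 * (r / 2)) ≤ μ univ := by
    rw [hμ, Measure.restrict_apply_univ]
    exact hlow x hx (by simpa using hr) (r / 2) (by linarith) (by linarith)
  set T : ℕ → Set E2 := fun k => thickening (s k) K with hT
  have hTm : ∀ k, MeasurableSet (T k) := fun k => isOpen_thickening.measurableSet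
  have hTanti : Antitone T := fun i j hij => thickening_mono (hsanti hij) K
  have hfin : ∀ S : Set E2, S ⊆ ball x r → ∫⁻ z in S, G z ≠ ⊤ := by
    intro S hS
    exact ((lintegral_mono_set hS).trans hen |>.trans_lt ENNReal.ofReal_lt_top).ne
  set a : ℕ → ℝ := fun k => (∫⁻ z in ball x r ∩ T k, G z).toReal with ha
  have ha0 : ∀ k, 0 ≤ a k := fun k => ENNReal.toReal_nonneg
  have haanti : Antitone a := by
    intro i j hij
    simp only [ha]
    apply ENNReal.toReal_mono (hfin _ inter_subset_left)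
    exact lintegral_mono_set (inter_subset_inter_right _ (hTanti hij))
  have ha00 : a 0 ≤ C0 * r := by
    simp only [ha]
    apply ENNReal.toReal_le_of_le_ofReal (by positivity)
    exact (lintegral_mono_set inter_subset_left).trans hen
  have hdiff : ∀ k, ∫⁻ z in (ball x r ∩ T k) \ T (k + m), G z = ENNReal.ofReal (a k - a (k + m)) := by
    intro k
    have h1 : ball x r ∩ T (k + m) ⊆ ball x r ∩ T k := inter_subset_inter_right _ (hTanti (Nat.le_add_right k m))
    have h2 : (ball x r ∩ T k) \ T (k + m) = (ball x r ∩ T k) \ (ball x r ∩ T (k + m)) := by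
      ext z
      simp only [Set.mem_sdiff, mem_inter_iff]
      tauto
    have h3 : ∫⁻ z in ball x r ∩ T k, G z = (∫⁻ z in (ball x r ∩ T k) ∩ (ball x r ∩ T (k + m)), G z) +
        ∫⁻ z in (ball x r ∩ T k) \ (ball x r ∩ T (k + m)), G z :=
      (lintegral_inter_add_sdiff G _ (measurableSet_ball.inter (hTm _))).symm
    rw [inter_eq_right.2 h1] at h3
    rw [h2]
    simp only [ha]
    rw [h3, ENNReal.toReal_add (hfin _ inter_subset_left)
      (hfin _ (fun z hz => hz.1.1))]
    rw [add_sub_cancel_left, ENNReal.ofReal_toReal (hfin _ (fun z hz => hz.1.1))]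
  -- the key inequality at each scale
  have hkey : ∀ k < N, e * c0 * (r / 2) ≤ C0 * (a k - a (k + m)) := by
    intro k hk
    set H : E2 → ℝ≥0∞ := (ball x r \ T (k + m)).indicator G with hH
    have hHm : Measurable H := hG.indicator (measurableSet_ball.diff (hTm _))
    have h1 : ENNReal.ofReal (e * s k) * μ univ ≤ ∫⁻ y, (∫⁻ z in ball y (s k), H z) ∂μ := by
      rw [← lintegral_const]
      apply lintegral_mono_ae
      have hAe : ∀ᵐ y ∂μ, y ∈ A := ae_restrict_mem (hKm.inter measurableSet_ball)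
      filter_upwards [hAe] with y hy
      have h3 := (hcon y hy.1 hy.2 k hk).le
      refine h3.trans ?_
      rw [hH, setLIntegral_indicator (measurableSet_ball.diff (hTm _))]
      apply lintegral_mono_set
      rintro z ⟨hz1, hz2⟩
      refine ⟨⟨?_, hz2⟩, hz1⟩
      have h4 := dist_triangle z y x
      have h5 : dist y x < r / 2 := hy.2
      have h6 : dist z y < s k := hz1
      rw [mem_ball]
      linarith [hsle k]
    have h2 : ∫⁻ y, (∫⁻ z in ball y (s k), H z) ∂μ ≤
        ENNReal.ofReal (C0 * s k) * ENNReal.ofReal (a k - a (k + m)) := by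
      rw [tonelli_ball μ H hHm (s k), ← hdiff k, ← lintegral_const_mul _ hG,
        ← lintegral_indicator ((measurableSet_ball.inter (hTm k)).diff (hTm _))]
      apply lintegral_mono
      intro z
      dsimp only
      by_cases hz1 : z ∈ ball x r \ T (k + m)
      · rw [hH, indicator_of_mem hz1]
        by_cases hz2 : z ∈ T k
        · rw [indicator_of_mem (show z ∈ (ball x r ∩ T k) \ T (k + m) from ⟨⟨hz1.1, hz2⟩, hz1.2⟩), mul_comm]
          gcongr
          rw [hμ, Measure.restrict_apply measurableSet_ball]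
          refine le_trans (measure_mono ?_) (hup z hz1.1 (s k) (hspos k) (by linarith [hsle k]))
          rintro p ⟨hp1, hp2⟩
          exact ⟨hp2.1, ball_subset_closedBall hp1⟩
        · have : μ (ball z (s k)) = 0 := by
            rw [hμ, Measure.restrict_apply measurableSet_ball]
            have hemp : ball z (s k) ∩ A = ∅ := by
              rw [eq_empty_iff_forall_notMem]
              rintro p ⟨hp1, hp2⟩
              apply hz2
              simp only [hT]
              rw [mem_thickening_iff]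
              exact ⟨p, hp2.1, by rw [dist_comm]; exact hp1⟩
            rw [hemp, measure_empty]
          rw [this, mul_zero]
          exact zero_le
      · rw [hH, indicator_of_notMem hz1, zero_mul]
        exact zero_le
    have h3 : ENNReal.ofReal (e * s k) * ENNReal.ofReal (c0 * (r / 2)) ≤
        ENNReal.ofReal (C0 * s k) * ENNReal.ofReal (a k - a (k + m)) :=
      (mul_le_mul_right hμlow _).trans (h1.trans h2)
    have hak : 0 ≤ a k - a (k + m) := sub_nonneg.2 (haanti (Nat.le_add_right k m))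
    have hsk := hspos k
    rw [← ENNReal.ofReal_mul (by positivity), ← ENNReal.ofReal_mul (by positivity),
      ENNReal.ofReal_le_ofReal_iff (by positivity)] at h3
    have h4 : s k * (e * c0 * (r / 2)) ≤ s k * (C0 * (a k - a (k + m))) := by linarith
    exact le_of_mul_le_mul_left h4 hsk
  have hsum : (N : ℝ) * (e * c0 * (r / 2)) ≤ C0 * (m * a 0) := by
    calc (N : ℝ) * (e * c0 * (r / 2)) = ∑ _k ∈ Finset.range N, e * c0 * (r / 2) := by simp
      _ ≤ ∑ k ∈ Finset.range N, C0 * (a k - a (k + m)) :=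
          Finset.sum_le_sum fun k hk => hkey k (Finset.mem_range.1 hk)
      _ = C0 * ∑ k ∈ Finset.range N, (a k - a (k + m)) := by rw [Finset.mul_sum]
      _ ≤ C0 * (m * a 0) := by
          gcongr
          exact sum_sub_shift_le a ha0 haanti N m
  have h2 : C0 * (m * a 0) ≤ C0 * (m * (C0 * r)) := by gcongr
  have h3 : r * (2 * C0 ^ 2 * m) < r * (N * (e * c0)) := by gcongr
  nlinarith

end Ahlfors

/-- **Step C1 of the concentration property.** -/
theorem exists_small_L1 (c0 C0 : ℝ) (hc0 : 0 < c0) (hC0 : 0 < C0) (e : ℝ) (he : 0 < e) :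
    ∃ C : ℝ, 0 < C ∧ ∀ (K : Set E2) (x : E2) (r : ℝ), 0 < r → x ∈ K → MeasurableSet K →
      (∀ y ∈ K, dist y x < r → ∀ s : ℝ, 0 < s → s ≤ r →
        ENNReal.ofReal (c0 * s) ≤ Measure.hausdorffMeasure 1 (K ∩ ball y s)) →
      (∀ y : E2, dist y x < r → ∀ s : ℝ, 0 < s → s ≤ r →
        Measure.hausdorffMeasure 1 (K ∩ closedBall y s) ≤ ENNReal.ofReal (C0 * s)) →
      ∀ F : E2 → ℝ≥0∞, Measurable F →
      (∀ y : E2, dist y x < r → ∀ s : ℝ, 0 < s → s ≤ r →
        ∫⁻ z in ball y s, F z ^ 2 ≤ ENNReal.ofReal (C0 * s)) →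
      ∃ y ∈ K, dist y x < r / 2 ∧ ∃ s : ℝ, 0 < s ∧ s ≤ r / 4 ∧ r ≤ C * s ∧
        (∫⁻ z in ball y s, F z) ^ 2 ≤ ENNReal.ofReal (e * s ^ 3) := by
  have hpi := Real.pi_pos
  -- choice of m
  obtain ⟨m, hm⟩ : ∃ m : ℕ, 24 * Real.pi * (C0 ^ 2 / c0) * (1 / 2) ^ m < e / 2 := by
    have h1 : Tendsto (fun m : ℕ => 24 * Real.pi * (C0 ^ 2 / c0) * (1 / 2 : ℝ) ^ m) atTop
        (𝓝 (24 * Real.pi * (C0 ^ 2 / c0) * 0)) :=
      (tendsto_pow_atTop_nhds_zero_of_lt_one (by norm_num) (by norm_num)).const_mul _
    rw [mul_zero] at h1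
    exact ((tendsto_order.1 h1).2 _ (by positivity)).exists
  -- choice of N
  obtain ⟨N, hN⟩ : ∃ N : ℕ, 2 * C0 ^ 2 * m < N * (e / (4 * Real.pi) * c0) := by
    obtain ⟨N, hN⟩ := exists_nat_gt (2 * C0 ^ 2 * m / (e / (4 * Real.pi) * c0))
    refine ⟨N, ?_⟩
    rwa [div_lt_iff₀ (by positivity)] at hN
  refine ⟨4 * 2 ^ N, by positivity, ?_⟩
  intro K x r hr hx hKm hlow hup F hF hen
  have hxx : dist x x < r := by simpa using hr
  obtain ⟨y, hy, hyx, k, hk, hfar⟩ := exists_far_energy_small (C0 := C0) hC0 hr hx hlow hup hKm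
    (G := fun z => F z ^ 2) (hF.pow_const 2) (hen x hxx r hr le_rfl) (e := e / (4 * Real.pi))
    (by positivity) m N hN
  set s := r / 4 / 2 ^ k with hs
  have hspos : 0 < s := by positivity
  have hsle : s ≤ r / 4 := div_le_self (by positivity) (one_le_pow₀ (by norm_num))
  set t := r / 4 / 2 ^ (k + m) with ht
  have htpos : 0 < t := by positivity
  have hts : t = s * (1 / 2) ^ m := by
    rw [ht, hs, pow_add, one_div, inv_pow]
    field_simp
  have htles : t ≤ s := by
    rw [hts]
    exact mul_le_of_le_one_right hspos.le (pow_le_one₀ (by norm_num) (by norm_num))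
  refine ⟨y, hy, hyx, s, hspos, hsle, ?_, ?_⟩
  · have h1 : (2 : ℝ) ^ k ≤ 2 ^ N := pow_le_pow_right₀ (by norm_num) hk.le
    calc r = 4 * 2 ^ k * s := by rw [hs]; field_simp
      _ ≤ 4 * 2 ^ N * s := by gcongr
  · have hTm : MeasurableSet (thickening t K) := isOpen_thickening.measurableSet
    have hyr : dist y x < r := by linarith
    have hsplit : ∫⁻ z in ball y s, F z = (∫⁻ z in ball y s ∩ thickening t K, F z) +
        ∫⁻ z in ball y s \ thickening t K, F z := (lintegral_inter_add_sdiff F _ hTm).symm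
    have hnear : (∫⁻ z in ball y s ∩ thickening t K, F z) ^ 2 ≤
        ENNReal.ofReal (12 * Real.pi * (C0 / c0) * t * s) * ENNReal.ofReal (C0 * s) := by
      refine (sq_lintegral_le _ F hF.aemeasurable).trans ?_
      gcongr
      · exact volume_thickening_le hc0 hC0 hlow hup hyx hspos hsle htpos htles
      · exact (lintegral_mono_set inter_subset_left).trans (hen y hyr s hspos (by linarith))
    have hfar2 : (∫⁻ z in ball y s \ thickening t K, F z) ^ 2 ≤
        ENNReal.ofReal (Real.pi * s ^ 2) * ENNReal.ofReal (e / (4 * Real.pi) * s) := by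
      refine (sq_lintegral_le _ F hF.aemeasurable).trans ?_
      gcongr
      refine (measure_mono sdiff_subset).trans ?_
      rw [EuclideanSpace.volume_ball_fin_two, ← ENNReal.ofReal_pow (by positivity),
        ← ENNReal.ofReal_mul (by positivity), mul_comm]
    rw [hsplit]
    refine (ennreal_add_sq_le _ _).trans ?_
    calc 2 * ((∫⁻ z in ball y s ∩ thickening t K, F z) ^ 2 +
          (∫⁻ z in ball y s \ thickening t K, F z) ^ 2)
        ≤ ENNReal.ofReal 2 * (ENNReal.ofReal (12 * Real.pi * (C0 / c0) * t * s) * ENNReal.ofReal (C0 * s) +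
          ENNReal.ofReal (Real.pi * s ^ 2) * ENNReal.ofReal (e / (4 * Real.pi) * s)) := by
          rw [ENNReal.ofReal_ofNat]
          gcongr
      _ = ENNReal.ofReal (2 * (12 * Real.pi * (C0 / c0) * t * s * (C0 * s) +
          Real.pi * s ^ 2 * (e / (4 * Real.pi) * s))) := by
          rw [← ENNReal.ofReal_mul (by positivity), ← ENNReal.ofReal_mul (by positivity),
            ← ENNReal.ofReal_add (by positivity) (by positivity), ← ENNReal.ofReal_mul (by positivity)]
      _ ≤ ENNReal.ofReal (e * s ^ 3) := by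
          apply ENNReal.ofReal_le_ofReal
          rw [hts]
          have h1 : 2 * (12 * Real.pi * (C0 / c0) * (s * (1 / 2) ^ m) * s * (C0 * s) +
            Real.pi * s ^ 2 * (e / (4 * Real.pi) * s)) =
            (24 * Real.pi * (C0 ^ 2 / c0) * (1 / 2) ^ m + e / 2) * s ^ 3 := by
            field_simp
            ring
          rw [h1]
          gcongr
          linarith

end Crest.Agent.R135
end

-- ▼ part R135/Conc3

/-!
R135 (helper709): concentration, part 3 (block CONC, step C2): small `L¹` norm of the gradient in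
`B(y,s)` forces `H¹(K ∩ B(y,s)) ≥ (2-ε)s`.
-/

set_option autoImplicit false

open MeasureTheory Set Filter Topology Metric
open scoped ENNReal NNReal Gradient

namespace Crest.Agent.R135

theorem measurable_circL {F : E2 → ℝ≥0∞} (hF : Measurable F) (y : E2) :
    Measurable (fun t : ℝ => ENNReal.ofReal t * ∫⁻ θ in Ioo (-Real.pi) Real.pi, F (cpt y t θ)) := by
  have h3 : Measurable (Function.uncurry (fun (t θ : ℝ) => F (cpt y t θ))) :=
    hF.comp (continuous_cpt y).measurable
  have h4 := h3.lintegral_prod_right' (ν := volume.restrict (Ioo (-Real.pi) Real.pi))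
  exact ENNReal.measurable_ofReal.mul h4

theorem volume_le_of_mul_le {v : ℝ≥0∞} {a b : ℝ} (ha : 0 < a)
    (h : ENNReal.ofReal a * v ≤ ENNReal.ofReal b) : v ≤ ENNReal.ofReal (b / a) := by
  rw [ENNReal.ofReal_div_of_pos ha, ENNReal.le_div_iff_mul_le (Or.inl (by simpa using ha))
    (Or.inl ENNReal.ofReal_ne_top), mul_comm]
  exact h

/-- Chebyshev for circles -/
theorem volume_bad_radii_le {F : E2 → ℝ≥0∞} (hF : Measurable F) {y : E2} {s a b : ℝ} (ha : 0 < a)
    (hb : ∫⁻ z in ball y s, F z ≤ ENNReal.ofReal b) :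
    volume {t ∈ Ioo 0 s | ENNReal.ofReal a ≤
      ENNReal.ofReal t * ∫⁻ θ in Ioo (-Real.pi) Real.pi, F (cpt y t θ)} ≤ ENNReal.ofReal (b / a) := by
  apply volume_le_of_mul_le ha
  have h1 := mul_meas_ge_le_lintegral₀ (μ := volume.restrict (Ioo 0 s))
    (measurable_circL hF y).aemeasurable (ENNReal.ofReal a)
  rw [← lintegral_ball_polar y s hF.aemeasurable] at h1
  refine le_trans (mul_le_mul_right ?_ _) (h1.trans hb)
  rw [Measure.restrict_apply' measurableSet_Ioo]
  apply measure_mono
  rintro t ⟨h1, h2⟩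
  exact ⟨h2, h1⟩

/-- **Step C2 of the concentration property.** -/
theorem exists_conc_of_small_L1 (c0 C0 : ℝ) (hc0 : 0 < c0) (hC0 : 0 < C0) (ε : ℝ) (hε : 0 < ε)
    (hε1 : ε ≤ 1) : ∃ e : ℝ, 0 < e ∧ ∃ l0 : ℝ, 0 < l0 ∧ ∀ {U : Set E2} {lam : ℝ} {u : E2 → ℝ}
      {K : Set E2}, IsQM U lam u K → ∀ (y : E2) (s : ℝ), 0 < s → closedBall y s ⊆ U → lam * s ≤ l0 →
      (∀ ρ : ℝ, 0 < ρ → ρ ≤ s → ENNReal.ofReal (c0 * ρ) ≤ len (K ∩ closedBall y ρ)) →
      ∫⁻ z in ball y s, ‖∇ u z‖ₑ ^ 2 ≤ ENNReal.ofReal (C0 * s) →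
      (∫⁻ z in ball y s, ‖∇ u z‖ₑ) ^ 2 ≤ ENNReal.ofReal (e * s ^ 3) →
      ENNReal.ofReal ((2 - ε) * s) ≤ len (K ∩ ball y s) := by
  have hpi := Real.pi_pos
  set δ : ℝ := ε / 4 with hδ
  have hδ0 : 0 < δ := by positivity
  have hδ1 : δ ≤ 1 / 4 := by rw [hδ]; linarith
  set h : ℝ := min (1 / 2) (c0 / (4 * (6 * C0 / δ + 1))) with hh
  have hden : 0 < 4 * (6 * C0 / δ + 1) := by positivity
  have hh0 : 0 < h := lt_min (by norm_num) (by positivity)
  have hh2 : h ≤ 1 / 2 := min_le_left _ _
  have hh3 : h * (6 * C0 / δ + 1) ≤ c0 / 4 := by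
    have : h ≤ c0 / (4 * (6 * C0 / δ + 1)) := min_le_right _ _
    rw [le_div_iff₀ hden] at this
    linarith
  set e : ℝ := c0 * h * δ ^ 3 / (72 * Real.pi) with he
  have he0 : 0 < e := by positivity
  refine ⟨e, he0, c0 / 4, by positivity, ?_⟩
  intro U lam u K hq y s hs hball hlam hlow hen hL1
  have hFm : Measurable (fun z => ‖∇ u z‖ₑ) := (measurable_gradient u).enorm
  have hF2m : Measurable (fun z => ‖∇ u z‖ₑ ^ 2) := hFm.pow_const 2
  set b1 : ℝ := Real.sqrt (e * s ^ 3) with hb1
  have hb1pos : 0 < b1 := Real.sqrt_pos.2 (by positivity)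
  have hI1 : ∫⁻ z in ball y s, ‖∇ u z‖ₑ ≤ ENNReal.ofReal b1 := by
    have h1 : ENNReal.ofReal (e * s ^ 3) = ENNReal.ofReal b1 ^ 2 := by
      rw [← ENNReal.ofReal_pow hb1pos.le, hb1, Real.sq_sqrt (by positivity)]
    rw [h1] at hL1
    exact (ENNReal.pow_le_pow_left_iff (by norm_num)).1 hL1
  set a1 : ℝ := 3 * b1 / (δ * s) with ha1
  set a2 : ℝ := 3 * C0 / δ with ha2
  have ha1pos : 0 < a1 := by positivity
  have ha2pos : 0 < a2 := by positivity
  set B1 := {t ∈ Ioo 0 s | ENNReal.ofReal a1 ≤
      ENNReal.ofReal t * ∫⁻ θ in Ioo (-Real.pi) Real.pi, ‖∇ u (cpt y t θ)‖ₑ} with hB1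
  set B2 := {t ∈ Ioo 0 s | ENNReal.ofReal a2 ≤
      ENNReal.ofReal t * ∫⁻ θ in Ioo (-Real.pi) Real.pi, ‖∇ u (cpt y t θ)‖ₑ ^ 2} with hB2
  have hvB1 : volume B1 ≤ ENNReal.ofReal (δ * s / 3) := by
    have := volume_bad_radii_le hFm (y := y) ha1pos hI1
    have h2 : b1 / a1 = δ * s / 3 := by rw [ha1]; field_simp
    rwa [h2] at this
  have hvB2 : volume B2 ≤ ENNReal.ofReal (δ * s / 3) := by
    have := volume_bad_radii_le hF2m (y := y) ha2pos hen
    have h2 : C0 * s / a2 = δ * s / 3 := by rw [ha2]; field_simp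
    rwa [h2] at this
  set T := {t ∈ Ioo (δ * s) s | (K ∩ sphere y t).Subsingleton} with hT
  have hTB : T ⊆ B1 ∪ B2 := by
    rintro ρ ⟨hρ, hsub⟩
    by_contra hcon
    have hρ0 : 0 < ρ := lt_trans (by positivity) hρ.1
    have hρI : ρ ∈ Ioo 0 s := ⟨hρ0, hρ.2⟩
    simp only [mem_union, not_or] at hcon
    have h1 : ENNReal.ofReal ρ * ∫⁻ θ in Ioo (-Real.pi) Real.pi, ‖∇ u (cpt y ρ θ)‖ₑ <
        ENNReal.ofReal a1 := by
      by_contra hc
      exact hcon.1 ⟨hρI, not_lt.1 hc⟩
    have h2 : ENNReal.ofReal ρ * ∫⁻ θ in Ioo (-Real.pi) Real.pi, ‖∇ u (cpt y ρ θ)‖ₑ ^ 2 <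
        ENNReal.ofReal a2 := by
      by_contra hc
      exact hcon.2 ⟨hρI, not_lt.1 hc⟩
    have hballρ : closedBall y ρ ⊆ U := (closedBall_subset_closedBall hρ.2.le).trans hball
    have h3 := hq.enE_le_of_subsingleton hρ0 hballρ hsub hh0 (by linarith)
    have h4 : enE u K (closedBall y ρ) ≤
        ENNReal.ofReal (2 * Real.pi / h) * ENNReal.ofReal a1 ^ 2 +
        ENNReal.ofReal (h * ρ / (1 - h)) * ENNReal.ofReal a2 +
        ENNReal.ofReal (h * ρ) + ENNReal.ofReal (lam * ρ ^ 2) := by
      refine h3.trans ?_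
      gcongr
    have h5 : ENNReal.ofReal (c0 * ρ) ≤ enE u K (closedBall y ρ) :=
      (hlow ρ hρ0 hρ.2.le).trans le_add_self
    have h6 := h5.trans h4
    have h1h : 0 < 1 - h := by linarith
    rw [← ENNReal.ofReal_pow ha1pos.le, ← ENNReal.ofReal_mul (by positivity),
      ← ENNReal.ofReal_mul (by positivity), ← ENNReal.ofReal_add (by positivity) (by positivity),
      ← ENNReal.ofReal_add (by positivity) (by positivity),
      ← ENNReal.ofReal_add (by positivity) (mul_nonneg hq.lam_nonneg (by positivity)),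
      ENNReal.ofReal_le_ofReal_iff (by
        have := hq.lam_nonneg
        positivity)] at h6
    -- estimates
    have e1 : 2 * Real.pi / h * a1 ^ 2 ≤ c0 / 4 * ρ := by
      have : a1 ^ 2 = 9 * e * s / δ ^ 2 := by
        rw [ha1, div_pow, mul_pow, hb1, Real.sq_sqrt (by positivity)]
        field_simp
        ring
      rw [this]
      have hsρ : δ * s ≤ ρ := hρ.1.le
      have h7 : 2 * Real.pi / h * (9 * e * s / δ ^ 2) = c0 / 4 * (δ * s) := by
        rw [he]
        field_simp
        ring
      rw [h7]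
      gcongr
    have e2 : h * ρ / (1 - h) * a2 ≤ h * (6 * C0 / δ) * ρ := by
      have h8 : h * ρ / (1 - h) ≤ 2 * (h * ρ) := by
        rw [div_le_iff₀ h1h]
        nlinarith [mul_pos hh0 hρ0]
      calc h * ρ / (1 - h) * a2 ≤ 2 * (h * ρ) * a2 := by gcongr
        _ = h * (6 * C0 / δ) * ρ := by rw [ha2]; ring
    have e3 : lam * ρ ^ 2 ≤ c0 / 4 * ρ := by
      have : lam * ρ ≤ c0 / 4 := le_trans (mul_le_mul_of_nonneg_left hρ.2.le hq.lam_nonneg) hlam
      nlinarith
    have e4 : h * (6 * C0 / δ) * ρ + h * ρ ≤ c0 / 4 * ρ := by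
      have : h * (6 * C0 / δ) * ρ + h * ρ = h * (6 * C0 / δ + 1) * ρ := by ring
      rw [this]
      gcongr
    have h9 : 0 < c0 * ρ := by positivity
    nlinarith
  have hvT : volume T ≤ ENNReal.ofReal (δ * s) := by
    refine (measure_mono hTB).trans ((measure_union_le _ _).trans ((add_le_add hvB1 hvB2).trans ?_))
    rw [← ENNReal.ofReal_add (by positivity) (by positivity)]
    apply ENNReal.ofReal_le_ofReal
    nlinarith [mul_pos hδ0 hs]
  set T' := Ioo (δ * s) s \ T with hT'
  have hvT' : ENNReal.ofReal ((1 - 2 * δ) * s) ≤ volume T' := by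
    have h1 : Ioo (δ * s) s ⊆ T' ∪ T := by
      intro t ht
      by_cases htT : t ∈ T
      · exact Or.inr htT
      · exact Or.inl ⟨ht, htT⟩
    have h2 : ENNReal.ofReal (s - δ * s) ≤ volume T' + ENNReal.ofReal (δ * s) := by
      rw [← Real.volume_Ioo]
      exact (measure_mono h1).trans ((measure_union_le _ _).trans (add_le_add le_rfl hvT))
    have h3 : ENNReal.ofReal (s - δ * s) = ENNReal.ofReal ((1 - 2 * δ) * s) + ENNReal.ofReal (δ * s) := by
      rw [← ENNReal.ofReal_add (by
        have : 0 ≤ 1 - 2 * δ := by linarith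
        positivity) (by positivity)]
      congr 1
      ring
    rw [h3] at h2
    exact (ENNReal.add_le_add_iff_right ENNReal.ofReal_ne_top).1 h2
  have hcount := mul_volume_radii_le (K ∩ ball y s) y T' 2 (by
    intro t ht
    have h1 : ¬ (K ∩ sphere y t).Subsingleton := fun hc => ht.2 ⟨ht.1, hc⟩
    rw [not_subsingleton_iff] at h1
    have h2 := one_lt_encard_iff_nontrivial.2 h1
    have h3 : K ∩ ball y s ∩ sphere y t = K ∩ sphere y t := by
      ext z
      constructor
      · rintro ⟨⟨h4, _⟩, h5⟩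
        exact ⟨h4, h5⟩
      · rintro ⟨h4, h5⟩
        refine ⟨⟨h4, ?_⟩, h5⟩
        rw [mem_ball, mem_sphere.1 h5]
        exact ht.1.2
    rw [h3]
    have h4 := Order.add_one_le_of_lt h2
    norm_num at h4
    exact_mod_cast h4)
  calc ENNReal.ofReal ((2 - ε) * s) = (2 : ℕ) * ENNReal.ofReal ((1 - 2 * δ) * s) := by
        have h2 : ((2 : ℕ) : ℝ≥0∞) = ENNReal.ofReal 2 := by simp
        rw [h2, ← ENNReal.ofReal_mul (by norm_num)]
        congr 1
        rw [hδ]
        ring
    _ ≤ (2 : ℕ) * volume T' := by gcongr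
    _ ≤ len (K ∩ ball y s) := hcount

end Crest.Agent.R135
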