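import Mathlib
import Crest.Agent.R135.GMT1

/-!
R135 toolbox, pure measure theory (helper709): covers, densities, connected sets.
-/

set_option autoImplicit false

open MeasureTheory Set Filter Topology Metric
open scoped ENNReal NNReal

namespace Crest.Agent.R135

theorem ediam_closedBall_le {X : Type*} [MetricSpace X] (x : X) (r : ℝ) :
    ediam (closedBall x r) ≤ 2 * ENNReal.ofReal r := by
  rcases lt_or_ge r 0 with hr | hr
  · rw [closedBall_eq_empty.2 hr]; simp
  · rw [← Metric.closedEBall_ofReal hr]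
    exact ediam_closedEBall_le

section Covers

variable {X : Type*} [MetricSpace X] [MeasurableSpace X] [BorelSpace X]

/-- Upper bound for `H¹` from covers of small diameter. -/
theorem hausdorff_one_le_of_covers (A : Set X) (M : ℝ≥0∞)
    (h : ∀ δ : ℝ≥0∞, 0 < δ → ∃ t : ℕ → Set X, A ⊆ ⋃ n, t n ∧ (∀ n, ediam (t n) ≤ δ) ∧
      ∑' n, ediam (t n) ≤ M) : Measure.hausdorffMeasure 1 A ≤ M := by
  rw [Measure.hausdorffMeasure_apply]
  refine iSup₂_le fun r hr => ?_
  obtain ⟨t, ht, hd, hs⟩ := h r hr
  refine (iInf_le_of_le t (iInf_le_of_le ht (iInf_le_of_le hd ?_)))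
  refine le_trans (ENNReal.tsum_le_tsum fun n => ?_) hs
  refine iSup_le fun _ => ?_
  simp

/-- Covers of small diameter from an upper bound for `H¹`. -/
theorem exists_cover_of_hausdorff_lt (A : Set X) (M : ℝ≥0∞) (h : Measure.hausdorffMeasure 1 A < M)
    (δ : ℝ≥0∞) (hδ : 0 < δ) : ∃ t : ℕ → Set X, A ⊆ ⋃ n, t n ∧ (∀ n, ediam (t n) ≤ δ) ∧
      ∑' n, ediam (t n) < M := by
  rw [Measure.hausdorffMeasure_apply] at h
  have h1 := lt_of_le_of_lt (le_iSup₂_of_le δ hδ le_rfl) h
  simp only [iInf_lt_iff] at h1
  obtain ⟨t, ht, hd, hs⟩ := h1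
  refine ⟨t, ht, hd, lt_of_le_of_lt (ENNReal.tsum_le_tsum fun n => ?_) hs⟩
  rcases (t n).eq_empty_or_nonempty with he | hne
  · simp [he]
  · simp [hne]

/-- If `K` has everywhere on `A` small upper density, then `A` is `H¹`-null. -/
theorem hausdorff_zero_of_small_density (K A : Set X) (hA : A ⊆ K)
    (hK : Measure.hausdorffMeasure 1 A ≠ ⊤) (c : ℝ≥0∞) (hc : c < 1)
    (h : ∀ x ∈ A, ∃ r0 : ℝ, 0 < r0 ∧ ∀ r : ℝ, 0 < r → r ≤ r0 →
      Measure.hausdorffMeasure 1 (K ∩ closedBall x r) ≤ c * ENNReal.ofReal r) :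
    Measure.hausdorffMeasure 1 A = 0 := by
  -- exhaust `A`
  let S : ℕ → Set X := fun j => {x ∈ A | ∀ r : ℝ, 0 < r → r ≤ 1 / ((j : ℝ) + 1) →
      Measure.hausdorffMeasure 1 (K ∩ closedBall x r) ≤ c * ENNReal.ofReal r}
  have hcov : A = ⋃ j, S j := by
    ext x
    simp only [S, mem_iUnion, mem_ofPred_eq]
    constructor
    · intro hx
      obtain ⟨r0, hr0, hr⟩ := h x hx
      obtain ⟨j, hj⟩ := exists_nat_one_div_lt hr0
      exact ⟨j, hx, fun r h1 h2 => hr r h1 (h2.trans hj.le)⟩
    · rintro ⟨j, hx, _⟩; exact hx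
  have hS0 : ∀ j, Measure.hausdorffMeasure 1 (S j) = 0 := by
    intro j
    have hSA : S j ⊆ A := fun x hx => hx.1
    have hfin : Measure.hausdorffMeasure 1 (S j) ≠ ⊤ :=
      ne_top_of_le_ne_top hK (measure_mono hSA)
    -- main estimate
    have hmain : ∀ ε : ℝ≥0∞, 0 < ε → ε ≠ ⊤ →
        Measure.hausdorffMeasure 1 (S j) ≤ c * (Measure.hausdorffMeasure 1 (S j) + ε) := by
      intro ε hε hεt
      obtain ⟨t, ht, hd, hs⟩ := exists_cover_of_hausdorff_lt (S j)
        (Measure.hausdorffMeasure 1 (S j) + ε)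
        (ENNReal.lt_add_right hfin hε.ne') (ENNReal.ofReal (1 / ((j : ℝ) + 1)))
        (by simp; positivity)
      have hpiece : ∀ n, Measure.hausdorffMeasure 1 (S j ∩ t n) ≤ c * ediam (t n) := by
        intro n
        rcases (S j ∩ t n).eq_empty_or_nonempty with he | ⟨x, hx⟩
        · simp [he]
        · have hdn : ediam (t n) ≠ ⊤ := ne_top_of_le_ne_top ENNReal.ofReal_ne_top (hd n)
          by_cases hz : ediam (t n) = 0
          · have hsub : (S j ∩ t n).Subsingleton :=
              (ediam_eq_zero_iff.1 hz).anti inter_subset_right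
            have hns : NullSingletonClass (Measure.hausdorffMeasure 1 : Measure X) :=
              Measure.nullSingletonClass_hausdorff X one_pos
            rw [hsub.measure_zero]
            exact zero_le
          · have hr : 0 < (ediam (t n)).toReal := ENNReal.toReal_pos hz hdn
            have hr2 : (ediam (t n)).toReal ≤ 1 / ((j : ℝ) + 1) := by
              have := ENNReal.toReal_mono ENNReal.ofReal_ne_top (hd n)
              rwa [ENNReal.toReal_ofReal (by positivity)] at this
            have hb := hx.1.2 _ hr hr2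
            rw [ENNReal.ofReal_toReal hdn] at hb
            refine le_trans (measure_mono ?_) hb
            intro y hy
            refine ⟨hA (hSA hy.1), ?_⟩
            rw [mem_closedBall, dist_edist]
            exact ENNReal.toReal_mono hdn (edist_le_ediam_of_mem hy.2 hx.2)
      calc Measure.hausdorffMeasure 1 (S j) ≤ Measure.hausdorffMeasure 1 (⋃ n, S j ∩ t n) := by
            apply measure_mono
            intro x hx
            have := ht hx
            simp only [mem_iUnion] at this ⊢
            obtain ⟨n, hn⟩ := this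
            exact ⟨n, hx, hn⟩
        _ ≤ ∑' n, Measure.hausdorffMeasure 1 (S j ∩ t n) := measure_iUnion_le _
        _ ≤ ∑' n, c * ediam (t n) := ENNReal.tsum_le_tsum hpiece
        _ = c * ∑' n, ediam (t n) := ENNReal.tsum_mul_left
        _ ≤ c * (Measure.hausdorffMeasure 1 (S j) + ε) := by gcongr
    -- conclude
    set m := Measure.hausdorffMeasure 1 (S j) with hm
    have hct : c ≠ ⊤ := (hc.trans ENNReal.one_lt_top).ne
    have hle : m ≤ c * m := by
      refine ENNReal.le_of_forall_pos_le_add ?_
      intro ε hε _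
      have h1 := hmain (ε : ℝ≥0∞) (by exact_mod_cast hε) ENNReal.coe_ne_top
      calc m ≤ c * (m + ε) := h1
        _ = c * m + c * ε := by ring
        _ ≤ c * m + 1 * ε := by gcongr
        _ = c * m + ε := by rw [one_mul]
    by_contra hne
    have hpos : 0 < m := pos_iff_ne_zero.2 hne
    have : c * m < 1 * m := by
      exact ENNReal.mul_lt_mul_left hne hfin hc
    rw [one_mul] at this
    exact absurd hle (not_le.2 this)
  rw [hcov]
  exact measure_iUnion_null hS0

/-- Upper bound for `H¹` from countable covers of small diameter, arbitrary index types. -/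
theorem hausdorff_one_le_of_covers' {X : Type*} [MetricSpace X] [MeasurableSpace X] [BorelSpace X]
    (A : Set X) (M : ℝ≥0∞)
    (h : ∀ δ : ℝ, 0 < δ → ∃ (u : Set (X × ℝ)) (_ : u.Countable) (t : u → Set X), A ⊆ ⋃ n, t n ∧
      (∀ n, ediam (t n) ≤ ENNReal.ofReal δ) ∧
      ∑' n, ediam (t n) ≤ M) : Measure.hausdorffMeasure 1 A ≤ M := by
  have hpos : ∀ n : ℕ, (0 : ℝ) < 1 / ((n : ℝ) + 1) := fun n => by positivity
  choose u hu t ht hd hs using fun n : ℕ => h (1 / ((n : ℝ) + 1)) (hpos n)
  have : ∀ n, Countable (u n) := fun n => (hu n).to_subtype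
  have h1 := Measure.hausdorffMeasure_le_liminf_tsum (X := X) (ι := fun n => (u n : Type _)) 1 A
    (l := atTop) (fun n : ℕ => ENNReal.ofReal (1 / ((n : ℝ) + 1)))
    (by
      have : Tendsto (fun n : ℕ => (1 / ((n : ℝ) + 1))) atTop (𝓝 0) :=
        tendsto_one_div_add_atTop_nhds_zero_nat
      simpa using (ENNReal.tendsto_ofReal this))
    t (Eventually.of_forall hd) (Eventually.of_forall ht)
  refine h1.trans ?_
  apply liminf_le_of_le (by isBoundedDefault)
  intro b hb
  obtain ⟨n, hn⟩ := hb.exists
  refine hn.trans ?_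
  simpa using hs n



end Covers

section Fine

variable {X : Type*} [MetricSpace X] [MeasurableSpace X] [BorelSpace X]

/-- Abstract covering lemma behind the lower semicontinuity of `H¹`: if the balls of the family `F`
are fine on `K` (with comparable size) and every finite disjoint subfamily has total diameter
`≤ M`, then `H¹(K) ≤ M`. -/
theorem hausdorff_le_of_fine_family (K : Set X) (C : ℝ) (hC : 0 < C) (F : Set (X × ℝ))
    (hF : ∀ a ∈ F, 0 < a.2)
    (hfine : ∀ x ∈ K, ∃ r0 : ℝ, 0 < r0 ∧ ∀ r : ℝ, 0 < r → r ≤ r0 → ∃ a ∈ F,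
      closedBall a.1 a.2 ⊆ closedBall x r ∧ a.2 ≤ r ∧ r ≤ C * a.2)
    (M : ℝ) (hM : ∀ s : Finset (X × ℝ), (s : Set (X × ℝ)) ⊆ F →
      (s : Set (X × ℝ)).PairwiseDisjoint (fun a => closedBall a.1 a.2) → ∑ a ∈ s, 2 * a.2 ≤ M) :
    Measure.hausdorffMeasure 1 K ≤ ENNReal.ofReal M := by
  classical
  have hM0 : 0 ≤ M := by simpa using hM ∅ (by simp) (by simp)
  refine ENNReal.le_of_forall_pos_le_add ?_
  intro ε hε _
  apply hausdorff_one_le_of_covers'
  intro δ hδ
  set L : ℝ := 2 * C + 1 with hL
  have hL1 : 1 ≤ L := by linarith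
  have hL0 : 0 < L := by linarith
  let δ' : ℝ := δ / (2 * L)
  have hδ' : 0 < δ' := by positivity
  let T : Set (X × ℝ) := {a | a ∈ F ∧ a.2 ≤ δ'}
  obtain ⟨u, huT, hud, hcov⟩ := Vitali.exists_disjoint_subfamily_covering_enlargement
    (fun a : X × ℝ => closedBall a.1 a.2) T (fun a => a.2) 2 (by norm_num)
    (fun a ha => (hF a ha.1).le) δ' (fun a ha => ha.2)
    (fun a ha => ⟨a.1, mem_closedBall_self (hF a ha.1).le⟩)
  have hupos : ∀ a : u, 0 < (a : X × ℝ).2 := fun a => hF _ (huT a.2).1
  have hbound : ∀ s : Finset u, ∑ a ∈ s, (a : X × ℝ).2 ≤ M / 2 := by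
    intro s
    have h1 := hM (s.map (Function.Embedding.subtype _)) (by
      intro a ha
      simp only [Finset.coe_map, Function.Embedding.subtype_apply, mem_image] at ha
      obtain ⟨b, _, rfl⟩ := ha
      exact (huT b.2).1) (hud.subset (by
      intro a ha
      simp only [Finset.coe_map, Function.Embedding.subtype_apply, mem_image] at ha
      obtain ⟨b, _, rfl⟩ := ha
      exact b.2))
    rw [← Finset.mul_sum, Finset.sum_map] at h1
    simp only [Function.Embedding.subtype_apply] at h1
    linarith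
  have hsummable : Summable (fun a : u => (a : X × ℝ).2) :=
    summable_of_sum_le (fun a => (hupos a).le) hbound
  have hcount : u.Countable := by
    have h1 := hsummable.countable_support
    have hsup : (Function.support fun a : u => (a : X × ℝ).2) = univ := by
      ext a
      simp only [Function.mem_support, ne_eq, mem_univ, iff_true]
      exact (hupos a).ne'
    rw [hsup] at h1
    exact Set.countable_coe_iff.1 (Set.countable_univ_iff.1 h1)
  -- finite part
  obtain ⟨s, hs⟩ : ∃ s : Finset u, ∀ t : Finset u, Disjoint t s →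
      ∑ a ∈ t, 2 * L * (a : X × ℝ).2 ≤ ε := by
    have h2 : Summable (fun a : u => 2 * L * (a : X × ℝ).2) := hsummable.mul_left _
    obtain ⟨s, hs⟩ := summable_iff_vanishing_norm.1 h2 (ε : ℝ) (by exact_mod_cast hε)
    refine ⟨s, fun t ht => ?_⟩
    have := hs t ht
    exact (le_abs_self _).trans this.le
  let t : u → Set X := fun a =>
    if a ∈ s then closedBall (a : X × ℝ).1 (a : X × ℝ).2 else closedBall (a : X × ℝ).1 (L * (a : X × ℝ).2)
  refine ⟨u, hcount, t, ?_, ?_, ?_⟩
  · intro x hx
    by_cases hxs : ∃ a ∈ s, x ∈ closedBall ((a : u) : X × ℝ).1 (a : X × ℝ).2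
    · obtain ⟨a, ha, hxa⟩ := hxs
      simp only [mem_iUnion]
      exact ⟨a, by simp only [t, if_pos ha]; exact hxa⟩
    · have hclosed : IsClosed (⋃ a ∈ s, closedBall ((a : u) : X × ℝ).1 (a : X × ℝ).2) :=
        s.finite_toSet.isClosed_biUnion fun a _ => isClosed_closedBall
      have hxc : x ∈ (⋃ a ∈ s, closedBall ((a : u) : X × ℝ).1 (a : X × ℝ).2)ᶜ := by
        simp only [mem_compl_iff, mem_iUnion, not_exists]
        intro a ha hxa
        exact hxs ⟨a, ha, hxa⟩
      obtain ⟨ρ, hρ, hρU⟩ := Metric.nhds_basis_closedBall.mem_iff.1 (hclosed.isOpen_compl.mem_nhds hxc)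
      obtain ⟨r0, hr0, hr⟩ := hfine x hx
      obtain ⟨a, haF, hasub, har, hra⟩ := hr (min (min ρ r0) δ') (by positivity)
        ((min_le_left _ _).trans (min_le_right _ _))
      set r := min (min ρ r0) δ' with hrdef
      have hrρ : r ≤ ρ := (min_le_left _ _).trans (min_le_left _ _)
      have hrδ : r ≤ δ' := min_le_right _ _
      obtain ⟨b, hb, ⟨z, hza, hzb⟩, hab⟩ := hcov a ⟨haF, har.trans hrδ⟩
      have hbs : (⟨b, hb⟩ : u) ∉ s := by
        intro hbs
        have hz : z ∈ closedBall x ρ := closedBall_subset_closedBall hrρ (hasub hza)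
        have := hρU hz
        simp only [mem_compl_iff, mem_iUnion, not_exists] at this
        exact this ⟨b, hb⟩ hbs hzb
      simp only [mem_iUnion]
      refine ⟨⟨b, hb⟩, ?_⟩
      simp only [t, if_neg hbs]
      rw [mem_closedBall]
      have hzx : dist z x ≤ r := hasub hza
      have hzb' : dist z b.1 ≤ b.2 := hzb
      calc dist x b.1 ≤ dist x z + dist z b.1 := dist_triangle _ _ _
        _ ≤ r + b.2 := by rw [dist_comm x z]; linarith
        _ ≤ L * b.2 := by
            rw [hL]
            have : C * a.2 ≤ C * (2 * b.2) := by gcongr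
            nlinarith
  · intro a
    have haδ : (a : X × ℝ).2 ≤ δ' := (huT a.2).2
    have h1 : t a ⊆ closedBall (a : X × ℝ).1 (L * (a : X × ℝ).2) := by
      simp only [t]
      split_ifs
      · apply closedBall_subset_closedBall
        nlinarith [hupos a]
      · exact Subset.rfl
    refine (ediam_mono h1).trans ((ediam_closedBall_le _ _).trans ?_)
    rw [show (2 : ℝ≥0∞) = ENNReal.ofReal 2 by simp, ← ENNReal.ofReal_mul (by norm_num)]
    apply ENNReal.ofReal_le_ofReal
    calc 2 * (L * (a : X × ℝ).2) ≤ 2 * (L * δ') := by gcongr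
      _ = δ := by simp only [δ']; field_simp
  · -- the sum
    have h1 : ∀ a : u, ediam (t a) ≤
        ENNReal.ofReal (if a ∈ s then 2 * (a : X × ℝ).2 else 0) +
        ENNReal.ofReal (if a ∈ s then 0 else 2 * L * (a : X × ℝ).2) := by
      intro a
      by_cases ha : a ∈ s
      · simp only [t, if_pos ha, ENNReal.ofReal_zero, add_zero]
        refine (ediam_closedBall_le _ _).trans ?_
        rw [show (2 : ℝ≥0∞) = ENNReal.ofReal 2 by simp, ← ENNReal.ofReal_mul (by norm_num)]
      · simp only [t, if_neg ha, ENNReal.ofReal_zero, zero_add]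
        refine (ediam_closedBall_le _ _).trans ?_
        rw [show (2 : ℝ≥0∞) = ENNReal.ofReal 2 by simp, ← ENNReal.ofReal_mul (by norm_num)]
        apply ENNReal.ofReal_le_ofReal
        linarith
    refine (ENNReal.tsum_le_tsum h1).trans ?_
    rw [ENNReal.tsum_add]
    gcongr
    · rw [ENNReal.tsum_eq_iSup_sum]
      refine iSup_le fun w => ?_
      rw [← ENNReal.ofReal_sum_of_nonneg]
      · apply ENNReal.ofReal_le_ofReal
        rw [← Finset.sum_filter]
        have := hbound (w.filter (fun a => a ∈ s))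
        rw [← Finset.mul_sum]
        linarith
      · intro a _
        split_ifs
        · have := hupos a; positivity
        · exact le_rfl
    · rw [ENNReal.tsum_eq_iSup_sum]
      refine iSup_le fun w => ?_
      rw [← ENNReal.ofReal_sum_of_nonneg]
      · rw [show (ε : ℝ≥0∞) = ENNReal.ofReal (ε : ℝ) by simp]
        apply ENNReal.ofReal_le_ofReal
        have h3 : ∑ a ∈ w, (if a ∈ s then 0 else 2 * L * (a : X × ℝ).2)
            = ∑ a ∈ w.filter (fun a => a ∉ s), 2 * L * (a : X × ℝ).2 := by
          rw [Finset.sum_filter]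
          apply Finset.sum_congr rfl
          intro a _
          by_cases ha : a ∈ s <;> simp [ha]
        rw [h3]
        apply hs
        rw [Finset.disjoint_left]
        intro a ha has
        exact (Finset.mem_filter.1 ha).2 has
      · intro a _
        split_ifs
        · exact le_rfl
        · have := hupos a; positivity

end Fine

section Connected

variable {X : Type*} [MetricSpace X] [MeasurableSpace X] [BorelSpace X]

/-- A preconnected set has `H¹` at least the distance of any two of its points. -/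
theorem dist_le_hausdorff_of_isPreconnected (C : Set X) (hC : IsPreconnected C) {a b : X}
    (ha : a ∈ C) (hb : b ∈ C) : ENNReal.ofReal (dist a b) ≤ Measure.hausdorffMeasure 1 C := by
  have hf : LipschitzWith 1 (fun x : X => dist a x) := LipschitzWith.dist_right a
  have h1 : Icc 0 (dist a b) ⊆ (fun x : X => dist a x) '' C := by
    have h2 : IsPreconnected ((fun x : X => dist a x) '' C) := hC.image _ hf.continuous.continuousOn
    have := h2.ordConnected.out ⟨a, ha, rfl⟩ ⟨b, hb, rfl⟩
    simpa using this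
  calc ENNReal.ofReal (dist a b) = volume (Icc 0 (dist a b)) := by simp
    _ ≤ volume ((fun x : X => dist a x) '' C) := measure_mono h1
    _ = Measure.hausdorffMeasure 1 ((fun x : X => dist a x) '' C) := by rw [hausdorffMeasure_real]
    _ ≤ Measure.hausdorffMeasure 1 C := by
        have := (hf.lipschitzOnWith (s := C)).hausdorffMeasure_image_le (d := 1) zero_le_one
        simpa using this

omit [MeasurableSpace X] [BorelSpace X] in
/-- A preconnected set through `x` that reaches distance `≥ r` meets every circle `dist x · = t`,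
`t < r`. -/
theorem exists_mem_of_isPreconnected_of_dist (C : Set X) (hC : IsPreconnected C) {x y : X}
    (hx : x ∈ C) (hy : y ∈ C) {t : ℝ} (ht0 : 0 ≤ t) (ht : t ≤ dist x y) :
    ∃ z ∈ C, dist x z = t := by
  have hf : Continuous (fun z : X => dist x z) := continuous_const.dist continuous_id
  have h2 : IsPreconnected ((fun z : X => dist x z) '' C) := hC.image _ hf.continuousOn
  have := h2.ordConnected.out ⟨x, hx, rfl⟩ ⟨y, hy, rfl⟩
  have h3 : t ∈ Icc (dist x x) (dist x y) := by simp [ht0, ht]
  obtain ⟨z, hz, hzt⟩ := this h3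
  exact ⟨z, hz, hzt⟩

/-- `H¹(C ∩ B(x,r)) ≥ r` for a preconnected set `C ∋ x` leaving the ball. -/
theorem le_hausdorff_inter_ball_of_isPreconnected (C : Set X) (hC : IsPreconnected C) {x y : X}
    (hx : x ∈ C) (hy : y ∈ C) {r : ℝ} (hr : r ≤ dist x y) :
    ENNReal.ofReal r ≤ Measure.hausdorffMeasure 1 (C ∩ ball x r) := by
  have hf : LipschitzWith 1 (fun x' : X => dist x x') := LipschitzWith.dist_right x
  have h1 : Ico 0 r ⊆ (fun z : X => dist x z) '' (C ∩ ball x r) := by
    intro t ht
    obtain ⟨z, hz, hzt⟩ := exists_mem_of_isPreconnected_of_dist C hC hx hy ht.1 (ht.2.le.trans hr)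
    exact ⟨z, ⟨hz, by rw [mem_ball, dist_comm, hzt]; exact ht.2⟩, hzt⟩
  calc ENNReal.ofReal r = volume (Ico 0 r) := by simp
    _ ≤ volume ((fun z : X => dist x z) '' (C ∩ ball x r)) := measure_mono h1
    _ = Measure.hausdorffMeasure 1 ((fun z : X => dist x z) '' (C ∩ ball x r)) := by
        rw [hausdorffMeasure_real]
    _ ≤ Measure.hausdorffMeasure 1 (C ∩ ball x r) := by
        have := (hf.lipschitzOnWith (s := C ∩ ball x r)).hausdorffMeasure_image_le (d := 1) zero_le_one
        simpa using this

end Connected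

end Crest.Agent.R135
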