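import Crest.Agent.R135.PolarA

/-!
R135: polar coordinates, Bochner integral version, absolutely continuous radial integrals.
-/

set_option autoImplicit false

noncomputable section

open MeasureTheory Set Real
open scoped ENNReal NNReal Topology

namespace Crest.Agent.R135

variable {F : Type*} [NormedAddCommGroup F] [NormedSpace ℝ F]

theorem integrableOn_polar_prod (x : E2) {f : E2 → F} (hf : Integrable f) :
    IntegrableOn (fun p : ℝ × ℝ => p.1 • f (cpt x p.1 p.2)) (Ioi (0:ℝ) ×ˢ Ioo (-π) π) := by
  have h1 : Integrable (fun p : ℝ × ℝ => f (x + eqv p)) := by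
    have h2 : Integrable (fun y : E2 => f (x + y)) := hf.comp_add_left x
    exact (eqv_mp.integrable_comp_emb eqv.measurableEmbedding).2 h2
  have h3 : IntegrableOn (fun p : ℝ × ℝ => f (x + eqv p)) (polarCoord.symm '' polarCoord.target) :=
    h1.integrableOn
  rw [integrableOn_image_iff_integrableOn_abs_det_fderiv_smul volume
    polarCoord.open_target.measurableSet
    (fun p _ => (hasFDerivAt_polarCoord_symm p).hasFDerivWithinAt) polarCoord.symm.injOn] at h3
  refine h3.congr_fun ?_ polarCoord.open_target.measurableSet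
  intro p hp
  have hp1 : 0 < p.1 := hp.1
  simp only [det_fderivPolarCoordSymm, abs_of_pos hp1, eqv_polar]
  rfl

theorem integral_polar_prod (x : E2) (f : E2 → F) :
    ∫ y, f y = ∫ p : ℝ × ℝ in Ioi (0:ℝ) ×ˢ Ioo (-π) π, p.1 • f (cpt x p.1 p.2) := by
  calc ∫ y, f y = ∫ y, f (x + y) := (integral_add_left_eq_self f x).symm
    _ = ∫ p : ℝ × ℝ, f (x + eqv p) := by
        rw [eqv_mp.integral_comp eqv.measurableEmbedding (fun y => f (x + y))]
    _ = ∫ p : ℝ × ℝ in polarCoord.target, p.1 • f (x + eqv (polarCoord.symm p)) :=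
        (integral_comp_polarCoord_symm (fun p => f (x + eqv p))).symm
    _ = _ := by
        simp only [eqv_polar, polarCoord_target]
        rfl

/-- integrand in polar coordinates over a set of radii -/
theorem integrableOn_polar_radii (x : E2) {T : Set ℝ} (hT : MeasurableSet T) {f : E2 → F}
    (hf : IntegrableOn f {y | dist y x ∈ T}) :
    IntegrableOn (fun p : ℝ × ℝ => p.1 • f (cpt x p.1 p.2)) ((Ioi (0:ℝ) ∩ T) ×ˢ Ioo (-π) π) := by
  have hS : MeasurableSet {y : E2 | dist y x ∈ T} := by
    have : Measurable (fun y : E2 => dist y x) := by fun_prop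
    exact this hT
  have h := integrableOn_polar_prod x (hf.integrable_indicator hS)
  have h2 := h.mono_set (prod_mono (inter_subset_left : Ioi (0:ℝ) ∩ T ⊆ Ioi 0)
    (Subset.rfl : Ioo (-π) π ⊆ Ioo (-π) π))
  refine h2.congr_fun ?_ ((measurableSet_Ioi.inter hT).prod measurableSet_Ioo)
  rintro ⟨t, θ⟩ ⟨⟨ht0, htT⟩, -⟩
  have ht0' : 0 < t := ht0
  dsimp only
  rw [indicator_of_mem]
  simp [abs_of_pos ht0', htT]

theorem integral_polar_radii_prod (x : E2) {T : Set ℝ} (hT : MeasurableSet T) (f : E2 → F) :
    ∫ y in {y | dist y x ∈ T}, f y =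
      ∫ p : ℝ × ℝ in (Ioi (0:ℝ) ∩ T) ×ˢ Ioo (-π) π, p.1 • f (cpt x p.1 p.2) := by
  have hS : MeasurableSet {y : E2 | dist y x ∈ T} := by
    have : Measurable (fun y : E2 => dist y x) := by fun_prop
    exact this hT
  rw [← integral_indicator hS, integral_polar_prod x,
    ← integral_indicator (measurableSet_Ioi.prod measurableSet_Ioo),
    ← integral_indicator ((measurableSet_Ioi.inter hT).prod measurableSet_Ioo)]
  refine integral_congr_ae (Filter.Eventually.of_forall ?_)
  rintro ⟨t, θ⟩
  by_cases ht : 0 < t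
  · by_cases hθ : θ ∈ Ioo (-π) π
    · by_cases htT : t ∈ T
      · rw [indicator_of_mem (show (t, θ) ∈ Ioi (0:ℝ) ×ˢ Ioo (-π) π from ⟨ht, hθ⟩),
          indicator_of_mem (show (t, θ) ∈ (Ioi (0:ℝ) ∩ T) ×ˢ Ioo (-π) π from ⟨⟨ht, htT⟩, hθ⟩),
          indicator_of_mem]
        simp [abs_of_pos ht, htT]
      · rw [indicator_of_mem (show (t, θ) ∈ Ioi (0:ℝ) ×ˢ Ioo (-π) π from ⟨ht, hθ⟩),
          indicator_of_notMem (show (t, θ) ∉ (Ioi (0:ℝ) ∩ T) ×ˢ Ioo (-π) π from
            fun h => htT h.1.2),
          indicator_of_notMem (show cpt x (t, θ).1 (t, θ).2 ∉ {y : E2 | dist y x ∈ T} by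
            simp [abs_of_pos ht, htT]), smul_zero]
    · rw [indicator_of_notMem (show (t, θ) ∉ Ioi (0:ℝ) ×ˢ Ioo (-π) π from fun h => hθ h.2),
        indicator_of_notMem (show (t, θ) ∉ (Ioi (0:ℝ) ∩ T) ×ˢ Ioo (-π) π from
          fun h => hθ h.2)]
  · rw [indicator_of_notMem (show (t, θ) ∉ Ioi (0:ℝ) ×ˢ Ioo (-π) π from fun h => ht h.1),
      indicator_of_notMem (show (t, θ) ∉ (Ioi (0:ℝ) ∩ T) ×ˢ Ioo (-π) π from
        fun h => ht h.1.1)]

/-- **Polar coordinates** for the Bochner integral, over a set of radii. -/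
theorem integral_polar_radii (x : E2) {T : Set ℝ} (hT : MeasurableSet T) {f : E2 → F}
    (hf : IntegrableOn f {y | dist y x ∈ T}) :
    ∫ y in {y | dist y x ∈ T}, f y =
      ∫ t in Ioi (0:ℝ) ∩ T, t • ∫ θ in Ioo (-π) π, f (cpt x t θ) := by
  rw [integral_polar_radii_prod x hT, Measure.volume_eq_prod]
  have h := integrableOn_polar_radii x hT hf
  rw [Measure.volume_eq_prod] at h
  rw [setIntegral_prod _ h]
  refine integral_congr_ae (Filter.Eventually.of_forall fun t => ?_)
  dsimp only
  rw [integral_smul]

theorem integrableOn_radial (x : E2) {T : Set ℝ} (hT : MeasurableSet T) {f : E2 → F}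
    (hf : IntegrableOn f {y | dist y x ∈ T}) :
    IntegrableOn (fun t => t • ∫ θ in Ioo (-π) π, f (cpt x t θ)) (Ioi (0:ℝ) ∩ T) := by
  have h := integrableOn_polar_radii x hT hf
  rw [IntegrableOn, Measure.volume_eq_prod, ← Measure.prod_restrict] at h
  have h2 := h.integral_prod_left
  refine h2.congr (Filter.Eventually.of_forall fun t => ?_)
  dsimp only
  rw [integral_smul]

theorem ae_integrableOn_circle (x : E2) {T : Set ℝ} (hT : MeasurableSet T) {f : E2 → F}
    (hf : IntegrableOn f {y | dist y x ∈ T}) :
    ∀ᵐ t ∂(volume.restrict (Ioi (0:ℝ) ∩ T)),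
      IntegrableOn (fun θ => f (cpt x t θ)) (Ioo (-π) π) := by
  have h := integrableOn_polar_radii x hT hf
  rw [IntegrableOn, Measure.volume_eq_prod, ← Measure.prod_restrict] at h
  have h2 := h.prod_right_ae
  filter_upwards [h2, ae_restrict_mem (measurableSet_Ioi.inter hT)] with t ht htm
  have ht0 : t ≠ 0 := (show (0:ℝ) < t from htm.1).ne'
  exact (integrable_fun_smul_iff ht0 _).1 ht

lemma dir_periodic : Function.Periodic dir (2 * π) := by
  intro θ; apply ext_E2 <;> simp


lemma cpt_periodic (x : E2) (t : ℝ) : Function.Periodic (cpt x t) (2 * π) := by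
  intro θ; simp only [cpt, dir_periodic θ]

/-- the integral of `f` over the circle of centre `x`, radius `t`, in the angle -/
def circI (f : E2 → F) (x : E2) (t : ℝ) : F := ∫ θ in (-π)..π, f (cpt x t θ)

lemma circI_eq_set (f : E2 → F) (x : E2) (t : ℝ) :
    circI f x t = ∫ θ in Ioo (-π) π, f (cpt x t θ) := by
  rw [circI, intervalIntegral.integral_of_le (by linarith [pi_pos]),
    integral_Ioc_eq_integral_Ioo]

/-- the angular window may be shifted -/
lemma circI_eq_shift (f : E2 → F) (x : E2) (t a : ℝ) :
    circI f x t = ∫ θ in a..(a + 2 * π), f (cpt x t θ) := by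
  have hp : Function.Periodic (fun θ => f (cpt x t θ)) (2 * π) := fun θ => by
    simp only [cpt_periodic x t θ]
  have h := hp.intervalIntegral_add_eq (-π) a
  rw [circI]
  convert! h using 2
  ring

lemma ball_eq_radii (x : E2) (r : ℝ) : Metric.ball x r = {y : E2 | dist y x ∈ Iio r} := by
  ext y; simp

/-- **Polar coordinates in a ball** (Bochner). -/
theorem integral_ball_polar (x : E2) {r : ℝ} (hr : 0 ≤ r) {f : E2 → F}
    (hf : IntegrableOn f (Metric.ball x r)) :
    ∫ y in Metric.ball x r, f y = ∫ t in (0:ℝ)..r, t • circI f x t := by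
  rw [ball_eq_radii] at hf ⊢
  rw [integral_polar_radii x measurableSet_Iio hf, intervalIntegral.integral_of_le hr,
    integral_Ioc_eq_integral_Ioo]
  simp only [circI_eq_set]
  rfl

theorem intervalIntegrable_radial (x : E2) {r : ℝ} (hr : 0 ≤ r) {f : E2 → F}
    (hf : IntegrableOn f (Metric.ball x r)) :
    IntervalIntegrable (fun t => t • circI f x t) volume 0 r := by
  rw [ball_eq_radii] at hf
  have h := integrableOn_radial x measurableSet_Iio hf
  rw [intervalIntegrable_iff_integrableOn_Ioo_of_le hr]
  simp only [circI_eq_set]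
  exact h

theorem ae_integrableOn_circle_ball (x : E2) {r : ℝ} {f : E2 → F}
    (hf : IntegrableOn f (Metric.ball x r)) :
    ∀ᵐ t ∂(volume.restrict (Ioo (0:ℝ) r)),
      IntervalIntegrable (fun θ => f (cpt x t θ)) volume (-π) π := by
  rw [ball_eq_radii] at hf
  have h := ae_integrableOn_circle x measurableSet_Iio hf
  filter_upwards [h] with t ht
  rwa [intervalIntegrable_iff_integrableOn_Ioo_of_le (by linarith [pi_pos])]

/-- the radial primitive `r ↦ ∫_{B_r(x)} f` is differentiable a.e. with derivative the circle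
integral -/
theorem ae_hasDerivAt_ball (x : E2) {R : ℝ} (hR : 0 ≤ R) {f : E2 → F} [CompleteSpace F]
    (hf : IntegrableOn f (Metric.ball x R)) :
    ∀ᵐ t ∂(volume.restrict (Ioo (0:ℝ) R)),
      HasDerivAt (fun s => ∫ y in Metric.ball x s, f y) (t • circI f x t) t := by
  have h := intervalIntegrable_radial x hR hf
  have h2 := h.ae_hasDerivAt_integral
  rw [ae_restrict_iff' measurableSet_Ioo]
  filter_upwards [h2] with t ht htm
  have h3 := ht (by rw [uIcc_of_le hR]; exact ⟨htm.1.le, htm.2.le⟩) 0
    (by rw [uIcc_of_le hR]; exact ⟨le_refl 0, hR⟩)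
  refine h3.congr_of_eventuallyEq ?_
  filter_upwards [Ioo_mem_nhds htm.1 htm.2] with s hs
  exact integral_ball_polar x hs.1.le (hf.mono_set (Metric.ball_subset_ball hs.2.le))

/-- continuity of the radial primitive on `[0, R]` -/
theorem continuousOn_ball_integral (x : E2) {R : ℝ} (hR : 0 ≤ R) {f : E2 → F}
    (hf : IntegrableOn f (Metric.ball x R)) :
    ContinuousOn (fun s => ∫ y in Metric.ball x s, f y) (Icc 0 R) := by
  have h := intervalIntegrable_radial x hR hf
  have h2 := intervalIntegral.continuousOn_primitive_interval (μ := volume)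
    (f := fun t => t • circI f x t) (a := 0) (b := R) (by
      rw [uIcc_of_le hR]
      rw [intervalIntegrable_iff_integrableOn_Icc_of_le hR] at h
      exact h)
  rw [uIcc_of_le hR] at h2
  refine h2.congr ?_
  intro s hs
  exact integral_ball_polar x hs.1 (hf.mono_set (Metric.ball_subset_ball hs.2))

/-- difference of radial primitives -/
theorem ball_integral_sub (x : E2) {r s R : ℝ} (hr : 0 ≤ r) (hrs : r ≤ s) (hsR : s ≤ R)
    {f : E2 → F} (hf : IntegrableOn f (Metric.ball x R)) :
    (∫ y in Metric.ball x s, f y) - ∫ y in Metric.ball x r, f y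
      = ∫ t in r..s, t • circI f x t := by
  have hR : 0 ≤ R := by linarith
  rw [integral_ball_polar x (hr.trans hrs) (hf.mono_set (Metric.ball_subset_ball hsR)),
    integral_ball_polar x hr (hf.mono_set (Metric.ball_subset_ball (hrs.trans hsR)))]
  have h := intervalIntegrable_radial x hR hf
  rw [intervalIntegral.integral_interval_sub_left]
  · exact h.mono_set (by rw [uIcc_of_le (hr.trans hrs), uIcc_of_le hR]; exact Icc_subset_Icc le_rfl hsR)
  · exact h.mono_set (by rw [uIcc_of_le hr, uIcc_of_le hR]; exact Icc_subset_Icc le_rfl (hrs.trans hsR))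

/-- Chebyshev selection: in a set `T` of radii there is a radius with circle integral at most the
average. -/
theorem exists_radius_le (x : E2) {R : ℝ} (hR : 0 ≤ R) {f : E2 → ℝ} (hf0 : ∀ y, 0 ≤ f y)
    (hf : IntegrableOn f (Metric.ball x R)) {T : Set ℝ} (hT : NullMeasurableSet T)
    (hTR : T ⊆ Ioo 0 R) (hTpos : 0 < volume T) {P : ℝ → Prop}
    (hP : ∀ᵐ t ∂(volume.restrict T), P t) :
    ∃ t ∈ T, P t ∧ t * circI f x t * (volume T).toReal ≤ ∫ y in Metric.ball x R, f y := by
  have hTfin : volume T < ⊤ := (measure_mono hTR).trans_lt (by simp)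
  have hTreal : 0 < (volume T).toReal := ENNReal.toReal_pos hTpos.ne' hTfin.ne
  by_contra hcon
  push Not at hcon
  have hint := intervalIntegrable_radial x hR hf
  rw [intervalIntegrable_iff_integrableOn_Ioo_of_le hR] at hint
  have hT' : IntegrableOn (fun t => t • circI f x t) T := hint.mono_set hTR
  set I := ∫ y in Metric.ball x R, f y with hI
  have hI0 : ∫ t in T, t • circI f x t ≤ I := by
    rw [hI, integral_ball_polar x hR hf, intervalIntegral.integral_of_le hR,
      integral_Ioc_eq_integral_Ioo]
    refine setIntegral_mono_set hint ?_ hTR.eventuallyLE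
    filter_upwards [ae_restrict_mem measurableSet_Ioo] with t ht
    have : 0 ≤ circI f x t := by
      rw [circI_eq_set]; exact integral_nonneg fun θ => hf0 _
    simpa using mul_nonneg ht.1.le this
  have hmemT : ∀ᵐ t ∂(volume.restrict T), t ∈ T := ae_restrict_mem₀ hT
  have hlt : 0 < ∫ t in T, (t • circI f x t - I / (volume T).toReal) := by
    rw [integral_pos_iff_support_of_nonneg_ae]
    · have h1 : ∀ᵐ t ∂(volume.restrict T),
          t ∈ Function.support (fun t => t • circI f x t - I / (volume T).toReal) := by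
        filter_upwards [hP, hmemT] with t ht htT
        have := hcon t htT ht
        rw [Function.mem_support]
        have h2 : I / (volume T).toReal < t • circI f x t := by
          rw [div_lt_iff₀ hTreal]; exact this
        linarith
      have h2 : volume.restrict T (Function.support
          (fun t => t • circI f x t - I / (volume T).toReal)) = volume.restrict T univ :=
        measure_congr (by
          filter_upwards [h1] with t ht
          exact propext ⟨fun _ => trivial, fun _ => ht⟩)
      rw [h2, Measure.restrict_apply_univ]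
      exact hTpos
    · filter_upwards [hP, hmemT] with t ht htT
      have := hcon t htT ht
      have h2 : I / (volume T).toReal < t • circI f x t := by
        rw [div_lt_iff₀ hTreal]; exact this
      simp only [Pi.zero_apply]
      linarith
    · exact hT'.sub (integrableOn_const hTfin.ne)
  rw [integral_sub hT' (integrableOn_const hTfin.ne)] at hlt
  rw [setIntegral_const, smul_eq_mul, measureReal_def] at hlt
  have : (volume T).toReal * (I / (volume T).toReal) = I := by field_simp
  linarith

end Crest.Agent.R135
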