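import Mathlib
import Crest.Agent.R135.Core
import Crest.Agent.R135.PolarF

/-!
# Basic facts about the class `IsQM` (helper140)

* pointwise Lipschitz predicate `LipAt`;
* relative closedness and openness;
* measurability / nullity facts;
* the a.e. good circle;
* energy upper bound (B1).
-/

set_option autoImplicit false

open MeasureTheory Set Filter Topology Metric
open scoped ENNReal NNReal ContDiff Gradient

namespace Crest.Agent.R135

/-! ### `LipAt` -/

/-- `f` is Lipschitz near `x` -/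
def LipAt (f : E2 → ℝ) (x : E2) : Prop := ∃ C : ℝ≥0, ∃ t ∈ 𝓝 x, LipschitzOnWith C f t

lemma LipAt.congr {f g : E2 → ℝ} {x : E2} (h : LipAt f x) (hfg : f =ᶠ[𝓝 x] g) : LipAt g x := by
  obtain ⟨C, t, ht, hC⟩ := h
  refine ⟨C, t ∩ {y | f y = g y}, inter_mem ht hfg, ?_⟩
  intro y hy z hz
  have h1 : f y = g y := hy.2
  have h2 : f z = g z := hz.2
  rw [← h1, ← h2]
  exact hC hy.1 hz.1

lemma LipAt.continuousAt {f : E2 → ℝ} {x : E2} (h : LipAt f x) : ContinuousAt f x := by
  obtain ⟨C, t, ht, hC⟩ := h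
  exact (hC.continuousOn).continuousAt ht

lemma lipAt_const (c : ℝ) (x : E2) : LipAt (fun _ => c) x :=
  ⟨0, univ, univ_mem, (LipschitzWith.const c).lipschitzOnWith⟩

lemma lipAt_of_eventually_const {f : E2 → ℝ} {x : E2} (c : ℝ) (h : ∀ᶠ y in 𝓝 x, f y = c) :
    LipAt f x := (lipAt_const c x).congr (h.mono fun _ hy => hy.symm)

lemma LipAt.add {f g : E2 → ℝ} {x : E2} (hf : LipAt f x) (hg : LipAt g x) :
    LipAt (fun y => f y + g y) x := by
  obtain ⟨C, t, ht, hC⟩ := hf
  obtain ⟨D, s, hs, hD⟩ := hg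
  exact ⟨C + D, t ∩ s, inter_mem ht hs,
    (hC.mono inter_subset_left).add (hD.mono inter_subset_right)⟩

lemma LipAt.neg {f : E2 → ℝ} {x : E2} (hf : LipAt f x) : LipAt (fun y => - f y) x := by
  obtain ⟨C, t, ht, hC⟩ := hf
  exact ⟨C, t, ht, hC.neg⟩

lemma LipAt.sub {f g : E2 → ℝ} {x : E2} (hf : LipAt f x) (hg : LipAt g x) :
    LipAt (fun y => f y - g y) x := by
  simpa [sub_eq_add_neg] using hf.add hg.neg

lemma LipAt.comp {f : E2 → ℝ} {x : E2} (hf : LipAt f x) {T : ℝ → ℝ} {D : ℝ≥0}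
    (hT : LipschitzWith D T) : LipAt (fun y => T (f y)) x := by
  obtain ⟨C, t, ht, hC⟩ := hf
  exact ⟨D * C, t, ht, hT.comp_lipschitzOnWith hC⟩

lemma LipAt.mul {f g : E2 → ℝ} {x : E2} (hf : LipAt f x) (hg : LipAt g x) :
    LipAt (fun y => f y * g y) x := by
  have hfc := hf.continuousAt
  have hgc := hg.continuousAt
  obtain ⟨C, t, ht, hC⟩ := hf
  obtain ⟨D, s, hs, hD⟩ := hg
  have h1 : ∀ᶠ y in 𝓝 x, |f y| < |f x| + 1 := hfc.abs.eventually_lt_const (by linarith)
  have h2 : ∀ᶠ y in 𝓝 x, |g y| < |g x| + 1 := hgc.abs.eventually_lt_const (by linarith)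
  refine ⟨Real.toNNReal (|f x| + 1) * D + Real.toNNReal (|g x| + 1) * C,
    (t ∩ s) ∩ ({y | |f y| < |f x| + 1} ∩ {y | |g y| < |g x| + 1}),
    inter_mem (inter_mem ht hs) (inter_mem h1 h2), ?_⟩
  apply LipschitzOnWith.of_dist_le_mul
  intro y hy z hz
  have e : f y * g y - f z * g z = f y * (g y - g z) + g z * (f y - f z) := by ring
  rw [Real.dist_eq, e]
  have a1 : |g y - g z| ≤ D * dist y z := by
    rw [← Real.dist_eq]; exact hD.dist_le_mul y hy.1.2 z hz.1.2
  have a2 : |f y - f z| ≤ C * dist y z := by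
    rw [← Real.dist_eq]; exact hC.dist_le_mul y hy.1.1 z hz.1.1
  have b1 : |f y| ≤ |f x| + 1 := hy.2.1.le
  have b2 : |g z| ≤ |g x| + 1 := hz.2.2.le
  push_cast
  rw [Real.coe_toNNReal _ (by positivity), Real.coe_toNNReal _ (by positivity)]
  calc |f y * (g y - g z) + g z * (f y - f z)|
      ≤ |f y| * |g y - g z| + |g z| * |f y - f z| := by
        refine (abs_add_le _ _).trans ?_
        rw [abs_mul, abs_mul]
    _ ≤ (|f x| + 1) * (D * dist y z) + (|g x| + 1) * (C * dist y z) := by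
        gcongr
    _ = _ := by ring

lemma locallyLipschitzOn_iff_lipAt {V : Set E2} (hV : IsOpen V) {f : E2 → ℝ} :
    LocallyLipschitzOn V f ↔ ∀ x ∈ V, LipAt f x := by
  constructor
  · intro h x hx
    obtain ⟨C, t, ht, hC⟩ := h hx
    rw [hV.nhdsWithin_eq hx] at ht
    exact ⟨C, t, ht, hC⟩
  · intro h x hx
    obtain ⟨C, t, ht, hC⟩ := h x hx
    exact ⟨C, t, mem_nhdsWithin_of_mem_nhds ht, hC⟩

lemma lipAt_of_contDiffAt {f : E2 → ℝ} {x : E2} (h : ContDiffAt ℝ 1 f x) : LipAt f x := by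
  obtain ⟨C, t, ht, hC⟩ := h.exists_lipschitzOnWith
  exact ⟨C, t, ht, hC⟩

lemma lipAt_of_contDiffOn {f : E2 → ℝ} {V : Set E2} (hV : IsOpen V) (h : ContDiffOn ℝ 1 f V)
    {x : E2} (hx : x ∈ V) : LipAt f x :=
  lipAt_of_contDiffAt (h.contDiffAt (hV.mem_nhds hx))

/-! ### relative closedness -/

lemma relClosed_iff {U L : Set E2} (hU : IsOpen U) : closure L ∩ U ⊆ L ↔ IsOpen (U \ L) := by
  constructor
  · intro h
    have : U \ L = U ∩ (closure L)ᶜ := by
      ext y
      constructor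
      · rintro ⟨h1, h2⟩
        exact ⟨h1, fun h3 => h2 (h ⟨h3, h1⟩)⟩
      · rintro ⟨h1, h2⟩
        exact ⟨h1, fun h3 => h2 (subset_closure h3)⟩
    rw [this]
    exact hU.inter isClosed_closure.isOpen_compl
  · rintro h y ⟨h1, h2⟩
    by_contra h3
    have h4 : U \ L ∈ 𝓝 y := h.mem_nhds ⟨h2, h3⟩
    obtain ⟨z, hz, hz'⟩ := mem_closure_iff_nhds.1 h1 _ h4
    exact hz.2 hz'

lemma relClosed_eq {U L : Set E2} (hL : L ⊆ U) (h : closure L ∩ U ⊆ L) : L = closure L ∩ U :=
  Subset.antisymm (fun _ hy => ⟨subset_closure hy, hL hy⟩) h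

lemma relClosed_measurable {U L : Set E2} (hU : IsOpen U) (hL : L ⊆ U)
    (h : closure L ∩ U ⊆ L) : MeasurableSet L := by
  rw [relClosed_eq hL h]
  exact isClosed_closure.measurableSet.inter hU.measurableSet

/-! ### first properties of `IsQM` -/

namespace IsQM

variable {U : Set E2} {lam : ℝ} {u : E2 → ℝ} {K : Set E2}

lemma isOpen_diff (h : IsQM U lam u K) : IsOpen (U \ K) := (relClosed_iff h.isOpen).1 h.closed

lemma measurable_K (h : IsQM U lam u K) : MeasurableSet K :=
  relClosed_measurable h.isOpen h.sub h.closed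

lemma volume_K (h : IsQM U lam u K) : volume K = 0 := by
  apply measure_null_of_locally_null
  intro x hx
  obtain ⟨r, hr, hrU⟩ := Metric.isOpen_iff.1 h.isOpen x (h.sub hx)
  have hsub : closedBall x (r / 2) ⊆ U :=
    (closedBall_subset_ball (by linarith)).trans hrU
  refine ⟨K ∩ closedBall x (r / 2), ?_, ?_⟩
  · exact inter_mem_nhdsWithin K (closedBall_mem_nhds x (by linarith))
  · exact volume_eq_zero_of_hausdorff_lt_top (h.len_fin x (r / 2) hsub)

lemma contDiffAt (h : IsQM U lam u K) {y : E2} (hy : y ∈ U \ K) : ContDiffAt ℝ 1 u y :=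
  h.c1.contDiffAt (h.isOpen_diff.mem_nhds hy)

lemma hasGradientAt (h : IsQM U lam u K) {y : E2} (hy : y ∈ U \ K) :
    HasGradientAt u (gradient u y) y :=
  ((h.contDiffAt hy).differentiableAt (by norm_num)).hasGradientAt

lemma continuousOn_gradient (h : IsQM U lam u K) : ContinuousOn (gradient u) (U \ K) := by
  unfold gradient
  apply (InnerProductSpace.toDual ℝ E2).symm.continuous.comp_continuousOn
  exact h.c1.continuousOn_fderiv_of_isOpen h.isOpen_diff (by norm_num)

lemma lipAt (h : IsQM U lam u K) {y : E2} (hy : y ∈ U \ K) : LipAt u y :=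
  lipAt_of_contDiffAt (h.contDiffAt hy)

lemma locallyLipschitzOn (h : IsQM U lam u K) : LocallyLipschitzOn (U \ K) u :=
  (locallyLipschitzOn_iff_lipAt h.isOpen_diff).2 fun _ hy => h.lipAt hy

lemma dir_fin_ball (h : IsQM U lam u K) {x : E2} {r : ℝ} (hr : closedBall x r ⊆ U) :
    ∫⁻ y in ball x r \ K, ‖gradient u y‖ₑ ^ 2 < ⊤ :=
  (lintegral_mono_set (sdiff_subset_sdiff_left ball_subset_closedBall)).trans_lt (h.dir_fin x r hr)




end IsQM

/-! ### competitors obtained by replacing inside a ball -/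

/-- gradient of a locally constant function -/
lemma gradient_eq_zero_of_eventually_const {f : E2 → ℝ} {x : E2} (c : ℝ)
    (h : ∀ᶠ y in 𝓝 x, f y = c) : gradient f x = 0 := by
  have h1 : f =ᶠ[𝓝 x] fun _ => c := h
  rw [gradient_congr_of_eventuallyEq h1]
  simp [gradient]

lemma dirE_congr {w w' : E2 → ℝ} {L B : Set E2} (hm : MeasurableSet (B \ L))
    (h : ∀ y ∈ B \ L, gradient w y = gradient w' y) : dirE w L B = dirE w' L B := by
  unfold dirE
  refine setLIntegral_congr_fun hm ?_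
  intro y hy
  simp only [h y hy]

/-- Energy upper bound (B1). -/
theorem IsQM.energy_le {U : Set E2} {lam : ℝ} {u : E2 → ℝ} {K : Set E2}
    (h : IsQM U lam u K) {x : E2} {ρ : ℝ} (hρ : 0 < ρ) (hB : closedBall x ρ ⊆ U) :
    enE u K (closedBall x ρ) ≤ ENNReal.ofReal (2 * Real.pi * ρ + lam * ρ ^ 2) := by
  classical
  set L : Set E2 := (K \ ball x ρ) ∪ sphere x ρ with hL
  set w : E2 → ℝ := fun y => if y ∈ closedBall x ρ then 0 else u y with hw
  have hsphU : sphere x ρ ⊆ U := sphere_subset_closedBall.trans hB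
  have hLU : L ⊆ U := union_subset (sdiff_subset.trans h.sub) hsphU
  have hUL : ∀ y, y ∈ U \ L ↔ y ∈ ball x ρ ∨ (y ∈ U \ K ∧ y ∉ closedBall x ρ) := by
    intro y
    constructor
    · rintro ⟨h1, h2⟩
      by_cases hyb : y ∈ ball x ρ
      · exact Or.inl hyb
      · right
        have h3 : y ∉ K := fun hK => h2 (Or.inl ⟨hK, hyb⟩)
        have h4 : y ∉ sphere x ρ := fun hs => h2 (Or.inr hs)
        refine ⟨⟨h1, h3⟩, fun h5 => ?_⟩
        rw [mem_closedBall] at h5
        rw [mem_ball, not_lt] at hyb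
        exact h4 (mem_sphere.2 (le_antisymm h5 hyb))
    · rintro (h1 | ⟨h1, h2⟩)
      · refine ⟨hB (ball_subset_closedBall h1), ?_⟩
        rintro (h3 | h3)
        · exact h3.2 h1
        · rw [mem_ball] at h1; rw [mem_sphere] at h3; linarith
      · refine ⟨h1.1, ?_⟩
        rintro (h3 | h3)
        · exact h1.2 h3.1
        · exact h2 (sphere_subset_closedBall h3)
  have hopen : IsOpen (U \ L) := by
    have : U \ L = ball x ρ ∪ ((U \ K) ∩ (closedBall x ρ)ᶜ) := by
      ext y; rw [hUL]; rfl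
    rw [this]
    exact isOpen_ball.union (h.isOpen_diff.inter isClosed_closedBall.isOpen_compl)
  have hLcl : closure L ∩ U ⊆ L := (relClosed_iff h.isOpen).2 hopen
  have hLcB : L ∩ closedBall x ρ ⊆ sphere x ρ := by
    rintro y ⟨h1 | h1, h2⟩
    · rw [mem_closedBall] at h2
      have := h1.2
      rw [mem_ball, not_lt] at this
      exact mem_sphere.2 (le_antisymm h2 this)
    · exact h1
  have hlen : len (L ∩ closedBall x ρ) ≤ ENNReal.ofReal (2 * Real.pi * ρ) :=
    (measure_mono hLcB).trans (hausdorff_sphere_le x hρ)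
  have hwb : ∀ y ∈ ball x ρ, ∀ᶠ z in 𝓝 y, w z = 0 := by
    intro y hy
    filter_upwards [isOpen_ball.mem_nhds hy] with z hz
    simp only [hw, if_pos (ball_subset_closedBall hz)]
  have hwo : ∀ y ∉ closedBall x ρ, w =ᶠ[𝓝 y] u := by
    intro y hy
    filter_upwards [isClosed_closedBall.isOpen_compl.mem_nhds hy] with z hz
    simp only [hw, if_neg hz]
  have hcomp : IsComp U u K x ρ w L := by
    refine ⟨hLU, hLcl, hlen.trans_lt ENNReal.ofReal_lt_top, ?_, ?_, ?_, ?_⟩
    · ext y
      constructor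
      · rintro ⟨h1 | h1, h2⟩
        · exact ⟨h1.1, h2⟩
        · exact absurd (sphere_subset_closedBall h1) h2
      · rintro ⟨h1, h2⟩
        exact ⟨Or.inl ⟨h1, fun h3 => h2 (ball_subset_closedBall h3)⟩, h2⟩
    · rw [locallyLipschitzOn_iff_lipAt hopen]
      intro y hy
      rcases (hUL y).1 hy with h1 | ⟨h1, h2⟩
      · exact lipAt_of_eventually_const 0 (hwb y h1)
      · exact (h.lipAt h1).congr (hwo y h2).symm
    · rintro y ⟨h1, h2⟩
      exact (hwo y (fun h3 => h2 (Or.inr h3))).eq_of_nhds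
    · intro c hc
      refine ⟨fun y => if y ∈ closedBall x ρ then 0 else c y, ?_, ?_⟩
      · intro y hy
        rcases (hUL y).1 hy with h1 | ⟨h1, h2⟩
        · filter_upwards [isOpen_ball.mem_nhds h1] with z hz
          simp only [if_pos (ball_subset_closedBall hz), if_pos (ball_subset_closedBall h1)]
        · filter_upwards [isClosed_closedBall.isOpen_compl.mem_nhds h2, hc y h1] with z hz hz'
          simp only [if_neg hz, if_neg h2, hz']
      · rintro y ⟨h1, h2⟩
        simp only [if_neg (fun h3 => h2 (Or.inr h3))]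
  refine (h.min x ρ hρ hB w L hcomp).trans ?_
  have hdir : dirE w L (closedBall x ρ) = 0 := by
    unfold dirE
    rw [setLIntegral_congr_fun (g := fun _ => 0)]
    · simp
    · exact isClosed_closedBall.measurableSet.diff (relClosed_measurable h.isOpen hLU hLcl)
    · intro y hy
      have hyb : y ∈ ball x ρ := by
        rcases (hUL y).1 ⟨hB hy.1, hy.2⟩ with h1 | h1
        · exact h1
        · exact absurd hy.1 h1.2
      simp only [gradient_eq_zero_of_eventually_const 0 (hwb y hyb)]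
      simp
  rw [enE, hdir, zero_add, ENNReal.ofReal_add (by positivity)
    (mul_nonneg h.lam_nonneg (by positivity))]
  exact add_le_add hlen le_rfl

end Crest.Agent.R135
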