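import Mathlib
import Crest.Agent.R135.PolarB
import Crest.Agent.R135.Wirt

/-!
# Calculus along circles and rays

Derivatives of `dir`, `tau`, `cpt`; the fundamental theorem of calculus along arcs of circles for
functions having a continuous gradient off a set that meets the circle in finitely many points;
boundedness on such circles.
-/

set_option autoImplicit false

open MeasureTheory Set Real Topology Filter
open scoped ENNReal

namespace Crest.Agent.R135

noncomputable section

lemma hasDerivAt_dir (θ : ℝ) : HasDerivAt dir (tau θ) θ := by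
  rw [hasDerivAt_iff_hasFDerivAt]
  have h : HasDerivAt (fun θ : ℝ => (WithLp.toLp 2 ![Real.cos θ, Real.sin θ] : E2))
      (WithLp.toLp 2 ![-Real.sin θ, Real.cos θ]) θ := by
    have h1 : HasDerivAt (fun θ : ℝ => (![Real.cos θ, Real.sin θ] : Fin 2 → ℝ))
        (![-Real.sin θ, Real.cos θ]) θ := by
      rw [hasDerivAt_pi]
      intro i
      fin_cases i
      · simpa using Real.hasDerivAt_cos θ
      · simpa using Real.hasDerivAt_sin θ
    exact (PiLp.continuousLinearEquiv 2 ℝ (fun _ : Fin 2 => ℝ)).symm.toContinuousLinearMap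
      |>.hasFDerivAt.comp_hasDerivAt θ h1
  exact h.hasFDerivAt


lemma hasDerivAt_cpt (x : E2) (t θ : ℝ) : HasDerivAt (cpt x t) (t • tau θ) θ := by
  have := ((hasDerivAt_dir θ).const_smul t).const_add x
  exact this

lemma hasDerivAt_cpt_rad (x : E2) (t θ : ℝ) : HasDerivAt (fun s => cpt x s θ) (dir θ) t := by
  have := ((hasDerivAt_id t).smul_const (dir θ)).const_add x
  simpa [cpt] using this

/-- Derivative of a function along a circle. -/
lemma hasDerivAt_circle {u : E2 → ℝ} {g x : E2} {t θ : ℝ} (h : HasGradientAt u g (cpt x t θ)) :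
    HasDerivAt (fun θ => u (cpt x t θ)) (t * inner ℝ g (tau θ)) θ := by
  have h2 := h.hasFDerivAt.comp_hasDerivAt θ (hasDerivAt_cpt x t θ)
  simp at h2
  exact h2

/-- Derivative of a function along a ray. -/
lemma hasDerivAt_ray {u : E2 → ℝ} {g x : E2} {t θ : ℝ} (h : HasGradientAt u g (cpt x t θ)) :
    HasDerivAt (fun s => u (cpt x s θ)) (inner ℝ g (dir θ)) t := by
  have h2 := h.hasFDerivAt.comp_hasDerivAt t (hasDerivAt_cpt_rad x t θ)
  simp at h2
  exact h2

lemma abs_inner_tau_le (g : E2) (θ : ℝ) : |inner ℝ g (tau θ)| ≤ ‖g‖ := by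
  have := abs_real_inner_le_norm g (tau θ)
  rwa [norm_tau, mul_one] at this

lemma abs_inner_dir_le (g : E2) (θ : ℝ) : |inner ℝ g (dir θ)| ≤ ‖g‖ := by
  have := abs_real_inner_le_norm g (dir θ)
  rwa [norm_dir, mul_one] at this



/-! ### One-dimensional lemmas -/

/-- A function with an integrable derivative on an open interval extends to a primitive on the
closed interval. -/
theorem exists_isPrim_of_Ioo {a b : ℝ} (hab : a < b) {f f' : ℝ → ℝ}
    (hf : ∀ θ ∈ Ioo a b, HasDerivAt f (f' θ) θ) (hint : IntervalIntegrable f' volume a b) :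
    ∃ F : ℝ → ℝ, IsPrim a b F f' ∧ EqOn F f (Ioo a b) := by
  set c := (a + b) / 2 with hc
  have hca : a < c := by rw [hc]; linarith
  have hcb : c < b := by rw [hc]; linarith
  have hii : ∀ x y, x ∈ Icc a b → y ∈ Icc a b → IntervalIntegrable f' volume x y := by
    intro x y hx hy
    refine hint.mono_set ?_
    rw [uIcc_of_le hab.le]
    exact uIcc_subset_Icc hx hy
  refine ⟨fun θ => f c + ∫ s in c..θ, f' s, ⟨hint, ?_⟩, ?_⟩
  · intro x hx
    simp only
    rw [add_assoc, intervalIntegral.integral_add_adjacent_intervals (hii c a ⟨hca.le, hcb.le⟩ ⟨le_rfl, hab.le⟩)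
      (hii a x ⟨le_rfl, hab.le⟩ hx)]
  · intro θ hθ
    simp only
    have : ∫ s in c..θ, f' s = f θ - f c := by
      apply intervalIntegral.integral_eq_sub_of_hasDerivAt
      · intro y hy
        apply hf
        rcases le_total c θ with h | h
        · rw [uIcc_of_le h] at hy
          exact ⟨hca.trans_le hy.1, hy.2.trans_lt hθ.2⟩
        · rw [uIcc_of_ge h] at hy
          exact ⟨hθ.1.trans_le hy.1, hy.2.trans_lt hcb⟩
      · exact hii c θ ⟨hca.le, hcb.le⟩ ⟨hθ.1.le, hθ.2.le⟩
    rw [this]; ring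


/-- A function whose derivative exists off a finite set and is integrable is bounded (off the
finite set). -/
theorem exists_bound_off_finite {a b : ℝ} {f f' : ℝ → ℝ} {Z : Set ℝ} (hZ : Z.Finite)
    (hf : ∀ θ ∈ Icc a b, θ ∉ Z → HasDerivAt f (f' θ) θ)
    (hint : IntegrableOn f' (Icc a b)) :
    ∃ M : ℝ, ∀ θ ∈ Icc a b, θ ∉ Z → |f θ| ≤ M := by
  have hint' : IntegrableOn (fun θ => |f' θ|) (Icc a b) := hint.abs
  set A := ∫ θ in Icc a b, |f' θ| with hA
  have hA0 : 0 ≤ A := integral_nonneg fun _ => abs_nonneg _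
  -- oscillation bound on an interval without exceptional points
  have osc : ∀ α β, α ∈ Icc a b → β ∈ Icc a b → α ≤ β → (∀ y ∈ Icc α β, y ∉ Z) →
      |f β - f α| ≤ A := by
    intro α β hα hβ hαβ hy
    have hsub : Icc α β ⊆ Icc a b := Icc_subset_Icc hα.1 hβ.2
    have h1 : ∫ s in α..β, f' s = f β - f α := by
      apply intervalIntegral.integral_eq_sub_of_hasDerivAt
      · intro y hy'
        rw [uIcc_of_le hαβ] at hy'
        exact hf y (hsub hy') (hy y hy')
      · rw [intervalIntegrable_iff_integrableOn_Icc_of_le hαβ]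
        exact hint.mono_set hsub
    rw [← h1]
    calc |∫ s in α..β, f' s| ≤ ∫ s in α..β, |f' s| :=
          intervalIntegral.abs_integral_le_integral_abs hαβ
      _ = ∫ s in Icc α β, |f' s| := by
          rw [intervalIntegral.integral_of_le hαβ, integral_Icc_eq_integral_Ioc]
      _ ≤ A := by
          apply setIntegral_mono_set hint' (Eventually.of_forall fun _ => abs_nonneg _)
          exact hsub.eventuallyLE
  have key : ∃ M : ℝ, ∀ θ ∈ Icc a b ∩ Icc a b, θ ∉ Z → |f θ| ≤ M := by
    refine (isCompact_Icc (a := a) (b := b)).induction_on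
      (p := fun s => ∃ M : ℝ, ∀ θ ∈ s ∩ Icc a b, θ ∉ Z → |f θ| ≤ M) ?_ ?_ ?_ ?_
    · exact ⟨0, fun θ hθ => by simp at hθ⟩
    · rintro s t hst ⟨M, hM⟩
      exact ⟨M, fun θ hθ h => hM θ ⟨hst hθ.1, hθ.2⟩ h⟩
    · rintro s t ⟨M, hM⟩ ⟨N, hN⟩
      refine ⟨max M N, fun θ hθ h => ?_⟩
      rcases hθ.1 with h1 | h1
      · exact (hM θ ⟨h1, hθ.2⟩ h).trans (le_max_left _ _)
      · exact (hN θ ⟨h1, hθ.2⟩ h).trans (le_max_right _ _)
    · intro θ₀ hθ₀
      -- a neighbourhood containing no exceptional point other than θ₀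
      have hfin : (Z \ {θ₀}).Finite := hZ.subset sdiff_subset
      obtain ⟨δ, hδ, hball⟩ : ∃ δ > 0, ∀ y ∈ Metric.ball θ₀ δ, y ≠ θ₀ → y ∉ Z := by
        have : (Z \ {θ₀})ᶜ ∈ 𝓝 θ₀ := hfin.isClosed.isOpen_compl.mem_nhds (by simp)
        obtain ⟨δ, hδ, h⟩ := Metric.mem_nhds_iff.1 this
        refine ⟨δ, hδ, fun y hy hne hyZ => h hy ⟨hyZ, hne⟩⟩
      refine ⟨Metric.ball θ₀ δ ∩ Icc a b, ?_, ?_⟩
      · rw [inter_comm]; exact inter_mem_nhdsWithin _ (Metric.ball_mem_nhds _ hδ)
      -- left and right parts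
      have hleft : ∃ M : ℝ, ∀ θ ∈ Metric.ball θ₀ δ ∩ Icc a b, θ < θ₀ → |f θ| ≤ M := by
        by_cases hne : ∃ θ₁ ∈ Metric.ball θ₀ δ ∩ Icc a b, θ₁ < θ₀
        · obtain ⟨θ₁, h1, h1'⟩ := hne
          refine ⟨|f θ₁| + A, fun θ hθ hlt => ?_⟩
          have hno : ∀ p q, p ∈ Metric.ball θ₀ δ → q < θ₀ → ∀ y ∈ Icc p q, y ∉ Z := by
            intro p q hp hq y hy
            rw [Metric.mem_ball, Real.dist_eq, abs_lt] at hp
            apply hball
            · rw [Metric.mem_ball, Real.dist_eq, abs_lt]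
              constructor <;> linarith [hy.1, hy.2]
            · exact (hy.2.trans_lt hq).ne
          rcases le_total θ θ₁ with h | h
          · have := osc θ θ₁ hθ.2 h1.2 h (hno θ θ₁ hθ.1 h1')
            have h3 : |f θ| ≤ |f θ₁| + |f θ₁ - f θ| := by
              have := abs_sub_abs_le_abs_sub (f θ) (f θ₁)
              rw [abs_sub_comm] at this; linarith
            linarith
          · have := osc θ₁ θ h1.2 hθ.2 h (hno θ₁ θ h1.1 hlt)
            have h3 : |f θ| ≤ |f θ₁| + |f θ - f θ₁| := by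
              have := abs_sub_abs_le_abs_sub (f θ) (f θ₁); linarith
            linarith
        · push Not at hne
          exact ⟨0, fun θ hθ hlt => absurd hlt (not_lt.2 (hne θ hθ))⟩
      have hright : ∃ M : ℝ, ∀ θ ∈ Metric.ball θ₀ δ ∩ Icc a b, θ₀ < θ → |f θ| ≤ M := by
        by_cases hne : ∃ θ₁ ∈ Metric.ball θ₀ δ ∩ Icc a b, θ₀ < θ₁
        · obtain ⟨θ₁, h1, h1'⟩ := hne
          refine ⟨|f θ₁| + A, fun θ hθ hlt => ?_⟩
          have hno : ∀ p q, θ₀ < p → q ∈ Metric.ball θ₀ δ → ∀ y ∈ Icc p q, y ∉ Z := by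
            intro p q hp hq y hy
            rw [Metric.mem_ball, Real.dist_eq, abs_lt] at hq
            apply hball
            · rw [Metric.mem_ball, Real.dist_eq, abs_lt]
              constructor <;> linarith [hy.1, hy.2]
            · exact (hp.trans_le hy.1).ne'
          rcases le_total θ θ₁ with h | h
          · have := osc θ θ₁ hθ.2 h1.2 h (hno θ θ₁ hlt h1.1)
            have h3 : |f θ| ≤ |f θ₁| + |f θ₁ - f θ| := by
              have := abs_sub_abs_le_abs_sub (f θ) (f θ₁)
              rw [abs_sub_comm] at this; linarith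
            linarith
          · have := osc θ₁ θ h1.2 hθ.2 h (hno θ₁ θ h1' hθ.1)
            have h3 : |f θ| ≤ |f θ₁| + |f θ - f θ₁| := by
              have := abs_sub_abs_le_abs_sub (f θ) (f θ₁); linarith
            linarith
        · push Not at hne
          exact ⟨0, fun θ hθ hlt => absurd hlt (not_lt.2 (hne θ hθ))⟩
      obtain ⟨M, hM⟩ := hleft
      obtain ⟨N, hN⟩ := hright
      refine ⟨max (max M N) |f θ₀|, fun θ hθ _ => ?_⟩
      rcases lt_trichotomy θ θ₀ with h | h | h
      · exact ((hM θ hθ.1 h).trans (le_max_left _ _)).trans (le_max_left _ _)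
      · rw [h]; exact le_max_right _ _
      · exact ((hN θ hθ.1 h).trans (le_max_right _ _)).trans (le_max_left _ _)
  obtain ⟨M, hM⟩ := key
  exact ⟨M, fun θ hθ h => hM θ ⟨hθ, hθ⟩ h⟩

end

end Crest.Agent.R135
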