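import Mathlib
import Crest.Agent.R135.LocLip
import Crest.Agent.R135.PolarC

/-!
R135 toolbox (helper709): the radial annulus competitor.

Given `u`, `C¹` off `K`, a circle `∂B(y,ρ)` meeting `K` in finitely many points, `0 < h < 1` and a
constant `c`, the function `radW` equals `u` outside `B(y,ρ)`, equals `c` in `B(y,(1-h)ρ)` and
interpolates radially in between; its discontinuity set `radL` is `K \ B(y,ρ)` together with the
radial segments over the points of `K ∩ ∂B(y,ρ)`.
-/

set_option autoImplicit false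

open MeasureTheory Set Filter Topology Metric
open scoped ENNReal NNReal ContDiff Gradient
open Crest.AnalysisR.PDE.OnePhase

namespace Crest.Agent.R135

/-- product of bounded Lipschitz functions -/
theorem lipschitzOnWith_mul_of_bounded {F : Type*} [PseudoMetricSpace F] {a b : F → ℝ} {s : Set F}
    {Ka Kb Ba Bb : ℝ≥0} (ha : LipschitzOnWith Ka a s) (hb : LipschitzOnWith Kb b s)
    (hBa : ∀ x ∈ s, |a x| ≤ Ba) (hBb : ∀ x ∈ s, |b x| ≤ Bb) :
    LipschitzOnWith (Ba * Kb + Bb * Ka) (fun x => a x * b x) s := by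
  rw [lipschitzOnWith_iff_dist_le_mul]
  intro x hx y hy
  have h1 := ha.dist_le_mul x hx y hy
  have h2 := hb.dist_le_mul x hx y hy
  rw [Real.dist_eq] at h1 h2 ⊢
  have e : a x * b x - a y * b y = a x * (b x - b y) + b y * (a x - a y) := by ring
  rw [e]
  calc |a x * (b x - b y) + b y * (a x - a y)| ≤ |a x * (b x - b y)| + |b y * (a x - a y)| :=
        abs_add_le _ _
    _ = |a x| * |b x - b y| + |b y| * |a x - a y| := by rw [abs_mul, abs_mul]
    _ ≤ Ba * (Kb * dist x y) + Bb * (Ka * dist x y) := by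
        gcongr
        · exact hBa x hx
        · exact hBb y hy
    _ = ((Ba * Kb + Bb * Ka : ℝ≥0) : ℝ) * dist x y := by push_cast; ring

/-- radial projection onto the circle `∂B(y,ρ)` -/
noncomputable def radProj (y : E2) (ρ : ℝ) (x : E2) : E2 := y + (ρ / ‖x - y‖) • (x - y)

/-- radial cut-off -/
noncomputable def radEta (ρ h t : ℝ) : ℝ := max 0 ((t - (1 - h) * ρ) / (h * ρ))

/-- inner function of the competitor -/
noncomputable def radIn (u : E2 → ℝ) (y : E2) (ρ h c : ℝ) (x : E2) : ℝ :=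
  c + (u (radProj y ρ x) - c) * radEta ρ h (dist x y)

open Classical in
/-- the competitor -/
noncomputable def radW (u : E2 → ℝ) (y : E2) (ρ h c : ℝ) (x : E2) : ℝ :=
  if dist x y < ρ then radIn u y ρ h c x else u x

/-- the discontinuity set of the competitor -/
def radL (K : Set E2) (y : E2) (ρ h : ℝ) : Set E2 :=
  (K \ ball y ρ) ∪ {x | (1 - h) * ρ ≤ dist x y ∧ dist x y ≤ ρ ∧ radProj y ρ x ∈ K}

section Basic

variable {u : E2 → ℝ} {Ω K : Set E2} {y : E2} {ρ h c : ℝ}

theorem radProj_mem_sphere (hρ : 0 ≤ ρ) {x : E2} (hx : x ≠ y) : radProj y ρ x ∈ sphere y ρ := by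
  have h0 : ‖x - y‖ ≠ 0 := by rw [norm_ne_zero_iff, sub_ne_zero]; exact hx
  rw [mem_sphere, dist_eq_norm, radProj, add_sub_cancel_left, norm_smul, Real.norm_eq_abs,
    abs_div, abs_norm, div_mul_cancel₀ _ h0, abs_of_nonneg hρ]

theorem radProj_of_dist_eq (hρ : 0 < ρ) {x : E2} (hx : dist x y = ρ) : radProj y ρ x = x := by
  rw [radProj, ← dist_eq_norm, hx, div_self hρ.ne', one_smul, add_sub_cancel]

theorem radProj_cpt (y : E2) (ρ : ℝ) {t : ℝ} (ht : 0 < t) (θ : ℝ) :
    radProj y ρ (cpt y t θ) = cpt y ρ θ := by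
  have h1 : cpt y t θ - y = t • dir θ := by simp [cpt]
  rw [radProj, h1, norm_smul, norm_dir, mul_one, Real.norm_eq_abs, abs_of_pos ht, smul_smul,
    div_mul_cancel₀ _ ht.ne', cpt]

theorem radEta_eq_one (hρ : 0 < ρ) (hh : 0 < h) : radEta ρ h ρ = 1 := by
  have : (ρ - (1 - h) * ρ) / (h * ρ) = 1 := by
    have : h * ρ ≠ 0 := by positivity
    field_simp
    ring
  rw [radEta, this]; simp

theorem radEta_eq_zero (hρ : 0 < ρ) (hh : 0 < h) {t : ℝ} (ht : t ≤ (1 - h) * ρ) :
    radEta ρ h t = 0 := by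
  rw [radEta, max_eq_left]
  apply div_nonpos_of_nonpos_of_nonneg
  · linarith
  · positivity

theorem radEta_nonneg (ρ h t : ℝ) : 0 ≤ radEta ρ h t := le_max_left _ _

theorem radEta_le_one (hρ : 0 < ρ) (hh : 0 < h) {t : ℝ} (ht : t ≤ ρ) : radEta ρ h t ≤ 1 := by
  rw [radEta, max_le_iff]
  refine ⟨zero_le_one, ?_⟩
  rw [div_le_one (by positivity)]
  nlinarith

theorem radEta_lipschitz (hρ : 0 < ρ) (hh : 0 < h) :
    LipschitzWith (Real.toNNReal (1 / (h * ρ))) (radEta ρ h) := by
  apply LipschitzWith.of_dist_le_mul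
  intro s t
  have hpos : 0 < h * ρ := by positivity
  rw [Real.coe_toNNReal _ (by positivity), Real.dist_eq, Real.dist_eq]
  calc |radEta ρ h s - radEta ρ h t|
      ≤ |(s - (1 - h) * ρ) / (h * ρ) - (t - (1 - h) * ρ) / (h * ρ)| := by
        unfold radEta
        rw [max_comm, max_comm (0 : ℝ)]
        exact abs_max_sub_max_le_abs _ _ _
    _ = 1 / (h * ρ) * |s - t| := by
        rw [← sub_div, show s - (1 - h) * ρ - (t - (1 - h) * ρ) = s - t by ring, abs_div,
          abs_of_pos hpos]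
        ring

theorem radIn_of_dist_eq (hρ : 0 < ρ) (hh : 0 < h) {x : E2} (hx : dist x y = ρ) :
    radIn u y ρ h c x = u x := by
  rw [radIn, radProj_of_dist_eq hρ hx, hx, radEta_eq_one hρ hh]; ring

theorem radIn_of_dist_le (hρ : 0 < ρ) (hh : 0 < h) {x : E2} (hx : dist x y ≤ (1 - h) * ρ) :
    radIn u y ρ h c x = c := by
  rw [radIn, radEta_eq_zero hρ hh hx]; ring

theorem radW_of_le {x : E2} (hx : ρ ≤ dist x y) : radW u y ρ h c x = u x := by
  rw [radW, if_neg (not_lt.2 hx)]

theorem radW_of_dist_le (hρ : 0 < ρ) (hh : 0 < h) {x : E2} (hx : dist x y ≤ ρ) :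
    radW u y ρ h c x = radIn u y ρ h c x := by
  rcases hx.lt_or_eq with hlt | heq
  · rw [radW, if_pos hlt]
  · rw [radW_of_le heq.ge, radIn_of_dist_eq hρ hh heq]

theorem contDiffAt_radProj {x : E2} (hx : x ≠ y) : ContDiffAt ℝ 1 (radProj y ρ) x := by
  unfold radProj
  have h0 : x - y ≠ 0 := sub_ne_zero.2 hx
  have h1 : ContDiffAt ℝ 1 (fun x : E2 => x - y) x := contDiffAt_id.sub contDiffAt_const
  have h2 : ContDiffAt ℝ 1 (fun x : E2 => ‖x - y‖) x := h1.norm ℝ h0
  exact contDiffAt_const.add ((contDiffAt_const.div h2 (norm_ne_zero_iff.2 h0)).smul h1)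

/-- `radIn` is Lipschitz near each point of the annulus whose projection is off `K`. -/
theorem exists_lipschitz_radIn (hρ : 0 < ρ) (hh : 0 < h) (hh1 : h < 1) {x : E2}
    (hx : (1 - h) * ρ ≤ dist x y) (hu : ContDiffAt ℝ 1 u (radProj y ρ x)) :
    ∃ Kc : ℝ≥0, ∃ t ∈ 𝓝 x, LipschitzOnWith Kc (radIn u y ρ h c) t := by
  have hxy : x ≠ y := by
    rintro rfl
    rw [dist_self] at hx
    have : 0 < (1 - h) * ρ := by
      apply mul_pos _ hρ; linarith
    linarith
  have h1 : ContDiffAt ℝ 1 (fun x => u (radProj y ρ x) - c) x :=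
    (hu.comp x (contDiffAt_radProj hxy)).sub contDiffAt_const
  obtain ⟨Ka, t, ht, hKa⟩ := h1.exists_lipschitzOnWith
  -- bounds near x
  have hb1 : ∀ᶠ z in 𝓝 x, |u (radProj y ρ z) - c| < |u (radProj y ρ x) - c| + 1 := by
    have := h1.continuousAt.abs
    exact this.eventually (eventually_lt_nhds (by linarith))
  have hb2 : ∀ᶠ z in 𝓝 x, |radEta ρ h (dist z y)| < |radEta ρ h (dist x y)| + 1 := by
    have hc : ContinuousAt (fun z : E2 => |radEta ρ h (dist z y)|) x := by
      apply ContinuousAt.abs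
      exact ((radEta_lipschitz hρ hh).continuous.comp (continuous_id.dist continuous_const)).continuousAt
    exact hc.eventually (eventually_lt_nhds (by linarith))
  let t' := t ∩ {z | |u (radProj y ρ z) - c| < |u (radProj y ρ x) - c| + 1} ∩
    {z | |radEta ρ h (dist z y)| < |radEta ρ h (dist x y)| + 1}
  have ht' : t' ∈ 𝓝 x := Filter.inter_mem (Filter.inter_mem ht hb1) hb2
  have hLeta : LipschitzWith (Real.toNNReal (1 / (h * ρ)) * 1) (fun z : E2 => radEta ρ h (dist z y)) :=
    (radEta_lipschitz hρ hh).comp (LipschitzWith.dist_left y)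
  have hprod := lipschitzOnWith_mul_of_bounded (s := t')
    (Ba := Real.toNNReal (|u (radProj y ρ x) - c| + 1))
    (Bb := Real.toNNReal (|radEta ρ h (dist x y)| + 1))
    (hKa.mono (fun z hz => hz.1.1)) (hLeta.lipschitzOnWith (s := t'))
    (fun z hz => by
      rw [Real.coe_toNNReal _ (by positivity)]; exact hz.1.2.le)
    (fun z hz => by
      rw [Real.coe_toNNReal _ (by positivity)]; exact hz.2.le)
  have hfin : LipschitzOnWith (Real.toNNReal (|u (radProj y ρ x) - c| + 1) *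
      (Real.toNNReal (1 / (h * ρ)) * 1) + Real.toNNReal (|radEta ρ h (dist x y)| + 1) * Ka)
      (radIn u y ρ h c) t' := by
    rw [lipschitzOnWith_iff_dist_le_mul]
    intro p hp q hq
    have := hprod.dist_le_mul p hp q hq
    unfold radIn
    rwa [dist_add_left]
  exact ⟨_, t', ht', hfin⟩

/-- the competitor is locally Lipschitz off its discontinuity set -/
theorem locallyLipschitzOn_radW (hρ : 0 < ρ) (hh : 0 < h) (hh1 : h < 1) (hball : closedBall y ρ ⊆ Ω) (hu : ∀ x ∈ Ω \ K, ContDiffAt ℝ 1 u x)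
    (hLc : IsOpen (Ω \ radL K y ρ h)) :
    LocallyLipschitzOn (Ω \ radL K y ρ h) (radW u y ρ h c) := by
  have hA1 : IsClosed {x : E2 | ρ ≤ dist x y} :=
    isClosed_le continuous_const (continuous_id.dist continuous_const)
  have hA2 : IsClosed {x : E2 | dist x y ≤ ρ} :=
    isClosed_le (continuous_id.dist continuous_const) continuous_const
  apply locallyLipschitzOn_of_closed_cover (u := u) (w := radIn u y ρ h c) hLc hA1 hA2
  · intro x _
    rcases le_total ρ (dist x y) with hle | hle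
    · exact Or.inl hle
    · exact Or.inr hle
  · intro x hx
    exact radW_of_le hx.2
  · intro x hx
    exact radW_of_dist_le hρ hh hx.2
  · intro x hx
    have hxK : x ∉ K := by
      intro hxK
      apply hx.1.2
      left
      refine ⟨hxK, ?_⟩
      rw [mem_ball, not_lt]
      exact hx.2
    obtain ⟨Kc, t, ht, hKt⟩ := (hu x ⟨hx.1.1, hxK⟩).exists_lipschitzOnWith
    exact ⟨Kc, t, ht, hKt.mono inter_subset_left⟩
  · intro x hx
    have hxle : dist x y ≤ ρ := hx.2
    rcases lt_or_ge (dist x y) ((1 - h) * ρ) with hlt | hge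
    · refine ⟨0, ball y ((1 - h) * ρ), isOpen_ball.mem_nhds hlt, ?_⟩
      intro p hp q hq
      rw [radIn_of_dist_le hρ hh (le_of_lt hp.1), radIn_of_dist_le hρ hh (le_of_lt hq.1)]
      simp
    · have hnK : radProj y ρ x ∉ K := by
        intro hK'
        apply hx.1.2
        right
        exact ⟨hge, hxle, hK'⟩
      have hxy : x ≠ y := by
        rintro rfl
        rw [dist_self] at hge
        have : 0 < (1 - h) * ρ := by
          apply mul_pos _ hρ; linarith
        linarith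
      have hΩx : radProj y ρ x ∈ Ω := hball (sphere_subset_closedBall (radProj_mem_sphere hρ.le hxy))
      obtain ⟨Kc, t, ht, hKt⟩ := exists_lipschitz_radIn (c := c) hρ hh hh1 hge (hu _ ⟨hΩx, hnK⟩)
      exact ⟨Kc, t, ht, hKt.mono inter_subset_left⟩


/-- `radL` is relatively closed in `Ω` -/
theorem closure_radL_inter (hK : closure K ∩ Ω ⊆ K) (hρ : 0 < ρ) (hh1 : h < 1)
    (hball : closedBall y ρ ⊆ Ω) : closure (radL K y ρ h) ∩ Ω ⊆ radL K y ρ h := by
  rintro x ⟨hx, hxΩ⟩
  rw [radL, closure_union] at hx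
  rcases hx with hx | hx
  · left
    have h1 : closure (K \ ball y ρ) ⊆ closure K := closure_mono sdiff_subset
    have h2 : closure (K \ ball y ρ) ⊆ (ball y ρ)ᶜ :=
      closure_minimal (fun z hz => hz.2) isOpen_ball.isClosed_compl
    exact ⟨hK ⟨h1 hx, hxΩ⟩, h2 hx⟩
  · right
    have hpos : 0 < (1 - h) * ρ := by
      apply mul_pos _ hρ; linarith
    have h1 : IsClosed {x : E2 | (1 - h) * ρ ≤ dist x y} :=
      isClosed_le continuous_const (continuous_id.dist continuous_const)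
    have h2 : IsClosed {x : E2 | dist x y ≤ ρ} :=
      isClosed_le (continuous_id.dist continuous_const) continuous_const
    have hx1 : (1 - h) * ρ ≤ dist x y :=
      (closure_minimal (fun z hz => hz.1) h1) hx
    have hx2 : dist x y ≤ ρ := (closure_minimal (fun z hz => hz.2.1) h2) hx
    refine ⟨hx1, hx2, ?_⟩
    have hxy : x ≠ y := by
      rintro rfl
      rw [dist_self] at hx1
      linarith
    have hc : ContinuousAt (radProj y ρ) x := (contDiffAt_radProj hxy).continuousAt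
    have h3 : radProj y ρ x ∈ closure K := by
      rw [mem_closure_iff_frequently] at hx
      rw [mem_closure_iff_frequently]
      exact hc.frequently (hx.mono fun z hz => hz.2.2)
    exact hK ⟨h3, hball (sphere_subset_closedBall (radProj_mem_sphere hρ.le hxy))⟩

theorem isOpen_diff_radL (hΩ : IsOpen Ω) (hK : closure K ∩ Ω ⊆ K) (hρ : 0 < ρ) (hh1 : h < 1)
    (hball : closedBall y ρ ⊆ Ω) : IsOpen (Ω \ radL K y ρ h) := by
  have : Ω \ radL K y ρ h = Ω \ closure (radL K y ρ h) := by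
    ext x
    constructor
    · rintro ⟨hx, hxL⟩
      exact ⟨hx, fun hc => hxL (closure_radL_inter hK hρ hh1 hball ⟨hc, hx⟩)⟩
    · rintro ⟨hx, hxL⟩
      exact ⟨hx, fun hc => hxL (subset_closure hc)⟩
  rw [this]
  exact hΩ.sdiff isClosed_closure

/-- length of the added radial segments -/
theorem hausdorff_radial_segments_le (hρ : 0 < ρ) (hh : 0 < h) (hh1 : h < 1)
    (hfin : (K ∩ sphere y ρ).Finite) :
    Measure.hausdorffMeasure 1 {x : E2 | (1 - h) * ρ ≤ dist x y ∧ dist x y ≤ ρ ∧ radProj y ρ x ∈ K}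
      ≤ hfin.toFinset.card * ENNReal.ofReal (h * ρ) := by
  have hcov : {x : E2 | (1 - h) * ρ ≤ dist x y ∧ dist x y ≤ ρ ∧ radProj y ρ x ∈ K} ⊆
      ⋃ p ∈ hfin.toFinset, segment ℝ (y + (1 - h) • (p - y)) p := by
    rintro x ⟨h1, h2, h3⟩
    have hpos : 0 < (1 - h) * ρ := by
      apply mul_pos _ hρ; linarith
    have hxy : x ≠ y := by
      rintro rfl
      rw [dist_self] at h1
      linarith
    have hx0 : 0 < ‖x - y‖ := by rw [← dist_eq_norm]; linarith
    rw [dist_eq_norm] at h1 h2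
    simp only [mem_iUnion]
    refine ⟨radProj y ρ x, ?_, ?_⟩
    · rw [Set.Finite.mem_toFinset]
      exact ⟨h3, radProj_mem_sphere hρ.le hxy⟩
    · have hp : radProj y ρ x - y = (ρ / ‖x - y‖) • (x - y) := by rw [radProj, add_sub_cancel_left]
      -- x = (1-s) a + s p
      rw [segment_eq_image]
      refine ⟨(‖x - y‖ - (1 - h) * ρ) / (h * ρ), ⟨?_, ?_⟩, ?_⟩
      · apply div_nonneg
        · linarith
        · positivity
      · rw [div_le_one (by positivity)]
        linarith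
      · have e1 : radProj y ρ x = y + (ρ / ‖x - y‖) • (x - y) := rfl
        simp only [hp]
        rw [e1]
        set a := (‖x - y‖ - (1 - h) * ρ) / (h * ρ) with ha
        have key : (1 - a) * ((1 - h) * (ρ / ‖x - y‖)) + a * (ρ / ‖x - y‖) = 1 := by
          rw [ha]; field_simp; ring
        calc (1 - a) • (y + (1 - h) • (ρ / ‖x - y‖) • (x - y)) + a • (y + (ρ / ‖x - y‖) • (x - y))
            = y + ((1 - a) * ((1 - h) * (ρ / ‖x - y‖)) + a * (ρ / ‖x - y‖)) • (x - y) := by
              module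
          _ = x := by rw [key]; simp
  calc Measure.hausdorffMeasure 1 {x : E2 | (1 - h) * ρ ≤ dist x y ∧ dist x y ≤ ρ ∧
        radProj y ρ x ∈ K}
      ≤ Measure.hausdorffMeasure 1 (⋃ p ∈ hfin.toFinset, segment ℝ (y + (1 - h) • (p - y)) p) :=
        measure_mono hcov
    _ ≤ ∑ p ∈ hfin.toFinset, Measure.hausdorffMeasure 1 (segment ℝ (y + (1 - h) • (p - y)) p) :=
        measure_biUnion_finset_le _ _
    _ ≤ ∑ p ∈ hfin.toFinset, ENNReal.ofReal (h * ρ) := by
        apply Finset.sum_le_sum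
        intro p hp
        rw [Set.Finite.mem_toFinset] at hp
        rw [hausdorffMeasure_segment, edist_dist, dist_eq_norm]
        apply ENNReal.ofReal_le_ofReal
        have hps : ‖p - y‖ = ρ := by rw [← dist_eq_norm]; exact hp.2
        have : y + (1 - h) • (p - y) - p = -(h • (p - y)) := by module
        rw [this, norm_neg, norm_smul, Real.norm_eq_abs, abs_of_pos hh, hps]
    _ = hfin.toFinset.card * ENNReal.ofReal (h * ρ) := by
        rw [Finset.sum_const, nsmul_eq_mul]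

end Basic

section Energy

variable {u : E2 → ℝ} {Ω K : Set E2} {y : E2} {ρ h c : ℝ}

theorem hasDerivAt_cpt_angle (y : E2) (t θ : ℝ) : HasDerivAt (cpt y t) (t • tau θ) θ := by
  unfold cpt
  exact ((hasDerivAt_dir θ).const_smul t).const_add y

theorem hasDerivAt_cpt_radius (y : E2) (t θ : ℝ) :
    HasDerivAt (fun s => cpt y s θ) (dir θ) t := by
  unfold cpt
  have := ((hasDerivAt_id t).smul_const (dir θ)).const_add y
  simpa using this

theorem gradient_inner_dir {w : E2 → ℝ} {t θ m : ℝ} (hw : DifferentiableAt ℝ w (cpt y t θ))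
    (hm : HasDerivAt (fun s => w (cpt y s θ)) m t) : inner ℝ (∇ w (cpt y t θ)) (dir θ) = m := by
  have h1 := hw.hasFDerivAt.comp_hasDerivAt t (hasDerivAt_cpt_radius y t θ)
  have h2 := h1.unique hm
  rw [← h2]
  exact InnerProductSpace.toDual_symm_apply

theorem gradient_inner_tau {w : E2 → ℝ} {t θ m : ℝ} (hw : DifferentiableAt ℝ w (cpt y t θ))
    (hm : HasDerivAt (fun s => w (cpt y t s)) m θ) :
    t * inner ℝ (∇ w (cpt y t θ)) (tau θ) = m := by
  have h1 := hw.hasFDerivAt.comp_hasDerivAt θ (hasDerivAt_cpt_angle y t θ)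
  have h2 := h1.unique hm
  rw [← h2, map_smul, smul_eq_mul]
  congr 1
  exact InnerProductSpace.toDual_symm_apply

theorem sq_inner_tau_le (v : E2) (θ : ℝ) : (inner ℝ v (tau θ)) ^ 2 ≤ ‖v‖ ^ 2 := by
  rw [norm_sq_frame v θ]
  nlinarith [sq_nonneg (inner ℝ v (dir θ))]

/-- pointwise gradient bound of the competitor in the annulus -/
theorem norm_sq_gradient_radW_le (hρ : 0 < ρ) (hh : 0 < h) (hh1 : h < 1) {t θ : ℝ}
    (ht1 : (1 - h) * ρ < t) (ht2 : t < ρ) (hu : ContDiffAt ℝ 1 u (cpt y ρ θ)) :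
    ‖∇ (radW u y ρ h c) (cpt y t θ)‖ ^ 2 ≤
      (u (cpt y ρ θ) - c) ^ 2 / (h * ρ) ^ 2 + (ρ / t) ^ 2 * ‖∇ u (cpt y ρ θ)‖ ^ 2 := by
  have hpos : 0 < (1 - h) * ρ := by
    apply mul_pos _ hρ; linarith
  have ht0 : 0 < t := hpos.trans ht1
  have hhρ : 0 < h * ρ := by positivity
  set x := cpt y t θ with hx
  have hdx : dist x y = t := by rw [hx, dist_cpt, abs_of_pos ht0]
  have hxy : x ≠ y := by
    intro he
    rw [he, dist_self] at hdx
    linarith
  -- local form
  have hev : radW u y ρ h c =ᶠ[𝓝 x]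
      fun z => c + (u (radProj y ρ z) - c) * ((‖z - y‖ - (1 - h) * ρ) / (h * ρ)) := by
    have h1 : ∀ᶠ z in 𝓝 x, dist z y < ρ :=
      (continuous_id.dist continuous_const).continuousAt.eventually
        (eventually_lt_nhds (by simpa [hdx] using ht2))
    have h2 : ∀ᶠ z in 𝓝 x, (1 - h) * ρ < dist z y :=
      (continuous_id.dist continuous_const).continuousAt.eventually
        (eventually_gt_nhds (by simpa [hdx] using ht1))
    filter_upwards [h1, h2] with z hz1 hz2
    rw [radW, if_pos hz1, radIn, radEta, ← dist_eq_norm, max_eq_right]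
    apply div_nonneg
    · linarith
    · positivity
  have hproj : radProj y ρ x = cpt y ρ θ := radProj_cpt y ρ ht0 θ
  have hud : DifferentiableAt ℝ u (radProj y ρ x) := by
    rw [hproj]; exact hu.differentiableAt (by norm_num)
  have hd : DifferentiableAt ℝ
      (fun z => c + (u (radProj y ρ z) - c) * ((‖z - y‖ - (1 - h) * ρ) / (h * ρ))) x := by
    have h1 : DifferentiableAt ℝ (fun z => u (radProj y ρ z)) x :=
      hud.comp x ((contDiffAt_radProj hxy).differentiableAt (by norm_num))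
    have h2 : DifferentiableAt ℝ (fun z : E2 => ‖z - y‖) x := by
      have : DifferentiableAt ℝ (fun z : E2 => z - y) x := differentiableAt_id.sub_const y
      exact this.norm ℝ (sub_ne_zero.2 hxy)
    have h3 : DifferentiableAt ℝ (fun z : E2 => (‖z - y‖ - (1 - h) * ρ) / (h * ρ)) x := by
      have := (h2.sub_const ((1 - h) * ρ)).mul_const (h * ρ)⁻¹
      simpa [div_eq_mul_inv] using this
    exact ((h1.sub_const c).mul h3).const_add c
  have hdw : DifferentiableAt ℝ (radW u y ρ h c) x := hev.differentiableAt_iff.2 hd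
  -- radial derivative
  have hrad : HasDerivAt (fun s => radW u y ρ h c (cpt y s θ)) ((u (cpt y ρ θ) - c) / (h * ρ)) t := by
    have h1 : (fun s => radW u y ρ h c (cpt y s θ)) =ᶠ[𝓝 t]
        fun s => c + (u (cpt y ρ θ) - c) * ((s - (1 - h) * ρ) / (h * ρ)) := by
      have h2 : ∀ᶠ s in 𝓝 t, s < ρ := eventually_lt_nhds ht2
      have h3 : ∀ᶠ s in 𝓝 t, (1 - h) * ρ < s := eventually_gt_nhds ht1
      filter_upwards [h2, h3] with s hs2 hs3
      have hs0 : 0 < s := hpos.trans hs3
      rw [radW, if_pos (by rw [dist_cpt, abs_of_pos hs0]; exact hs2), radIn, radProj_cpt y ρ hs0,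
        radEta, dist_cpt, abs_of_pos hs0, max_eq_right]
      apply div_nonneg
      · linarith
      · positivity
    have h4 : HasDerivAt (fun s => c + (u (cpt y ρ θ) - c) * ((s - (1 - h) * ρ) / (h * ρ)))
        ((u (cpt y ρ θ) - c) * (1 / (h * ρ))) t := by
      exact ((((hasDerivAt_id t).sub_const _).div_const _).const_mul _).const_add c
    rw [mul_one_div] at h4
    exact h4.congr_of_eventuallyEq h1
  -- tangential derivative
  have hη : 0 ≤ radEta ρ h t ∧ radEta ρ h t ≤ 1 :=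
    ⟨radEta_nonneg _ _ _, radEta_le_one hρ hh ht2.le⟩
  have htan : HasDerivAt (fun s => radW u y ρ h c (cpt y t s))
      (ρ * inner ℝ (∇ u (cpt y ρ θ)) (tau θ) * radEta ρ h t) θ := by
    have h1 : (fun s => radW u y ρ h c (cpt y t s)) =
        fun s => c + (u (cpt y ρ s) - c) * radEta ρ h t := by
      ext s
      rw [radW, if_pos (by rw [dist_cpt, abs_of_pos ht0]; exact ht2), radIn, radProj_cpt y ρ ht0,
        dist_cpt, abs_of_pos ht0]
    have hu' : DifferentiableAt ℝ u (cpt y ρ θ) := hu.differentiableAt (by norm_num)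
    have h2 := hu'.hasFDerivAt.comp_hasDerivAt θ (hasDerivAt_cpt_angle y ρ θ)
    have h3 : fderiv ℝ u (cpt y ρ θ) (ρ • tau θ) = ρ * inner ℝ (∇ u (cpt y ρ θ)) (tau θ) := by
      rw [map_smul, smul_eq_mul]
      congr 1
      exact InnerProductSpace.toDual_symm_apply.symm
    rw [h3] at h2
    rw [h1]
    exact ((h2.sub_const c).mul_const _).const_add c
  have e1 := gradient_inner_dir hdw hrad
  have e2 := gradient_inner_tau hdw htan
  rw [norm_sq_frame _ θ, e1]
  have e3 : inner ℝ (∇ (radW u y ρ h c) x) (tau θ) =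
      (ρ / t) * (inner ℝ (∇ u (cpt y ρ θ)) (tau θ) * radEta ρ h t) := by
    field_simp
    linarith
  rw [e3, div_pow, mul_pow (ρ / t)]
  refine add_le_add le_rfl (mul_le_mul_of_nonneg_left ?_ (sq_nonneg _))
  calc (inner ℝ (∇ u (cpt y ρ θ)) (tau θ) * radEta ρ h t) ^ 2
      = (inner ℝ (∇ u (cpt y ρ θ)) (tau θ)) ^ 2 * radEta ρ h t ^ 2 := by ring
    _ ≤ ‖∇ u (cpt y ρ θ)‖ ^ 2 * 1 := by
        refine mul_le_mul (sq_inner_tau_le _ _) ?_ (sq_nonneg _) (sq_nonneg _)
        have := hη.1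
        have := hη.2
        nlinarith
    _ = ‖∇ u (cpt y ρ θ)‖ ^ 2 := mul_one _

theorem gradient_radW_inner_eq_zero (hρ : 0 < ρ) (hh : 0 < h) {x : E2}
    (hx : dist x y < (1 - h) * ρ) : ∇ (radW u y ρ h c) x = 0 := by
  have hev : radW u y ρ h c =ᶠ[𝓝 x] fun _ => c := by
    have h1 : ∀ᶠ z in 𝓝 x, dist z y < (1 - h) * ρ :=
      (continuous_id.dist continuous_const).continuousAt.eventually
        (eventually_lt_nhds (by simpa using hx))
    filter_upwards [h1] with z hz
    have hz' : dist z y ≤ ρ := by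
      have : (1 - h) * ρ ≤ ρ := by nlinarith
      linarith
    rw [radW_of_dist_le hρ hh hz', radIn_of_dist_le hρ hh hz.le]
  rw [gradient_congr_of_eventuallyEq hev]
  unfold gradient
  simp

/-- Energy of the competitor in the ball. -/
theorem lintegral_radW_le (hρ : 0 < ρ) (hh : 0 < h) (hh1 : h < 1)
    (hu : ∀ᵐ θ ∂(volume.restrict (Ioo (-Real.pi) Real.pi)), ContDiffAt ℝ 1 u (cpt y ρ θ)) :
    ∫⁻ x in ball y ρ, ‖∇ (radW u y ρ h c) x‖ₑ ^ 2 ≤
      ENNReal.ofReal (1 / h) * (∫⁻ θ in Ioo (-Real.pi) Real.pi, ‖u (cpt y ρ θ) - c‖ₑ ^ 2) +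
      ENNReal.ofReal (h * ρ ^ 2 / (1 - h)) *
        (∫⁻ θ in Ioo (-Real.pi) Real.pi, ‖∇ u (cpt y ρ θ)‖ₑ ^ 2) := by
  have hpos : 0 < (1 - h) * ρ := by
    apply mul_pos _ hρ; linarith
  have h1h : 0 < 1 - h := by linarith
  have hhρ : 0 < h * ρ := by positivity
  have hmeas : Measurable (fun x => ‖∇ (radW u y ρ h c) x‖ₑ ^ 2) :=
    (measurable_gradient _).enorm.pow_const 2
  rw [lintegral_ball_polar y ρ hmeas.aemeasurable]
  set A := ∫⁻ θ in Ioo (-Real.pi) Real.pi, ‖u (cpt y ρ θ) - c‖ₑ ^ 2 with hA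
  set B := ∫⁻ θ in Ioo (-Real.pi) Real.pi, ‖∇ u (cpt y ρ θ)‖ₑ ^ 2 with hB
  -- bound of the inner integral
  have hin : ∀ t ∈ Ioo (0 : ℝ) ρ, t ≠ (1 - h) * ρ →
      ENNReal.ofReal t * ∫⁻ θ in Ioo (-Real.pi) Real.pi, ‖∇ (radW u y ρ h c) (cpt y t θ)‖ₑ ^ 2 ≤
        (Ioo ((1 - h) * ρ) ρ).indicator (fun _ => ENNReal.ofReal (ρ / (h * ρ) ^ 2) * A +
          ENNReal.ofReal (ρ / (1 - h)) * B) t := by
    intro t ht hne
    rcases lt_or_gt_of_ne hne with hlt | hgt
    · have h0 : ∀ θ : ℝ, ‖∇ (radW u y ρ h c) (cpt y t θ)‖ₑ ^ 2 = 0 := by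
        intro θ
        rw [gradient_radW_inner_eq_zero hρ hh (by rw [dist_cpt, abs_of_pos ht.1]; exact hlt)]
        simp
      simp only [h0, lintegral_zero, mul_zero]
      exact zero_le
    · have htm : t ∈ Ioo ((1 - h) * ρ) ρ := ⟨hgt, ht.2⟩
      rw [indicator_of_mem htm]
      have h1 : ∫⁻ θ in Ioo (-Real.pi) Real.pi, ‖∇ (radW u y ρ h c) (cpt y t θ)‖ₑ ^ 2 ≤
          ∫⁻ θ in Ioo (-Real.pi) Real.pi, (ENNReal.ofReal (1 / (h * ρ) ^ 2) * ‖u (cpt y ρ θ) - c‖ₑ ^ 2
            + ENNReal.ofReal ((ρ / t) ^ 2) * ‖∇ u (cpt y ρ θ)‖ₑ ^ 2) := by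
        apply lintegral_mono_ae
        filter_upwards [hu] with θ hθ
        have h2 := norm_sq_gradient_radW_le (c := c) hρ hh hh1 hgt ht.2 hθ
        have e1 : ‖∇ (radW u y ρ h c) (cpt y t θ)‖ₑ ^ 2 =
            ENNReal.ofReal (‖∇ (radW u y ρ h c) (cpt y t θ)‖ ^ 2) := by
          rw [← ofReal_norm, ENNReal.ofReal_pow (norm_nonneg _)]
        have e2 : ‖∇ u (cpt y ρ θ)‖ₑ ^ 2 = ENNReal.ofReal (‖∇ u (cpt y ρ θ)‖ ^ 2) := by
          rw [← ofReal_norm, ENNReal.ofReal_pow (norm_nonneg _)]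
        have e3 : ‖u (cpt y ρ θ) - c‖ₑ ^ 2 = ENNReal.ofReal ((u (cpt y ρ θ) - c) ^ 2) := by
          rw [← ofReal_norm, ← ENNReal.ofReal_pow (norm_nonneg _), Real.norm_eq_abs, sq_abs]
        rw [e1, e2, e3, ← ENNReal.ofReal_mul (by positivity), ← ENNReal.ofReal_mul (by positivity),
          ← ENNReal.ofReal_add (by positivity) (by positivity)]
        apply ENNReal.ofReal_le_ofReal
        refine h2.trans (le_of_eq ?_)
        ring
      -- measurability-free splitting
      have h3 : ∫⁻ θ in Ioo (-Real.pi) Real.pi,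
          (ENNReal.ofReal (1 / (h * ρ) ^ 2) * ‖u (cpt y ρ θ) - c‖ₑ ^ 2
            + ENNReal.ofReal ((ρ / t) ^ 2) * ‖∇ u (cpt y ρ θ)‖ₑ ^ 2) =
          ENNReal.ofReal (1 / (h * ρ) ^ 2) * A + ENNReal.ofReal ((ρ / t) ^ 2) * B := by
        have hmg : Measurable (fun θ => ‖∇ u (cpt y ρ θ)‖ₑ ^ 2) := by
          have hc : Measurable (fun θ : ℝ => cpt y ρ θ) :=
            ((continuous_cpt y).comp (by fun_prop : Continuous (fun θ : ℝ => (ρ, θ)))).measurable
          exact ((measurable_gradient u).comp hc).enorm.pow_const 2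
        rw [lintegral_add_right _ (hmg.const_mul _), lintegral_const_mul' _ _ ENNReal.ofReal_ne_top,
          lintegral_const_mul' _ _ ENNReal.ofReal_ne_top]
      calc ENNReal.ofReal t * ∫⁻ θ in Ioo (-Real.pi) Real.pi,
            ‖∇ (radW u y ρ h c) (cpt y t θ)‖ₑ ^ 2
          ≤ ENNReal.ofReal t * (ENNReal.ofReal (1 / (h * ρ) ^ 2) * A +
              ENNReal.ofReal ((ρ / t) ^ 2) * B) := by
            rw [← h3]; gcongr
        _ = ENNReal.ofReal (t * (1 / (h * ρ) ^ 2)) * A + ENNReal.ofReal (t * (ρ / t) ^ 2) * B := by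
            rw [mul_add, ← mul_assoc, ← mul_assoc, ← ENNReal.ofReal_mul ht.1.le,
              ← ENNReal.ofReal_mul ht.1.le]
        _ ≤ ENNReal.ofReal (ρ / (h * ρ) ^ 2) * A + ENNReal.ofReal (ρ / (1 - h)) * B := by
            gcongr
            · rw [mul_one_div]
              gcongr
              exact ht.2.le
            · have : t * (ρ / t) ^ 2 = ρ * (ρ / t) := by
                have := ht.1.ne'
                field_simp
              rw [this]
              have h5 : ρ / t ≤ 1 / (1 - h) := by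
                rw [div_le_div_iff₀ ht.1 h1h]
                nlinarith
              calc ρ * (ρ / t) ≤ ρ * (1 / (1 - h)) := by gcongr
                _ = ρ / (1 - h) := by ring
  have hmain : ∫⁻ t in Ioo (0 : ℝ) ρ, ENNReal.ofReal t *
      ∫⁻ θ in Ioo (-Real.pi) Real.pi, ‖∇ (radW u y ρ h c) (cpt y t θ)‖ₑ ^ 2 ≤
      ∫⁻ t in Ioo (0 : ℝ) ρ, (Ioo ((1 - h) * ρ) ρ).indicator
        (fun _ => ENNReal.ofReal (ρ / (h * ρ) ^ 2) * A + ENNReal.ofReal (ρ / (1 - h)) * B) t := by
    apply lintegral_mono_ae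
    have hne : ∀ᵐ t ∂(volume.restrict (Ioo (0 : ℝ) ρ)), t ≠ (1 - h) * ρ := by
      apply ae_restrict_of_ae
      rw [ae_iff]
      simp
    filter_upwards [hne, ae_restrict_mem measurableSet_Ioo] with t ht1 ht2
    exact hin t ht2 ht1
  refine hmain.trans ?_
  rw [lintegral_indicator measurableSet_Ioo, Measure.restrict_restrict measurableSet_Ioo]
  have hsub : Ioo ((1 - h) * ρ) ρ ∩ Ioo 0 ρ = Ioo ((1 - h) * ρ) ρ := by
    apply inter_eq_left.2
    intro t ht
    exact ⟨hpos.trans ht.1, ht.2⟩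
  rw [hsub, lintegral_const, Measure.restrict_apply_univ, Real.volume_Ioo]
  have hlen : ρ - (1 - h) * ρ = h * ρ := by ring
  have f1 : ENNReal.ofReal (ρ / (h * ρ) ^ 2) * A * ENNReal.ofReal (h * ρ) =
      ENNReal.ofReal (1 / h) * A := by
    rw [mul_right_comm, ← ENNReal.ofReal_mul (by positivity)]
    congr 2
    field_simp
  have f2 : ENNReal.ofReal (ρ / (1 - h)) * B * ENNReal.ofReal (h * ρ) =
      ENNReal.ofReal (h * ρ ^ 2 / (1 - h)) * B := by
    rw [mul_right_comm, ← ENNReal.ofReal_mul (by positivity)]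
    congr 2
    field_simp
  rw [hlen, add_mul, f1, f2]

end Energy

end Crest.Agent.R135
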