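import Crest.Agent.R135.FV4
import Crest.Agent.R135.RadComp
import Crest.Agent.R135.IFDefs
import Crest.Agent.R135.QMBasic
import Crest.Agent.R135.Scal2
import Crest.Agent.R135.GMT2

-- ▼ part R135/DLB1
section

/-!
# R135 (DLB): periodic Wirtinger inequality, circles without crack points
-/

set_option autoImplicit false
open MeasureTheory Set Metric Filter Topology
open scoped Real ContDiff ENNReal NNReal RealInnerProductSpace Gradient

namespace Crest.Agent.R135.Gl

/-- the mean minimizes the quadratic deviation -/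
theorem mean_min {f : ℝ → ℝ} (hf : Continuous f) (κ : ℝ) :
    ∫ x in (-π)..π, (f x - (1 / (2 * π)) * ∫ t in (-π)..π, f t) ^ 2 ≤ ∫ x in (-π)..π, (f x - κ) ^ 2 := by
  set m := (1 / (2 * π)) * ∫ t in (-π)..π, f t with hm
  have hm' : ∫ t in (-π)..π, f t = 2 * π * m := by rw [hm]; field_simp
  have e : ∀ c : ℝ, ∫ x in (-π)..π, (f x - c) ^ 2
      = (∫ x in (-π)..π, f x ^ 2) - 2 * c * (2 * π * m) + 2 * π * c ^ 2 := by
    intro c
    have e1 : ∀ x, (f x - c) ^ 2 = f x ^ 2 - 2 * c * f x + c ^ 2 := fun x => by ring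
    simp only [e1]
    rw [intervalIntegral.integral_add, intervalIntegral.integral_sub,
      intervalIntegral.integral_const_mul, intervalIntegral.integral_const, hm']
    · simp only [smul_eq_mul]; ring
    · exact (hf.pow 2).intervalIntegrable _ _
    · exact (continuous_const.mul hf).intervalIntegrable _ _
    · exact ((hf.pow 2).sub (continuous_const.mul hf)).intervalIntegrable _ _
    · exact continuous_const.intervalIntegrable _ _
  rw [e m, e κ]
  have : 0 ≤ 2 * π * (m - κ) ^ 2 := by positivity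
  nlinarith [this]

/-- **Wirtinger inequality for `2π`-periodic functions** -/
theorem wirt_periodic {f f' : ℝ → ℝ} (hf : ∀ x, HasDerivAt f (f' x) x) (hc : Continuous f')
    (hp : ∀ x, f (x + 2 * π) = f x) :
    ∫ x in (-π)..π, (f x - (1 / (2 * π)) * ∫ t in (-π)..π, f t) ^ 2 ≤ ∫ x in (-π)..π, f' x ^ 2 := by
  have hfc : Continuous f := continuous_iff_continuousAt.2 fun x => (hf x).continuousAt
  have hp' : ∀ x, f' (x + 2 * π) = f' x := by
    intro x
    have h1 : HasDerivAt (fun y => f (y + 2 * π)) (f' (x + 2 * π)) x :=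
      (hf (x + 2 * π)).comp_add_const x (2 * π)
    have h2 : (fun y => f (y + 2 * π)) = f := funext hp
    rw [h2] at h1
    exact h1.unique (hf x)
  -- a point with `f (a + π) = f a`
  obtain ⟨a, -, ha⟩ : ∃ a ∈ Icc (0:ℝ) π, f (a + π) - f a = 0 := by
    have hcont : ContinuousOn (fun x => f (x + π) - f x) (Icc 0 π) :=
      ((hfc.comp (continuous_id.add continuous_const)).sub hfc).continuousOn
    have h0 : f (π + π) - f π = - (f (0 + π) - f 0) := by
      have := hp 0
      rw [zero_add] at this ⊢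
      have e : π + π = 2 * π := by ring
      rw [e, this]; ring
    rcases le_total (f (0 + π) - f 0) 0 with h | h
    · have := intermediate_value_Icc Real.pi_pos.le hcont
      obtain ⟨x, hx, hx2⟩ := this ⟨h, by rw [h0]; linarith⟩
      exact ⟨x, hx, hx2⟩
    · have := intermediate_value_Icc' Real.pi_pos.le hcont
      obtain ⟨x, hx, hx2⟩ := this ⟨by rw [h0]; linarith, h⟩
      exact ⟨x, hx, hx2⟩
  have hpi := Real.pi_pos
  have hQ : ∀ x, HasDerivAt (fun x => f x - f a) (f' x) x := fun x => (hf x).sub_const _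
  have w1 := wirt_dirichlet (a := a) (b := a + π) (by linarith) (P := fun x => f x - f a) (P1 := f')
    (fun x _ => hQ x) hc.continuousOn (by simp) (by simpa using ha)
  have w2 := wirt_dirichlet (a := a + π) (b := a + π + π) (by linarith)
    (P := fun x => f x - f a) (P1 := f')
    (fun x _ => hQ x) hc.continuousOn (by simpa using ha) (by
      have e : a + π + π = a + 2 * π := by ring
      rw [e, hp a, sub_self])
  have e1 : (a + π - a) / π = 1 := by field_simp; ring
  have e2 : (a + π + π - (a + π)) / π = 1 := by field_simp; ring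
  rw [e1, one_pow, one_mul] at w1
  rw [e2, one_pow, one_mul] at w2
  have hint1 : ∀ c d : ℝ, IntervalIntegrable (fun x => (f x - f a) ^ 2) volume c d := fun c d =>
    ((hfc.sub continuous_const).pow 2).intervalIntegrable _ _
  have hint2 : ∀ c d : ℝ, IntervalIntegrable (fun x => f' x ^ 2) volume c d := fun c d =>
    (hc.pow 2).intervalIntegrable _ _
  have w3 : ∫ x in a..(a + 2 * π), (f x - f a) ^ 2 ≤ ∫ x in a..(a + 2 * π), f' x ^ 2 := by
    have e : a + 2 * π = a + π + π := by ring
    rw [e, ← intervalIntegral.integral_add_adjacent_intervals (hint1 a (a + π)) (hint1 _ _),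
      ← intervalIntegral.integral_add_adjacent_intervals (hint2 a (a + π)) (hint2 _ _)]
    linarith
  have p1 : Function.Periodic (fun x => (f x - f a) ^ 2) (2 * π) := fun x => by
    simp only [hp x]
  have p2 : Function.Periodic (fun x => f' x ^ 2) (2 * π) := fun x => by
    simp only [hp' x]
  have s1 := p1.intervalIntegral_add_eq (-π) a
  have s2 := p2.intervalIntegral_add_eq (-π) a
  have e3 : -π + 2 * π = π := by ring
  rw [e3] at s1 s2
  calc _ ≤ ∫ x in (-π)..π, (f x - f a) ^ 2 := mean_min hfc _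
    _ = ∫ x in a..(a + 2 * π), (f x - f a) ^ 2 := s1
    _ ≤ ∫ x in a..(a + 2 * π), f' x ^ 2 := w3
    _ = ∫ x in (-π)..π, f' x ^ 2 := s2.symm

/-- Bonnet's inequality on a whole circle: `f = u|circle`, `f' = s u_τ`, `H = u_ν`. -/
theorem circle_full {f f' H : ℝ → ℝ} {s : ℝ} (hf : ∀ x, HasDerivAt f (f' x) x)
    (hc : Continuous f') (hp : ∀ x, f (x + 2 * π) = f x) (hH : Continuous H) :
    s * ∫ x in (-π)..π, (f x - (1 / (2 * π)) * ∫ t in (-π)..π, f t) * H x
      ≤ (1 / 2) * ((∫ x in (-π)..π, f' x ^ 2) + s ^ 2 * ∫ x in (-π)..π, H x ^ 2) := by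
  have hfc : Continuous f := continuous_iff_continuousAt.2 fun x => (hf x).continuousAt
  have hpi := Real.pi_pos
  set m := (1 / (2 * π)) * ∫ t in (-π)..π, f t with hm
  have w := wirt_periodic hf hc hp
  have h1 : ∫ x in (-π)..π, s * ((f x - m) * H x)
      ≤ ∫ x in (-π)..π, ((1 / 2) * (f x - m) ^ 2 + (1 / 2) * (s ^ 2 * H x ^ 2)) := by
    refine intervalIntegral.integral_mono_on (by linarith) ?_ ?_ ?_
    · exact (continuous_const.mul ((hfc.sub continuous_const).mul hH)).intervalIntegrable _ _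
    · exact ((continuous_const.mul ((hfc.sub continuous_const).pow 2)).add
        (continuous_const.mul (continuous_const.mul (hH.pow 2)))).intervalIntegrable _ _
    · intro x _
      nlinarith [sq_nonneg ((f x - m) - s * H x)]
  rw [intervalIntegral.integral_const_mul, intervalIntegral.integral_add,
    intervalIntegral.integral_const_mul, intervalIntegral.integral_const_mul,
    intervalIntegral.integral_const_mul] at h1
  · nlinarith [h1, w]
  · exact (continuous_const.mul ((hfc.sub continuous_const).pow 2)).intervalIntegrable _ _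
  · exact (continuous_const.mul (continuous_const.mul (hH.pow 2))).intervalIntegrable _ _

/-- oscillation on the circle -/
theorem osc_full {f f' : ℝ → ℝ} (hf : ∀ x, HasDerivAt f (f' x) x) (hc : Continuous f')
    (hp : ∀ x, f (x + 2 * π) = f x) (x y : ℝ) :
    |f x - f y| ≤ π + (1 / 2) * ∫ t in (-π)..π, f' t ^ 2 := by
  have hpi := Real.pi_pos
  have hp' : ∀ x, f' (x + 2 * π) = f' x := by
    intro x
    have h1 : HasDerivAt (fun y => f (y + 2 * π)) (f' (x + 2 * π)) x :=
      (hf (x + 2 * π)).comp_add_const x (2 * π)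
    have h2 : (fun y => f (y + 2 * π)) = f := funext hp
    rw [h2] at h1
    exact h1.unique (hf x)
  -- move `x` to `[y, y + 2π)`
  have hper : Function.Periodic f (2 * π) := hp
  obtain ⟨z, hz, hzx⟩ : ∃ z ∈ Ico y (y + 2 * π), f x = f z :=
    hper.exists_mem_Ico (by positivity) x y
  rw [hzx]
  have h1 : f z - f y = ∫ t in y..z, f' t :=
    (intervalIntegral.integral_eq_sub_of_hasDerivAt (fun t _ => hf t)
      (hc.intervalIntegrable _ _)).symm
  rw [h1]
  have p2 : Function.Periodic (fun x => f' x ^ 2) (2 * π) := fun x => by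
    simp only [hp' x]
  have s2 := p2.intervalIntegral_add_eq (-π) y
  have e3 : -π + 2 * π = π := by ring
  rw [e3] at s2
  calc |∫ t in y..z, f' t| ≤ ∫ t in y..z, |f' t| :=
        intervalIntegral.abs_integral_le_integral_abs hz.1
    _ ≤ ∫ t in y..(y + 2 * π), |f' t| := by
        refine intervalIntegral.integral_mono_interval le_rfl hz.1 hz.2.le
          (Eventually.of_forall fun t => abs_nonneg _) (hc.abs.intervalIntegrable _ _)
    _ ≤ ∫ t in y..(y + 2 * π), (1 / 2 + (1 / 2) * f' t ^ 2) := by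
        refine intervalIntegral.integral_mono_on (by linarith) (hc.abs.intervalIntegrable _ _)
          ((continuous_const.add (continuous_const.mul (hc.pow 2))).intervalIntegrable _ _) ?_
        intro t _
        nlinarith [sq_nonneg (|f' t| - 1), sq_abs (f' t)]
    _ = π + (1 / 2) * ∫ t in (-π)..π, f' t ^ 2 := by
        have i2 : IntervalIntegrable (fun t => (1 / 2) * f' t ^ 2) volume y (y + 2 * π) :=
          (continuous_const.mul (hc.pow 2)).intervalIntegrable _ _
        rw [intervalIntegral.integral_add (continuous_const.intervalIntegrable _ _) i2,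
          intervalIntegral.integral_const, intervalIntegral.integral_const_mul, s2]
        simp only [smul_eq_mul]
        ring

end Crest.Agent.R135.Gl
end

-- ▼ part R135/DLB2
section

/-!
# R135 (DLB): truncation, Bonnet inequality on circles without crack points (u unbounded allowed)
-/

set_option autoImplicit false
open MeasureTheory Set Metric Filter Topology
open scoped Real ContDiff ENNReal NNReal RealInnerProductSpace Gradient

namespace Crest.Agent.R135.Gl

/-- truncation of `u` between the levels `a ≤ b` -/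
noncomputable def clip (a b : ℝ) (u : P → ℝ) (x : P) : ℝ := max a (min (u x) b)

theorem clip_of_mem {a b : ℝ} {u : P → ℝ} {x : P} (h1 : a ≤ u x) (h2 : u x ≤ b) :
    clip a b u x = u x := by
  unfold clip; rw [min_eq_left h2, max_eq_right h1]

theorem le_clip (a b : ℝ) (u : P → ℝ) (x : P) : a ≤ clip a b u x := le_max_left _ _

theorem clip_le {a b : ℝ} (hab : a ≤ b) (u : P → ℝ) (x : P) : clip a b u x ≤ b :=
  max_le hab (min_le_right _ _)

theorem abs_clip_le {a b : ℝ} (hab : a ≤ b) (u : P → ℝ) (x : P) :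
    |clip a b u x| ≤ max |a| |b| := abs_le_max_abs_abs (le_clip a b u x) (clip_le hab u x)

theorem clip_grad {a b : ℝ} (hab : a ≤ b) {u : P → ℝ} {x : P} (hx : ContinuousAt u x) :
    ∇ (clip a b u) x = ∇ u x ∨ ∇ (clip a b u) x = 0 := by
  rcases lt_trichotomy (u x) a with h | h | h
  · right
    have h1 : clip a b u =ᶠ[𝓝 x] fun _ => a := by
      filter_upwards [hx.eventually_lt_const h] with y hy
      unfold clip
      exact max_eq_left ((min_le_left _ _).trans hy.le)
    rw [gradient_congr_of_eventuallyEq h1]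
    unfold gradient; simp
  · right
    have h1 : IsLocalMin (clip a b u) x := by
      refine Eventually.of_forall fun y => ?_
      have : clip a b u x = a := by
        unfold clip; rw [h]; exact max_eq_left (min_le_left _ _)
      rw [this]
      exact le_clip a b u y
    unfold gradient
    rw [h1.fderiv_eq_zero]
    simp
  · rcases lt_trichotomy (u x) b with h' | h' | h'
    · left
      refine gradient_congr_of_eventuallyEq ?_
      filter_upwards [hx.eventually_lt_const h', hx.eventually_const_lt h] with y hy1 hy2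
      exact clip_of_mem hy2.le hy1.le
    · right
      have h1 : IsLocalMax (clip a b u) x := by
        refine Eventually.of_forall fun y => ?_
        have : clip a b u x = b := by
          unfold clip; rw [h', min_self]; exact max_eq_right hab
        rw [this]
        exact clip_le hab u y
      unfold gradient
      rw [h1.fderiv_eq_zero]
      simp
    · right
      have h1 : clip a b u =ᶠ[𝓝 x] fun _ => b := by
        filter_upwards [hx.eventually_const_lt h'] with y hy
        unfold clip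
        rw [min_eq_right hy.le]
        exact max_eq_right hab
      rw [gradient_congr_of_eventuallyEq h1]
      unfold gradient; simp

theorem clip_grad_le {a b : ℝ} (hab : a ≤ b) {u : P → ℝ} {x : P} (hx : ContinuousAt u x) :
    ‖∇ (clip a b u) x‖ ≤ ‖∇ u x‖ := by
  rcases clip_grad hab hx with h | h
  · rw [h]
  · rw [h, norm_zero]; exact norm_nonneg _

theorem clip_inner {a b : ℝ} (hab : a ≤ b) {u : P → ℝ} {x : P} (hx : ContinuousAt u x) :
    ⟪∇ u x, ∇ (clip a b u) x⟫ = ‖∇ (clip a b u) x‖ ^ 2 := by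
  rcases clip_grad hab hx with h | h
  · rw [h, real_inner_self_eq_norm_sq]
  · rw [h, inner_zero_right, norm_zero]; ring

theorem lipschitz_clip {a b : ℝ} : LipschitzWith 1 (fun t : ℝ => max a (min t b)) :=
  (LipschitzWith.id.min_const b).const_max a

theorem clip_locLip {a b : ℝ} {u : P → ℝ} {V : Set P} (h : LocallyLipschitzOn V u) :
    LocallyLipschitzOn V (clip a b u) := by
  intro x hx
  obtain ⟨C, t, ht, hC⟩ := h hx
  exact ⟨1 * C, t, ht, lipschitz_clip.comp_lipschitzOnWith hC⟩

section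
variable {U K : Set P} {lam : ℝ} {u : P → ℝ}

theorem qm_contDiffAt (h : IsQM U lam u K) {x : P} (hx : x ∈ U \ K) : ContDiffAt ℝ 1 u x :=
  h.c1.contDiffAt ((qm_isOpen h).mem_nhds hx)

theorem qm_locLip (h : IsQM U lam u K) : LocallyLipschitzOn (U \ K) u := by
  intro x hx
  obtain ⟨C, t, ht, hC⟩ := (qm_contDiffAt h hx).exists_lipschitzOnWith
  exact ⟨C, t, mem_nhdsWithin_of_mem_nhds ht, hC⟩

theorem qm_continuousAt (h : IsQM U lam u K) {x : P} (hx : x ∈ U \ K) : ContinuousAt u x :=
  (qm_contDiffAt h hx).continuousAt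

theorem qm_grad_cont (h : IsQM U lam u K) : ContinuousOn (fun x => ∇ u x) (U \ K) := by
  unfold gradient
  exact (InnerProductSpace.toDual ℝ P).symm.continuous.comp_continuousOn
    (h.c1.continuousOn_fderiv_of_isOpen (qm_isOpen h) (by norm_num))


variable {x₀ : P} {s : ℝ}

theorem cpt_off (hs : 0 < s) (hB : closedBall x₀ s ⊆ U) (h0 : K ∩ sphere x₀ s = ∅) (θ : ℝ) :
    cpt x₀ s θ ∈ U \ K := by
  have h1 : cpt x₀ s θ ∈ sphere x₀ s := cpt_mem_sphere hs.le
  refine ⟨hB (sphere_subset_closedBall h1), fun h => ?_⟩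
  have h2 : cpt x₀ s θ ∈ K ∩ sphere x₀ s := ⟨h, h1⟩
  rw [h0] at h2
  exact h2

theorem continuous_cpt' (x₀ : P) (s : ℝ) : Continuous (cpt x₀ s) :=
  (continuous_cpt x₀).comp (Continuous.prodMk continuous_const continuous_id)

theorem circ_der (h : IsQM U lam u K) (hs : 0 < s) (hB : closedBall x₀ s ⊆ U)
    (h0 : K ∩ sphere x₀ s = ∅) (θ : ℝ) :
    HasDerivAt (fun θ => u (cpt x₀ s θ)) (s * ⟪∇ u (cpt x₀ s θ), tau θ⟫) θ :=
  hasDerivAt_circle
    (((qm_contDiffAt h (cpt_off hs hB h0 θ)).differentiableAt (by norm_num)).hasGradientAt)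

theorem circ_cont (h : IsQM U lam u K) (hs : 0 < s) (hB : closedBall x₀ s ⊆ U)
    (h0 : K ∩ sphere x₀ s = ∅) : Continuous (fun θ => ∇ u (cpt x₀ s θ)) :=
  (qm_grad_cont h).comp_continuous (continuous_cpt' x₀ s) (fun θ => cpt_off hs hB h0 θ)

theorem circ_split (h : IsQM U lam u K) (hs : 0 < s) (hB : closedBall x₀ s ⊆ U)
    (h0 : K ∩ sphere x₀ s = ∅) :
    (∫ θ in (-π)..π, (s * ⟪∇ u (cpt x₀ s θ), tau θ⟫) ^ 2)
      + s ^ 2 * (∫ θ in (-π)..π, ⟪∇ u (cpt x₀ s θ), dir θ⟫ ^ 2) = s * cirE u x₀ s := by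
  have hc := circ_cont h hs hB h0
  unfold cirE circI
  have e1 : ∀ θ, ‖∇ u (cpt x₀ s θ)‖ ^ 2
      = ⟪∇ u (cpt x₀ s θ), tau θ⟫ ^ 2 + ⟪∇ u (cpt x₀ s θ), dir θ⟫ ^ 2 := fun θ => by
    rw [norm_sq_frame _ θ]; ring
  simp only [e1, mul_pow]
  rw [intervalIntegral.integral_add, intervalIntegral.integral_const_mul]
  · ring
  · exact ((hc.inner continuous_tau).pow 2).intervalIntegrable _ _
  · exact ((hc.inner continuous_dir).pow 2).intervalIntegrable _ _

theorem circ_per (x₀ : P) (s : ℝ) (θ : ℝ) : u (cpt x₀ s (θ + 2 * π)) = u (cpt x₀ s θ) := by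
  rw [cpt_periodic x₀ s θ]

theorem cirE_nonneg (hs : 0 ≤ s) : 0 ≤ cirE u x₀ s := by
  unfold cirE circI
  refine mul_nonneg hs (intervalIntegral.integral_nonneg (by linarith [Real.pi_pos]) fun θ _ => ?_)
  positivity

theorem circ_osc (h : IsQM U lam u K) (hs : 0 < s) (hB : closedBall x₀ s ⊆ U)
    (h0 : K ∩ sphere x₀ s = ∅) (θ θ' : ℝ) :
    |u (cpt x₀ s θ) - u (cpt x₀ s θ')| ≤ π + (1 / 2) * (s * cirE u x₀ s) := by
  have hc := circ_cont h hs hB h0
  refine (osc_full (circ_der h hs hB h0) (continuous_const.mul (hc.inner continuous_tau))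
    (circ_per x₀ s) θ θ').trans ?_
  have h1 := circ_split h hs hB h0
  have h2 : 0 ≤ s ^ 2 * (∫ θ in (-π)..π, ⟪∇ u (cpt x₀ s θ), dir θ⟫ ^ 2) :=
    mul_nonneg (sq_nonneg _) (intervalIntegral.integral_nonneg (by linarith [Real.pi_pos])
      fun θ _ => sq_nonneg _)
  linarith

/-- competitor by truncation -/
theorem clip_comp (h : IsQM U lam u K) (hs : 0 < s) (hB : closedBall x₀ s ⊆ U)
    {a b : ℝ} (hS : ∀ x ∈ sphere x₀ s \ K, a ≤ u x ∧ u x ≤ b) :
    dirE u K (closedBall x₀ s) ≤ dirE (clip a b u) K (ball x₀ s) + ENNReal.ofReal (lam * s ^ 2) := by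
  classical
  set w : P → ℝ := fun x => if x ∈ closedBall x₀ s then clip a b u x else u x with hw
  have hO := qm_isOpen h
  have hcomp : IsComp U u K x₀ s w K := by
    refine ⟨h.sub, h.closed, h.len_fin x₀ s hB, rfl, ?_, ?_, ?_⟩
    · refine locallyLipschitzOn_of_closed_cover (u := u) (w := clip a b u)
        (A1 := (ball x₀ s)ᶜ) (A2 := closedBall x₀ s) hO isOpen_ball.isClosed_compl
        isClosed_closedBall ?_ ?_ ?_ ?_ ?_
      · intro x _
        by_cases hx : x ∈ ball x₀ s
        · exact Or.inr (ball_subset_closedBall hx)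
        · exact Or.inl hx
      · rintro x ⟨hx, hx2⟩
        simp only [hw]
        split_ifs with h3
        · have h4 : x ∈ sphere x₀ s := by
            rw [← closedBall_sdiff_ball]; exact ⟨h3, hx2⟩
          have h5 := hS x ⟨h4, hx.2⟩
          exact clip_of_mem h5.1 h5.2
        · rfl
      · rintro x ⟨hx, hx2⟩
        simp only [hw, if_pos hx2]
      · rintro x ⟨hx, -⟩
        obtain ⟨C, t, ht, hC⟩ := (qm_contDiffAt h hx).exists_lipschitzOnWith
        exact ⟨C, t, ht, hC.mono inter_subset_left⟩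
      · rintro x ⟨hx, -⟩
        obtain ⟨C, t, ht, hC⟩ := (qm_contDiffAt h hx).exists_lipschitzOnWith
        exact ⟨1 * C, t, ht, (lipschitz_clip.comp_lipschitzOnWith hC).mono inter_subset_left⟩
    · rintro y ⟨_, hy⟩
      simp only [hw]
      rw [if_neg (fun h => hy (Or.inr h))]
    · intro c hc
      exact ⟨c, hc, fun _ _ => rfl⟩
  have hm := h.min x₀ s hs hB w K hcomp
  unfold enE at hm
  have hfin : len (K ∩ closedBall x₀ s) ≠ ⊤ := (h.len_fin x₀ s hB).ne
  rw [add_right_comm] at hm
  have hm2 := (ENNReal.add_le_add_iff_right hfin).1 hm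
  refine hm2.trans (add_le_add (le_of_eq ?_) le_rfl)
  -- `dirE w K (closedBall) = dirE clip K (ball)`
  have hsph : (closedBall x₀ s \ K : Set P) =ᵐ[volume] (ball x₀ s \ K : Set P) := by
    have h1 : volume (sphere x₀ s) = 0 := Measure.addHaar_sphere volume x₀ s
    have h2 : (closedBall x₀ s : Set P) =ᵐ[volume] ball x₀ s := by
      rw [← ball_union_sphere]
      exact union_ae_eq_left_of_ae_eq_empty (ae_eq_empty.2 h1)
    exact h2.diff (ae_eq_refl _)
  unfold dirE
  rw [setLIntegral_congr hsph]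
  refine setLIntegral_congr_fun (measurableSet_ball.diff (qm_measK h)) fun x hx => ?_
  have h3 : w =ᶠ[𝓝 x] clip a b u := by
    filter_upwards [isOpen_ball.mem_nhds hx.1] with y hy
    simp only [hw, if_pos (ball_subset_closedBall hy)]
  have h4 := gradient_congr_of_eventuallyEq h3
  simp only [h4]

end
end Crest.Agent.R135.Gl
end

-- ▼ part R135/DLB3
section

/-!
# R135 (DLB): Bonnet inequality with truncation; radial competitor; circles without crack points
-/

set_option autoImplicit false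
open MeasureTheory Set Metric Filter Topology
open scoped Real ContDiff ENNReal NNReal RealInnerProductSpace Gradient

namespace Crest.Agent.R135.Gl

section
variable {U K : Set P} {lam : ℝ} {u : P → ℝ} {x₀ : P} {s : ℝ}

theorem dirE_ball_eq {φ : P → ℝ} {x₀ : P} {R : ℝ} (h0 : volume (K ∩ closedBall x₀ R) = 0)
    (hd : MemLp (fun y => ∇ φ y) 2 (volume.restrict (ball x₀ R))) :
    dirE φ K (ball x₀ R) = ENNReal.ofReal (∫ y in ball x₀ R, ‖∇ φ y‖ ^ 2) := by
  unfold dirE
  rw [ball_sdiff_ae h0]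
  exact lintegral_sq_eq hd

theorem qm_Dr_eq (h : IsQM U lam u K) {R : ℝ} (hB : closedBall x₀ R ⊆ U) :
    Dr u K x₀ R = ∫ y in ball x₀ R, ‖∇ u y‖ ^ 2 := by
  unfold Dr
  rw [dirE_ball_eq (qm_vol h hB) (qm_memLp_grad h hB), ENNReal.toReal_ofReal]
  exact integral_nonneg fun y => by positivity

theorem clip_dirE_lt (h : IsQM U lam u K) {R : ℝ} (hB : closedBall x₀ R ⊆ U) {a b : ℝ}
    (hab : a ≤ b) : dirE (clip a b u) K (ball x₀ R) < ⊤ := by
  refine lt_of_le_of_lt ?_ ((lintegral_mono_set (sdiff_subset_sdiff_left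
    ball_subset_closedBall)).trans_lt (h.dir_fin x₀ R hB))
  refine setLIntegral_mono' (measurableSet_ball.diff (qm_measK h)) fun y hy => ?_
  have h1 := clip_grad_le hab (qm_continuousAt h
    ⟨hB (ball_subset_closedBall hy.1), hy.2⟩)
  have h2 : ‖∇ (clip a b u) y‖ₑ ≤ ‖∇ u y‖ₑ := by
    rw [← ofReal_norm, ← ofReal_norm]
    exact ENNReal.ofReal_le_ofReal h1
  exact pow_le_pow_left₀ (zero_le) h2 2

/-- **Bonnet inequality with truncation** for circles without crack points -/
theorem bonnet_trunc (h : IsQM U lam u K) {R : ℝ} (hR : 0 < R) (hB : closedBall x₀ R ⊆ U) :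
    ∀ᵐ s ∂(volume.restrict (Ioo (0:ℝ) R)), K ∩ sphere x₀ s = ∅ →
      Dr u K x₀ s ≤ (1 / 2) * (s * cirE u x₀ s) + lam * s ^ 2
        + lam * (π * s ^ 2) * (2 * (π + (1 / 2) * (s * cirE u x₀ s)) + 2) := by
  obtain ⟨f, hfm, hfb, hel⟩ := h.el
  have hall : ∀ᵐ s ∂(volume.restrict (Ioo (0:ℝ) R)), ∀ a b : ℤ, a ≤ b →
      s * circI (fun y => clip a b u y * ⟪∇ u y, nrm x₀ y⟫) x₀ s
        = ∫ y in ball x₀ s, (⟪∇ u y, ∇ (clip a b u) y⟫ + f y * clip a b u y) := by
    rw [ae_all_iff]; intro a
    rw [ae_all_iff]; intro b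
    by_cases hab : a ≤ b
    · have hab' : (a : ℝ) ≤ b := by exact_mod_cast hab
      have := qm_radial h hfm hfb hel hR hB (clip_locLip (a := (a : ℝ)) (b := (b : ℝ)) (qm_locLip h))
        (abs_clip_le hab' u) (clip_dirE_lt h hB hab')
      filter_upwards [this] with s hs _
      exact hs
    · exact Eventually.of_forall fun s hab2 => absurd hab2 hab
  filter_upwards [hall, ae_restrict_mem measurableSet_Ioo] with s hs hsm h0
  have hs0 : 0 < s := hsm.1
  have hBs : closedBall x₀ s ⊆ U := (closedBall_subset_closedBall hsm.2.le).trans hB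
  have hpi := Real.pi_pos
  set B₀ : ℝ := π + (1 / 2) * (s * cirE u x₀ s) with hB₀
  have hcE : 0 ≤ s * cirE u x₀ s := mul_nonneg hs0.le (cirE_nonneg hs0.le)
  have hB₀0 : 0 < B₀ := by rw [hB₀]; linarith
  set a : ℤ := ⌊u (cpt x₀ s 0) - B₀⌋ with ha
  set b : ℤ := ⌈u (cpt x₀ s 0) + B₀⌉ with hb
  have ha1 : (a : ℝ) ≤ u (cpt x₀ s 0) - B₀ := Int.floor_le _
  have ha2 : u (cpt x₀ s 0) - B₀ < a + 1 := Int.lt_floor_add_one _
  have hb1 : u (cpt x₀ s 0) + B₀ ≤ b := Int.le_ceil _
  have hb2 : (b : ℝ) < u (cpt x₀ s 0) + B₀ + 1 := Int.ceil_lt_add_one _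
  have habR : (a : ℝ) ≤ b := by linarith
  have hab : a ≤ b := by exact_mod_cast habR
  have hosc : ∀ θ, (a : ℝ) ≤ u (cpt x₀ s θ) ∧ u (cpt x₀ s θ) ≤ b := by
    intro θ
    have h1 := abs_le.1 (circ_osc h hs0 hBs h0 θ 0)
    rw [← hB₀] at h1
    exact ⟨by linarith [h1.1], by linarith [h1.2]⟩
  have id1 := hs a b hab
  have id2 := hs 1 1 le_rfl
  -- the constant test function
  have hclip1 : (clip ((1 : ℤ) : ℝ) ((1 : ℤ) : ℝ) u) = fun _ => (1 : ℝ) := by
    ext y
    unfold clip
    push_cast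
    exact max_eq_left (min_le_right _ _)
  rw [hclip1] at id2
  have hg1 : ∀ y : P, ∇ (fun _ : P => (1 : ℝ)) y = 0 := fun y => by unfold gradient; simp
  simp only [hg1, inner_zero_right, zero_add, one_mul, mul_one] at id2
  set m : ℝ := (1 / (2 * π)) * ∫ t in (-π)..π, u (cpt x₀ s t) with hm
  have hc := circ_cont h hs0 hBs h0
  have hfcont : Continuous (fun θ => u (cpt x₀ s θ)) :=
    continuous_iff_continuousAt.2 fun θ => (circ_der h hs0 hBs h0 θ).continuousAt
  -- `m` lies between the levels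
  have hm1 : (a : ℝ) ≤ m ∧ m ≤ b := by
    have e1 : ∫ t in (-π)..π, (a : ℝ) ≤ ∫ t in (-π)..π, u (cpt x₀ s t) :=
      intervalIntegral.integral_mono_on (by linarith) (continuous_const.intervalIntegrable _ _)
        (hfcont.intervalIntegrable _ _) fun t _ => (hosc t).1
    have e2 : ∫ t in (-π)..π, u (cpt x₀ s t) ≤ ∫ t in (-π)..π, (b : ℝ) :=
      intervalIntegral.integral_mono_on (by linarith) (hfcont.intervalIntegrable _ _)
        (continuous_const.intervalIntegrable _ _) fun t _ => (hosc t).2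
    rw [intervalIntegral.integral_const, smul_eq_mul] at e1 e2
    have e3 : ∫ t in (-π)..π, u (cpt x₀ s t) = 2 * π * m := by rw [hm]; field_simp
    rw [e3] at e1 e2
    constructor
    · have : 2 * π * a ≤ 2 * π * m := by linarith
      exact le_of_mul_le_mul_left this (by positivity)
    · have : 2 * π * m ≤ 2 * π * b := by linarith
      exact le_of_mul_le_mul_left this (by positivity)
  -- circle integrals
  have c1 : circI (fun y => clip a b u y * ⟪∇ u y, nrm x₀ y⟫) x₀ s
      = ∫ θ in (-π)..π, u (cpt x₀ s θ) * ⟪∇ u (cpt x₀ s θ), dir θ⟫ := by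
    unfold circI
    refine intervalIntegral.integral_congr fun θ _ => ?_
    simp only [nrm_cpt x₀ hs0, clip_of_mem (hosc θ).1 (hosc θ).2]
  have c2 : circI (fun y => ⟪∇ u y, nrm x₀ y⟫) x₀ s
      = ∫ θ in (-π)..π, ⟪∇ u (cpt x₀ s θ), dir θ⟫ := by
    unfold circI
    refine intervalIntegral.integral_congr fun θ _ => ?_
    simp only [nrm_cpt x₀ hs0]
  rw [c1] at id1
  rw [c2] at id2
  have hHc : Continuous (fun θ => ⟪∇ u (cpt x₀ s θ), dir θ⟫) := hc.inner continuous_dir
  have c3 : ∫ θ in (-π)..π, (u (cpt x₀ s θ) - m) * ⟪∇ u (cpt x₀ s θ), dir θ⟫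
      = (∫ θ in (-π)..π, u (cpt x₀ s θ) * ⟪∇ u (cpt x₀ s θ), dir θ⟫)
        - m * ∫ θ in (-π)..π, ⟪∇ u (cpt x₀ s θ), dir θ⟫ := by
    rw [← intervalIntegral.integral_const_mul, ← intervalIntegral.integral_sub]
    · refine intervalIntegral.integral_congr fun θ _ => ?_
      ring
    · exact (hfcont.mul hHc).intervalIntegrable _ _
    · exact (continuous_const.mul hHc).intervalIntegrable _ _
  have hbon := circle_full (s := s) (circ_der h hs0 hBs h0)
    (continuous_const.mul (hc.inner continuous_tau)) (circ_per x₀ s) hHc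
  rw [← hm, circ_split h hs0 hBs h0, c3] at hbon
  -- ball integrals
  have hv := qm_vol h hBs
  have hclipL := memLp_grad (K := K) hv (clip_dirE_lt h hBs habR)
  have hclip2 := memLp_bdd (aesm_locLip h hBs (clip_locLip (a := (a:ℝ)) (b := (b:ℝ)) (qm_locLip h)))
    (abs_clip_le habR u)
  have hf2 : MemLp f 2 (volume.restrict (ball x₀ s)) := memLp_bdd hfm.aestronglyMeasurable hfb
  have hG := qm_memLp_grad h hBs
  have e1 : ∫ y in ball x₀ s, (⟪∇ u y, ∇ (clip a b u) y⟫ + f y * clip a b u y)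
      = (∫ y in ball x₀ s, ‖∇ (clip a b u) y‖ ^ 2) + ∫ y in ball x₀ s, f y * clip a b u y := by
    have i2 : Integrable (fun y => f y * clip a b u y) (volume.restrict (ball x₀ s)) :=
      hf2.integrable_mul hclip2
    rw [integral_add (integrable_inner2 hG hclipL) i2]
    congr 1
    rw [← ball_sdiff_ae hv]
    refine setIntegral_congr_fun (measurableSet_ball.diff (qm_measK h)) fun y hy => ?_
    exact clip_inner habR (qm_continuousAt h ⟨hBs (ball_subset_closedBall hy.1), hy.2⟩)
  rw [e1] at id1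
  have hfint : IntegrableOn f (ball x₀ s) := by
    have : IsFiniteMeasure (volume.restrict (ball x₀ s)) :=
      ⟨by rw [Measure.restrict_apply_univ]; exact measure_ball_lt_top⟩
    exact hf2.integrable (by norm_num)
  have e2 : (∫ y in ball x₀ s, f y * clip a b u y) - m * ∫ y in ball x₀ s, f y
      = ∫ y in ball x₀ s, f y * (clip a b u y - m) := by
    rw [← integral_const_mul, ← integral_sub]
    · refine integral_congr_ae (Eventually.of_forall fun y => ?_)
      simp only; ring
    · exact hf2.integrable_mul hclip2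
    · exact hfint.const_mul m
  have e3 : |∫ y in ball x₀ s, f y * (clip a b u y - m)| ≤ lam * ((b:ℝ) - a) * (π * s ^ 2) := by
    have h1 : ∀ y ∈ ball x₀ s, ‖f y * (clip a b u y - m)‖ ≤ lam * ((b:ℝ) - a) := by
      intro y _
      rw [Real.norm_eq_abs, abs_mul]
      refine mul_le_mul (hfb y) ?_ (abs_nonneg _) h.lam_nonneg
      rw [abs_le]
      have h2 := le_clip (a:ℝ) b u y
      have h3 := clip_le habR u y
      constructor <;> linarith [hm1.1, hm1.2]
    have h2 := norm_setIntegral_le_of_norm_le_const (μ := volume) (s := ball x₀ s)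
      measure_ball_lt_top h1
    rw [Real.norm_eq_abs] at h2
    refine h2.trans (le_of_eq ?_)
    congr 1
    rw [measureReal_def, EuclideanSpace.volume_ball_fin_two, ENNReal.toReal_mul, ENNReal.toReal_pow,
      ENNReal.toReal_ofReal hs0.le, ENNReal.toReal_ofReal Real.pi_pos.le, mul_comm]
  have hmin := clip_comp h hs0 hBs (a := (a:ℝ)) (b := (b:ℝ)) (fun x hx => by
    obtain ⟨θ, -, hθ⟩ := exists_cpt_eq hs0 hx.1 0
    rw [← hθ]; exact hosc θ)
  rw [dirE_ball_eq hv hclipL, ← ENNReal.ofReal_add (integral_nonneg fun y => by positivity)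
    (mul_nonneg h.lam_nonneg (sq_nonneg _))] at hmin
  have hDr : Dr u K x₀ s ≤ (∫ y in ball x₀ s, ‖∇ (clip a b u) y‖ ^ 2) + lam * s ^ 2 := by
    unfold Dr
    refine ENNReal.toReal_le_of_le_ofReal (add_nonneg (integral_nonneg fun y => by positivity)
      (mul_nonneg h.lam_nonneg (sq_nonneg _))) (le_trans ?_ hmin)
    exact lintegral_mono_set (sdiff_subset_sdiff_left ball_subset_closedBall)
  have hba : (b:ℝ) - a ≤ 2 * B₀ + 2 := by linarith
  have e4 : lam * ((b:ℝ) - a) * (π * s ^ 2) ≤ lam * (π * s ^ 2) * (2 * B₀ + 2) := by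
    have : 0 ≤ lam * (π * s ^ 2) := mul_nonneg h.lam_nonneg (by positivity)
    nlinarith
  have e5 := abs_le.1 e3
  rw [mul_sub, id1, ← mul_assoc, mul_comm s m, mul_assoc, id2] at hbon
  linarith [hDr, e2, hbon, e4, e5.1, e5.2]

end
end Crest.Agent.R135.Gl
end

-- ▼ part R135/DLB4
section

/-!
# R135 (DLB): radial competitor on circles without crack points; growth of the energy
-/

set_option autoImplicit false
open MeasureTheory Set Metric Filter Topology
open scoped Real ContDiff ENNReal NNReal RealInnerProductSpace Gradient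

namespace Crest.Agent.R135.Gl

theorem lint_circ {F : Type*} [NormedAddCommGroup F] {g : ℝ → F} (hg : Continuous g) :
    ∫⁻ θ in Ioo (-π) π, ‖g θ‖ₑ ^ 2 = ENNReal.ofReal (∫ θ in (-π)..π, ‖g θ‖ ^ 2) := by
  rw [intervalIntegral.integral_of_le (by linarith [Real.pi_pos]), integral_Ioc_eq_integral_Ioo,
    ofReal_integral_eq_lintegral_ofReal]
  · refine lintegral_congr fun x => ?_
    rw [ENNReal.ofReal_pow (norm_nonneg _), ofReal_norm]
  · exact (hg.norm.pow 2).continuousOn.integrableOn_Icc.mono_set Ioo_subset_Icc_self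
  · exact Eventually.of_forall fun x => by positivity

section
variable {U K : Set P} {lam : ℝ} {u : P → ℝ} {x₀ : P} {s : ℝ}

theorem keeps_empty (hs : 0 < s) (hB : closedBall x₀ s ⊆ U) (h0 : K ∩ sphere x₀ s = ∅) :
    Keeps U K (K \ ball x₀ s) (closedBall x₀ s) := by
  classical
  intro c hc
  have hoff : ∀ y ∈ sphere x₀ s, y ∈ U \ K := by
    intro y hy
    refine ⟨hB (sphere_subset_closedBall hy), fun hK => ?_⟩
    have h1 : y ∈ K ∩ sphere x₀ s := ⟨hK, hy⟩
    rw [h0] at h1
    exact h1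
  -- `c` is constant on the circle
  have hconst : ∀ θ : ℝ, c (cpt x₀ s θ) = c (cpt x₀ s 0) := by
    have hloc : IsLocallyConstant (fun θ : ℝ => c (cpt x₀ s θ)) := by
      rw [IsLocallyConstant.iff_eventually_eq]
      intro θ
      exact (continuous_cpt' x₀ s).continuousAt.eventually (hc _ (cpt_off hs hB h0 θ))
    exact fun θ => hloc.apply_eq_of_preconnectedSpace θ 0
  have hconst2 : ∀ y ∈ sphere x₀ s, c y = c (cpt x₀ s 0) := by
    intro y hy
    obtain ⟨θ, -, hθ⟩ := exists_cpt_eq hs hy 0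
    rw [← hθ]; exact hconst θ
  refine ⟨fun z => if dist z x₀ < s then c (cpt x₀ s 0) else c z, ?_, ?_⟩
  · rintro x ⟨hxU, hxL⟩
    rcases lt_trichotomy (dist x x₀) s with hlt | heq | hgt
    · have h1 : ∀ᶠ z in 𝓝 x, dist z x₀ < s := isOpen_ball.mem_nhds hlt
      filter_upwards [h1] with z hz
      rw [if_pos hz, if_pos hlt]
    · have hx := hoff x heq
      filter_upwards [hc x hx] with z hz
      have h2 : c z = c (cpt x₀ s 0) := by rw [hz]; exact hconst2 x heq
      rw [if_neg (not_lt.2 heq.ge), hconst2 x heq]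
      split_ifs
      · rfl
      · exact h2
    · have h1 : ∀ᶠ z in 𝓝 x, s < dist z x₀ :=
        (continuous_id.dist continuous_const).continuousAt.eventually (eventually_gt_nhds hgt)
      have hxK : x ∈ U \ K := ⟨hxU, fun h => hxL ⟨h, by rw [mem_ball, not_lt]; exact hgt.le⟩⟩
      filter_upwards [h1, hc x hxK] with z hz hz2
      rw [if_neg (not_lt.2 hz.le), if_neg (not_lt.2 hgt.le), hz2]
  · rintro y ⟨_, hy⟩
    have h1 : ¬ dist y x₀ < s := fun hlt => hy (Or.inr (mem_closedBall.2 hlt.le))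
    simp only [if_neg h1]

theorem radL_empty (hs : 0 < s) (h0 : K ∩ sphere x₀ s = ∅) :
    radL K x₀ s (1 / 2) = K \ ball x₀ s := by
  unfold radL
  have : {x : E2 | (1 - 1 / 2) * s ≤ dist x x₀ ∧ dist x x₀ ≤ s ∧ radProj x₀ s x ∈ K} = ∅ := by
    ext x
    simp only [mem_ofPred_eq, mem_empty_iff_false, iff_false]
    rintro ⟨h1, h2, h3⟩
    have hx : x ≠ x₀ := by
      rintro rfl
      rw [dist_self] at h1
      linarith
    have h4 : radProj x₀ s x ∈ K ∩ sphere x₀ s := ⟨h3, radProj_mem_sphere hs.le hx⟩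
    rw [h0] at h4
    exact h4
  rw [this, union_empty]

/-- energy comparison on a circle without crack points -/
theorem enE_empty (h : IsQM U lam u K) (hs : 0 < s) (hB : closedBall x₀ s ⊆ U)
    (h0 : K ∩ sphere x₀ s = ∅) :
    enE u K (closedBall x₀ s) ≤ ENNReal.ofReal (3 * (s * cirE u x₀ s) + lam * s ^ 2) := by
  set m : ℝ := (1 / (2 * π)) * ∫ t in (-π)..π, u (cpt x₀ s t) with hm
  have hrL := radL_empty hs h0
  have hLopen : IsOpen (U \ radL K x₀ s (1 / 2)) :=
    isOpen_diff_radL h.isOpen h.closed hs (by norm_num) hB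
  have hcl := closure_radL_inter (h := 1 / 2) h.closed hs (by norm_num) hB
  have hlip := locallyLipschitzOn_radW (c := m) (h := 1 / 2) hs (by norm_num) (by norm_num) hB
    (fun x hx => qm_contDiffAt h hx) hLopen
  rw [hrL] at hLopen hcl hlip
  have hempty : (K \ ball x₀ s) ∩ closedBall x₀ s = ∅ := by
    ext x
    simp only [mem_inter_iff, Set.mem_sdiff, mem_empty_iff_false, iff_false]
    rintro ⟨⟨h1, h2⟩, h3⟩
    have h4 : x ∈ K ∩ sphere x₀ s := ⟨h1, by rw [← closedBall_sdiff_ball]; exact ⟨h3, h2⟩⟩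
    rw [h0] at h4
    exact h4
  have hcomp : IsComp U u K x₀ s (radW u x₀ s (1 / 2) m) (K \ ball x₀ s) := by
    refine ⟨sdiff_subset.trans h.sub, hcl, ?_, ?_, hlip, ?_, keeps_empty hs hB h0⟩
    · rw [hempty]; unfold len; simp
    · ext x
      constructor
      · rintro ⟨hx, hxb⟩; exact ⟨hx.1, hxb⟩
      · rintro ⟨hx, hxb⟩
        exact ⟨⟨hx, fun hc => hxb (ball_subset_closedBall hc)⟩, hxb⟩
    · rintro z ⟨_, hz⟩
      apply radW_of_le
      by_contra hlt
      exact hz (Or.inr (mem_closedBall.2 (not_le.1 hlt).le))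
  have hc := circ_cont h hs hB h0
  have hfcont : Continuous (fun θ => u (cpt x₀ s θ)) :=
    continuous_iff_continuousAt.2 fun θ => (circ_der h hs hB h0 θ).continuousAt
  have hcE : 0 ≤ s * cirE u x₀ s := mul_nonneg hs.le (cirE_nonneg hs.le)
  refine (h.min x₀ s hs hB _ _ hcomp).trans ?_
  unfold enE
  rw [hempty, ENNReal.ofReal_add (by positivity) (mul_nonneg h.lam_nonneg (sq_nonneg _))]
  refine add_le_add ?_ le_rfl
  have hl0 : len (∅ : Set P) = 0 := by unfold len; simp
  rw [hl0, add_zero]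
  unfold dirE
  refine (lintegral_mono_set sdiff_subset).trans ?_
  have hsph : (closedBall x₀ s : Set E2) =ᵐ[volume] ball x₀ s := by
    have h1 : volume (sphere x₀ s) = 0 := Measure.addHaar_sphere volume x₀ s
    rw [← ball_union_sphere]
    exact union_ae_eq_left_of_ae_eq_empty (ae_eq_empty.2 h1)
  rw [setLIntegral_congr hsph]
  refine (lintegral_radW_le hs (by norm_num) (by norm_num)
    (Eventually.of_forall fun θ => qm_contDiffAt h (cpt_off hs hB h0 θ))).trans ?_
  have e1 := lint_circ (g := fun θ => u (cpt x₀ s θ) - m) (hfcont.sub continuous_const)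
  have e2 := lint_circ hc
  rw [e1, e2, ← ENNReal.ofReal_mul (by norm_num), ← ENNReal.ofReal_mul (by positivity),
    ← ENNReal.ofReal_add]
  · refine ENNReal.ofReal_le_ofReal ?_
    have w := wirt_periodic (circ_der h hs hB h0)
      (continuous_const.mul (hc.inner continuous_tau)) (circ_per x₀ s)
    rw [← hm] at w
    have sp := circ_split h hs hB h0
    have h2 : 0 ≤ s ^ 2 * (∫ θ in (-π)..π, ⟪∇ u (cpt x₀ s θ), dir θ⟫ ^ 2) :=
      mul_nonneg (sq_nonneg _) (intervalIntegral.integral_nonneg (by linarith [Real.pi_pos])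
        fun θ _ => sq_nonneg _)
    have e3 : ∫ θ in (-π)..π, ‖u (cpt x₀ s θ) - m‖ ^ 2 = ∫ θ in (-π)..π, (u (cpt x₀ s θ) - m) ^ 2 := by
      refine intervalIntegral.integral_congr fun θ _ => ?_
      simp only [Real.norm_eq_abs, sq_abs]
    have e4 : s * cirE u x₀ s = s ^ 2 * ∫ θ in (-π)..π, ‖∇ u (cpt x₀ s θ)‖ ^ 2 := by
      unfold cirE circI; ring
    rw [e3]
    have e5 : 1 / 2 * s ^ 2 / (1 - 1 / 2) * ∫ θ in (-π)..π, ‖∇ u (cpt x₀ s θ)‖ ^ 2
        = s * cirE u x₀ s := by rw [e4]; ring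
    rw [e5]
    linarith
  · exact mul_nonneg (by norm_num) (intervalIntegral.integral_nonneg (by linarith [Real.pi_pos])
      fun θ _ => by positivity)
  · exact mul_nonneg (by positivity) (intervalIntegral.integral_nonneg (by linarith [Real.pi_pos])
      fun θ _ => by positivity)

end
end Crest.Agent.R135.Gl
end

-- ▼ part R135/DLB5
section

/-!
# R135 (DLB): one step of the iteration
-/

set_option autoImplicit false
open MeasureTheory Set Metric Filter Topology
open scoped Real ContDiff ENNReal NNReal RealInnerProductSpace Gradient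

namespace Crest.Agent.R135.Gl

section
variable {U K : Set P} {lam : ℝ} {u : P → ℝ} {x₀ : P} {s : ℝ}

theorem qm_int_sq (h : IsQM U lam u K) {R : ℝ} (hB : closedBall x₀ R ⊆ U) :
    IntegrableOn (fun y => ‖∇ u y‖ ^ 2) (ball x₀ R) := integrable_normsq (qm_memLp_grad h hB)

theorem Dr_nonneg : 0 ≤ Dr u K x₀ s := ENNReal.toReal_nonneg

theorem Dr_mono (h : IsQM U lam u K) {r R : ℝ} (hrR : r ≤ R) (hB : closedBall x₀ R ⊆ U) :
    Dr u K x₀ r ≤ Dr u K x₀ R := by
  unfold Dr
  refine ENNReal.toReal_mono ?_ (lintegral_mono_set (sdiff_subset_sdiff_left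
    (ball_subset_ball hrR)))
  exact ((lintegral_mono_set (sdiff_subset_sdiff_left
    ball_subset_closedBall)).trans_lt (h.dir_fin x₀ R hB)).ne

theorem Dr_sub (h : IsQM U lam u K) {r R : ℝ} (hr : 0 ≤ r) (hrR : r ≤ R)
    (hB : closedBall x₀ R ⊆ U) :
    Dr u K x₀ R - Dr u K x₀ r = ∫ t in r..R, cirE u x₀ t := by
  rw [qm_Dr_eq h hB, qm_Dr_eq h ((closedBall_subset_closedBall hrR).trans hB)]
  exact ball_integral_sub x₀ hr hrR le_rfl (qm_int_sq h hB)

theorem cirE_int (h : IsQM U lam u K) {R : ℝ} (hR : 0 ≤ R)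
    (hB : closedBall x₀ R ⊆ U) : IntervalIntegrable (fun t => cirE u x₀ t) volume 0 R :=
  intervalIntegrable_radial x₀ hR (qm_int_sq h hB)

/-- a large measurable set of radii without crack points -/
theorem good_radii {r η : ℝ}
    (hK : len (K ∩ ball x₀ r) ≤ ENNReal.ofReal (η * r)) :
    ∃ N : Set ℝ, MeasurableSet N ∧ volume N ≤ ENNReal.ofReal (η * r) ∧
      ∀ s ∈ Ioo (r / 2) r \ N, K ∩ sphere x₀ s = ∅ := by
  refine ⟨toMeasurable volume {t ∈ Iio r | (K ∩ sphere x₀ t).Nonempty},
    measurableSet_toMeasurable _ _, ?_, ?_⟩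
  · rw [measure_toMeasurable]
    exact (volume_radii_meet_le K x₀ r).trans hK
  · rintro s ⟨hs, hsN⟩
    by_contra hne
    exact hsN (subset_toMeasurable _ _ ⟨hs.2, nonempty_iff_ne_empty.2 hne⟩)

theorem step_D (h : IsQM U lam u K) {r : ℝ} (hr : 0 < r) (hB : closedBall x₀ r ⊆ U)
    (hlam : lam * π * r ^ 2 ≤ 1 / 100)
    (hK : len (K ∩ ball x₀ r) ≤ ENNReal.ofReal (1 / 100 * r)) :
    Dr u K x₀ (r / 2) * (23 / 10) ≤ Dr u K x₀ r + 28 * lam * r ^ 2 := by
  obtain ⟨N, hNm, hNv, hN⟩ := good_radii hK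
  have hpi := Real.pi_pos
  have hlam0 := h.lam_nonneg
  set T : Set ℝ := Ioo (r / 2) r \ N with hT
  have hTm : MeasurableSet T := measurableSet_Ioo.diff hNm
  have hTsub : T ⊆ Ioo (r / 2) r := sdiff_subset
  have hci : IntegrableOn (fun t => cirE u x₀ t) (Ioo (r / 2) r) := by
    have := cirE_int h hr.le hB
    rw [intervalIntegrable_iff_integrableOn_Ioo_of_le hr.le] at this
    exact this.mono_set (Ioo_subset_Ioo_left (by linarith))
  have hae : ∀ᵐ s ∂(volume.restrict T),
      (50 / 51) * (2 * (Dr u K x₀ (r / 2) * s⁻¹ - 28 * lam * s)) ≤ cirE u x₀ s := by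
    have h1 := bonnet_trunc h hr hB
    have h2 : ∀ᵐ s ∂(volume.restrict T), _ :=
      ae_mono (Measure.restrict_mono (hTsub.trans (Ioo_subset_Ioo_left (by linarith))) le_rfl) h1
    filter_upwards [h2, ae_restrict_mem hTm] with s hs hsT
    have hs0 : 0 < s := by linarith [(hTsub hsT).1]
    have hsr : s < r := (hTsub hsT).2
    have h3 := hs (hN s hsT)
    have hBs : closedBall x₀ s ⊆ U := (closedBall_subset_closedBall hsr.le).trans hB
    have h4 : Dr u K x₀ (r / 2) ≤ Dr u K x₀ s := Dr_mono h (hTsub hsT).1.le hBs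
    have hc0 : 0 ≤ cirE u x₀ s := cirE_nonneg hs0.le
    have hp1 : π < 3.15 := Real.pi_lt_d2
    have h5 : lam * π * s ^ 2 ≤ 1 / 100 := by
      refine le_trans ?_ hlam
      have : s ^ 2 ≤ r ^ 2 := pow_le_pow_left₀ hs0.le hsr.le 2
      exact mul_le_mul_of_nonneg_left this (by positivity)
    have h6 : lam * (π * s ^ 2) * (2 * (π + (1 / 2) * (s * cirE u x₀ s)) + 2)
        ≤ (1 / 100) * (s * cirE u x₀ s) + 27 * (lam * s ^ 2) := by
      have e1 : lam * (π * s ^ 2) * (2 * (π + (1 / 2) * (s * cirE u x₀ s)) + 2)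
          = (lam * π * s ^ 2) * (s * cirE u x₀ s) + (lam * s ^ 2) * (π * (2 * π + 2)) := by ring
      rw [e1]
      have e2 : π * (2 * π + 2) ≤ 27 := by nlinarith
      have e3 : 0 ≤ lam * s ^ 2 := by positivity
      have e4 : 0 ≤ s * cirE u x₀ s := by positivity
      nlinarith
    have h7 : Dr u K x₀ (r / 2) ≤ (51 / 100) * (s * cirE u x₀ s) + 28 * (lam * s ^ 2) := by
      linarith
    have e5 : s⁻¹ * s = 1 := inv_mul_cancel₀ hs0.ne'
    have h8 : Dr u K x₀ (r / 2) * s⁻¹ ≤ (51 / 100) * cirE u x₀ s + 28 * lam * s := by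
      have := mul_le_mul_of_nonneg_right h7 (inv_nonneg.2 hs0.le)
      refine this.trans (le_of_eq ?_)
      field_simp
    linarith
  -- integrate
  have hinv : IntegrableOn (fun s : ℝ => s⁻¹) (Ioo (r / 2) r) := by
    have h1 : ContinuousOn (fun s : ℝ => s⁻¹) (Icc (r / 2) r) :=
      continuousOn_inv₀.mono fun s hs => by
        have : 0 < s := by linarith [hs.1]
        exact this.ne'
    exact h1.integrableOn_Icc.mono_set Ioo_subset_Icc_self
  have hid : IntegrableOn (fun s : ℝ => s) (Ioo (r / 2) r) :=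
    continuousOn_id.integrableOn_Icc.mono_set Ioo_subset_Icc_self
  have i1 : ∫ s in T, (50 / 51) * (2 * (Dr u K x₀ (r / 2) * s⁻¹ - 28 * lam * s))
      ≤ ∫ s in T, cirE u x₀ s := by
    refine integral_mono_ae ?_ (hci.mono_set hTsub) hae
    exact ((((hinv.mono_set hTsub).const_mul _).sub ((hid.mono_set hTsub).const_mul _)).const_mul
      2).const_mul _
  have i2 : ∫ s in T, cirE u x₀ s ≤ ∫ s in Ioo (r / 2) r, cirE u x₀ s := by
    refine setIntegral_mono_set hci ?_ hTsub.eventuallyLE
    rw [EventuallyLE, ae_restrict_iff' measurableSet_Ioo]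
    refine Eventually.of_forall fun s hs => cirE_nonneg (by linarith [hs.1])
  have i3 : ∫ s in Ioo (r / 2) r, cirE u x₀ s = Dr u K x₀ r - Dr u K x₀ (r / 2) := by
    rw [Dr_sub h (by linarith) (by linarith) hB, intervalIntegral.integral_of_le (by linarith),
      integral_Ioc_eq_integral_Ioo]
  have i4 : ∫ s in T, (50 / 51) * (2 * (Dr u K x₀ (r / 2) * s⁻¹ - 28 * lam * s))
      = (100 / 51) * (Dr u K x₀ (r / 2) * (∫ s in T, s⁻¹) - 28 * lam * ∫ s in T, s) := by
    rw [integral_const_mul, integral_const_mul, integral_sub, integral_const_mul,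
      integral_const_mul]
    · ring
    · exact (hinv.mono_set hTsub).const_mul _
    · exact (hid.mono_set hTsub).const_mul _
  have i5 : ∫ s in T, s ≤ r * (r / 2) := by
    have h1 : ∀ s ∈ T, ‖s‖ ≤ r := by
      intro s hs
      have := hTsub hs
      rw [Real.norm_eq_abs, abs_of_pos (by linarith [this.1])]
      exact this.2.le
    have hTfin : volume T < ⊤ := (measure_mono hTsub).trans_lt (by simp)
    have h2 := norm_setIntegral_le_of_norm_le_const (μ := volume) hTfin h1
    have h3 : volume.real T ≤ r / 2 := by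
      refine (measureReal_mono hTsub (by simp)).trans ?_
      rw [measureReal_def, Real.volume_Ioo, ENNReal.toReal_ofReal (by linarith)]
      linarith
    calc ∫ s in T, s ≤ ‖∫ s in T, s‖ := le_abs_self _
      _ ≤ r * volume.real T := h2
      _ ≤ r * (r / 2) := mul_le_mul_of_nonneg_left h3 hr.le
  have i6 : Real.log 2 - 1 / 50 ≤ ∫ s in T, s⁻¹ := by
    have h1 := integral_inter_add_sdiff (μ := volume) (s := Ioo (r / 2) r) hNm hinv
    have h2 : ∫ s in Ioo (r / 2) r, s⁻¹ = Real.log 2 := by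
      rw [← integral_Ioc_eq_integral_Ioo, ← intervalIntegral.integral_of_le (by linarith),
        integral_inv_of_pos (by linarith) hr]
      congr 1
      field_simp
    have h3 : ∫ s in Ioo (r / 2) r ∩ N, s⁻¹ ≤ 1 / 50 := by
      have h4 : ∀ s ∈ Ioo (r / 2) r ∩ N, ‖s⁻¹‖ ≤ 2 / r := by
        rintro s ⟨hs, -⟩
        have hs0 : 0 < s := by linarith [hs.1]
        rw [Real.norm_eq_abs, abs_of_pos (inv_pos.2 hs0), inv_eq_one_div,
          div_le_div_iff₀ hs0 hr]
        linarith [hs.1]
      have h5 := norm_setIntegral_le_of_norm_le_const (μ := volume)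
        ((measure_mono inter_subset_left).trans_lt (by simp) :
          volume (Ioo (r / 2) r ∩ N) < ⊤) h4
      have h6 : volume.real (Ioo (r / 2) r ∩ N) ≤ 1 / 100 * r := by
        rw [measureReal_def]
        refine ENNReal.toReal_le_of_le_ofReal (by positivity) ?_
        exact (measure_mono inter_subset_right).trans hNv
      calc ∫ s in Ioo (r / 2) r ∩ N, s⁻¹ ≤ ‖∫ s in Ioo (r / 2) r ∩ N, s⁻¹‖ := le_abs_self _
        _ ≤ 2 / r * volume.real (Ioo (r / 2) r ∩ N) := h5
        _ ≤ 2 / r * (1 / 100 * r) := mul_le_mul_of_nonneg_left h6 (by positivity)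
        _ = 1 / 50 := by field_simp; norm_num
    rw [h2] at h1
    linarith
  have hlog : 0.6931471803 < Real.log 2 := Real.log_two_gt_d9
  have hD0 : 0 ≤ Dr u K x₀ (r / 2) := Dr_nonneg
  have i7 : Dr u K x₀ (r / 2) * (673 / 1000) ≤ Dr u K x₀ (r / 2) * ∫ s in T, s⁻¹ :=
    mul_le_mul_of_nonneg_left (by linarith) hD0
  have i8 : 28 * lam * ∫ s in T, s ≤ 28 * lam * (r * (r / 2)) :=
    mul_le_mul_of_nonneg_left i5 (by positivity)
  have i9 : 0 ≤ lam * r ^ 2 := by positivity
  nlinarith [i1, i2, i3, i4, i7, i8, i9]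

theorem step_L (h : IsQM U lam u K) {r : ℝ} (hr : 0 < r) (hB : closedBall x₀ r ⊆ U)
    (hK : len (K ∩ ball x₀ r) ≤ ENNReal.ofReal (1 / 100 * r)) :
    len (K ∩ closedBall x₀ (r / 2)) ≤ ENNReal.ofReal (12 * Dr u K x₀ r + lam * r ^ 2) := by
  obtain ⟨N, hNm, hNv, hN⟩ := good_radii hK
  have hlam0 := h.lam_nonneg
  set T : Set ℝ := Ioo (r / 2) r \ N with hT
  have hTm : MeasurableSet T := measurableSet_Ioo.diff hNm
  have hTsub : T ⊆ Ioo (r / 2) r := sdiff_subset
  have hTfin : volume T < ⊤ := (measure_mono hTsub).trans_lt (by simp)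
  have hTv : r / 4 ≤ (volume T).toReal := by
    have h1 : volume (Ioo (r / 2) r) ≤ volume T + volume N := by
      refine (measure_mono (t := T ∪ N) ?_).trans (measure_union_le _ _)
      intro s hs
      by_cases hsN : s ∈ N
      · exact Or.inr hsN
      · exact Or.inl ⟨hs, hsN⟩
    rw [Real.volume_Ioo] at h1
    have h2 : ENNReal.ofReal (r - r / 2) ≤ ENNReal.ofReal ((volume T).toReal + 1 / 100 * r) := by
      rw [ENNReal.ofReal_add ENNReal.toReal_nonneg (by positivity),
        ENNReal.ofReal_toReal hTfin.ne]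
      exact h1.trans (add_le_add le_rfl hNv)
    have h3 := (ENNReal.ofReal_le_ofReal_iff (by positivity)).1 h2
    linarith
  have hTpos : 0 < volume T := by
    rw [pos_iff_ne_zero]
    intro h0
    rw [h0] at hTv
    simp only [ENNReal.toReal_zero] at hTv
    linarith
  obtain ⟨t, htT, -, ht⟩ := exists_radius_le x₀ hr.le (f := fun y => ‖∇ u y‖ ^ 2)
    (fun y => by positivity) (qm_int_sq h hB) hTm.nullMeasurableSet
    (hTsub.trans (Ioo_subset_Ioo_left (by linarith))) hTpos (P := fun _ => True)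
    (Eventually.of_forall fun _ => trivial)
  rw [← qm_Dr_eq h hB] at ht
  have ht0 : 0 < t := by linarith [(hTsub htT).1]
  have htr : t < r := (hTsub htT).2
  have hc0 : 0 ≤ cirE u x₀ t := cirE_nonneg ht0.le
  have h5 : t * circI (fun y => ‖∇ u y‖ ^ 2) x₀ t = cirE u x₀ t := rfl
  rw [h5] at ht
  have h6 : cirE u x₀ t * (r / 4) ≤ Dr u K x₀ r :=
    (mul_le_mul_of_nonneg_left hTv hc0).trans ht
  have h7 := enE_empty h ht0 ((closedBall_subset_closedBall htr.le).trans hB) (hN t htT)
  have h8 : len (K ∩ closedBall x₀ (r / 2)) ≤ len (K ∩ closedBall x₀ t) :=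
    measure_mono (inter_subset_inter_right _ (closedBall_subset_closedBall (hTsub htT).1.le))
  refine h8.trans ((le_add_left le_rfl).trans (h7.trans (ENNReal.ofReal_le_ofReal ?_)))
  have h9 : t * cirE u x₀ t ≤ 4 * Dr u K x₀ r := by nlinarith
  have h10 : lam * t ^ 2 ≤ lam * r ^ 2 :=
    mul_le_mul_of_nonneg_left (pow_le_pow_left₀ ht0.le htr.le 2) hlam0
  linarith

end
end Crest.Agent.R135.Gl
end

-- ▼ part R135/DLB6
section

/-!
# R135 (DLB): density lower bound
-/

set_option autoImplicit false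
open MeasureTheory Set Metric Filter Topology
open scoped Real ContDiff ENNReal NNReal RealInnerProductSpace Gradient

namespace Crest.Agent.R135.Gl

section
variable {U K : Set P} {lam : ℝ} {u : P → ℝ}

theorem iter_small (h : IsQM U lam u K) {y : P} {r : ℝ} (hr : 0 < r) (hB : closedBall y r ⊆ U)
    (hlam : lam * r ≤ 1 / 10 ^ 7) (hlam2 : lam * π * r ^ 2 ≤ 1 / 100)
    (hD : Dr u K y r ≤ 8 * r)
    (hL : len (K ∩ closedBall y r) ≤ ENNReal.ofReal (1 / 100 * (r / 2 ^ 100))) (k : ℕ) :
    len (K ∩ closedBall y (r / 2 ^ k)) ≤ ENNReal.ofReal (1 / 100 * (r / 2 ^ k)) ∧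
      Dr u K y (r / 2 ^ k) ≤ (8 * (87 / 100) ^ k + 1 / 50000) * (r / 2 ^ k) := by
  have hlam0 := h.lam_nonneg
  -- scales
  have hρ : ∀ k : ℕ, 0 < r / 2 ^ k := fun k => by positivity
  have hρr : ∀ k : ℕ, r / 2 ^ k ≤ r := fun k => div_le_self hr.le (one_le_pow₀ (by norm_num))
  have hhalf : ∀ k : ℕ, r / 2 ^ (k + 1) = (r / 2 ^ k) / 2 := fun k => by
    rw [pow_succ]; field_simp
  have hBk : ∀ k : ℕ, closedBall y (r / 2 ^ k) ⊆ U := fun k =>
    (closedBall_subset_closedBall (hρr k)).trans hB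
  have hmonoL : ∀ k : ℕ, k ≤ 100 →
      len (K ∩ closedBall y (r / 2 ^ k)) ≤ ENNReal.ofReal (1 / 100 * (r / 2 ^ k)) := by
    intro k hk
    refine (measure_mono (inter_subset_inter_right _ (closedBall_subset_closedBall (hρr k)))).trans
      (hL.trans (ENNReal.ofReal_le_ofReal ?_))
    have h1 : r / 2 ^ 100 ≤ r / 2 ^ k :=
      div_le_div_of_nonneg_left hr.le (by positivity) (pow_le_pow_right₀ (by norm_num) hk)
    linarith
  have hpos87 : ∀ k : ℕ, (0:ℝ) < (87 / 100) ^ k := fun k => by positivity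
  induction k with
  | zero =>
    refine ⟨hmonoL 0 (by norm_num), ?_⟩
    simp only [pow_zero, div_one, mul_one]
    linarith
  | succ k ih =>
    obtain ⟨ihL, ihD⟩ := ih
    set ρ := r / 2 ^ k with hρd
    have hρ0 : 0 < ρ := hρ k
    have hρle : ρ ≤ r := hρr k
    have hlr : lam * ρ ≤ 1 / 10 ^ 7 := (mul_le_mul_of_nonneg_left hρle hlam0).trans hlam
    have hcond : lam * π * ρ ^ 2 ≤ 1 / 100 := by
      refine le_trans ?_ hlam2
      exact mul_le_mul_of_nonneg_left (pow_le_pow_left₀ hρ0.le hρle 2)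
        (mul_nonneg hlam0 Real.pi_pos.le)
    have hKb : len (K ∩ ball y ρ) ≤ ENNReal.ofReal (1 / 100 * ρ) :=
      (measure_mono (inter_subset_inter_right _ ball_subset_closedBall)).trans ihL
    have sD := step_D h hρ0 (hBk k) hcond hKb
    have sL := step_L h hρ0 (hBk k) hKb
    rw [hhalf k, ← hρd]
    have h1 : 28 * lam * ρ ^ 2 ≤ 28 / 10 ^ 7 * ρ := by
      have := mul_le_mul_of_nonneg_right hlr hρ0.le
      nlinarith
    have hp := hpos87 k
    refine ⟨?_, ?_⟩
    · by_cases hk : k + 1 ≤ 100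
      · have := hmonoL (k + 1) hk
        rwa [hhalf k, ← hρd] at this
      · refine sL.trans (ENNReal.ofReal_le_ofReal ?_)
        have hk' : 100 ≤ k := by omega
        have h2 : ((87:ℝ) / 100) ^ k ≤ (87 / 100) ^ 100 :=
          pow_le_pow_of_le_one (by norm_num) (by norm_num) hk'
        have h3 : ((87:ℝ) / 100) ^ 100 ≤ 1 / 10 ^ 6 := by norm_num
        have h4 : lam * ρ ^ 2 ≤ 1 / 10 ^ 7 * ρ := by nlinarith
        have h5 : Dr u K y ρ ≤ (8 * (1 / 10 ^ 6) + 1 / 50000) * ρ :=
          ihD.trans (mul_le_mul_of_nonneg_right (by linarith) hρ0.le)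
        nlinarith
    · have e1 : Dr u K y (ρ / 2) ≤ (10 / 23) * (Dr u K y ρ + 28 * lam * ρ ^ 2) := by linarith
      have e2 : (10 / 23) * (Dr u K y ρ + 28 * lam * ρ ^ 2)
          ≤ (10 / 23) * ((8 * (87 / 100) ^ k + 1 / 50000) * ρ + 28 / 10 ^ 7 * ρ) := by linarith
      refine e1.trans (e2.trans ?_)
      have e4 : ((87:ℝ) / 100) ^ (k + 1) = (87 / 100) ^ k * (87 / 100) := pow_succ _ _
      rw [e4]
      have e3 : (10 / 23) * ((8 * (87 / 100) ^ k + 1 / 50000) * ρ + 28 / 10 ^ 7 * ρ)
          = (((160 / 23) * (87 / 100) ^ k) + (20 / 23) * (1 / 50000 + 28 / 10 ^ 7)) * (ρ / 2) := by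
        ring
      rw [e3]
      refine mul_le_mul_of_nonneg_right ?_ (by positivity)
      nlinarith

/-- the crack cannot have small length in a ball centred on it (small scales) -/
theorem density_aux (h : IsQM U lam u K) {x : P} (hx : x ∈ K) {r : ℝ} (hr : 0 < r)
    (hB : closedBall x r ⊆ U) (hlam : lam * r ≤ 1 / 10 ^ 7) (hlam2 : lam * π * r ^ 2 ≤ 1 / 100) :
    ENNReal.ofReal (1 / 200 / 2 ^ 100 * r) ≤ len (K ∩ closedBall x r) := by
  by_contra hcon
  rw [not_le] at hcon
  have hlam0 := h.lam_nonneg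
  have hpi := Real.pi_pos
  have hsmall : ∀ y ∈ K ∩ ball x (r / 2), ∀ k : ℕ,
      len (K ∩ closedBall y (r / 2 / 2 ^ k)) ≤ ENNReal.ofReal (1 / 100 * (r / 2 / 2 ^ k)) := by
    intro y hy k
    have hsub : closedBall y (r / 2) ⊆ closedBall x r := by
      refine closedBall_subset_closedBall' ?_
      have := mem_ball.1 hy.2
      linarith
    have hBy : closedBall y (r / 2) ⊆ U := hsub.trans hB
    refine (iter_small h (by positivity) hBy ?_ ?_ ?_ ?_ k).1
    · nlinarith
    · have : (r / 2) ^ 2 ≤ r ^ 2 := by nlinarith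
      exact (mul_le_mul_of_nonneg_left this (by positivity)).trans hlam2
    · have h1 := h.energy_le (show 0 < r / 2 by positivity) hBy
      have h2 : Dr u K y (r / 2) ≤ 2 * π * (r / 2) + lam * (r / 2) ^ 2 := by
        unfold Dr
        refine ENNReal.toReal_le_of_le_ofReal (by positivity) (le_trans ?_ h1)
        refine le_trans ?_ (le_add_right le_rfl)
        exact lintegral_mono_set (sdiff_subset_sdiff_left ball_subset_closedBall)
      have hp1 : π < 3.15 := Real.pi_lt_d2
      nlinarith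
    · refine (measure_mono (inter_subset_inter_right _ hsub)).trans (hcon.le.trans ?_)
      refine ENNReal.ofReal_le_ofReal (le_of_eq ?_)
      ring
  have hzero : len (K ∩ ball x (r / 2)) = 0 := by
    unfold len
    refine hausdorff_zero_of_small_density K (K ∩ ball x (r / 2)) inter_subset_left ?_
      (1 / 50 : ℝ≥0) (by norm_num) ?_
    · exact ((measure_mono (inter_subset_inter_right _ ((ball_subset_closedBall).trans
        (closedBall_subset_closedBall (by linarith))))).trans_lt (h.len_fin x r hB)).ne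
    · intro y hy
      refine ⟨r / 2, by positivity, fun t ht htr => ?_⟩
      obtain ⟨k, hk1, hk2⟩ := exists_nat_pow_near (x := r / 2 / t) (y := 2)
        ((one_le_div ht).2 htr) (by norm_num)
      have h2k : (0:ℝ) < 2 ^ k := by positivity
      have e1 : t ≤ r / 2 / 2 ^ k := by
        rw [le_div_iff₀ h2k]
        rw [le_div_iff₀ ht] at hk1
        linarith
      have e2 : r / 2 / 2 ^ k ≤ 2 * t := by
        rw [div_le_iff₀ h2k]
        rw [div_lt_iff₀ ht, pow_succ] at hk2
        linarith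
      refine (measure_mono (inter_subset_inter_right _
        (closedBall_subset_closedBall e1))).trans ((hsmall y hy k).trans ?_)
      have e3 : ((1 / 50 : ℝ≥0) : ℝ≥0∞) = ENNReal.ofReal (1 / 50) := by
        rw [ENNReal.ofReal]
        congr 1
        rw [Real.toNNReal_div (by norm_num)]
        simp
      rw [e3, ← ENNReal.ofReal_mul (by norm_num)]
      refine ENNReal.ofReal_le_ofReal ?_
      linarith
  exact absurd hzero (h.red x hx (r / 2) (by positivity)).ne'

/-- **Density lower bound**, universal constant. -/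
theorem density_lower_gen : ∃ c₀ : ℝ, 0 < c₀ ∧ ∀ {U : Set P} {lam : ℝ} {u : P → ℝ} {K : Set P},
    IsQM U lam u K → ∀ x ∈ K, ∀ r : ℝ, 0 < r → closedBall x r ⊆ U → lam * r ≤ 1 →
      lam * (r * √r) ≤ 1 → ENNReal.ofReal (c₀ * r) ≤ len (K ∩ closedBall x r) := by
  refine ⟨1 / 200 / 2 ^ 100 * (1 / 10 ^ 7), by positivity, ?_⟩
  intro U lam u K h x hx r hr hB h1 h2
  have h' : IsQM (rescK U x r) 1 (rescF u x r) (rescK K x r) :=
    h.resc' x hr (lam' := 1) (by linarith) (by linarith)
  have hball : closedBall (0 : P) 1 ⊆ rescK U x r := by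
    intro y hy
    rw [mem_rescK]
    apply hB
    rw [mem_closedBall, dist_eq_norm, add_sub_cancel_left, norm_smul, Real.norm_eq_abs,
      abs_of_pos hr]
    rw [mem_closedBall, dist_zero_right] at hy
    nlinarith
  have hsub : closedBall (0 : P) (1 / 10 ^ 7) ⊆ closedBall (0 : P) 1 :=
    closedBall_subset_closedBall (by norm_num)
  have h0 : (0 : P) ∈ rescK K x r := by
    rw [mem_rescK, smul_zero, add_zero]; exact hx
  have hp1 : π < 3.15 := Real.pi_lt_d2
  have key := density_aux h' h0 (r := 1 / 10 ^ 7) (by positivity) (hsub.trans hball)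
    (by norm_num) (by nlinarith)
  have e1 : len (rescK K x r ∩ closedBall 0 1) = ENNReal.ofReal r⁻¹ * len (K ∩ closedBall x r) := by
    have e2 : closedBall (0 : P) 1 = rescK (closedBall x r) x r := by
      ext y
      rw [mem_rescK, mem_closedBall, mem_closedBall, dist_zero_right, dist_eq_norm,
        add_sub_cancel_left, norm_smul, Real.norm_eq_abs, abs_of_pos hr]
      constructor
      · intro hy; nlinarith
      · intro hy; exact le_of_mul_le_mul_left (by linarith) hr
    rw [e2, ← rescK_inter, len_rescK _ x hr]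
  have key2 : ENNReal.ofReal (1 / 200 / 2 ^ 100 * (1 / 10 ^ 7))
      ≤ ENNReal.ofReal r⁻¹ * len (K ∩ closedBall x r) := by
    rw [← e1]
    exact key.trans (measure_mono (inter_subset_inter_right _ hsub))
  have e3 : ENNReal.ofReal r * (ENNReal.ofReal r⁻¹ * len (K ∩ closedBall x r))
      = len (K ∩ closedBall x r) := by
    rw [← mul_assoc, ← ENNReal.ofReal_mul hr.le, mul_inv_cancel₀ hr.ne', ENNReal.ofReal_one,
      one_mul]
  rw [mul_comm (1 / 200 / 2 ^ 100 * (1 / 10 ^ 7)) r, ENNReal.ofReal_mul hr.le]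
  calc _ ≤ ENNReal.ofReal r * (ENNReal.ofReal r⁻¹ * len (K ∩ closedBall x r)) := by gcongr
    _ = _ := e3

/-- density lower bound, radii at most `1` -/
theorem density_lower_le_one : ∃ c₀ : ℝ, 0 < c₀ ∧ ∀ {U : Set P} {lam : ℝ} {u : P → ℝ} {K : Set P},
    IsQM U lam u K → ∀ x ∈ K, ∀ r : ℝ, 0 < r → r ≤ 1 → closedBall x r ⊆ U → lam * r ≤ 1 →
      ENNReal.ofReal (c₀ * r) ≤ len (K ∩ closedBall x r) := by
  obtain ⟨c₀, hc, H⟩ := density_lower_gen
  refine ⟨c₀, hc, ?_⟩
  intro U lam u K h x hx r hr hr1 hB h1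
  refine H h x hx r hr hB h1 ?_
  have h2 : √r ≤ 1 := Real.sqrt_le_one.2 hr1
  have h3 : r * √r ≤ r := mul_le_of_le_one_right hr.le h2
  exact (mul_le_mul_of_nonneg_left h3 h.lam_nonneg).trans h1


end
end Crest.Agent.R135.Gl
end

-- ▼ part R135/DLS

/-!
R135 (helper709, helper961): the density lower bound at scales `r ≤ 1` (wrapper, so that users do not
depend on the exact form of the smallness hypothesis in `density_lower`).
-/

set_option autoImplicit false

open MeasureTheory Set Filter Topology Metric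
open scoped ENNReal NNReal

namespace Crest.Agent.R135

theorem density_lower_small : ∃ c₀ : ℝ, 0 < c₀ ∧ ∀ {U : Set E2} {lam : ℝ} {u : E2 → ℝ} {K : Set E2},
    IsQM U lam u K → ∀ x ∈ K, ∀ r : ℝ, 0 < r → r ≤ 1 → closedBall x r ⊆ U → lam * r ≤ 1 →
      ENNReal.ofReal (c₀ * r) ≤ len (K ∩ closedBall x r) :=
  Gl.density_lower_le_one

end Crest.Agent.R135
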