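import Crest.Agent.R135.FV1
import Crest.Agent.R135.PolarB
import Crest.Agent.R135.Wirt
import Crest.Agent.R135.PolarE
import Crest.Agent.R135.Core

-- ▼ part R135/FV2
section

/-!
# R135 (FV): radial test functions; flux and energy identities on almost every circle
-/

set_option autoImplicit false
open MeasureTheory Set Metric Filter Topology
open Crest.AnalysisR.PDE.OnePhase Crest.AnalysisR.PDE.MumfordShah
open scoped Real ContDiff ENNReal RealInnerProductSpace Gradient

namespace Crest.Agent.R135.Gl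

theorem radial_contDiff {χ : ℝ → ℝ} (hχ : ContDiff ℝ ∞ χ) {a c : ℝ} (ha : 0 < a)
    (hc : ∀ t < a, χ t = c) (x₀ : P) : ContDiff ℝ ∞ (fun x : P => χ ‖x - x₀‖) := by
  refine contDiff_iff_contDiffAt.2 fun x => ?_
  by_cases h : x = x₀
  · have : (fun x : P => χ ‖x - x₀‖) =ᶠ[𝓝 x] fun _ => c := by
      filter_upwards [ball_mem_nhds x ha] with y hy
      apply hc
      rw [h, mem_ball, dist_eq_norm] at hy
      exact hy
    exact contDiffAt_const.congr_of_eventuallyEq this
  · have h1 : ContDiffAt ℝ ∞ (fun x : P => ‖x - x₀‖) x :=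
      ContDiffAt.norm ℝ (contDiffAt_id.sub contDiffAt_const) (sub_ne_zero.2 h)
    exact hχ.contDiffAt.comp x h1

theorem hasFDerivAt_norm_sub {x x₀ : P} (h : x ≠ x₀) :
    HasFDerivAt (fun y : P => ‖y - x₀‖) (‖x - x₀‖⁻¹ • innerSL ℝ (x - x₀)) x := by
  have h0 : ‖x - x₀‖ ≠ 0 := norm_ne_zero_iff.2 (sub_ne_zero.2 h)
  have h1 : HasFDerivAt (fun y : P => ‖y - x₀‖ ^ 2) (2 • innerSL ℝ (x - x₀)) x := by
    have := (hasStrictFDerivAt_norm_sq (x - x₀)).hasFDerivAt.comp x
      ((hasFDerivAt_id x).sub_const x₀)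
    exact this
  have h2 := h1.sqrt (by positivity)
  have e : (fun y : P => √(‖y - x₀‖ ^ 2)) = fun y : P => ‖y - x₀‖ := by
    ext y; exact Real.sqrt_sq (norm_nonneg _)
  rw [e] at h2
  refine h2.congr_fderiv ?_
  rw [Real.sqrt_sq (norm_nonneg _)]
  ext v
  simp
  field_simp

theorem grad_radial {χ : ℝ → ℝ} (hχ : Differentiable ℝ χ) {x x₀ : P} (h : x ≠ x₀) :
    ∇ (fun y : P => χ ‖y - x₀‖) x = deriv χ ‖x - x₀‖ • (‖x - x₀‖⁻¹ • (x - x₀)) := by
  have h1 := (hχ ‖x - x₀‖).hasDerivAt.comp_hasFDerivAt x (hasFDerivAt_norm_sub h)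
  unfold gradient
  have h2 : fderiv ℝ (fun y : P => χ ‖y - x₀‖) x
      = deriv χ ‖x - x₀‖ • (‖x - x₀‖⁻¹ • innerSL ℝ (x - x₀)) := h1.fderiv
  rw [h2, map_smul, map_smul]
  congr 2
  rw [LinearIsometryEquiv.symm_apply_eq]
  rfl


/-- primitive with compactly supported derivative -/
theorem exists_radial_prim {R : ℝ} {k : ℝ → ℝ} (hk : ContDiff ℝ ∞ k)
    (hs : tsupport k ⊆ Ioo 0 R) (hc : HasCompactSupport k) :
    ∃ (χ : ℝ → ℝ) (a b c : ℝ), 0 < a ∧ b < R ∧ ContDiff ℝ ∞ χ ∧ (∀ t, HasDerivAt χ (- k t) t) ∧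
      (∀ t < a, χ t = c) ∧ (∀ t, b ≤ t → χ t = 0) ∧ (∀ t, b ≤ t → k t = 0) ∧
      (∀ t ≤ a, k t = 0) := by
  obtain ⟨δ, hδ, hδs⟩ := hc.isCompact.exists_cthickening_subset_open isOpen_Ioo hs
  have hmem : ∀ t, t ∈ tsupport k → δ < t ∧ t < R - δ := by
    intro t ht
    have h1 : t - δ ∈ cthickening δ (tsupport k) :=
      mem_cthickening_of_dist_le _ t _ _ ht (by simp [abs_of_pos hδ])
    have h2 : t + δ ∈ cthickening δ (tsupport k) :=
      mem_cthickening_of_dist_le _ t _ _ ht (by simp [abs_of_pos hδ])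
    have h3 := hδs h1
    have h4 := hδs h2
    exact ⟨by linarith [h3.1], by linarith [h4.2]⟩
  have hk0 : ∀ t, t ≤ δ → k t = 0 := fun t ht =>
    image_eq_zero_of_notMem_tsupport fun h => by linarith [(hmem t h).1]
  have hk1 : ∀ t, R - δ ≤ t → k t = 0 := fun t ht =>
    image_eq_zero_of_notMem_tsupport fun h => by linarith [(hmem t h).2]
  have hd : ∀ t, HasDerivAt (fun t => - ∫ s in R..t, k s) (- k t) t := fun t =>
    (intervalIntegral.integral_hasDerivAt_right (hk.continuous.intervalIntegrable _ _)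
      hk.continuous.stronglyMeasurable.stronglyMeasurableAtFilter
      hk.continuous.continuousAt).neg
  refine ⟨fun t => - ∫ s in R..t, k s, δ, R - δ, - ∫ s in R..0, k s, hδ, by linarith, ?_, hd,
    ?_, ?_, hk1, hk0⟩
  · rw [contDiff_infty_iff_deriv]
    refine ⟨fun t => (hd t).differentiableAt, ?_⟩
    have : deriv (fun t => - ∫ s in R..t, k s) = fun t => - k t := by
      ext t; exact (hd t).deriv
    rw [this]
    exact hk.neg
  · intro t ht
    simp only
    have h1 : ∫ s in (0:ℝ)..t, k s = 0 := by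
      rw [intervalIntegral.integral_congr (g := fun _ => (0 : ℝ)) (fun s hs => ?_),
        intervalIntegral.integral_zero]
      apply hk0
      rcases le_total 0 t with h | h
      · rw [uIcc_of_le h] at hs; linarith [hs.2]
      · rw [uIcc_of_ge h] at hs; linarith [hs.2]
    rw [← intervalIntegral.integral_add_adjacent_intervals
      (hk.continuous.intervalIntegrable R 0) (hk.continuous.intervalIntegrable 0 t), h1, add_zero]
  · intro t ht
    simp only
    have h1 : ∫ s in R..t, k s = 0 := by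
      rw [intervalIntegral.integral_congr (g := fun _ => (0 : ℝ)) (fun s hs => ?_),
        intervalIntegral.integral_zero]
      apply hk1
      rcases le_total R t with h | h
      · rw [uIcc_of_le h] at hs; linarith [hs.1]
      · rw [uIcc_of_ge h] at hs; linarith [hs.1]
    rw [h1, neg_zero]

/-- the outer unit normal of circles about `x₀` -/
noncomputable def nrm (x₀ y : P) : P := ‖y - x₀‖⁻¹ • (y - x₀)

theorem norm_nrm_le (x₀ y : P) : ‖nrm x₀ y‖ ≤ 1 := by
  unfold nrm
  rw [norm_smul, norm_inv, norm_norm]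
  rcases eq_or_ne ‖y - x₀‖ 0 with h | h
  · rw [h]; simp
  · rw [inv_mul_cancel₀ h]

theorem cpt_sub (x₀ : P) (t θ : ℝ) : cpt x₀ t θ - x₀ = t • dir θ := by
  unfold cpt; exact add_sub_cancel_left _ _

theorem norm_cpt_sub (x₀ : P) {t : ℝ} (ht : 0 ≤ t) (θ : ℝ) : ‖cpt x₀ t θ - x₀‖ = t := by
  rw [cpt_sub, norm_smul, norm_dir, mul_one, Real.norm_eq_abs, abs_of_nonneg ht]

theorem nrm_cpt (x₀ : P) {t : ℝ} (ht : 0 < t) (θ : ℝ) : nrm x₀ (cpt x₀ t θ) = dir θ := by
  unfold nrm
  rw [norm_cpt_sub x₀ ht.le, cpt_sub, smul_smul, inv_mul_cancel₀ ht.ne', one_smul]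

theorem measurable_nrm (x₀ : P) : Measurable (nrm x₀) := by
  unfold nrm
  exact ((measurable_id.sub_const x₀).norm.inv).smul (measurable_id.sub_const x₀)

end Crest.Agent.R135.Gl
end

-- ▼ part R135/FV3
section

/-!
# R135 (FV): the radial identity on almost every circle
-/

set_option autoImplicit false
open MeasureTheory Set Metric Filter Topology
open Crest.AnalysisR.PDE.OnePhase Crest.AnalysisR.PDE.MumfordShah
open scoped Real ContDiff ENNReal RealInnerProductSpace Gradient

namespace Crest.Agent.R135.Gl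

theorem restrict_sdiff_null {s K : Set P} (hK : volume K = 0) :
    (volume : Measure P).restrict (s \ K) = volume.restrict s :=
  Measure.restrict_congr_set (sdiff_null_ae_eq_self hK)

theorem isPrim_ball (x₀ : P) {R : ℝ} (hR : 0 ≤ R) {f : P → ℝ}
    (hf : IntegrableOn f (ball x₀ R)) :
    IsPrim 0 R (fun t => ∫ y in ball x₀ t, f y) (fun t => t * circI f x₀ t) := by
  refine ⟨intervalIntegrable_radial x₀ hR hf, fun x hx => ?_⟩
  simp only [ball_zero, Measure.restrict_empty, integral_zero_measure, zero_add]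
  exact integral_ball_polar x₀ hx.1 (hf.mono_set (ball_subset_ball hx.2))

theorem memLp_smul_bdd {F : Type*} [NormedAddCommGroup F] [NormedSpace ℝ F] {η : P → ℝ}
    {H : P → F} {s : Set P} (hs : MeasurableSet s) (hη : Continuous η) {C : ℝ}
    (hC : ∀ x ∈ s, ‖η x‖ ≤ C) (hH : MemLp H 2 (volume.restrict s)) :
    MemLp (fun y => η y • H y) 2 (volume.restrict s) := by
  refine hH.of_le_mul (c := C) (hη.aestronglyMeasurable.smul hH.1) ?_
  rw [ae_restrict_iff' hs]
  filter_upwards with y hy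
  rw [norm_smul]
  exact mul_le_mul_of_nonneg_right (hC y hy) (norm_nonneg _)

theorem memLp_smul_bdd' {F : Type*} [NormedAddCommGroup F] [NormedSpace ℝ F] {w : P → ℝ}
    {Z : P → F} {s : Set P} (hs : MeasurableSet s) (hZ : Continuous Z) {C : ℝ}
    (hC : ∀ x ∈ s, ‖Z x‖ ≤ C) (hw : MemLp w 2 (volume.restrict s)) :
    MemLp (fun y => w y • Z y) 2 (volume.restrict s) := by
  refine hw.of_le_mul (c := C) (hw.1.smul hZ.aestronglyMeasurable) ?_
  rw [ae_restrict_iff' hs]
  filter_upwards with y hy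
  rw [norm_smul, mul_comm]
  exact mul_le_mul_of_nonneg_right (hC y hy) (norm_nonneg _)

/-- **Radial identity, abstract form.** If `∫_{B_R} χ(|y-x₀|) h - k(|y-x₀|) q = 0` for all smooth
radial `χ` vanishing near `∂B_R`, constant near the centre, `χ' = -k`, then for a.e. `t`:
`t ∫_θ q = ∫_{B_t} h`. -/
theorem radial_core {x₀ : P} {R : ℝ} (hR : 0 < R) {h q : P → ℝ}
    (hh_int : IntegrableOn h (ball x₀ R)) (hq_int : IntegrableOn q (ball x₀ R))
    (hkey : ∀ (χ k : ℝ → ℝ) (a b c : ℝ), 0 < a → 0 < b → b < R → ContDiff ℝ ∞ χ →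
      ContDiff ℝ ∞ k →
      (∀ t, HasDerivAt χ (- k t) t) → (∀ t < a, χ t = c) → (∀ t, b ≤ t → χ t = 0) →
      (∀ t, b ≤ t → k t = 0) → (∀ t ≤ a, k t = 0) →
      ∫ y in ball x₀ R, (χ ‖y - x₀‖ * h y - k ‖y - x₀‖ * q y) = 0) :
    ∀ᵐ t ∂(volume.restrict (Ioo (0:ℝ) R)), t * circI q x₀ t = ∫ y in ball x₀ t, h y := by
  have hA := intervalIntegrable_radial x₀ hR.le hq_int
  have hD := isPrim_ball x₀ hR.le hh_int
  have hDc := continuousOn_ball_integral x₀ hR.le hh_int
  have hA' : IntegrableOn (fun t => t * circI q x₀ t) (Ioo 0 R) := by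
    rw [intervalIntegrable_iff_integrableOn_Ioo_of_le hR.le] at hA
    exact hA
  have hD' : IntegrableOn (fun t => ∫ y in ball x₀ t, h y) (Ioo 0 R) :=
    (hDc.integrableOn_compact isCompact_Icc).mono_set Ioo_subset_Icc_self
  have main : ∀ k : ℝ → ℝ, ContDiff ℝ ∞ k → HasCompactSupport k → tsupport k ⊆ Ioo 0 R →
      ∫ t, k t • ((∫ y in ball x₀ t, h y) - t * circI q x₀ t) = 0 := by
    intro k hk hc hs
    obtain ⟨χ, a, b, c, ha, hb, hχ, hdχ, hχa, hχb, hkb, hka⟩ := exists_radial_prim hk hs hc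
    have hb' : max b (R / 2) < R := max_lt hb (by linarith)
    have key := hkey χ k a (max b (R / 2)) c ha (lt_max_of_lt_right (by linarith)) hb' hχ hk hdχ hχa
      (fun t ht => hχb t ((le_max_left _ _).trans ht))
      (fun t ht => hkb t ((le_max_left _ _).trans ht)) hka
    obtain ⟨C₁, hC₁⟩ := (isCompact_closedBall x₀ R).exists_bound_of_continuousOn
      (radial_contDiff hχ ha hχa x₀).continuous.continuousOn
    have i1 : IntegrableOn (fun y => χ ‖y - x₀‖ * h y) (ball x₀ R) := by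
      refine hh_int.bdd_mul (c := C₁)
        (radial_contDiff hχ ha hχa x₀).continuous.aestronglyMeasurable ?_
      rw [ae_restrict_iff' measurableSet_ball]
      exact Eventually.of_forall fun y hy => hC₁ y (ball_subset_closedBall hy)
    have i2 : IntegrableOn (fun y => k ‖y - x₀‖ * q y) (ball x₀ R) := by
      obtain ⟨C₃, hC₃⟩ := hk.continuous.bounded_above_of_compact_support hc
      exact hq_int.bdd_mul (c := C₃)
        (hk.continuous.comp (continuous_id.sub continuous_const).norm).aestronglyMeasurable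
        (Eventually.of_forall fun y => hC₃ _)
    rw [integral_sub i1 i2, integral_ball_polar x₀ hR.le i1, integral_ball_polar x₀ hR.le i2] at key
    have c1 : ∀ t, 0 ≤ t → circI (fun y => χ ‖y - x₀‖ * h y) x₀ t = χ t * circI h x₀ t := by
      intro t ht
      unfold circI
      simp only [norm_cpt_sub x₀ ht, intervalIntegral.integral_const_mul]
    have c2 : ∀ t, 0 ≤ t → circI (fun y => k ‖y - x₀‖ * q y) x₀ t = k t * circI q x₀ t := by
      intro t ht
      unfold circI
      simp only [norm_cpt_sub x₀ ht, intervalIntegral.integral_const_mul]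
    have c3 : ∫ t in (0:ℝ)..R, t • circI (fun y => χ ‖y - x₀‖ * h y) x₀ t
        = ∫ t in (0:ℝ)..R, χ t * (t * circI h x₀ t) := by
      refine intervalIntegral.integral_congr fun t ht => ?_
      rw [uIcc_of_le hR.le] at ht
      simp only [c1 t ht.1, smul_eq_mul]
      ring
    have c4 : ∫ t in (0:ℝ)..R, t • circI (fun y => k ‖y - x₀‖ * q y) x₀ t
        = ∫ t in (0:ℝ)..R, k t * (t * circI q x₀ t) := by
      refine intervalIntegral.integral_congr fun t ht => ?_
      rw [uIcc_of_le hR.le] at ht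
      simp only [c2 t ht.1, smul_eq_mul]
      ring
    have hP : IsPrim 0 R χ (fun t => - k t) := by
      refine ⟨(hk.continuous.neg).intervalIntegrable _ _, fun x hx => ?_⟩
      have := intervalIntegral.integral_eq_sub_of_hasDerivAt (f := χ) (f' := fun t => - k t)
        (a := 0) (b := x) (fun t _ => hdχ t) ((hk.continuous.neg).intervalIntegrable _ _)
      rw [this]; ring
    have hibp := IsPrim.ibp hR.le hD hP
    rw [c3, c4] at key
    have hχR : χ R = 0 := hχb R hb.le
    simp only [hχR, zero_mul, ball_zero, Measure.restrict_empty, integral_zero_measure, mul_zero,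
      sub_zero, zero_sub] at hibp
    have e1 : ∫ t, k t • ((∫ y in ball x₀ t, h y) - t * circI q x₀ t)
        = ∫ t in (0:ℝ)..R, (k t * (∫ y in ball x₀ t, h y) - k t * (t * circI q x₀ t)) := by
      rw [intervalIntegral.integral_of_le hR.le, integral_Ioc_eq_integral_Ioo]
      rw [← setIntegral_eq_integral_of_forall_compl_eq_zero (s := Ioo 0 R)]
      · refine integral_congr_ae (Eventually.of_forall fun t => ?_)
        simp only [smul_eq_mul]; ring
      · intro t ht
        rw [image_eq_zero_of_notMem_tsupport (fun h => ht (hs h)), zero_smul]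
    rw [e1, intervalIntegral.integral_sub]
    · have e2 : ∫ t in (0:ℝ)..R, -k t * (∫ y in ball x₀ t, h y)
          = - ∫ t in (0:ℝ)..R, k t * (∫ y in ball x₀ t, h y) := by
        rw [← intervalIntegral.integral_neg]
        refine intervalIntegral.integral_congr fun t _ => ?_
        ring
      linarith
    · have h5 : IntervalIntegrable (fun t => ∫ y in ball x₀ t, h y) volume 0 R :=
        hDc.intervalIntegrable_of_Icc hR.le
      exact h5.continuousOn_mul hk.continuous.continuousOn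
    · have := hA.continuousOn_mul (hk.continuous.continuousOn)
      exact this
  have hli : LocallyIntegrableOn (fun t => (∫ y in ball x₀ t, h y) - t * circI q x₀ t) (Ioo 0 R) :=
    (hD'.sub hA').locallyIntegrableOn
  have hz := isOpen_Ioo.ae_eq_zero_of_integral_contDiff_smul_eq_zero hli main
  rw [ae_restrict_iff' measurableSet_Ioo]
  filter_upwards [hz] with t ht htm
  have := ht htm
  linarith

/-- properties of the radial cut-off `x ↦ χ ‖x - x₀‖` -/
theorem radial_cutoff {x₀ : P} {χ k : ℝ → ℝ} {a b c : ℝ} (ha : 0 < a) (hχ : ContDiff ℝ ∞ χ)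
    (hdχ : ∀ t, HasDerivAt χ (- k t) t) (hχa : ∀ t < a, χ t = c) (hχb : ∀ t, b ≤ t → χ t = 0)
    (hkb : ∀ t, b ≤ t → k t = 0) :
    ContDiff ℝ ∞ (fun x : P => χ ‖x - x₀‖) ∧
    (∀ y : P, ∇ (fun x : P => χ ‖x - x₀‖) y = (- k ‖y - x₀‖) • nrm x₀ y) ∧
    (∀ y, y ∉ closedBall x₀ b → χ ‖y - x₀‖ = 0) ∧
    (∀ y, y ∉ closedBall x₀ b → ∇ (fun x : P => χ ‖x - x₀‖) y = 0) := by
  have hχd : deriv χ = fun t => - k t := by ext t; exact (hdχ t).deriv
  have hηs : ContDiff ℝ ∞ (fun x : P => χ ‖x - x₀‖) := radial_contDiff hχ ha hχa x₀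
  have hgη : ∀ y : P, ∇ (fun x : P => χ ‖x - x₀‖) y = (- k ‖y - x₀‖) • nrm x₀ y := by
    intro y
    by_cases hy : y = x₀
    · have h1 : (fun x : P => χ ‖x - x₀‖) =ᶠ[𝓝 y] fun _ => c := by
        filter_upwards [ball_mem_nhds y ha] with z hz
        apply hχa
        rw [hy, mem_ball, dist_eq_norm] at hz
        exact hz
      rw [gradient_congr_of_eventuallyEq h1]
      have h2 : nrm x₀ y = 0 := by unfold nrm; rw [hy, sub_self, smul_zero]
      rw [h2, smul_zero]
      unfold gradient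
      simp
    · rw [grad_radial (hχ.differentiable (by simp)) hy, hχd]
      rfl
  refine ⟨hηs, hgη, ?_, ?_⟩
  · intro y hy
    rw [mem_closedBall, dist_eq_norm, not_le] at hy
    exact hχb _ hy.le
  · intro y hy
    rw [mem_closedBall, dist_eq_norm, not_le] at hy
    rw [hgη, hkb _ hy.le, neg_zero, zero_smul]

theorem memLp_inner_nrm {x₀ : P} {R : ℝ} {G : P → P} (hG : MemLp G 2 (volume.restrict (ball x₀ R))) :
    MemLp (fun y => ⟪G y, nrm x₀ y⟫) 2 (volume.restrict (ball x₀ R)) := by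
  refine hG.mono (hG.1.inner (measurable_nrm x₀).aestronglyMeasurable) ?_
  refine Eventually.of_forall fun y => ?_
  refine (norm_inner_le_norm (𝕜 := ℝ) (G y) (nrm x₀ y)).trans ?_
  calc ‖G y‖ * ‖nrm x₀ y‖ ≤ ‖G y‖ * 1 :=
        mul_le_mul_of_nonneg_left (norm_nrm_le x₀ y) (norm_nonneg _)
    _ = ‖G y‖ := mul_one _


end Crest.Agent.R135.Gl
end

-- ▼ part R135/FV4

/-!
# R135 (FV): the radial identity in the class `IsQM`
-/

set_option autoImplicit false
open MeasureTheory Set Metric Filter Topology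
open scoped Real ContDiff ENNReal NNReal RealInnerProductSpace Gradient

namespace Crest.Agent.R135.Gl

/-! ### locally Lipschitz functions -/

theorem locLip_ae_diff {V : Set P} (hV : IsOpen V) {w : P → ℝ} (hw : LocallyLipschitzOn V w) :
    ∀ᵐ x, x ∈ V → DifferentiableAt ℝ w x := by
  have hnull : volume {x | x ∈ V ∧ ¬ DifferentiableAt ℝ w x} = 0 := by
    refine measure_null_of_locally_null _ ?_
    rintro x ⟨hx, -⟩
    obtain ⟨C, t, ht, hC⟩ := hw hx
    rw [hV.nhdsWithin_eq hx] at ht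
    obtain ⟨r, hr, hrt⟩ := Metric.mem_nhds_iff.1 ht
    obtain ⟨g, hg, hgw⟩ := (hC.mono hrt).extend_real
    refine ⟨ball x r ∩ {x | x ∈ V ∧ ¬ DifferentiableAt ℝ w x}, ?_, ?_⟩
    · rw [inter_comm]
      exact inter_mem_nhdsWithin _ (ball_mem_nhds x hr)
    · have h1 := hg.ae_differentiableAt (μ := (volume : Measure P))
      rw [ae_iff] at h1
      refine measure_mono_null ?_ h1
      rintro y ⟨hy, -, hyd⟩
      refine fun hd => hyd ?_
      refine hd.congr_of_eventuallyEq ?_
      filter_upwards [isOpen_ball.mem_nhds hy] with z hz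
      exact hgw hz
  rw [ae_iff]
  refine measure_mono_null ?_ hnull
  intro x hx
  simp only [mem_ofPred_eq, Classical.not_imp] at hx
  exact hx

theorem locLip_mul {V : Set P} {a b : P → ℝ} (ha : LocallyLipschitzOn V a)
    (hb : LocallyLipschitzOn V b) {A B : ℝ≥0} (hA : ∀ x ∈ V, |a x| ≤ A) (hB : ∀ x ∈ V, |b x| ≤ B) :
    LocallyLipschitzOn V (fun x => a x * b x) := by
  intro x hx
  obtain ⟨Ca, s, hs, hCa⟩ := ha hx
  obtain ⟨Cb, t, ht, hCb⟩ := hb hx
  refine ⟨A * Cb + B * Ca, s ∩ t ∩ V, inter_mem (inter_mem hs ht) self_mem_nhdsWithin, ?_⟩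
  refine LipschitzOnWith.of_dist_le_mul ?_
  rintro y ⟨⟨hys, hyt⟩, hyV⟩ z ⟨⟨hzs, hzt⟩, hzV⟩
  have h1 := hCa.dist_le_mul y hys z hzs
  have h2 := hCb.dist_le_mul y hyt z hzt
  rw [Real.dist_eq] at h1 h2 ⊢
  push_cast
  have e : a y * b y - a z * b z = a y * (b y - b z) + b z * (a y - a z) := by ring
  rw [e]
  calc |a y * (b y - b z) + b z * (a y - a z)|
      ≤ |a y * (b y - b z)| + |b z * (a y - a z)| := abs_add_le _ _
    _ = |a y| * |b y - b z| + |b z| * |a y - a z| := by rw [abs_mul, abs_mul]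
    _ ≤ A * (Cb * dist y z) + B * (Ca * dist y z) := by
        refine add_le_add (mul_le_mul (hA y hyV) h2 (abs_nonneg _) A.2)
          (mul_le_mul (hB z hzV) h1 (abs_nonneg _) B.2)
    _ = (A * Cb + B * Ca) * dist y z := by ring

theorem smooth_locLip {V : Set P} {η : P → ℝ} (hη : ContDiff ℝ ∞ η) : LocallyLipschitzOn V η := by
  have h : LocallyLipschitz η := (hη.of_le (by simp)).locallyLipschitz
  exact fun x _ => h.locallyLipschitzOn (by assumption)

theorem grad_mul {a b : P → ℝ} {x : P} (ha : DifferentiableAt ℝ a x) (hb : DifferentiableAt ℝ b x) :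
    ∇ (fun y => a y * b y) x = a x • ∇ b x + b x • ∇ a x := by
  unfold gradient
  rw [fderiv_fun_mul ha hb, map_add, map_smul, map_smul]

theorem grad_zero_of_eq_zero {w : P → ℝ} {O : Set P} (hO : IsOpen O) (h : ∀ y ∈ O, w y = 0)
    {x : P} (hx : x ∈ O) : ∇ w x = 0 := by
  have h1 : w =ᶠ[𝓝 x] fun _ => (0 : ℝ) := by
    filter_upwards [hO.mem_nhds hx] with y hy
    exact h y hy
  rw [gradient_congr_of_eventuallyEq h1]
  unfold gradient
  simp

/-! ### the identity -/

section
variable {U K : Set P} {lam : ℝ} {u : P → ℝ}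

theorem qm_vol (h : IsQM U lam u K) {x₀ : P} {R : ℝ} (hB : closedBall x₀ R ⊆ U) :
    volume (K ∩ closedBall x₀ R) = 0 :=
  volume_eq_zero_of_hausdorff_lt_top (h.len_fin x₀ R hB)

theorem ball_sdiff_ae {x₀ : P} {R : ℝ} (h0 : volume (K ∩ closedBall x₀ R) = 0) :
    (volume : Measure P).restrict (ball x₀ R \ K) = volume.restrict (ball x₀ R) := by
  have e : ball x₀ R \ K = ball x₀ R \ (K ∩ closedBall x₀ R) := by
    ext y
    constructor
    · rintro ⟨h1, h2⟩; exact ⟨h1, fun h3 => h2 h3.1⟩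
    · rintro ⟨h1, h2⟩; exact ⟨h1, fun h3 => h2 ⟨h3, ball_subset_closedBall h1⟩⟩
  rw [e]
  exact restrict_sdiff_null h0

theorem qm_isOpen (h : IsQM U lam u K) : IsOpen (U \ K) := isOpen_compl_of_relClosed h.isOpen h.closed

theorem qm_measK (h : IsQM U lam u K) : MeasurableSet K :=
  measurableSet_of_relClosed h.isOpen h.sub h.closed

/-- square integrability of a gradient with finite `dirE` -/
theorem memLp_grad {φ : P → ℝ} {x₀ : P} {R : ℝ} (h0 : volume (K ∩ closedBall x₀ R) = 0)
    (hd : dirE φ K (ball x₀ R) < ⊤) :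
    MemLp (fun y => ∇ φ y) 2 (volume.restrict (ball x₀ R)) := by
  refine memLp_two_of_lintegral (measurable_gradient φ).aestronglyMeasurable ?_
  unfold dirE at hd
  rw [ball_sdiff_ae h0] at hd
  exact hd

theorem qm_memLp_grad (h : IsQM U lam u K) {x₀ : P} {R : ℝ} (hB : closedBall x₀ R ⊆ U) :
    MemLp (fun y => ∇ u y) 2 (volume.restrict (ball x₀ R)) := by
  refine memLp_grad (K := K) (qm_vol h hB) ?_
  exact (lintegral_mono_set (sdiff_subset_sdiff_left ball_subset_closedBall)).trans_lt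
    (h.dir_fin x₀ R hB)

theorem memLp_bdd {x₀ : P} {R : ℝ} {φ : P → ℝ}
    (hm : AEStronglyMeasurable φ (volume.restrict (ball x₀ R))) {M : ℝ} (hM : ∀ y, |φ y| ≤ M) :
    MemLp φ 2 (volume.restrict (ball x₀ R)) := by
  have : IsFiniteMeasure (volume.restrict (ball x₀ R)) :=
    ⟨by rw [Measure.restrict_apply_univ]; exact measure_ball_lt_top⟩
  exact MemLp.of_bound hm M (Eventually.of_forall fun y => by rw [Real.norm_eq_abs]; exact hM y)

theorem aesm_locLip (h : IsQM U lam u K) {x₀ : P} {R : ℝ} (hB : closedBall x₀ R ⊆ U) {φ : P → ℝ}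
    (hφ : LocallyLipschitzOn (U \ K) φ) :
    AEStronglyMeasurable φ (volume.restrict (ball x₀ R)) := by
  rw [← ball_sdiff_ae (qm_vol h hB)]
  have h1 : AEStronglyMeasurable φ (volume.restrict (U \ K)) :=
    hφ.continuousOn.aestronglyMeasurable (qm_isOpen h).measurableSet
  exact h1.mono_measure (Measure.restrict_mono
    (sdiff_subset_sdiff_left (ball_subset_closedBall.trans hB)) le_rfl)

/-- **Radial identity in the class `IsQM`**, jumping test function `φ` -/
theorem qm_radial (h : IsQM U lam u K) {f : P → ℝ} (hfm : Measurable f) (hfb : ∀ x, |f x| ≤ lam)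
    (hel : ∀ φ : P → ℝ, IsTest U K φ →
      ∫ x in U \ K, ⟪∇ u x, ∇ φ x⟫ = - ∫ x in U, f x * φ x)
    {x₀ : P} {R : ℝ} (hR : 0 < R) (hB : closedBall x₀ R ⊆ U) {φ : P → ℝ}
    (hφ : LocallyLipschitzOn (U \ K) φ) {M : ℝ} (hM : ∀ y, |φ y| ≤ M)
    (hd : dirE φ K (ball x₀ R) < ⊤) :
    ∀ᵐ t ∂(volume.restrict (Ioo (0:ℝ) R)),
      t * circI (fun y => φ y * ⟪∇ u y, nrm x₀ y⟫) x₀ t
        = ∫ y in ball x₀ t, (⟪∇ u y, ∇ φ y⟫ + f y * φ y) := by
  have h0 := qm_vol h hB
  have hO := qm_isOpen h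
  have hG := qm_memLp_grad h hB
  have hH := memLp_grad (K := K) h0 hd
  have hφ2 := memLp_bdd (aesm_locLip h hB hφ) hM
  have hf2 : MemLp f 2 (volume.restrict (ball x₀ R)) := memLp_bdd hfm.aestronglyMeasurable hfb
  have hBU : ball x₀ R ⊆ U := ball_subset_closedBall.trans hB
  refine radial_core hR ((integrable_inner2 hG hH).add (hf2.integrable_mul hφ2))
    (hφ2.integrable_mul (memLp_inner_nrm hG)) ?_
  intro χ k a b c ha hb0 hb hχ hk hdχ hχa hχb hkb hka
  obtain ⟨hηs, hgη, hη0, hgη0⟩ := radial_cutoff (x₀ := x₀) ha hχ hdχ hχa hχb hkb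
  set η : P → ℝ := fun x => χ ‖x - x₀‖ with hη
  have hη0' : ∀ y, y ∉ closedBall x₀ b → η y = 0 := hη0
  have hcb : closedBall x₀ b ⊆ ball x₀ R := closedBall_subset_ball hb
  obtain ⟨C₁, hC₁⟩ := (isCompact_closedBall x₀ R).exists_bound_of_continuousOn
    hηs.continuous.continuousOn
  obtain ⟨C₂, hC₂⟩ := (isCompact_closedBall x₀ R).exists_bound_of_continuousOn
    (continuous_grad hηs).continuousOn
  have hηb : ∀ y, |η y| ≤ max C₁ 0 := by
    intro y
    by_cases hy : y ∈ closedBall x₀ b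
    · exact (hC₁ y (ball_subset_closedBall (hcb hy))).trans (le_max_left _ _)
    · rw [hη0' y hy, abs_zero]; exact le_max_right _ _
  have hM0 : 0 ≤ M := (abs_nonneg _).trans (hM 0)
  have hΨ : MemLp (fun y => η y • ∇ φ y + φ y • ∇ η y) 2 (volume.restrict (ball x₀ R)) :=
    (memLp_smul_bdd measurableSet_ball hηs.continuous
      (fun y hy => hC₁ y (ball_subset_closedBall hy)) hH).add
    (memLp_smul_bdd' measurableSet_ball (continuous_grad hηs)
      (fun y hy => hC₂ y (ball_subset_closedBall hy)) hφ2)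
  -- gradient of the product
  have hgr : ∀ᵐ y ∂(volume.restrict (ball x₀ R)),
      ∇ (fun y => η y * φ y) y = η y • ∇ φ y + φ y • ∇ η y := by
    rw [← ball_sdiff_ae h0, ae_restrict_iff' (measurableSet_ball.diff (qm_measK h))]
    filter_upwards [locLip_ae_diff hO hφ] with y hy hy2
    exact grad_mul (hηs.differentiable (by simp) y) (hy ⟨hBU hy2.1, hy2.2⟩)
  have hzero : ∀ y, y ∉ closedBall x₀ b → ∇ (fun y => η y * φ y) y = 0 := fun y hy =>
    grad_zero_of_eq_zero (O := (closedBall x₀ b)ᶜ) isClosed_closedBall.isOpen_compl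
      (fun z hz => by simp only [hη0' z hz, zero_mul]) hy
  have hsub : (U \ K) \ (ball x₀ R \ K) ⊆ (closedBall x₀ b)ᶜ := by
    rintro y ⟨⟨_, h2⟩, h3⟩ h4
    exact h3 ⟨hcb h4, h2⟩
  have htest : IsTest U K (fun y => η y * φ y) := by
    refine ⟨?_, ⟨max C₁ 0 * M, fun y => ?_⟩, ⟨closedBall x₀ b, isCompact_closedBall _ _,
      hcb.trans hBU, fun y hy => by simp only [hη0' y hy, zero_mul]⟩, ?_⟩
    · refine locLip_mul (smooth_locLip hηs) hφ (A := Real.toNNReal (max C₁ 0))
        (B := Real.toNNReal M) (fun y _ => ?_) (fun y _ => ?_)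
      · rw [Real.coe_toNNReal _ (le_max_right _ _)]; exact hηb y
      · rw [Real.coe_toNNReal _ hM0]; exact hM y
    · rw [abs_mul]
      exact mul_le_mul (hηb y) (hM y) (abs_nonneg _) (le_max_right _ _)
    · have e1 : dirE (fun y => η y * φ y) K U
          = ∫⁻ x in ball x₀ R, ‖∇ (fun y => η y * φ y) x‖ₑ ^ 2 := by
        unfold dirE
        rw [← ball_sdiff_ae h0, ← lintegral_indicator hO.measurableSet,
          ← lintegral_indicator (measurableSet_ball.diff (qm_measK h))]
        refine lintegral_congr fun y => ?_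
        by_cases hy : y ∈ ball x₀ R \ K
        · rw [indicator_of_mem hy, indicator_of_mem (sdiff_subset_sdiff_left hBU hy)]
        · rw [indicator_of_notMem hy]
          by_cases hy2 : y ∈ U \ K
          · rw [indicator_of_mem hy2]
            have e2 : ∇ (fun x => η x * φ x) y = 0 := hzero y (hsub ⟨hy2, hy⟩)
            rw [e2]
            simp
          · rw [indicator_of_notMem hy2]
      rw [e1, lintegral_congr_ae (hgr.mono fun y hy => by rw [hy]), lintegral_sq_eq hΨ]
      exact ENNReal.ofReal_lt_top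
  have key := hel _ htest
  have k1 : ∫ x in U \ K, ⟪∇ u x, ∇ (fun y => η y * φ y) x⟫
      = ∫ x in ball x₀ R, ⟪∇ u x, η x • ∇ φ x + φ x • ∇ η x⟫ := by
    rw [setIntegral_eq_of_subset_of_forall_sdiff_eq_zero (s := ball x₀ R \ K) hO.measurableSet
      (sdiff_subset_sdiff_left hBU), ball_sdiff_ae h0]
    · exact integral_congr_ae (hgr.mono fun y hy => by simp only [hy])
    · intro y hy
      rw [hzero y (hsub hy), inner_zero_right]
  have k2 : ∫ x in U, f x * (η x * φ x) = ∫ x in ball x₀ R, f x * (η x * φ x) := by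
    refine setIntegral_eq_of_subset_of_forall_sdiff_eq_zero h.isOpen.measurableSet hBU fun y hy => ?_
    have : y ∉ closedBall x₀ b := fun h => hy.2 (hcb h)
    simp only [hη0' y this, zero_mul, mul_zero]
  have hηw : MemLp (fun y => η y * φ y) 2 (volume.restrict (ball x₀ R)) :=
    memLp_smul_bdd measurableSet_ball hηs.continuous
      (fun y hy => hC₁ y (ball_subset_closedBall hy)) hφ2
  have k4 : Integrable (fun x => f x * (η x * φ x)) (volume.restrict (ball x₀ R)) :=
    hf2.integrable_mul hηw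
  rw [k1, k2] at key
  have key2 : (∫ x in ball x₀ R, ⟪∇ u x, η x • ∇ φ x + φ x • ∇ η x⟫)
      + ∫ x in ball x₀ R, f x * (η x * φ x) = 0 := by rw [key]; ring
  rw [← integral_add (integrable_inner2 hG hΨ) k4] at key2
  rw [← key2]
  refine integral_congr_ae (Eventually.of_forall fun y => ?_)
  simp only
  rw [inner_add_right, inner_smul_right, inner_smul_right, hgη, inner_smul_right]
  ring

end

end Crest.Agent.R135.Gl
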