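import Crest.Agent.R135.FV0
import Crest.Agent.R135.LocLip

/-!
# R135 (FV): weak gradient calculus, weak Neumann problem of an absolute minimizer

`IsNeumann Ω K G f`: for every "jumping" test function `ψ` (weak gradient `Ψ` on `Ω \ K`, both
square integrable, vanishing outside a compact subset of `Ω`):
`∫_{Ω \ K} ⟪G, Ψ⟫ + ∫_Ω f ψ = 0`.
-/

set_option autoImplicit false
open MeasureTheory Set Metric Filter Topology
open Crest.AnalysisR.PDE.OnePhase Crest.AnalysisR.PDE.MumfordShah
open scoped Real ContDiff ENNReal RealInnerProductSpace Gradient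

namespace Crest.Agent.R135.Gl

/-! ### calculus of weak gradients -/


theorem weakGrad_add {W : Set P} {u v : P → ℝ} {G H : P → P} (hu : IsWeakGradOn W u G)
    (hv : IsWeakGradOn W v H) : IsWeakGradOn W (fun x => u x + v x) (fun x => G x + H x) := by
  refine weakGrad_of_int (hu.1.add hv.1) (hu.2.1.add hv.2.1) ?_
  intro φ hφ hc hs i
  have a1 := int_mul_test hu.1 (partialD_smooth hφ i).continuous (partialD_hcs hc i)
    ((partialD_tsupport φ i).trans hs)
  have a2 := int_mul_test hv.1 (partialD_smooth hφ i).continuous (partialD_hcs hc i)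
    ((partialD_tsupport φ i).trans hs)
  have b1 := int_mul_test (locInt_coord hu.2.1 i) hφ.continuous hc hs
  have b2 := int_mul_test (locInt_coord hv.2.1 i) hφ.continuous hc hs
  have e1 : ∀ x, (u x + v x) * partialD φ i x = u x * partialD φ i x + v x * partialD φ i x :=
    fun x => by ring
  have e2 : ∀ x, (G x + H x) i * φ x = G x i * φ x + H x i * φ x := fun x => by
    simp only [PiLp.add_apply]; ring
  simp only [e1, e2]
  rw [integral_add a1 a2, integral_add b1 b2, weakGrad_int hu hφ hc hs i,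
    weakGrad_int hv hφ hc hs i]
  ring

theorem weakGrad_smul {W : Set P} {u : P → ℝ} {G : P → P} (c : ℝ) (hu : IsWeakGradOn W u G) :
    IsWeakGradOn W (fun x => c * u x) (fun x => c • G x) := by
  refine weakGrad_of_int (hu.1.smul c) (hu.2.1.smul c) ?_
  intro φ hφ hc hs i
  have e1 : ∀ x, (c * u x) * partialD φ i x = c * (u x * partialD φ i x) := fun x => by ring
  have e2 : ∀ x, (c • G x) i * φ x = c * (G x i * φ x) := fun x => by
    simp only [PiLp.smul_apply, smul_eq_mul]; ring
  simp only [e1, e2]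
  rw [integral_const_mul, integral_const_mul, weakGrad_int hu hφ hc hs i]
  ring


/-- smooth functions are locally Lipschitz, hence have their gradient as weak gradient -/
theorem weakGrad_smooth {W : Set P} (hW : IsOpen W) {η : P → ℝ} (hη : ContDiff ℝ ∞ η) :
    IsWeakGradOn W η (fun x => ∇ η x) := by
  refine isWeakGradOn_of_locallyLipschitzOn hW ?_
  have h : LocallyLipschitz η := (hη.of_le (by simp)).locallyLipschitz
  exact fun x _ => h.locallyLipschitzOn (by assumption)

theorem continuous_grad {η : P → ℝ} (hη : ContDiff ℝ ∞ η) : Continuous (fun x => ∇ η x) := by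
  unfold gradient
  exact (InnerProductSpace.toDual ℝ P).symm.continuous.comp (hη.continuous_fderiv (by simp))


/-! ### weak Neumann problem -/

/-- weak Neumann problem with jumping test functions -/
def IsNeumann (Ω K : Set P) (G : P → P) (f : P → ℝ) : Prop :=
  ∀ (ψ : P → ℝ) (Ψ : P → P) (C : Set P), IsCompact C → C ⊆ Ω → (∀ x, x ∉ C → ψ x = 0) →
    (∀ x, x ∉ C → Ψ x = 0) → IsWeakGradOn (Ω \ K) ψ Ψ → MemLp ψ 2 (volume.restrict Ω) →
    MemLp Ψ 2 (volume.restrict (Ω \ K)) →
    (∫ x in Ω \ K, ⟪G x, Ψ x⟫) + ∫ x in Ω, f x * ψ x = 0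

theorem isOpen_compl_of_relClosed {Ω K : Set P} (hΩ : IsOpen Ω)
    (hK : closure K ∩ Ω ⊆ K) : IsOpen (Ω \ K) := by
  have : Ω \ K = Ω \ closure K := by
    ext x
    constructor
    · rintro ⟨h1, h2⟩
      exact ⟨h1, fun h => h2 (hK ⟨h, h1⟩)⟩
    · rintro ⟨h1, h2⟩
      exact ⟨h1, fun h => h2 (subset_closure h)⟩
  rw [this]
  exact hΩ.sdiff isClosed_closure

theorem measurableSet_of_relClosed {Ω K : Set P} (hΩ : IsOpen Ω) (hKΩ : K ⊆ Ω)
    (hK : closure K ∩ Ω ⊆ K) : MeasurableSet K := by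
  have : K = closure K ∩ Ω := Subset.antisymm (fun x hx => ⟨subset_closure hx, hKΩ hx⟩) hK
  rw [this]
  exact isClosed_closure.measurableSet.inter hΩ.measurableSet

theorem neumann_of_min {Ω K : Set P} {g u : P → ℝ} {G : P → P} (hΩ : IsOpen Ω)
    (hmin : IsAbsoluteMinimizer Ω g u K G)
    (hg : ∀ C, IsCompact C → C ⊆ Ω → MemLp g 2 (volume.restrict C)) :
    IsNeumann Ω K G (fun x => u x - g x) := by
  obtain ⟨⟨hKΩ, hKc, hKf, hu2, hwg, hG2⟩, hmin⟩ := hmin
  intro ψ Ψ C hC hCΩ hψ0 hΨ0 hψΨ hψ2 hΨ2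
  obtain ⟨V, hVo, hCV, hVΩ, hVc⟩ := exists_open_between_and_isCompact_closure hC hΩ hCΩ
  have hKm := measurableSet_of_relClosed hΩ hKΩ hKc
  have hVΩ' : V ⊆ Ω := subset_closure.trans hVΩ
  have hGL : MemLp G 2 (volume.restrict (Ω \ K)) :=
    memLp_two_of_lintegral (hwg.2.1.aestronglyMeasurable) hG2
  have hsub : V \ K ⊆ Ω \ K := sdiff_subset_sdiff_left hVΩ'
  have hfV : MemLp (fun x => u x - g x) 2 (volume.restrict V) :=
    (hu2.mono_measure (Measure.restrict_mono hVΩ' le_rfl)).sub
      ((hg _ hVc hVΩ).mono_measure (Measure.restrict_mono subset_closure le_rfl))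
  have key := first_var (μ := volume.restrict (V \ K)) (ν := volume.restrict V)
    (G := G) (Ψ := Ψ) (f := fun x => u x - g x) (ψ := ψ)
    (hGL.mono_measure (Measure.restrict_mono hsub le_rfl))
    (hΨ2.mono_measure (Measure.restrict_mono hsub le_rfl))
    hfV (hψ2.mono_measure (Measure.restrict_mono hVΩ' le_rfl)) ?_
  · rw [setIntegral_eq_of_subset_of_forall_sdiff_eq_zero (s := V \ K) (t := Ω \ K)
      (hΩ.measurableSet.diff hKm) hsub, setIntegral_eq_of_subset_of_forall_sdiff_eq_zero
      (s := V) (t := Ω) hΩ.measurableSet hVΩ']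
    · exact key
    · intro x hx
      rw [hψ0 x (fun h => hx.2 (hCV h)), mul_zero]
    · intro x hx
      rw [hΨ0 x (fun h => hx.2 ⟨hCV h, hx.1.2⟩), inner_zero_right]
  · intro t
    have hwt := weakGrad_add hwg (weakGrad_smul t hψΨ)
    have hadm : IsAdmissiblePair Ω (fun x => u x + t * ψ x) K (fun x => G x + t • Ψ x) := by
      refine ⟨hKΩ, hKc, hKf, hu2.add (hψ2.const_mul t), hwt, ?_⟩
      have h2 : MemLp (fun x => G x + t • Ψ x) 2 (volume.restrict (Ω \ K)) :=
        hGL.add (hΨ2.const_smul t)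
      rw [lintegral_sq_eq h2]
      exact ENNReal.ofReal_lt_top
    have h1 := hmin V hVo hVc hVΩ _ _ _ hadm ⟨C, hC, hCV, by simp, ?_⟩
    · unfold msEnergy at h1
      have hfin : Measure.hausdorffMeasure 1 (K ∩ V) ≠ ⊤ :=
        ((measure_mono inter_subset_left).trans_lt hKf).ne
      rw [add_right_comm, add_right_comm (∫⁻ x in V \ K, ‖G x + t • Ψ x‖ₑ ^ 2)] at h1
      have h3 := (ENNReal.add_le_add_iff_right hfin).1 h1
      refine h3.trans (le_of_eq ?_)
      congr 1
      refine lintegral_congr fun x => ?_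
      congr 2
      ring
    · refine Eventually.of_forall fun x hx => ?_
      simp [hψ0 x hx]

end Crest.Agent.R135.Gl
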