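import Crest.Agent.R135.RegEst
import Mathlib
import Crest.Agent.R135.FV1
import Crest.Agent.R135.Core
import Crest.Agent.R135.PolarE

-- ▼ part R135/RegMod
section

/-!
# Row 135 (Mumford-Shah): L² gradient bound and modulus of continuity of the gradient
(regularity toolbox, part 7)
-/

set_option autoImplicit false
open MeasureTheory Metric Set Filter Topology Laplacian InnerProductSpace
open scoped RealInnerProductSpace NNReal ENNReal ContDiff Gradient

namespace Crest.Agent.R135.Reg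
open Crest.Agent.R097 Crest.AnalysisR.PDE.OnePhase

/-- for bounded `f` on a ball, `f ∈ L²` -/
theorem memLp_ball {f : P → ℝ} {x : P} {R A : ℝ}
    (hfm : AEStronglyMeasurable f (volume.restrict (ball x R)))
    (hA : ∀ y ∈ ball x R, |f y| ≤ A) : MemLp f 2 (volume.restrict (ball x R)) := by
  have hfin : IsFiniteMeasure (volume.restrict (ball x R)) :=
    ⟨by rw [Measure.restrict_apply_univ]; exact measure_ball_lt_top⟩
  refine MemLp.of_bound hfm A ?_
  filter_upwards [ae_restrict_mem isOpen_ball.measurableSet] with y hy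
  exact hA y hy

/-- the decomposition for `C¹` functions, everywhere and with gradients -/
theorem decomp_C1 : ∃ C : ℝ, 0 < C ∧ ∀ (u f : P → ℝ) (x : P) (R A : ℝ), 0 < R →
    ContDiffOn ℝ 1 u (ball x R) → AEStronglyMeasurable f (volume.restrict (ball x R)) →
    (∀ y ∈ ball x R, |f y| ≤ A) → WLap (ball x R) u f →
    ∃ H F : P → ℝ, Harm H (ball x R) ∧ ContDiff ℝ 1 F ∧ (∀ y ∈ ball x R, u y = H y + F y) ∧
      (∀ y ∈ ball x R, fderiv ℝ u y = fderiv ℝ H y + fderiv ℝ F y) ∧
      ∀ y ∈ ball x R, |F y| ≤ C * A * R ^ 2 ∧ ‖fderiv ℝ F y‖ ≤ C * A * R := by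
  obtain ⟨C1, hC1, hdec⟩ := decomp
  refine ⟨C1, hC1, ?_⟩
  intro u f x R A hR hu hfm hA h
  obtain ⟨H, F, hH, hae, hFc, -, hF⟩ := hdec x R hR u f
    (hu.continuousOn.locallyIntegrableOn isOpen_ball.measurableSet) (memLp_ball hfm hA) h
  obtain ⟨hF1, hFb⟩ := hF A hA
  have he : EqOn u (fun y => H y + F y) (ball x R) :=
    eq_of_ae_eq_open isOpen_ball hu.continuousOn (hH.1.continuousOn.add hFc.continuousOn) hae
  refine ⟨H, F, hH, hF1, he, ?_, hFb⟩
  intro y hy
  have h1 : u =ᶠ[𝓝 y] fun y => H y + F y := he.eventuallyEq_of_mem (isOpen_ball.mem_nhds hy)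
  rw [h1.fderiv_eq, fderiv_fun_add
    ((hH.1.contDiffAt (isOpen_ball.mem_nhds hy)).differentiableAt (by simp))
    ((hF1.contDiffAt).differentiableAt (by simp))]

/-- **Modulus of continuity of the gradient** -/
theorem fderiv_modulus : ∃ C : ℝ, 0 < C ∧ ∀ (u f : P → ℝ) (x : P) (R A M : ℝ), 0 < R →
    ContDiffOn ℝ 1 u (ball x R) → AEStronglyMeasurable f (volume.restrict (ball x R)) →
    (∀ y ∈ ball x R, |f y| ≤ A) → WLap (ball x R) u f →
    (∀ y ∈ ball x R, ‖fderiv ℝ u y‖ ≤ M) →
    ∀ y ∈ ball x (R / 2), ∀ z ∈ ball x (R / 2),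
      ‖fderiv ℝ u y - fderiv ℝ u z‖ ≤ C * (M + A * R) * √(dist y z / R) := by
  obtain ⟨C1, hC1, hdec⟩ := decomp_C1
  obtain ⟨C2, hC2, hgs⟩ := Hm.grad_sup_F 2
  refine ⟨8 + 2 * C2 + 2 * C2 * C1 + 2 * C1, by positivity, ?_⟩
  intro u f x R A M hR hu hfm hA h hM y hy z hz
  have hA0 : 0 ≤ A := (abs_nonneg _).trans (hA x (mem_ball_self hR))
  have hM0 : 0 ≤ M := (norm_nonneg _).trans (hM x (mem_ball_self hR))
  have hyR : y ∈ ball x R := ball_subset_ball (by linarith) hy
  have hzR : z ∈ ball x R := ball_subset_ball (by linarith) hz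
  set δ : ℝ := dist y z with hδ
  have hδ0 : 0 ≤ δ := dist_nonneg
  set τ : ℝ := δ / R with hτ
  have hτ0 : 0 ≤ τ := by positivity
  set s : ℝ := √τ with hs
  have hs0 : 0 ≤ s := Real.sqrt_nonneg _
  have hss : s * s = τ := Real.mul_self_sqrt hτ0
  have hMA : 0 ≤ M + A * R := by positivity
  rcases eq_or_lt_of_le hδ0 with hδz | hδpos
  · have : y = z := dist_eq_zero.mp (hδ ▸ hδz.symm)
    rw [this, sub_self, norm_zero]
    positivity
  have hτpos : 0 < τ := by positivity
  have hspos : 0 < s := Real.sqrt_pos.mpr hτpos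
  by_cases hcase : 1 / 4 ≤ s
  · have h1 : ‖fderiv ℝ u y - fderiv ℝ u z‖ ≤ 2 * M :=
      (norm_sub_le _ _).trans (by linarith [hM y hyR, hM z hzR])
    have h2 : 2 * M ≤ 8 * (M + A * R) * s := by
      have : M ≤ M + A * R := by linarith [mul_nonneg hA0 hR.le]
      nlinarith
    have h3 : 8 * (M + A * R) * s ≤ (8 + 2 * C2 + 2 * C2 * C1 + 2 * C1) * (M + A * R) * s := by
      apply mul_le_mul_of_nonneg_right _ hs0
      apply mul_le_mul_of_nonneg_right _ hMA
      have : 0 ≤ C2 * C1 := by positivity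
      linarith
    linarith
  · rw [not_le] at hcase
    set ρ : ℝ := R * s with hρ
    have hρ0 : 0 < ρ := by positivity
    have hρR : ρ < R / 4 := by rw [hρ]; nlinarith
    have hδρ : δ = ρ * s := by
      rw [hρ, mul_assoc, hss, hτ]
      field_simp
    have hδρ4 : δ < ρ / 4 := by rw [hδρ]; nlinarith
    have hsub : ball y ρ ⊆ ball x R := by
      refine ball_subset_ball' ?_
      rw [mem_ball] at hy
      linarith
    obtain ⟨H, F, hH, hF1, he, hfd, hFb⟩ := hdec u f y ρ A hρ0 (hu.mono hsub)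
      (hfm.mono_set hsub) (fun p hp => hA p (hsub hp)) (h.mono hsub)
    have hHb : ∀ p ∈ ball y ρ, ‖fderiv ℝ H p‖ ≤ M + C1 * A * ρ := by
      intro p hp
      have h1 : fderiv ℝ H p = fderiv ℝ u p - fderiv ℝ F p := by rw [hfd p hp]; abel
      rw [h1]
      exact (norm_sub_le _ _).trans (add_le_add (hM p (hsub hp)) (hFb p hp).2)
    have hDH : ContDiffOn ℝ ∞ (fderiv ℝ H) (ball y ρ) := Hm.contDiffOn_fderiv isOpen_ball hH.1
    have hgrad : ∀ p ∈ ball y (ρ / 2), ‖fderiv ℝ (fderiv ℝ H) p‖ ≤ C2 * (M + C1 * A * ρ) / (ρ / 2) := by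
      intro p hp
      have hsub2 : ball p (ρ / 2) ⊆ ball y ρ := by
        refine ball_subset_ball' ?_
        rw [mem_ball] at hp
        linarith
      exact hgs (fderiv ℝ H) p (ρ / 2) (M + C1 * A * ρ) (by positivity)
        (contDiffOn_infty.mp (hDH.mono hsub2) 2)
        (fun q hq => Hm.lap_fderiv isOpen_ball hH.1 hH.2 q (hsub2 hq))
        (fun q hq => hHb q (hsub2 hq))
    have hyb : y ∈ ball y (ρ / 2) := mem_ball_self (by positivity)
    have hzb : z ∈ ball y (ρ / 2) := by
      rw [mem_ball, dist_comm]; linarith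
    have hlip : ‖fderiv ℝ H y - fderiv ℝ H z‖ ≤ C2 * (M + C1 * A * ρ) / (ρ / 2) * ‖y - z‖ := by
      refine (convex_ball y (ρ / 2)).norm_image_sub_le_of_norm_fderiv_le (𝕜 := ℝ) ?_ hgrad hzb hyb
      intro p hp
      exact ((hDH.contDiffAt (isOpen_ball.mem_nhds
        (ball_subset_ball (by linarith) hp))).differentiableAt (by simp))
    have hyρ : y ∈ ball y ρ := mem_ball_self hρ0
    have hzρ : z ∈ ball y ρ := ball_subset_ball (by linarith) hzb
    have h1 : fderiv ℝ u y - fderiv ℝ u z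
        = (fderiv ℝ H y - fderiv ℝ H z) + (fderiv ℝ F y - fderiv ℝ F z) := by
      rw [hfd y hyρ, hfd z hzρ]; abel
    have h2 : ‖fderiv ℝ F y - fderiv ℝ F z‖ ≤ 2 * (C1 * A * ρ) :=
      (norm_sub_le _ _).trans (by linarith [(hFb y hyρ).2, (hFb z hzρ).2])
    have h3 : C2 * (M + C1 * A * ρ) / (ρ / 2) * ‖y - z‖ = 2 * C2 * (M + C1 * A * ρ) * s := by
      rw [← dist_eq_norm, ← hδ, hδρ]
      field_simp
    rw [h3] at hlip
    have h4 : ‖fderiv ℝ u y - fderiv ℝ u z‖ ≤ 2 * C2 * (M + C1 * A * ρ) * s + 2 * (C1 * A * ρ) := by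
      rw [h1]
      exact (norm_add_le _ _).trans (add_le_add hlip h2)
    have h5 : 2 * C2 * (M + C1 * A * ρ) * s + 2 * (C1 * A * ρ)
        ≤ (8 + 2 * C2 + 2 * C2 * C1 + 2 * C1) * (M + A * R) * s := by
      have e1 : ρ ≤ R := by linarith
      have e2 : C1 * A * ρ ≤ C1 * (A * R) := by
        rw [mul_assoc]
        exact mul_le_mul_of_nonneg_left (mul_le_mul_of_nonneg_left e1 hA0) hC1.le
      have e3 : 2 * C2 * (M + C1 * A * ρ) * s ≤ 2 * C2 * (M + C1 * (A * R)) * s := by
        apply mul_le_mul_of_nonneg_right _ hs0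
        apply mul_le_mul_of_nonneg_left _ (by positivity)
        linarith
      have e4 : 2 * (C1 * A * ρ) = 2 * C1 * (A * R) * s := by rw [hρ]; ring
      rw [e4]
      have e5 : 0 ≤ A * R := by positivity
      have e6 : (8 + 2 * C2 + 2 * C2 * C1 + 2 * C1) * (M + A * R) * s
          - (2 * C2 * (M + C1 * (A * R)) * s + 2 * C1 * (A * R) * s)
          = (8 * (M + A * R) + 2 * C2 * (A * R) + 2 * C2 * C1 * M + 2 * C1 * M) * s := by ring
      have e7 : 0 ≤ (8 * (M + A * R) + 2 * C2 * (A * R) + 2 * C2 * C1 * M + 2 * C1 * M) * s := by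
        positivity
      linarith
    linarith

/-- gradient bound on the half ball by the Dirichlet energy -/
theorem fderiv_bound_L2 : ∃ C : ℝ, 0 < C ∧ ∀ (u f : P → ℝ) (x : P) (R A E : ℝ), 0 < R →
    ContDiffOn ℝ 1 u (ball x R) → AEStronglyMeasurable f (volume.restrict (ball x R)) →
    (∀ y ∈ ball x R, |f y| ≤ A) → WLap (ball x R) u f → 0 ≤ E →
    (∫⁻ y in ball x R, ‖fderiv ℝ u y‖ₑ ^ 2) ≤ ENNReal.ofReal E →
    ∀ y ∈ ball x (R / 2), ‖fderiv ℝ u y‖ ≤ C * √E / R + C * A * R := by
  obtain ⟨C1, hC1, hb⟩ := fderiv_bound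
  set V : ℝ := (volume (ball (0 : P) 1)).toReal with hV
  have hV0 : 0 ≤ V := ENNReal.toReal_nonneg
  refine ⟨C1 * (V + 2) + C1, by positivity, ?_⟩
  intro u f x R A E hR hu hfm hA h hE hE2 y hy
  have hA0 : 0 ≤ A := (abs_nonneg _).trans (hA x (mem_ball_self hR))
  have hsub : ball y (R / 2) ⊆ ball x R := by
    refine ball_subset_ball' ?_
    rw [mem_ball] at hy
    linarith
  have hfin : IsFiniteMeasure (volume.restrict (ball y (R / 2))) :=
    ⟨by rw [Measure.restrict_apply_univ]; exact measure_ball_lt_top⟩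
  have hcont : ContinuousOn (fun y => ‖fderiv ℝ u y‖) (ball x R) :=
    (hu.continuousOn_fderiv_of_isOpen isOpen_ball (by simp)).norm
  have hm : AEStronglyMeasurable (fun y => ‖fderiv ℝ u y‖) (volume.restrict (ball y (R / 2))) :=
    (hcont.mono hsub).aestronglyMeasurable isOpen_ball.measurableSet
  have hlt : ∫⁻ p in ball y (R / 2), ‖fderiv ℝ u p‖ₑ ^ 2 ≤ ENNReal.ofReal E :=
    (lintegral_mono_set hsub).trans hE2
  have heq : ∀ p, ‖fderiv ℝ u p‖ₑ ^ 2 = ENNReal.ofReal (‖fderiv ℝ u p‖ ^ 2) := fun p => by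
    rw [ENNReal.ofReal_pow (norm_nonneg _), ofReal_norm]
  have hi2 : IntegrableOn (fun p => ‖fderiv ℝ u p‖ ^ 2) (ball y (R / 2)) := by
    refine ⟨hm.pow 2, ?_⟩
    rw [hasFiniteIntegral_iff_ofReal (Eventually.of_forall fun p => by positivity)]
    simp only [← heq]
    exact hlt.trans_lt ENNReal.ofReal_lt_top
  have hI2 : ∫ p in ball y (R / 2), ‖fderiv ℝ u p‖ ^ 2 ≤ E := by
    rw [integral_eq_lintegral_of_nonneg_ae (f := fun p => ‖fderiv ℝ u p‖ ^ 2)
      (Eventually.of_forall fun p => by positivity) hi2.1]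
    simp only [← heq]
    exact ENNReal.toReal_le_of_le_ofReal hE hlt
  have hi1 : IntegrableOn (fun p => ‖fderiv ℝ u p‖) (ball y (R / 2)) := by
    refine Integrable.mono' (hi2.add (integrable_const 1)) hm ?_
    refine Eventually.of_forall fun p => ?_
    rw [norm_norm]
    simp only [Pi.add_apply]
    nlinarith [sq_nonneg (‖fderiv ℝ u p‖ - 1 / 2)]
  have hvol : volume.real (ball y (R / 2)) = V * (R / 2) ^ 2 := by
    rw [Measure.real, Measure.addHaar_ball _ _ (by positivity), ENNReal.toReal_mul,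
      ENNReal.toReal_ofReal (by positivity)]
    simp [hV, mul_comm]
  have hI1 : ∀ t : ℝ, 0 < t → ∫ p in ball y (R / 2), ‖fderiv ℝ u p‖
      ≤ t / 2 * (V * (R / 2) ^ 2) + E / (2 * t) := by
    intro t ht
    have h1 : ∫ p in ball y (R / 2), ‖fderiv ℝ u p‖
        ≤ ∫ p in ball y (R / 2), (t / 2 + (2 * t)⁻¹ * ‖fderiv ℝ u p‖ ^ 2) := by
      refine integral_mono hi1 ((integrable_const _).add (hi2.const_mul _)) fun p => ?_
      have h2 : t / 2 + (2 * t)⁻¹ * ‖fderiv ℝ u p‖ ^ 2 - ‖fderiv ℝ u p‖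
          = (‖fderiv ℝ u p‖ - t) ^ 2 / (2 * t) := by
        field_simp
        ring
      have h3 : 0 ≤ (‖fderiv ℝ u p‖ - t) ^ 2 / (2 * t) := by positivity
      simp only
      linarith
    rw [integral_add (integrable_const _) (hi2.const_mul _), integral_const_mul,
      setIntegral_const, hvol, smul_eq_mul] at h1
    refine h1.trans ?_
    have h4 : (2 * t)⁻¹ * ∫ p in ball y (R / 2), ‖fderiv ℝ u p‖ ^ 2 ≤ E / (2 * t) := by
      rw [div_eq_inv_mul E (2 * t)]
      exact mul_le_mul_of_nonneg_left hI2 (by positivity)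
    linarith
  have hI : ∫ p in ball y (R / 2), ‖fderiv ℝ u p‖ ≤ (V / 4 + 1 / 2) * √E * R := by
    refine le_of_forall_pos_le_add fun ε hε => ?_
    set η : ℝ := ε / (V / 4 * R + 1) with hη
    have hden : 0 < V / 4 * R + 1 := by positivity
    have hη0 : 0 < η := by positivity
    have hsE : 0 ≤ √E := Real.sqrt_nonneg _
    have h1 := hI1 ((√E + η) / R) (by positivity)
    have h2 : E / (2 * ((√E + η) / R)) ≤ √E * R / 2 := by
      have h3 : E = √E * √E := (Real.mul_self_sqrt hE).symm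
      have h4 : E / (2 * ((√E + η) / R)) = (E / (√E + η)) * R / 2 := by
        field_simp
      rw [h4]
      have h5 : E / (√E + η) ≤ √E := by
        rw [div_le_iff₀ (by positivity)]
        nlinarith
      nlinarith
    have h6 : (√E + η) / R / 2 * (V * (R / 2) ^ 2) = (√E + η) * R * V / 8 := by
      field_simp
      ring
    rw [h6] at h1
    have h7 : η * (V / 4 * R + 1) = ε := by
      rw [hη]
      field_simp
    nlinarith [mul_nonneg (mul_nonneg hsE hR.le) hV0]
  have h1 := hb u f y (R / 2) A (by positivity) (hu.mono hsub) (hfm.mono_set hsub)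
    (fun p hp => hA p (hsub hp)) (h.mono hsub) hi1
  have h2 : C1 / (R / 2) ^ 2 * ∫ p in ball y (R / 2), ‖fderiv ℝ u p‖
      ≤ C1 / (R / 2) ^ 2 * ((V / 4 + 1 / 2) * √E * R) :=
    mul_le_mul_of_nonneg_left hI (by positivity)
  have h3 : C1 / (R / 2) ^ 2 * ((V / 4 + 1 / 2) * √E * R) = C1 * (V + 2) * √E / R := by
    field_simp
    ring
  have h4 : C1 * A * (R / 2) ≤ (C1 * (V + 2) + C1) * A * R := by
    have : 0 ≤ C1 * A * R := by positivity
    have h5 : 0 ≤ C1 * (V + 2) * A * R := by positivity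
    nlinarith
  have h5 : C1 * (V + 2) * √E / R ≤ (C1 * (V + 2) + C1) * √E / R := by
    apply div_le_div_of_nonneg_right _ hR.le
    apply mul_le_mul_of_nonneg_right _ (Real.sqrt_nonneg _)
    linarith
  linarith

end Crest.Agent.R135.Reg
end

-- ▼ part R135/RegAA
section

/-!
# Row 135 (Mumford-Shah): asymptotic Arzelà-Ascoli theorem (regularity toolbox, part 8)
-/

set_option autoImplicit false
open Metric Set Filter Topology

namespace Crest.Agent.R135.Reg

/-- diagonal extraction -/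
theorem exists_diag {ι F : Type*} [Countable ι] [NormedAddCommGroup F] [ProperSpace F]
    (g : ℕ → ι → F) (hb : ∀ i, ∃ M : ℝ, ∀ᶠ n in atTop, ‖g n i‖ ≤ M) :
    ∃ φ : ℕ → ℕ, StrictMono φ ∧ ∃ a : ι → F, ∀ i, Tendsto (fun n => g (φ n) i) atTop (𝓝 (a i)) := by
  classical
  choose M hM using hb
  set g' : ℕ → ι → F := fun n i => if ‖g n i‖ ≤ M i then g n i else 0 with hg'
  set S : Set (ι → F) := Set.pi univ fun i => closedBall (0 : F) (max (M i) 0) with hS
  have hSc : IsCompact S := isCompact_univ_pi fun i => isCompact_closedBall _ _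
  have hmem : ∀ n, g' n ∈ S := by
    intro n i _
    rw [mem_closedBall_zero_iff]
    simp only [hg']
    split_ifs with h
    · exact h.trans (le_max_left _ _)
    · rw [norm_zero]; exact le_max_right _ _
  obtain ⟨a, -, φ, hφ, ha⟩ := hSc.tendsto_subseq hmem
  refine ⟨φ, hφ, a, fun i => ?_⟩
  have h1 : Tendsto (fun n => g' (φ n) i) atTop (𝓝 (a i)) := (tendsto_pi_nhds.mp ha) i
  refine h1.congr' ?_
  filter_upwards [hφ.tendsto_atTop.eventually (hM i)] with n hn
  simp only [hg', hn, if_true]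

/-- **Asymptotic Arzelà-Ascoli.** A sequence which is eventually bounded at each point and
asymptotically equicontinuous at each point of `W` has a subsequence converging locally
uniformly on `W`. -/
theorem exists_locUnif {X F : Type*} [PseudoMetricSpace X] [SecondCountableTopology X]
    [NormedAddCommGroup F] [ProperSpace F] {W : Set X} (hW : IsOpen W) (g : ℕ → X → F)
    (hb : ∀ x ∈ W, ∃ M : ℝ, ∀ᶠ n in atTop, ‖g n x‖ ≤ M)
    (he : ∀ x ∈ W, ∀ ε > 0, ∃ δ > 0, ∀ᶠ n in atTop, ∀ y ∈ ball x δ, ‖g n y - g n x‖ ≤ ε) :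
    ∃ φ : ℕ → ℕ, StrictMono φ ∧ ∃ a : X → F,
      TendstoLocallyUniformlyOn (fun n => g (φ n)) a atTop W := by
  classical
  obtain ⟨D, hDc, hD⟩ := TopologicalSpace.exists_countable_dense X
  have hcount : Countable (D ∩ W : Set X) := (hDc.mono inter_subset_left).to_subtype
  obtain ⟨φ, hφ, a0, ha0⟩ := exists_diag (fun n (i : (D ∩ W : Set X)) => g n i)
    (fun i => hb i i.2.2)
  refine ⟨φ, hφ, ?_⟩
  have hcauchy : ∀ x ∈ W, CauchySeq fun n => g (φ n) x := by
    intro x hx
    rw [Metric.cauchySeq_iff]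
    intro ε hε
    obtain ⟨δ, hδ, hδe⟩ := he x hx (ε / 4) (by positivity)
    obtain ⟨r, hr, hrW⟩ := Metric.isOpen_iff.mp hW x hx
    obtain ⟨s, hsD, hs⟩ := hD.exists_dist_lt x (lt_min hδ hr)
    have hsW : s ∈ W := hrW (by rw [mem_ball, dist_comm]; exact hs.trans_le (min_le_right _ _))
    have hsδ : s ∈ ball x δ := by rw [mem_ball, dist_comm]; exact hs.trans_le (min_le_left _ _)
    have h1 := (ha0 ⟨s, hsD, hsW⟩).cauchySeq
    rw [Metric.cauchySeq_iff] at h1
    obtain ⟨N1, hN1⟩ := h1 (ε / 4) (by positivity)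
    obtain ⟨N2, hN2⟩ := eventually_atTop.mp (hφ.tendsto_atTop.eventually hδe)
    refine ⟨max N1 N2, fun m hm n hn => ?_⟩
    have a1 := hN1 m ((le_max_left _ _).trans hm) n ((le_max_left _ _).trans hn)
    have a2 := hN2 m ((le_max_right _ _).trans hm) s hsδ
    have a3 := hN2 n ((le_max_right _ _).trans hn) s hsδ
    rw [dist_eq_norm] at a1 ⊢
    have e : g (φ m) x - g (φ n) x = (g (φ m) s - g (φ n) s) - (g (φ m) s - g (φ m) x)
        + (g (φ n) s - g (φ n) x) := by abel
    rw [e]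
    calc _ ≤ ‖(g (φ m) s - g (φ n) s) - (g (φ m) s - g (φ m) x)‖ + ‖g (φ n) s - g (φ n) x‖ :=
          norm_add_le _ _
      _ ≤ ‖g (φ m) s - g (φ n) s‖ + ‖g (φ m) s - g (φ m) x‖ + ‖g (φ n) s - g (φ n) x‖ := by
          gcongr; exact norm_sub_le _ _
      _ < ε / 4 + ε / 4 + ε / 2 := by
          have : ‖g (φ n) s - g (φ n) x‖ < ε / 2 := by linarith
          have a1' : ‖g (φ m) s - g (φ n) s‖ < ε / 4 := a1
          linarith
      _ = ε := by ring
  have hlim : ∀ x ∈ W, ∃ l, Tendsto (fun n => g (φ n) x) atTop (𝓝 l) := fun x hx =>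
    cauchySeq_tendsto_of_complete (hcauchy x hx)
  choose! a ha using hlim
  refine ⟨a, ?_⟩
  rw [Metric.tendstoLocallyUniformlyOn_iff]
  intro ε hε x hx
  obtain ⟨δ, hδ, hδe⟩ := he x hx (ε / 4) (by positivity)
  obtain ⟨r, hr, hrW⟩ := Metric.isOpen_iff.mp hW x hx
  refine ⟨ball x (min δ r), mem_nhdsWithin_of_mem_nhds (ball_mem_nhds x (lt_min hδ hr)), ?_⟩
  have h1 : ∀ᶠ n in atTop, ∀ y ∈ ball x δ, ‖g (φ n) y - g (φ n) x‖ ≤ ε / 4 :=
    hφ.tendsto_atTop.eventually hδe
  have h2 : ∀ᶠ n in atTop, ‖g (φ n) x - a x‖ < ε / 4 := by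
    have := (ha x hx).eventually (Metric.ball_mem_nhds (a x) (show 0 < ε / 4 by positivity))
    filter_upwards [this] with n hn
    rwa [dist_eq_norm] at hn
  have h3 : ∀ y ∈ ball x (min δ r), ‖a y - a x‖ ≤ ε / 4 := by
    intro y hy
    have hyW : y ∈ W := hrW (ball_subset_ball (min_le_right _ _) hy)
    have hyδ : y ∈ ball x δ := ball_subset_ball (min_le_left _ _) hy
    refine le_of_tendsto ((ha y hyW).sub (ha x hx)).norm ?_
    filter_upwards [h1] with n hn
    exact hn y hyδ
  filter_upwards [h1, h2] with n hn1 hn2 y hy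
  have hyδ : y ∈ ball x δ := ball_subset_ball (min_le_left _ _) hy
  rw [dist_eq_norm]
  have e : a y - g (φ n) y = (a y - a x) - (g (φ n) x - a x) - (g (φ n) y - g (φ n) x) := by abel
  rw [e]
  calc _ ≤ ‖(a y - a x) - (g (φ n) x - a x)‖ + ‖g (φ n) y - g (φ n) x‖ := norm_sub_le _ _
    _ ≤ ‖a y - a x‖ + ‖g (φ n) x - a x‖ + ‖g (φ n) y - g (φ n) x‖ := by
        gcongr; exact norm_sub_le _ _
    _ < ε / 4 + ε / 4 + ε / 2 := by
        have := hn1 y hyδ
        have := h3 y hy
        linarith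
    _ = ε := by ring

/-- a chosen point of a set -/
noncomputable def bpt {X : Type*} [Nonempty X] (S : Set X) : X :=
  open Classical in if h : S.Nonempty then h.some else Classical.arbitrary X

theorem bpt_mem {X : Type*} [Nonempty X] {S : Set X} (h : S.Nonempty) : bpt S ∈ S := by
  unfold bpt
  rw [dif_pos h]
  exact h.some_mem

/-- base point of the component of `x` in `W` -/
noncomputable def cpt0 {X : Type*} [TopologicalSpace X] [Nonempty X] (W : Set X) (x : X) : X :=
  bpt (connectedComponentIn W x)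

theorem cpt0_mem {X : Type*} [TopologicalSpace X] [Nonempty X] {W : Set X} {x : X} (hx : x ∈ W) :
    cpt0 W x ∈ connectedComponentIn W x :=
  bpt_mem ⟨x, mem_connectedComponentIn hx⟩

theorem cpt0_eq {X : Type*} [TopologicalSpace X] [Nonempty X] {W : Set X} {x y : X}
    (hy : y ∈ connectedComponentIn W x) : cpt0 W y = cpt0 W x := by
  unfold cpt0
  rw [connectedComponentIn_eq hy]

/-- **Convergence of potentials.** If the derivatives converge locally uniformly on the open set
`W`, and the functions converge at one point of each component, then the functions converge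
locally uniformly on `W`, to a function with the right derivative. -/
theorem exists_potential {E : Type*} [NormedAddCommGroup E] [NormedSpace ℝ E] [ProperSpace E]
    {W : Set E} (hW : IsOpen W) {v : ℕ → E → ℝ}
    (hd : ∀ x ∈ W, ∃ r > 0, ∀ᶠ n in atTop, ∀ y ∈ ball x r, DifferentiableAt ℝ (v n) y)
    {g : E → (E →L[ℝ] ℝ)} (hg : TendstoLocallyUniformlyOn (fun n => fderiv ℝ (v n)) g atTop W)
    (hbase : ∀ x ∈ W, ∃ z ∈ connectedComponentIn W x, ∃ l, Tendsto (fun n => v n z) atTop (𝓝 l)) :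
    ∃ h : E → ℝ, TendstoLocallyUniformlyOn v h atTop W ∧ ∀ x ∈ W, HasFDerivAt h (g x) x := by
  classical
  -- local statement
  have hloc : ∀ x ∈ W, ∃ r > 0, ball x r ⊆ W ∧ ∀ ε > 0, ∃ N : ℕ, ∀ n ≥ N, ∀ m ≥ N,
      ∀ y ∈ ball x r, ∀ z ∈ ball x r, |(v n y - v m y) - (v n z - v m z)| ≤ ε := by
    intro x hx
    obtain ⟨r0, hr0, hr0d⟩ := hd x hx
    obtain ⟨r1, hr1, hr1W⟩ := Metric.isOpen_iff.mp hW x hx
    obtain ⟨r, hr, hrr⟩ : ∃ r > 0, r < min r0 r1 := ⟨min r0 r1 / 2, by positivity,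
      half_lt_self (lt_min hr0 hr1)⟩
    have hrW : closedBall x r ⊆ W := (closedBall_subset_ball (hrr.trans_le (min_le_right _ _))).trans hr1W
    have hr0' : ball x r ⊆ ball x r0 := ball_subset_ball (hrr.le.trans (min_le_left _ _))
    have hu : TendstoUniformlyOn (fun n => fderiv ℝ (v n)) g atTop (closedBall x r) :=
      (tendstoLocallyUniformlyOn_iff_forall_isCompact hW).mp hg _ hrW (isCompact_closedBall x r)
    refine ⟨r, hr, ball_subset_closedBall.trans hrW, fun ε hε => ?_⟩
    rw [Metric.tendstoUniformlyOn_iff] at hu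
    have h1 := hu (ε / (4 * r)) (by positivity)
    obtain ⟨N, hN⟩ := eventually_atTop.mp (h1.and hr0d)
    refine ⟨N, fun n hn m hm y hy z hz => ?_⟩
    have hdn : ∀ p ∈ ball x r, DifferentiableAt ℝ (v n) p := fun p hp => (hN n hn).2 p (hr0' hp)
    have hdm : ∀ p ∈ ball x r, DifferentiableAt ℝ (v m) p := fun p hp => (hN m hm).2 p (hr0' hp)
    have hb : ∀ p ∈ ball x r, ‖fderiv ℝ (fun q => v n q - v m q) p‖ ≤ ε / (2 * r) := by
      intro p hp
      rw [fderiv_fun_sub (hdn p hp) (hdm p hp)]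
      have a1 := (hN n hn).1 p (ball_subset_closedBall hp)
      have a2 := (hN m hm).1 p (ball_subset_closedBall hp)
      have e : fderiv ℝ (v n) p - fderiv ℝ (v m) p
          = (g p - fderiv ℝ (v m) p) - (g p - fderiv ℝ (v n) p) := by abel
      rw [e]
      refine (norm_sub_le _ _).trans ?_
      rw [dist_eq_norm] at a1 a2
      have : ε / (4 * r) + ε / (4 * r) = ε / (2 * r) := by field_simp; norm_num
      linarith
    have hmv := (convex_ball x r).norm_image_sub_le_of_norm_fderiv_le (𝕜 := ℝ)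
      (f := fun q => v n q - v m q) (fun p hp => (hdn p hp).sub (hdm p hp)) hb hz hy
    rw [Real.norm_eq_abs] at hmv
    refine hmv.trans ?_
    have h2 : ‖y - z‖ ≤ 2 * r := by
      rw [← dist_eq_norm]
      rw [mem_ball] at hy hz
      linarith [dist_triangle_right y z x]
    calc ε / (2 * r) * ‖y - z‖ ≤ ε / (2 * r) * (2 * r) :=
          mul_le_mul_of_nonneg_left h2 (by positivity)
      _ = ε := by field_simp
  -- the set of convergence
  set A : Set E := {x | x ∈ W ∧ CauchySeq fun n => v n x} with hA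
  have hball : ∀ x ∈ W, ∃ r > 0, ball x r ⊆ W ∧ ((A ∩ ball x r).Nonempty → ball x r ⊆ A) := by
    intro x hx
    obtain ⟨r, hr, hrW, hl⟩ := hloc x hx
    refine ⟨r, hr, hrW, ?_⟩
    rintro ⟨z, ⟨hzW, hz⟩, hzr⟩ y hy
    refine ⟨hrW hy, ?_⟩
    rw [Metric.cauchySeq_iff] at hz ⊢
    intro ε hε
    obtain ⟨N1, hN1⟩ := hz (ε / 2) (by positivity)
    obtain ⟨N2, hN2⟩ := hl (ε / 4) (by positivity)
    refine ⟨max N1 N2, fun n hn m hm => ?_⟩
    have a1 := hN1 n ((le_max_left _ _).trans hn) m ((le_max_left _ _).trans hm)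
    have a2 := hN2 n ((le_max_right _ _).trans hn) m ((le_max_right _ _).trans hm) y hy z hzr
    rw [Real.dist_eq] at a1 ⊢
    rw [abs_lt] at a1 ⊢
    rw [abs_le] at a2
    constructor <;> linarith [a1.1, a1.2, a2.1, a2.2]
  have hAo : IsOpen A := by
    rw [Metric.isOpen_iff]
    intro x hx
    obtain ⟨r, hr, -, h⟩ := hball x hx.1
    exact ⟨r, hr, h ⟨x, hx, mem_ball_self hr⟩⟩
  have hAW : ∀ x ∈ W, x ∈ A := by
    intro x hx
    obtain ⟨z, hz, l, hl⟩ := hbase x hx
    have hsub : connectedComponentIn W x ⊆ A := by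
      refine isPreconnected_connectedComponentIn.subset_of_closure_inter_subset hAo
        ⟨z, hz, connectedComponentIn_subset W x hz, hl.cauchySeq⟩ ?_
      rintro y ⟨hyA, hyC⟩
      obtain ⟨r, hr, -, h⟩ := hball y (connectedComponentIn_subset W x hyC)
      obtain ⟨p, hpA, hpy⟩ := Metric.mem_closure_iff.mp hyA r hr
      exact h ⟨p, hpA, by rwa [mem_ball, dist_comm]⟩ (mem_ball_self hr)
    exact hsub (mem_connectedComponentIn hx)
  have hlim : ∀ x ∈ W, ∃ l, Tendsto (fun n => v n x) atTop (𝓝 l) := fun x hx =>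
    cauchySeq_tendsto_of_complete (hAW x hx).2
  choose! h hh using hlim
  refine ⟨h, ?_, ?_⟩
  · rw [Metric.tendstoLocallyUniformlyOn_iff]
    intro ε hε x hx
    obtain ⟨r, hr, hrW, hl⟩ := hloc x hx
    refine ⟨ball x r, mem_nhdsWithin_of_mem_nhds (ball_mem_nhds x hr), ?_⟩
    obtain ⟨N, hN⟩ := hl (ε / 4) (by positivity)
    have h2 : ∀ᶠ n in atTop, dist (v n x) (h x) < ε / 4 :=
      (hh x hx).eventually (Metric.ball_mem_nhds (h x) (by positivity))
    filter_upwards [h2, eventually_ge_atTop N] with n hn hnN y hy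
    have h3 : |(v n y - h y) - (v n x - h x)| ≤ ε / 4 := by
      have h4 : Tendsto (fun m => |(v n y - v m y) - (v n x - v m x)|) atTop
          (𝓝 |(v n y - h y) - (v n x - h x)|) :=
        ((tendsto_const_nhds.sub (hh y (hrW hy))).sub
          (tendsto_const_nhds.sub (hh x (hrW (mem_ball_self hr))))).abs
      refine le_of_tendsto h4 ?_
      filter_upwards [eventually_ge_atTop N] with m hm
      exact hN n hnN m hm y hy x (mem_ball_self hr)
    rw [Real.dist_eq] at hn ⊢
    rw [abs_lt] at hn ⊢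
    rw [abs_le] at h3
    constructor <;> linarith [hn.1, hn.2, h3.1, h3.2]
  · intro x hx
    obtain ⟨r0, hr0, hr0d⟩ := hd x hx
    refine hasFDerivAt_of_tendstoUniformlyOnFilter (l := atTop) (f := v)
      (f' := fun n => fderiv ℝ (v n)) ?_ ?_ ?_
    · have := (tendstoLocallyUniformlyOn_iff_filter.mp hg) x hx
      rwa [hW.nhdsWithin_eq hx] at this
    · have h1 : ∀ᶠ p : ℕ × E in atTop ×ˢ 𝓝 x, (∀ y ∈ ball x r0, DifferentiableAt ℝ (v p.1) y) ∧
          p.2 ∈ ball x r0 := hr0d.prod_mk (ball_mem_nhds x hr0)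
      filter_upwards [h1] with p hp
      exact (hp.1 p.2 hp.2).hasFDerivAt
    · filter_upwards [hW.mem_nhds hx] with y hy
      exact hh y hy

end Crest.Agent.R135.Reg
end

-- ▼ part R135/RegComp
section

/-!
# Row 135 (Mumford-Shah): compactness off the crack (regularity toolbox, part 9)
-/

set_option autoImplicit false
open MeasureTheory Metric Set Filter Topology Laplacian InnerProductSpace
open scoped RealInnerProductSpace NNReal ENNReal ContDiff Gradient

namespace Crest.Agent.R135.Reg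
open Crest.Agent.R097 Crest.AnalysisR.PDE.OnePhase

theorem enorm_gradient (u : P → ℝ) (x : P) : ‖∇ u x‖ₑ = ‖fderiv ℝ u x‖ₑ := by
  rw [← ofReal_norm, ← ofReal_norm, Crest.Agent.R097.norm_grad]

theorem norm_gradient_sub (u : P → ℝ) (x y : P) :
    ‖∇ u x - ∇ u y‖ = ‖fderiv ℝ u x - fderiv ℝ u y‖ := by
  unfold gradient
  rw [← map_sub, LinearIsometryEquiv.norm_map]

/-- locally constant functions are harmonic -/
theorem LocConst_harm {W : Set P} {c : P → ℝ} (hc : LocConstOn W c) : Harm c W := by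
  have h1 : ∀ x ∈ W, c =ᶠ[𝓝 x] fun _ => c x := fun x hx => hc x hx
  constructor
  · intro x hx
    exact ((contDiffAt_const (c := c x)).congr_of_eventuallyEq (h1 x hx)).contDiffWithinAt
  · intro x hx
    rw [(laplacian_congr_nhds (h1 x hx)).eq_of_nhds, laplacian_const]
    rfl

theorem harm_wlap {W : Set P} (hW : IsOpen W) {c : P → ℝ} (hc : Harm c W) :
    WLap W c (fun _ => 0) := by
  intro φ hφ hφc hs
  rw [Hm.green_on hW hc.contDiffOn_two hφ hφc hs]
  have : ∀ x, (Δ c) x * φ x = 0 * φ x := by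
    intro x
    by_cases hx : x ∈ tsupport φ
    · rw [hc.2 x (hs hx)]
    · rw [image_eq_zero_of_notMem_tsupport hx, mul_zero, mul_zero]
  simp only [this]

/-- functions of the base point are locally constant -/
theorem locConst_cpt0 {W : Set P} (hW : IsOpen W) (F : P → ℝ) :
    LocConstOn W (fun x => F (cpt0 W x)) := by
  intro x hx
  filter_upwards [(hW.connectedComponentIn).mem_nhds (mem_connectedComponentIn hx)] with y hy
  rw [cpt0_eq hy]

theorem cpt0_cpt0 {W : Set P} {x : P} (hx : x ∈ W) : cpt0 W (cpt0 W x) = cpt0 W x :=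
  cpt0_eq (cpt0_mem hx)

/-- **Compactness off the crack.** -/
theorem exists_limit {W : Set P} (hW : IsOpen W) {V : ℕ → Set P} {u f : ℕ → P → ℝ} {A : ℕ → ℝ}
    (hVW : ∀ C, IsCompact C → C ⊆ W → ∀ᶠ n in atTop, C ⊆ V n)
    (hu : ∀ n, ContDiffOn ℝ 1 (u n) (V n))
    (hfm : ∀ n, AEStronglyMeasurable (f n) (volume.restrict (V n)))
    (hfA : ∀ n, ∀ x ∈ V n, |f n x| ≤ A n) (hA : Tendsto A atTop (𝓝 0))
    (hw : ∀ n, WLap (V n) (u n) (f n))
    (hE : ∀ x ∈ W, ∃ r > 0, ∃ B : ℝ≥0∞, B < ⊤ ∧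
      ∀ᶠ n in atTop, ∫⁻ y in ball x r ∩ V n, ‖∇ (u n) y‖ₑ ^ 2 ≤ B) :
    ∃ φ : ℕ → ℕ, StrictMono φ ∧ ∃ h : P → ℝ, Harm h W ∧
      TendstoLocallyUniformlyOn (fun n x => u (φ n) x - u (φ n) (cpt0 W x)) h atTop W ∧
      TendstoLocallyUniformlyOn (fun n x => ∇ (u (φ n)) x) (fun x => ∇ h x) atTop W := by
  obtain ⟨C1, hC1, hb1⟩ := fderiv_bound_L2
  obtain ⟨C2, hC2, hb2⟩ := fderiv_modulus
  have hA1 : ∀ᶠ n in atTop, A n ≤ 1 := by
    filter_upwards [hA.eventually (gt_mem_nhds (show (0 : ℝ) < 1 by norm_num))] with n hn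
    exact hn.le
  -- local gradient bounds
  have hb0 : ∀ x ∈ W, ∃ r > 0, ball x r ⊆ W ∧ ∃ M : ℝ, 0 ≤ M ∧ ∀ᶠ n in atTop,
      ball x r ⊆ V n ∧ A n ≤ 1 ∧ ∀ y ∈ ball x r, ‖fderiv ℝ (u n) y‖ ≤ M := by
    intro x hx
    obtain ⟨r0, hr0, B, hB, hBn⟩ := hE x hx
    obtain ⟨r1, hr1, hr1W⟩ := Metric.isOpen_iff.mp hW x hx
    obtain ⟨r, hr, hrr⟩ : ∃ r > 0, r < min r0 r1 := ⟨min r0 r1 / 2, by positivity,
      half_lt_self (lt_min hr0 hr1)⟩
    have hrW : closedBall x r ⊆ W :=
      (closedBall_subset_ball (hrr.trans_le (min_le_right _ _))).trans hr1W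
    have hr0' : ball x r ⊆ ball x r0 := ball_subset_ball (hrr.le.trans (min_le_left _ _))
    refine ⟨r / 2, by positivity, (ball_subset_ball (by linarith)).trans
      (ball_subset_closedBall.trans hrW), C1 * √B.toReal / r + C1 * 1 * r, by positivity, ?_⟩
    filter_upwards [hBn, hVW _ (isCompact_closedBall x r) hrW, hA1] with n hn1 hn2 hn3
    have hsub : ball x r ⊆ V n := ball_subset_closedBall.trans hn2
    refine ⟨(ball_subset_ball (by linarith)).trans hsub, hn3, ?_⟩
    refine hb1 (u n) (f n) x r 1 B.toReal hr ((hu n).mono hsub) ((hfm n).mono_set hsub)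
      (fun y hy => (hfA n y (hsub hy)).trans hn3) ((hw n).mono hsub) ENNReal.toReal_nonneg ?_
    rw [ENNReal.ofReal_toReal hB.ne]
    refine le_trans ?_ hn1
    simp only [← enorm_gradient]
    exact lintegral_mono_set (subset_inter hr0' hsub)
  -- Arzela-Ascoli for the gradients
  obtain ⟨φ, hφ, G, hG⟩ := exists_locUnif hW (fun n x => ∇ (u n) x)
    (fun x hx => by
      obtain ⟨r, hr, -, M, -, hM⟩ := hb0 x hx
      refine ⟨M, ?_⟩
      filter_upwards [hM] with n hn
      rw [Crest.Agent.R097.norm_grad]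
      exact hn.2.2 x (mem_ball_self hr))
    (fun x hx ε hε => by
      obtain ⟨r, hr, -, M, hM0, hM⟩ := hb0 x hx
      set q : ℝ := ε / (C2 * (M + 1 * r)) with hq
      have hq0 : 0 < q := by positivity
      refine ⟨min (r / 2) (q ^ 2 * r), by positivity, ?_⟩
      filter_upwards [hM] with n hn y hy
      rw [norm_gradient_sub]
      have h1 := hb2 (u n) (f n) x r 1 M hr ((hu n).mono hn.1) ((hfm n).mono_set hn.1)
        (fun y hy => (hfA n y (hn.1 hy)).trans hn.2.1) ((hw n).mono hn.1) hn.2.2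
        y (ball_subset_ball (min_le_left _ _) hy) x (mem_ball_self (by positivity))
      refine h1.trans ?_
      have h2 : √(dist y x / r) ≤ q := by
        refine Real.sqrt_le_iff.mpr ⟨hq0.le, ?_⟩
        rw [div_le_iff₀ hr]
        exact (mem_ball.mp (ball_subset_ball (min_le_right _ _) hy)).le
      calc C2 * (M + 1 * r) * √(dist y x / r) ≤ C2 * (M + 1 * r) * q :=
            mul_le_mul_of_nonneg_left h2 (by positivity)
        _ = ε := by
            rw [hq]
            field_simp)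
  set c : ℕ → P → ℝ := fun n x => u (φ n) (cpt0 W x) with hc
  set v : ℕ → P → ℝ := fun n x => u (φ n) x - c n x with hv
  have hcl : ∀ n, LocConstOn W (c n) := fun n => locConst_cpt0 hW _
  have hvloc : ∀ n, ∀ x ∈ W, v n =ᶠ[𝓝 x] fun y => u (φ n) y - c n x := by
    intro n x hx
    filter_upwards [hcl n x hx] with y hy
    simp only [hv, hy]
  have hvf : ∀ n, ∀ x ∈ W, fderiv ℝ (v n) x = fderiv ℝ (u (φ n)) x := by
    intro n x hx
    rw [(hvloc n x hx).fderiv_eq, fderiv_sub_const]
  have hdn : ∀ x ∈ W, ∃ r > 0, ∀ᶠ n in atTop, ∀ y ∈ ball x r, DifferentiableAt ℝ (v n) y := by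
    intro x hx
    obtain ⟨r, hr, hrW, M, -, hM⟩ := hb0 x hx
    refine ⟨r, hr, ?_⟩
    filter_upwards [hφ.tendsto_atTop.eventually hM] with n hn y hy
    have h1 : DifferentiableAt ℝ (u (φ n)) y :=
      (((hu (φ n)).mono hn.1).contDiffAt (isOpen_ball.mem_nhds hy)).differentiableAt (by simp)
    exact (h1.sub_const _).congr_of_eventuallyEq (hvloc n y (hrW hy))
  set g : P → (P →L[ℝ] ℝ) := fun x => toDual ℝ P (G x) with hg
  have hgconv : TendstoLocallyUniformlyOn (fun n => fderiv ℝ (v n)) g atTop W := by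
    have h1 : TendstoLocallyUniformlyOn (fun n => (toDual ℝ P) ∘ (fun x => ∇ (u (φ n)) x))
        ((toDual ℝ P) ∘ G) atTop W :=
      (toDual ℝ P).isometry.uniformContinuous.comp_tendstoLocallyUniformlyOn hG
    refine h1.congr ?_
    intro n x hx
    simp only [Function.comp_apply]
    rw [hvf n x hx]
    unfold gradient
    simp
  obtain ⟨h, hh, hhd⟩ := exists_potential hW hdn hgconv (fun x hx =>
    ⟨cpt0 W x, cpt0_mem hx, 0, by
      have : ∀ n, v n (cpt0 W x) = 0 := by
        intro n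
        simp only [hv, hc]
        rw [cpt0_cpt0 hx, sub_self]
      simp only [this]
      exact tendsto_const_nhds⟩)
  have hgrad : ∀ x ∈ W, ∇ h x = G x := by
    intro x hx
    have : HasGradientAt h (G x) x := hhd x hx
    exact this.gradient
  refine ⟨φ, hφ, h, ?_, hh, ?_⟩
  · -- harmonicity
    have hhc : ContinuousOn h W := fun x hx => (hhd x hx).continuousAt.continuousWithinAt
    apply Crest.Agent.R097.weyl_cont hW hhc
    intro ψ hψ hψc hψs
    have hΔc := continuous_lap hψ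
    have hΔs := hasCompactSupport_lap hψc
    have hS : IsCompact (tsupport ψ) := hψc
    have hunif : TendstoUniformlyOn v h atTop (tsupport ψ) :=
      (tendstoLocallyUniformlyOn_iff_forall_isCompact hW).mp hh _ hψs hS
    have hev : ∀ᶠ n in atTop, tsupport ψ ⊆ V (φ n) :=
      hφ.tendsto_atTop.eventually (hVW _ hS hψs)
    have hcz : ∀ n, ∫ x, c n x * (Δ ψ) x = 0 := by
      intro n
      have := harm_wlap hW (LocConst_harm (hcl n)) ψ hψ hψc hψs
      rw [this]
      simp
    have hintc : ∀ n, Integrable fun x => c n x * (Δ ψ) x := by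
      intro n
      refine Crest.Agent.R097.int_mul_test
        ((LocConst_harm (hcl n)).1.continuousOn.locallyIntegrableOn hW.measurableSet) hΔc hΔs ?_
      exact (closure_minimal (fun x hx => by
        by_contra hcon
        exact hx (lap_eq_zero hcon)) (isClosed_tsupport ψ)).trans hψs
    have hΔts : tsupport (Δ ψ) ⊆ tsupport ψ := closure_minimal (fun x hx => by
        by_contra hcon
        exact hx (lap_eq_zero hcon)) (isClosed_tsupport ψ)
    have hval : ∀ᶠ n in atTop, ∫ x, v n x * (Δ ψ) x = ∫ x, f (φ n) x * ψ x := by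
      filter_upwards [hev] with n hn
      have hintu : Integrable fun x => u (φ n) x * (Δ ψ) x := by
        have hc1 : ContinuousOn (u (φ n)) (tsupport ψ) := (hu (φ n)).continuousOn.mono hn
        have hi : IntegrableOn (fun x => u (φ n) x * (Δ ψ) x) (tsupport ψ) :=
          (hc1.mul hΔc.continuousOn).integrableOn_compact hS
        rw [← integrableOn_univ]
        refine hi.of_forall_sdiff_eq_zero MeasurableSet.univ ?_
        intro x hx
        rw [lap_eq_zero hx.2, mul_zero]
      have e : ∀ x, v n x * (Δ ψ) x = u (φ n) x * (Δ ψ) x - c n x * (Δ ψ) x := by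
        intro x
        simp only [hv]
        ring
      simp only [e]
      rw [integral_sub hintu (hintc n), hcz n, sub_zero]
      exact hw (φ n) ψ hψ hψc hn
    -- right-hand side tends to 0
    have hr : Tendsto (fun n => ∫ x, f (φ n) x * ψ x) atTop (𝓝 0) := by
      have hAφ : Tendsto (fun n => A (φ n) * ∫ x, |ψ x|) atTop (𝓝 0) := by
        have := (hA.comp hφ.tendsto_atTop).mul_const (∫ x, |ψ x|)
        simpa using this
      refine squeeze_zero_norm' ?_ hAφ
      filter_upwards [hev] with n hn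
      refine (norm_integral_le_integral_norm _).trans ?_
      rw [← integral_const_mul]
      refine integral_mono_of_nonneg (Eventually.of_forall fun x => norm_nonneg _)
        ((hψ.continuous.abs.integrable_of_hasCompactSupport hψc.norm).const_mul _)
        (Eventually.of_forall fun x => ?_)
      simp only [norm_mul, Real.norm_eq_abs]
      by_cases hx : x ∈ tsupport ψ
      · exact mul_le_mul_of_nonneg_right (hfA _ x (hn hx)) (abs_nonneg _)
      · rw [image_eq_zero_of_notMem_tsupport hx]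
        simp
    -- left-hand side tends to the integral of the limit
    have hl : Tendsto (fun n => ∫ x, v n x * (Δ ψ) x) atTop (𝓝 (∫ x, h x * (Δ ψ) x)) := by
      rw [Metric.tendsto_atTop]
      intro ε hε
      set I : ℝ := ∫ x, |(Δ ψ) x| with hI
      have hI0 : 0 ≤ I := integral_nonneg fun x => abs_nonneg _
      rw [Metric.tendstoUniformlyOn_iff] at hunif
      have h1 := hunif (ε / (I + 1)) (by positivity)
      obtain ⟨N, hN⟩ := eventually_atTop.mp (h1.and hev)
      refine ⟨N, fun n hn => ?_⟩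
      obtain ⟨hn1, hn2⟩ := hN n hn
      have hinth : Integrable fun x => h x * (Δ ψ) x :=
        Crest.Agent.R097.int_mul_test (hhc.locallyIntegrableOn hW.measurableSet) hΔc hΔs
          (hΔts.trans hψs)
      have hintv : Integrable fun x => v n x * (Δ ψ) x := by
        have hc1 : ContinuousOn (v n) (tsupport ψ) :=
          ((hu (φ n)).continuousOn.mono hn2).sub ((LocConst_harm (hcl n)).1.continuousOn.mono hψs)
        have hi : IntegrableOn (fun x => v n x * (Δ ψ) x) (tsupport ψ) :=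
          (hc1.mul hΔc.continuousOn).integrableOn_compact hS
        rw [← integrableOn_univ]
        refine hi.of_forall_sdiff_eq_zero MeasurableSet.univ ?_
        intro x hx
        rw [lap_eq_zero hx.2, mul_zero]
      rw [Real.dist_eq, ← integral_sub hintv hinth]
      refine lt_of_le_of_lt (abs_integral_le_integral_abs) ?_
      calc ∫ x, |v n x * (Δ ψ) x - h x * (Δ ψ) x| ≤ ∫ x, ε / (I + 1) * |(Δ ψ) x| := by
            refine integral_mono (hintv.sub hinth).abs
              ((hΔc.abs.integrable_of_hasCompactSupport hΔs.norm).const_mul _) fun x => ?_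
            simp only
            rw [← sub_mul, abs_mul]
            by_cases hx : x ∈ tsupport ψ
            · apply mul_le_mul_of_nonneg_right _ (abs_nonneg _)
              have := hn1 x hx
              rw [Real.dist_eq, abs_sub_comm] at this
              exact this.le
            · rw [lap_eq_zero hx]
              simp
        _ = ε / (I + 1) * I := by rw [integral_const_mul]
        _ < ε := by
            rw [div_mul_eq_mul_div, div_lt_iff₀ (by positivity)]
            nlinarith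
    refine tendsto_nhds_unique hl (hr.congr' ?_)
    filter_upwards [hval] with n hn
    rw [hn]
  · -- gradients
    refine hG.congr_right ?_
    intro x hx
    exact (hgrad x hx).symm

end Crest.Agent.R135.Reg
end

-- ▼ part R135/RegQM

/-!
# Row 135 (Mumford-Shah): regularity and compactness off the crack in the class `IsQM`
(regularity toolbox, part 10)
-/

set_option autoImplicit false
open MeasureTheory Metric Set Filter Topology Laplacian InnerProductSpace
open scoped RealInnerProductSpace NNReal ENNReal ContDiff Gradient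

namespace Crest.Agent.R135
open Crest.Agent.R097 Crest.AnalysisR.PDE.OnePhase Crest.Agent.R135.Reg Crest.Agent.R135.Gl

/-- `C¹` functions on open sets are locally Lipschitz -/
theorem Reg.locLip_of_C1 {V : Set E2} (hV : IsOpen V) {u : E2 → ℝ}
    (hu : ContDiffOn ℝ 1 u V) : LocallyLipschitzOn V u := by
  intro x hx
  obtain ⟨K, t, ht, hK⟩ := (hu.contDiffAt (hV.mem_nhds hx)).exists_lipschitzOnWith
  exact ⟨K, t, mem_nhdsWithin_of_mem_nhds ht, hK⟩

/-- smooth test functions off the crack are admissible -/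
theorem Reg.isTest_smooth {U K : Set E2} {φ : E2 → ℝ} (hφ : ContDiff ℝ ∞ φ)
    (hc : HasCompactSupport φ) (hs : tsupport φ ⊆ U) : IsTest U K φ := by
  refine ⟨?_, ?_, ⟨tsupport φ, hc, hs, fun y hy => image_eq_zero_of_notMem_tsupport hy⟩, ?_⟩
  · have h : LocallyLipschitz φ := (hφ.of_le (by simp)).locallyLipschitz
    exact fun x _ => h.locallyLipschitzOn (by assumption)
  · obtain ⟨M, hM⟩ := hφ.continuous.bounded_above_of_compact_support hc
    exact ⟨M, fun y => by rw [← Real.norm_eq_abs]; exact hM y⟩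
  · unfold dirE
    have hgc : Continuous (fun x => ∇ φ x) := continuous_grad hφ
    have hgcs : HasCompactSupport (fun x => ∇ φ x) :=
      HasCompactSupport.of_support_subset_isCompact hc.isCompact (fun x hx => by
        by_contra h
        apply hx
        have : φ =ᶠ[𝓝 x] fun _ => (0 : ℝ) := by
          filter_upwards [(isClosed_tsupport φ).isOpen_compl.mem_nhds h] with y hy
          exact image_eq_zero_of_notMem_tsupport hy
        have h2 := this.gradient_eq
        exact h2.trans (gradient_const x 0))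
    refine lt_of_le_of_lt (lintegral_mono_set (subset_univ _)) ?_
    rw [Measure.restrict_univ]
    have h2 : MemLp (fun x => ∇ φ x) 2 := hgc.memLp_of_hasCompactSupport hgcs
    have h3 := h2.2
    rw [eLpNorm_lt_top_iff_lintegral_rpow_enorm_lt_top (by norm_num) (by norm_num)] at h3
    simpa using h3

/-- **weak equation off the crack** -/
theorem IsQM.wlap {U K : Set E2} {lam : ℝ} {u : E2 → ℝ} (h : IsQM U lam u K) :
    ∃ f : E2 → ℝ, Measurable f ∧ (∀ x, |f x| ≤ lam) ∧ WLap (U \ K) u f := by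
  obtain ⟨f, hfm, hf, hel⟩ := h.el
  refine ⟨f, hfm, hf, ?_⟩
  have hV : IsOpen (U \ K) := isOpen_compl_of_relClosed h.isOpen h.closed
  refine wlap_of_weakGrad (isWeakGradOn_of_locallyLipschitzOn hV
    (Reg.locLip_of_C1 hV h.c1)) ?_
  intro φ hφ hc hs
  have h1 := hel φ (Reg.isTest_smooth hφ hc (hs.trans sdiff_subset))
  rw [h1]
  congr 1
  refine setIntegral_eq_of_subset_of_forall_sdiff_eq_zero h.isOpen.measurableSet sdiff_subset ?_
  intro x hx
  have : x ∉ tsupport φ := fun hcon => hx.2 (hs hcon)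
  rw [image_eq_zero_of_notMem_tsupport this, mul_zero]

/-- gradient bound: half ball, by the energy in the ball -/
theorem IsQM.gradient_bound : ∃ C : ℝ, 0 < C ∧ ∀ {U K : Set E2} {lam : ℝ} {u : E2 → ℝ},
    IsQM U lam u K → ∀ (x : E2) (R E : ℝ), 0 < R → ball x R ⊆ U \ K → 0 ≤ E →
    dirE u K (ball x R) ≤ ENNReal.ofReal E →
    ∀ y ∈ ball x (R / 2), ‖∇ u y‖ ≤ C * √E / R + C * lam * R := by
  obtain ⟨C, hC, hb⟩ := fderiv_bound_L2
  refine ⟨C, hC, ?_⟩
  intro U K lam u h x R E hR hsub hE hE2 y hy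
  obtain ⟨f, hfm, hf, hw⟩ := h.wlap
  rw [Crest.Agent.R097.norm_grad]
  refine hb u f x R lam E hR (h.c1.mono hsub) hfm.aestronglyMeasurable (fun y _ => hf y)
    (hw.mono hsub) hE ?_ y hy
  unfold dirE at hE2
  have : ball x R \ K = ball x R := by
    ext z
    exact ⟨fun hz => hz.1, fun hz => ⟨hz, (hsub hz).2⟩⟩
  rw [this] at hE2
  simpa only [enorm_gradient] using hE2


/-- **Compactness off the crack for quasi-minimizers.** -/
theorem IsQM.exists_limit {U K : ℕ → Set E2} {lam : ℕ → ℝ} {u : ℕ → E2 → ℝ}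
    (h : ∀ n, IsQM (U n) (lam n) (u n) (K n)) (hlam : Tendsto lam atTop (𝓝 0))
    {W : Set E2} (hW : IsOpen W)
    (hVW : ∀ C, IsCompact C → C ⊆ W → ∀ᶠ n in atTop, C ⊆ U n \ K n)
    (hE : ∀ x ∈ W, ∃ r > 0, ∃ B : ℝ≥0∞, B < ⊤ ∧ ∀ᶠ n in atTop, dirE (u n) (K n) (ball x r) ≤ B) :
    ∃ φ : ℕ → ℕ, StrictMono φ ∧ ∃ v : E2 → ℝ, Harm v W ∧
      TendstoLocallyUniformlyOn (fun n x => u (φ n) x - u (φ n) (cpt0 W x)) v atTop W ∧
      TendstoLocallyUniformlyOn (fun n x => ∇ (u (φ n)) x) (fun x => ∇ v x) atTop W := by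
  choose f hfm hf hw using fun n => (h n).wlap
  refine Reg.exists_limit hW (V := fun n => U n \ K n) (f := f) (A := lam) hVW
    (fun n => (h n).c1) (fun n => (hfm n).aestronglyMeasurable) (fun n x _ => hf n x) hlam hw ?_
  intro x hx
  obtain ⟨r, hr, B, hB, hBn⟩ := hE x hx
  refine ⟨r, hr, B, hB, ?_⟩
  filter_upwards [hBn] with n hn
  refine le_trans (lintegral_mono_set ?_) hn
  rintro y ⟨hy1, hy2⟩
  exact ⟨hy1, hy2.2⟩

/-- harmonicity of `u` off the crack when `lam = 0` -/
theorem IsQM.harm {U K : Set E2} {u : E2 → ℝ} (h : IsQM U 0 u K) : Harm u (U \ K) := by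
  obtain ⟨f, hfm, hf, hw⟩ := h.wlap
  have h0 : ∀ x, f x = 0 := fun x => abs_nonpos_iff.mp (hf x)
  refine Crest.Agent.R097.weyl_cont (isOpen_compl_of_relClosed h.isOpen h.closed)
    h.c1.continuousOn ?_
  intro φ hφ hc hs
  rw [hw φ hφ hc hs]
  simp [h0]

end Crest.Agent.R135
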