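import Mathlib
import Crest.Agent.R135.QMBasic
import Crest.Agent.R135.PolarE
import Crest.Agent.R135.FV4
import Crest.Agent.R135.IFDefs
import Crest.Agent.R135.GMT2
import Crest.Agent.R135.Conc3
import Crest.Agent.R135.DLS
import Crest.Agent.R135.RegQM
import Crest.Agent.R135.Fell

-- ▼ part R135/LimA
section

/-!
# R135, block BL (helper517): convergence of sequences in the class `IsQM`

`LimSeq U lam u K u0 K0` says that `(u n, K n)` (quasi-minimizers in `U n` exhausting the plane,
`lam n → 0`) converges to `(u0, K0)`: local convergence of the closed sets, local uniform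
convergence of the gradients off `K0`.

This file: the constants.  `Rel` is the equivalence relation "`u n - u0` has asymptotically the same
value at `y` and `z` and every locally constant function off `K n` takes the same value there";
classes of points off `K0` are open.  `rep` chooses representatives.
-/

set_option autoImplicit false

open MeasureTheory Set Filter Topology Metric
open scoped ENNReal NNReal ContDiff Gradient

namespace Crest.Agent.R135.Lim

open Crest.Agent.R135

/-- local convergence of `(u n, K n)` to `(u0, K0)` -/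
structure LimSeq (U : ℕ → Set E2) (lam : ℕ → ℝ) (u : ℕ → E2 → ℝ) (K : ℕ → Set E2)
    (u0 : E2 → ℝ) (K0 : Set E2) : Prop where
  qm : ∀ n, IsQM (U n) (lam n) (u n) (K n)
  lam_lim : Tendsto lam atTop (𝓝 0)
  exh : ∀ C : Set E2, IsCompact C → ∀ᶠ n in atTop, C ⊆ U n
  closed : IsClosed K0
  c1 : ContDiffOn ℝ 1 u0 K0ᶜ
  k1 : ∀ C : Set E2, IsCompact C → Disjoint C K0 → ∀ᶠ n in atTop, Disjoint C (K n)
  k2 : ∀ x ∈ K0, ∀ r : ℝ, 0 < r → ∀ᶠ n in atTop, (K n ∩ ball x r).Nonempty
  grad : TendstoLocallyUniformlyOn (fun n => gradient (u n)) (gradient u0) atTop K0ᶜ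

theorem norm_gradient_eq_norm_fderiv (f : E2 → ℝ) (x : E2) : ‖gradient f x‖ = ‖fderiv ℝ f x‖ := by
  unfold gradient
  rw [LinearIsometryEquiv.norm_map]

theorem norm_gradient_sub_eq (f g : E2 → ℝ) (x : E2) :
    ‖gradient f x - gradient g x‖ = ‖fderiv ℝ f x - fderiv ℝ g x‖ := by
  unfold gradient
  rw [← map_sub, LinearIsometryEquiv.norm_map]

theorem qm_differentiableAt {U : Set E2} {lam : ℝ} {u : E2 → ℝ} {K : Set E2} (h : IsQM U lam u K)
    {x : E2} (hx : x ∈ U \ K) : DifferentiableAt ℝ u x :=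
  (h.c1.differentiableOn (by norm_num)).differentiableAt (h.isOpen_diff.mem_nhds hx)

variable {U : ℕ → Set E2} {lam : ℕ → ℝ} {u : ℕ → E2 → ℝ} {K : ℕ → Set E2}
    {u0 : E2 → ℝ} {K0 : Set E2}

/-- asymptotic equivalence of points -/
def Rel (U : ℕ → Set E2) (u : ℕ → E2 → ℝ) (K : ℕ → Set E2) (u0 : E2 → ℝ) (y z : E2) : Prop :=
  Tendsto (fun n => (u n y - u0 y) - (u n z - u0 z)) atTop (𝓝 0) ∧
    ∀ᶠ n in atTop, ∀ c : E2 → ℝ, LocConstOn (U n \ K n) c → c y = c z

theorem Rel.refl (y : E2) : Rel U u K u0 y y := by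
  refine ⟨?_, Eventually.of_forall fun n c _ => rfl⟩
  simp

theorem Rel.symm {y z : E2} (h : Rel U u K u0 y z) : Rel U u K u0 z y := by
  refine ⟨?_, h.2.mono fun n hn c hc => (hn c hc).symm⟩
  have := h.1.neg
  simpa using this

theorem Rel.trans {y z w : E2} (h : Rel U u K u0 y z) (h' : Rel U u K u0 z w) :
    Rel U u K u0 y w := by
  refine ⟨?_, ?_⟩
  · have := h.1.add h'.1
    simpa using this
  · filter_upwards [h.2, h'.2] with n h1 h2 c hc
    rw [h1 c hc, h2 c hc]

/-- the setoid of asymptotic equivalence -/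
def relSetoid (U : ℕ → Set E2) (u : ℕ → E2 → ℝ) (K : ℕ → Set E2) (u0 : E2 → ℝ) : Setoid E2 where
  r := Rel U u K u0
  iseqv := ⟨fun y => Rel.refl y, fun h => h.symm, fun h h' => h.trans h'⟩

/-- representative of the class of `y` -/
noncomputable def rep (U : ℕ → Set E2) (u : ℕ → E2 → ℝ) (K : ℕ → Set E2) (u0 : E2 → ℝ) (y : E2) :
    E2 := (Quotient.mk (relSetoid U u K u0) y).out

theorem rel_rep (y : E2) : Rel U u K u0 (rep U u K u0 y) y :=
  Quotient.exact (s := relSetoid U u K u0) (Quotient.out_eq _)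

theorem rep_eq_of_rel {y z : E2} (h : Rel U u K u0 y z) : rep U u K u0 y = rep U u K u0 z := by
  unfold rep
  rw [Quotient.sound (s := relSetoid U u K u0) h]

/-- a locally constant function is constant on preconnected sets -/
theorem locConst_eq_of_isPreconnected {W : Set E2} {c : E2 → ℝ} (hc : LocConstOn W c) {A : Set E2}
    (hA : IsPreconnected A) (hAW : A ⊆ W) {y z : E2} (hy : y ∈ A) (hz : z ∈ A) : c y = c z := by
  have hcont : ContinuousOn (X := E2) (Y := ℝ) c A := by
    intro x hx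
    have h1 : c =ᶠ[𝓝 x] fun _ => c x := hc x (hAW hx)
    exact (h1.continuousAt).continuousWithinAt
  -- use clopen argument
  by_contra hne
  have h1 : IsPreconnected (c '' A) := hA.image c hcont
  let O : Set E2 := interior {x | c x = c y}
  let O' : Set E2 := interior {x | c x ≠ c y}
  have hcov : A ⊆ O ∪ O' := by
    intro x hx
    have h2 : ∀ᶠ t in 𝓝 x, c t = c x := hc x (hAW hx)
    by_cases h3 : c x = c y
    · left
      rw [mem_interior_iff_mem_nhds]
      filter_upwards [h2] with t ht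
      simp [ht, h3]
    · right
      rw [mem_interior_iff_mem_nhds]
      filter_upwards [h2] with t ht
      simp [ht, h3]
  have hyO : y ∈ O := by
    rcases hcov hy with h | h
    · exact h
    · have h5 : y ∈ {x | c x ≠ c y} := interior_subset h
      exact absurd rfl h5
  have hzO : z ∈ O' := by
    rcases hcov hz with h | h
    · have h5 : z ∈ {x | c x = c y} := interior_subset h
      exact absurd (Eq.symm h5) hne
    · exact h
  obtain ⟨t, -, ht1, ht2⟩ := hA O O' isOpen_interior isOpen_interior hcov ⟨y, hy, hyO⟩ ⟨z, hz, hzO⟩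
  have h6 : t ∈ {x | c x ≠ c y} := interior_subset ht2
  have h7 : t ∈ {x | c x = c y} := interior_subset ht1
  exact h6 h7

theorem LimSeq.eventually_sub (h : LimSeq U lam u K u0 K0) {C : Set E2} (hC : IsCompact C)
    (hCK : C ⊆ K0ᶜ) : ∀ᶠ n in atTop, C ⊆ U n \ K n := by
  filter_upwards [h.exh C hC, h.k1 C hC (disjoint_left.2 fun x hx => hCK hx)] with n h1 h2
  exact fun x hx => ⟨h1 hx, fun hx' => (disjoint_left.1 h2 hx) hx'⟩

theorem LimSeq.eventually_grad (h : LimSeq U lam u K u0 K0) {C : Set E2} (hC : IsCompact C)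
    (hCK : C ⊆ K0ᶜ) {ε : ℝ} (hε : 0 < ε) :
    ∀ᶠ n in atTop, ∀ z ∈ C, ‖gradient (u n) z - gradient u0 z‖ ≤ ε := by
  have h1 := (tendstoLocallyUniformlyOn_iff_forall_isCompact h.closed.isOpen_compl).1 h.grad C hCK hC
  rw [Metric.tendstoUniformlyOn_iff] at h1
  filter_upwards [h1 ε hε] with n hn z hz
  have := hn z hz
  rw [dist_eq_norm, norm_sub_rev] at this
  exact this.le

theorem LimSeq.diffAt0 (h : LimSeq U lam u K u0 K0) {x : E2} (hx : x ∉ K0) :
    DifferentiableAt ℝ u0 x :=
  (h.c1.differentiableOn (by norm_num)).differentiableAt (h.closed.isOpen_compl.mem_nhds hx)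

/-- local statement at a point off `K0` -/
theorem LimSeq.local (h : LimSeq U lam u K u0 K0) {y : E2} {r : ℝ}
    (hr : closedBall y r ⊆ K0ᶜ) {ε : ℝ} (hε : 0 < ε) :
    ∀ᶠ n in atTop, ∀ z ∈ closedBall y r,
      |(u n z - u0 z) - (u n y - u0 y)| ≤ ε ∧
      ∀ c : E2 → ℝ, LocConstOn (U n \ K n) c → c z = c y := by
  rcases lt_or_ge r 0 with hneg | hr0
  · filter_upwards with n z hz
    rw [closedBall_eq_empty.2 hneg] at hz
    exact absurd hz (notMem_empty z)
  have hε' : 0 < ε / (r + 1) := by positivity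
  filter_upwards [h.eventually_sub (isCompact_closedBall y r) hr,
    h.eventually_grad (isCompact_closedBall y r) hr hε'] with n h1 h2 z hz
  have hy : y ∈ closedBall y r := mem_closedBall_self hr0
  refine ⟨?_, fun c hc => ?_⟩
  · have hd : ∀ x ∈ closedBall y r, HasFDerivWithinAt (fun t => u n t - u0 t)
        (fderiv ℝ (u n) x - fderiv ℝ u0 x) (closedBall y r) x := by
      intro x hx
      have e1 := (qm_differentiableAt (h.qm n) (h1 hx)).hasFDerivAt
      have e2 := (h.diffAt0 (hr hx)).hasFDerivAt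
      exact (e1.sub e2).hasFDerivWithinAt
    have hb : ∀ x ∈ closedBall y r, ‖fderiv ℝ (u n) x - fderiv ℝ u0 x‖ ≤ ε / (r + 1) := by
      intro x hx
      rw [← norm_gradient_sub_eq]
      exact h2 x hx
    have h3 := (convex_closedBall y r).norm_image_sub_le_of_norm_hasFDerivWithin_le hd hb hy hz
    rw [Real.norm_eq_abs] at h3
    refine h3.trans ?_
    have h4 : ‖z - y‖ ≤ r := by rw [← dist_eq_norm]; exact hz
    calc ε / (r + 1) * ‖z - y‖ ≤ ε / (r + 1) * (r + 1) := by
          gcongr; linarith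
      _ = ε := by field_simp
  · exact locConst_eq_of_isPreconnected hc (convex_closedBall y r).isPreconnected h1 hz hy

theorem LimSeq.rel_of_mem (h : LimSeq U lam u K u0 K0) {y : E2} {r : ℝ}
    (hr : closedBall y r ⊆ K0ᶜ) {z : E2} (hz : z ∈ closedBall y r) : Rel U u K u0 z y := by
  refine ⟨?_, (h.local hr one_pos).mono fun n hn c hc => (hn z hz).2 c hc⟩
  rw [Metric.tendsto_nhds]
  intro ε hε
  filter_upwards [h.local hr (half_pos hε)] with n hn
  rw [Real.dist_eq, sub_zero]
  exact ((hn z hz).1).trans_lt (half_lt_self hε)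

theorem LimSeq.exists_ball (h : LimSeq U lam u K u0 K0) {y : E2} (hy : y ∉ K0) :
    ∃ r : ℝ, 0 < r ∧ closedBall y r ⊆ K0ᶜ := by
  obtain ⟨r, hr, hrs⟩ := Metric.nhds_basis_closedBall.mem_iff.1 (h.closed.isOpen_compl.mem_nhds hy)
  exact ⟨r, hr, hrs⟩

/-- `rep` is locally constant off `K0` -/
theorem LimSeq.rep_locConst (h : LimSeq U lam u K u0 K0) {y : E2} (hy : y ∉ K0) :
    ∀ᶠ z in 𝓝 y, rep U u K u0 z = rep U u K u0 y := by
  obtain ⟨r, hr, hrs⟩ := h.exists_ball hy
  filter_upwards [closedBall_mem_nhds y hr] with z hz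
  exact rep_eq_of_rel (h.rel_of_mem hrs hz)

/-- the normalised difference -/
noncomputable def errF (U : ℕ → Set E2) (u : ℕ → E2 → ℝ) (K : ℕ → Set E2) (u0 : E2 → ℝ) (n : ℕ)
    (z : E2) : ℝ :=
  (u n z - u0 z) - (u n (rep U u K u0 z) - u0 (rep U u K u0 z))

/-- uniform statement on compact sets off `K0` -/
theorem LimSeq.compact (h : LimSeq U lam u K u0 K0) {C : Set E2} (hC : IsCompact C)
    (hCK : C ⊆ K0ᶜ) {ε : ℝ} (hε : 0 < ε) :
    ∀ᶠ n in atTop, ∀ z ∈ C, |errF U u K u0 n z| ≤ ε ∧
      ∀ c : E2 → ℝ, LocConstOn (U n \ K n) c → c z = c (rep U u K u0 z) := by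
  have key : ∀ y ∈ C, ∃ V ∈ 𝓝[C] y, ∀ᶠ n in atTop, ∀ z ∈ V, |errF U u K u0 n z| ≤ ε ∧
      ∀ c : E2 → ℝ, LocConstOn (U n \ K n) c → c z = c (rep U u K u0 z) := by
    intro y hy
    obtain ⟨r, hr, hrs⟩ := h.exists_ball (hCK hy)
    refine ⟨closedBall y r, mem_nhdsWithin_of_mem_nhds (closedBall_mem_nhds y hr), ?_⟩
    have h1 := (rel_rep (U := U) (u := u) (K := K) (u0 := u0) y)
    have h2 := (Metric.tendsto_nhds.1 h1.1) (ε / 2) (half_pos hε)
    filter_upwards [h.local hrs (half_pos hε), h2, h1.2] with n e1 e2 e3 z hz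
    have hrep : rep U u K u0 z = rep U u K u0 y := rep_eq_of_rel (h.rel_of_mem hrs hz)
    refine ⟨?_, fun c hc => ?_⟩
    · unfold errF
      rw [hrep]
      rw [Real.dist_eq, sub_zero] at e2
      have e4 := (e1 z hz).1
      rw [abs_le] at e4 ⊢
      rw [abs_lt] at e2
      constructor <;> linarith [e4.1, e4.2, e2.1, e2.2]
    · rw [hrep, e3 c hc]
      exact (e1 z hz).2 c hc
  choose! V hV hVn using key
  obtain ⟨t, ht, htC⟩ := hC.elim_nhdsWithin_subcover V hV
  have : ∀ᶠ n in atTop, ∀ y ∈ t, ∀ z ∈ V y, |errF U u K u0 n z| ≤ ε ∧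
      ∀ c : E2 → ℝ, LocConstOn (U n \ K n) c → c z = c (rep U u K u0 z) := by
    rw [Filter.eventually_all_finset]
    intro y hy
    exact hVn y (ht y hy)
  filter_upwards [this] with n hn z hz
  obtain ⟨y, hy, hzy⟩ := mem_iUnion₂.1 (htC hz)
  exact hn y hy z hzy

/-- pull-back of a locally constant function off `K n` to a locally constant function off `K0` -/
theorem LimSeq.locConst_comp_rep (h : LimSeq U lam u K u0 K0) (c : E2 → ℝ) :
    LocConstOn (univ \ K0) (fun z => c (rep U u K u0 z)) := by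
  intro y hy
  filter_upwards [h.rep_locConst hy.2] with z hz
  simp [hz]

end Crest.Agent.R135.Lim
end

-- ▼ part R135/LimB
section

/-!
# R135, block BL (helper517): ingredients of the transplantation of competitors
-/

set_option autoImplicit false

open MeasureTheory Set Filter Topology Metric
open scoped ENNReal NNReal ContDiff Gradient Manifold

namespace Crest.Agent.R135.Lim

open Crest.Agent.R135

/-- smooth cut-off in the plane -/
theorem exists_cutoffE2 {C W : Set E2} (hC : IsCompact C) (hW : IsOpen W) (hCW : C ⊆ W) :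
    ∃ χ : E2 → ℝ, ContDiff ℝ ∞ χ ∧ HasCompactSupport χ ∧ tsupport χ ⊆ W ∧
      (∀ᶠ y in 𝓝ˢ C, χ y = 1) ∧ (∀ y ∈ C, χ y = 1) ∧ ∀ y, χ y ∈ Icc (0 : ℝ) 1 := by
  obtain ⟨V, hVo, hKV, hVΩ, hVc⟩ := exists_open_between_and_isCompact_closure hC hW hCW
  obtain ⟨f, hf1, hf0, hf⟩ := exists_contMDiffMap_one_nhds_of_subset_interior
    (modelWithCornersSelf ℝ E2) (n := (⊤ : ℕ∞)) hC.isClosed (t := V)
    (hKV.trans (interior_eq_iff_isOpen.mpr hVo).ge)
  have hsm : ContDiff ℝ ∞ (f : E2 → ℝ) := f.contMDiff.contDiff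
  have hts : tsupport (f : E2 → ℝ) ⊆ closure V := by
    apply closure_mono
    intro x hx
    by_contra h
    exact hx (hf0 x h)
  have hcs : HasCompactSupport (f : E2 → ℝ) := hVc.of_isClosed_subset isClosed_closure hts
  exact ⟨f, hsm, hcs, hts.trans hVΩ, hf1, fun y hy => hf1.self_of_nhdsSet y hy, hf⟩

/-- a closed neighbourhood (in the sphere) of a null compact subset of the sphere, with small
length -/
theorem exists_small_nhd {x : E2} {s : ℝ} (hs : 0 < s) {A : Set E2} (hA : IsCompact A)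
    (hlen : len A = 0) {ε : ℝ≥0∞} (hε : 0 < ε) :
    ∃ δ : ℝ, 0 < δ ∧ len (cthickening δ A ∩ sphere x s) ≤ ε := by
  have hfin : IsFiniteMeasure ((Measure.hausdorffMeasure 1 : Measure E2).restrict (sphere x s)) := by
    refine ⟨?_⟩
    rw [Measure.restrict_apply_univ]
    exact (hausdorff_sphere_le x hs).trans_lt ENNReal.ofReal_lt_top
  have h0 : (Measure.hausdorffMeasure 1 : Measure E2).restrict (sphere x s) A < ε := by
    refine lt_of_le_of_lt (Measure.restrict_apply_le _ _) ?_
    have : (Measure.hausdorffMeasure 1 : Measure E2) A = 0 := hlen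
    rw [this]; exact hε
  obtain ⟨O, hAO, hO, hOε⟩ := A.exists_isOpen_lt_of_lt ε h0
  obtain ⟨δ, hδ, hδO⟩ := hA.exists_cthickening_subset_open hO hAO
  refine ⟨δ, hδ, ?_⟩
  have h1 : len (cthickening δ A ∩ sphere x s) =
      (Measure.hausdorffMeasure 1 : Measure E2).restrict (sphere x s) (cthickening δ A) := by
    rw [Measure.restrict_apply isClosed_cthickening.measurableSet]
    rfl
  rw [h1]
  exact (measure_mono hδO).trans hOε.le

/-- norm of the gradient of a sum, second function differentiable -/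
theorem norm_gradient_add_le {w F : E2 → ℝ} {y : E2} (hF : DifferentiableAt ℝ F y) :
    ‖gradient (fun z => w z + F z) y‖ ≤ ‖gradient w y‖ + ‖gradient F y‖ := by
  rw [norm_gradient_eq_norm_fderiv, norm_gradient_eq_norm_fderiv, norm_gradient_eq_norm_fderiv]
  by_cases hw : DifferentiableAt ℝ w y
  · have : fderiv ℝ (fun z => w z + F z) y = fderiv ℝ w y + fderiv ℝ F y := fderiv_fun_add hw hF
    rw [this]
    exact norm_add_le _ _
  · have : ¬ DifferentiableAt ℝ (fun z => w z + F z) y := by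
      intro h
      apply hw
      have h2 : DifferentiableAt ℝ (fun z => (w z + F z) - F z) y := h.fun_sub hF
      simpa using h2
    rw [fderiv_zero_of_not_differentiableAt this, norm_zero]
    positivity

theorem gradient_congr_nhds {w w' : E2 → ℝ} {x : E2} (h : w =ᶠ[𝓝 x] w') :
    gradient w x = gradient w' x := by
  unfold gradient
  rw [h.fderiv_eq]

theorem sq_add_le_ofReal (a : ℝ) (ha : 0 ≤ a) (b : ℝ) (hb : 0 ≤ b) {t : ℝ} (ht : 0 < t) :
    (ENNReal.ofReal (a + b)) ^ 2 ≤ ENNReal.ofReal (1 + t) * (ENNReal.ofReal a) ^ 2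
      + ENNReal.ofReal ((1 + 1 / t) * b ^ 2) := by
  rw [← ENNReal.ofReal_pow (by positivity), ← ENNReal.ofReal_pow ha,
    ← ENNReal.ofReal_mul (by positivity), ← ENNReal.ofReal_add (by positivity) (by positivity)]
  apply ENNReal.ofReal_le_ofReal
  have h1 : 0 ≤ (t * a - b) ^ 2 / t := by positivity
  have h2 : (1 + t) * a ^ 2 + (1 + 1 / t) * b ^ 2 - (a + b) ^ 2 = (t * a - b) ^ 2 / t := by
    field_simp
    ring
  linarith

/-- energy of a perturbation: abstract estimate -/
theorem lintegral_sq_perturb_le {B : Set E2} {f g : E2 → ℝ}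
    (hg : ∀ x, 0 ≤ g x) {η t : ℝ} (hη : 0 ≤ η) (ht : 0 < t)
    (hfg : ∀ᵐ x ∂volume.restrict B, 0 ≤ f x ∧ f x ≤ g x + η) (hgm : Measurable g) :
    ∫⁻ x in B, (ENNReal.ofReal (f x)) ^ 2 ≤
      ENNReal.ofReal (1 + t) * (∫⁻ x in B, (ENNReal.ofReal (g x)) ^ 2)
        + ENNReal.ofReal ((1 + 1 / t) * η ^ 2) * volume B := by
  calc ∫⁻ x in B, (ENNReal.ofReal (f x)) ^ 2
      ≤ ∫⁻ x in B, (ENNReal.ofReal (1 + t) * (ENNReal.ofReal (g x)) ^ 2
        + ENNReal.ofReal ((1 + 1 / t) * η ^ 2)) := by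
        apply lintegral_mono_ae
        filter_upwards [hfg] with x hx
        refine le_trans ?_ (sq_add_le_ofReal (g x) (hg x) η hη ht)
        gcongr
        exact hx.2
    _ = _ := by
        rw [lintegral_add_right _ measurable_const, lintegral_const_mul _
          (by fun_prop), lintegral_const, Measure.restrict_apply_univ]

variable {U : ℕ → Set E2} {lam : ℕ → ℝ} {u : ℕ → E2 → ℝ} {K : ℕ → Set E2}
    {u0 : E2 → ℝ} {K0 : Set E2}

open Classical in
/-- `χ * errF n` is differentiable with small gradient. -/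
theorem LimSeq.cutoff_err (h : LimSeq U lam u K u0 K0) {χ : E2 → ℝ} (hχ : ContDiff ℝ ∞ χ)
    (hχc : HasCompactSupport χ) (hχs : tsupport χ ⊆ K0ᶜ) (hχ1 : ∀ y, χ y ∈ Icc (0 : ℝ) 1)
    {η : ℝ} (hη : 0 < η) :
    ∀ᶠ n in atTop, Differentiable ℝ (fun z => χ z * errF U u K u0 n z) ∧
      ∀ z, ‖gradient (fun z => χ z * errF U u K u0 n z) z‖ ≤ η := by
  have hcont : Continuous (fderiv ℝ χ) := hχ.continuous_fderiv (by norm_num)
  obtain ⟨M, hM⟩ : ∃ M : ℝ, ∀ z, ‖fderiv ℝ χ z‖ ≤ M := by
    have h1 : HasCompactSupport (fderiv ℝ χ) := hχc.fderiv ℝ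
    obtain ⟨M, hM⟩ := h1.exists_bound_of_continuous hcont
    exact ⟨M, hM⟩
  have hM0 : 0 ≤ M := (norm_nonneg _).trans (hM 0)
  set η1 : ℝ := η / (M + 1) with hη1
  have hη1p : 0 < η1 := by positivity
  have hd : Differentiable ℝ χ := hχ.differentiable (by norm_num)
  filter_upwards [h.eventually_sub hχc hχs, h.compact hχc hχs hη1p,
    h.eventually_grad hχc hχs hη1p] with n h1 h2 h3
  have key : ∀ z, HasFDerivAt (fun z => χ z * errF U u K u0 n z)
      (if z ∈ tsupport χ then χ z • (fderiv ℝ (u n) z - fderiv ℝ u0 z)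
        + errF U u K u0 n z • fderiv ℝ χ z else 0) z := by
    intro z
    split_ifs with hz
    · have e1 := (qm_differentiableAt (h.qm n) (h1 hz)).hasFDerivAt
      have e2 := (h.diffAt0 (hχs hz)).hasFDerivAt
      have e3 : HasFDerivAt (errF U u K u0 n) (fderiv ℝ (u n) z - fderiv ℝ u0 z) z := by
        have e4 : HasFDerivAt (fun y => (u n y - u0 y)
            - (u n (rep U u K u0 z) - u0 (rep U u K u0 z)))
            (fderiv ℝ (u n) z - fderiv ℝ u0 z) z := (e1.sub e2).sub_const _
        refine e4.congr_of_eventuallyEq ?_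
        filter_upwards [h.rep_locConst (hχs hz)] with y hy
        simp only [errF, hy]
      exact (hd z).hasFDerivAt.mul e3
    · have : (fun z => χ z * errF U u K u0 n z) =ᶠ[𝓝 z] fun _ => 0 := by
        filter_upwards [(isClosed_tsupport χ).isOpen_compl.mem_nhds hz] with y hy
        rw [image_eq_zero_of_notMem_tsupport hy, zero_mul]
      exact (hasFDerivAt_const 0 z).congr_of_eventuallyEq this
  refine ⟨fun z => (key z).differentiableAt, fun z => ?_⟩
  rw [norm_gradient_eq_norm_fderiv, (key z).fderiv]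
  split_ifs with hz
  · have hb1 : ‖fderiv ℝ (u n) z - fderiv ℝ u0 z‖ ≤ η1 := by
      rw [← norm_gradient_sub_eq]; exact h3 z hz
    have hb2 : |errF U u K u0 n z| ≤ η1 := (h2 z hz).1
    calc ‖χ z • (fderiv ℝ (u n) z - fderiv ℝ u0 z) + errF U u K u0 n z • fderiv ℝ χ z‖
        ≤ ‖χ z • (fderiv ℝ (u n) z - fderiv ℝ u0 z)‖ + ‖errF U u K u0 n z • fderiv ℝ χ z‖ :=
          norm_add_le _ _
      _ = |χ z| * ‖fderiv ℝ (u n) z - fderiv ℝ u0 z‖ + |errF U u K u0 n z| * ‖fderiv ℝ χ z‖ := by
          rw [norm_smul, norm_smul, Real.norm_eq_abs, Real.norm_eq_abs]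
      _ ≤ 1 * η1 + η1 * M := by
          have h01 := hχ1 z
          have : |χ z| ≤ 1 := by rw [abs_of_nonneg h01.1]; exact h01.2
          gcongr
          exact hM z
      _ = η := by rw [hη1]; field_simp; ring
  · rw [norm_zero]; exact hη.le

end Crest.Agent.R135.Lim
end

-- ▼ part R135/LimC
section

/-!
# R135, block BL (helper517): transplantation of competitors from the limit to level `n`
-/

set_option autoImplicit false

open MeasureTheory Set Filter Topology Metric
open scoped ENNReal NNReal ContDiff Gradient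

namespace Crest.Agent.R135.Lim

open Crest.Agent.R135

theorem isClosed_of_closure_univ {L : Set E2} (hL : closure L ∩ univ ⊆ L) : IsClosed L := by
  rw [inter_univ] at hL
  exact isClosed_of_closure_subset hL

theorem len_mono {A B : Set E2} (h : A ⊆ B) : len A ≤ len B := measure_mono h

theorem len_union_le (A B : Set E2) : len (A ∪ B) ≤ len A + len B := measure_union_le A B

variable {U : ℕ → Set E2} {lam : ℕ → ℝ} {u : ℕ → E2 → ℝ} {K : ℕ → Set E2}
    {u0 : E2 → ℝ} {K0 : Set E2}

/-- the transplanted set -/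
def tpL (K : Set E2) (L Z : Set E2) (x : E2) (s : ℝ) : Set E2 :=
  (K \ closedBall x s) ∪ Z ∪ (L ∩ closedBall x s)

open Classical in
/-- the transplanted function -/
noncomputable def tpW (u v : E2 → ℝ) (x : E2) (s : ℝ) (z : E2) : ℝ :=
  if z ∈ closedBall x s then v z else u z

open Classical in
/-- transplantation gives a competitor at level `n` (one level, abstract form) -/
theorem transplant_isComp {U K K0 L Z S : Set E2} {lam : ℝ} {u u0 w c' F : E2 → ℝ} {r : E2 → E2}
    {x : E2} {ρ s η : ℝ} (hqm : IsQM U lam u K) (hc : IsComp univ u0 K0 x ρ w L)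
    (hlen : len (K0 ∩ closedBall x s) < ⊤) (hU : closedBall x s ⊆ U)
    (hZ : IsClosed Z) (hZs : Z ⊆ sphere x s) (hZl : len Z < ⊤) (hSZ : sphere x s ⊆ S ∪ Z)
    (hSK0 : S ⊆ K0ᶜ) (hSρ : S ⊆ (closedBall x ρ)ᶜ) (hSK : S ⊆ U \ K)
    (hr : ∀ y, y ∉ K0 → ∀ᶠ z in 𝓝 y, r z = r y)
    (hc' : LocConstOn (univ \ L) c')
    (hcc : ∀ y ∈ univ \ (K0 ∪ closedBall x ρ), c' y = u (r y) - u0 (r y))
    (hF : LipschitzWith (Real.toNNReal η) F)
    (hFS : ∀ y ∈ S, F y = (u y - u0 y) - (u (r y) - u0 (r y)))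
    (hcS : ∀ y ∈ S, ∀ c : E2 → ℝ, LocConstOn (U \ K) c → c y = c (r y)) :
    IsComp U u K x s (tpW u (fun z => w z + c' z + F z) x s) (tpL K L Z x s) := by
  have hLcl : IsClosed L := isClosed_of_closure_univ hc.closed
  have hLcb : L ∩ closedBall x s ⊆ (L ∩ closedBall x ρ) ∪ (K0 ∩ closedBall x s) := by
    rintro y ⟨hy, hys⟩
    by_cases hyρ : y ∈ closedBall x ρ
    · exact Or.inl ⟨hy, hyρ⟩
    · right
      have : y ∈ L \ closedBall x ρ := ⟨hy, hyρ⟩
      rw [hc.eqL] at this
      exact ⟨this.1, hys⟩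
  have hclosed : closure (tpL K L Z x s) ∩ U ⊆ tpL K L Z x s := by
    rintro y ⟨hy, hyU⟩
    unfold tpL at hy ⊢
    rw [closure_union, closure_union, hZ.closure_eq,
      (hLcl.inter isClosed_closedBall).closure_eq] at hy
    rcases hy with (hy | hy) | hy
    · have hyK : y ∈ K := hqm.closed ⟨closure_mono sdiff_subset hy, hyU⟩
      by_cases hycb : y ∈ closedBall x s
      · have hyb : y ∈ (ball x s)ᶜ := by
          have h1 : closure (K \ closedBall x s) ⊆ (ball x s)ᶜ := by
            apply closure_minimal _ isOpen_ball.isClosed_compl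
            intro z hz hz'
            exact hz.2 (ball_subset_closedBall hz')
          exact h1 hy
        have hys : y ∈ sphere x s := by
          rw [mem_sphere]
          rw [mem_closedBall] at hycb
          rw [mem_compl_iff, mem_ball, not_lt] at hyb
          exact le_antisymm hycb hyb
        rcases hSZ hys with h1 | h1
        · exact absurd hyK (hSK h1).2
        · exact Or.inl (Or.inr h1)
      · exact Or.inl (Or.inl ⟨hyK, hycb⟩)
    · exact Or.inl (Or.inr hy)
    · exact Or.inr hy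
  have hVo : IsOpen (U \ tpL K L Z x s) := (relClosed_iff hqm.isOpen).1 hclosed
  have hLsphere : ∀ y ∈ U \ tpL K L Z x s, y ∈ closedBall x s → y ∉ L := fun y hy hys hyL =>
    hy.2 (Or.inr ⟨hyL, hys⟩)
  have hKout : ∀ y ∈ U \ tpL K L Z x s, y ∉ ball x s → y ∉ K := by
    intro y hy hyb hyK
    by_cases hycb : y ∈ closedBall x s
    · have hys : y ∈ sphere x s := by
        rw [mem_sphere]
        rw [mem_closedBall] at hycb
        rw [mem_ball, not_lt] at hyb
        exact le_antisymm hycb hyb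
      rcases hSZ hys with h1 | h1
      · exact (hSK h1).2 hyK
      · exact hy.2 (Or.inl (Or.inr h1))
    · exact hy.2 (Or.inl (Or.inl ⟨hyK, hycb⟩))
  have hSmem : ∀ y ∈ U \ tpL K L Z x s, y ∉ ball x s → y ∈ closedBall x s → y ∈ S := by
    intro y hy hyb hycb
    have hys : y ∈ sphere x s := by
      rw [mem_sphere]
      rw [mem_closedBall] at hycb
      rw [mem_ball, not_lt] at hyb
      exact le_antisymm hycb hyb
    rcases hSZ hys with h1 | h1
    · exact h1
    · exact absurd (Or.inl (Or.inr h1)) hy.2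
  refine ⟨?_, hclosed, ?_, ?_, ?_, ?_, ?_⟩
  · -- sub
    rintro y ((hy | hy) | hy)
    · exact hqm.sub hy.1
    · exact hU (sphere_subset_closedBall (hZs hy))
    · exact hU hy.2
  · -- len_fin
    have h1 : tpL K L Z x s ∩ closedBall x s ⊆ Z ∪ (L ∩ closedBall x s) := by
      rintro y ⟨(hy | hy) | hy, hys⟩
      · exact absurd hys hy.2
      · exact Or.inl hy
      · exact Or.inr hy
    calc len (tpL K L Z x s ∩ closedBall x s) ≤ len (Z ∪ (L ∩ closedBall x s)) := len_mono h1
      _ ≤ len Z + len (L ∩ closedBall x s) := len_union_le _ _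
      _ ≤ len Z + (len (L ∩ closedBall x ρ) + len (K0 ∩ closedBall x s)) := by
          gcongr
          exact (len_mono hLcb).trans (len_union_le _ _)
      _ < ⊤ := by
          rw [ENNReal.add_lt_top, ENNReal.add_lt_top]
          exact ⟨hZl, hc.len_fin, hlen⟩
  · -- eqL
    ext y
    constructor
    · rintro ⟨(hy | hy) | hy, hys⟩
      · exact hy
      · exact absurd (sphere_subset_closedBall (hZs hy)) hys
      · exact absurd hy.2 hys
    · rintro ⟨hy, hys⟩
      exact ⟨Or.inl (Or.inl ⟨hy, hys⟩), hys⟩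
  · -- lip
    apply locallyLipschitzOn_of_closed_cover (u := u) (w := fun z => w z + c' z + F z)
      (A1 := (ball x s)ᶜ) (A2 := closedBall x s) hVo isOpen_ball.isClosed_compl
      isClosed_closedBall
    · intro y _
      by_cases hy : y ∈ ball x s
      · exact Or.inr (ball_subset_closedBall hy)
      · exact Or.inl hy
    · rintro y ⟨hy, hyb⟩
      unfold tpW
      split_ifs with hycb
      · have hyS := hSmem y hy hyb hycb
        have hy0 : y ∈ univ \ (K0 ∪ closedBall x ρ) :=
          ⟨mem_univ _, fun h => h.elim (hSK0 hyS) (hSρ hyS)⟩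
        change w y + c' y + F y = u y
        rw [hc.eqw y hy0, hcc y hy0, hFS y hyS]
        ring
      · rfl
    · rintro y ⟨hy, hyb⟩
      unfold tpW
      rw [if_pos hyb]
    · rintro y ⟨hy, hyb⟩
      have hyK := hKout y hy hyb
      have h1 : ContDiffAt ℝ 1 u y := hqm.c1.contDiffAt (hqm.isOpen_diff.mem_nhds ⟨hy.1, hyK⟩)
      obtain ⟨C, t, ht, hCt⟩ := h1.exists_lipschitzOnWith
      exact ⟨C, t, ht, hCt.mono inter_subset_left⟩
    · rintro y ⟨hy, hyb⟩
      have hyL := hLsphere y hy hyb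
      have hLo : IsOpen (univ \ L) := (relClosed_iff isOpen_univ).1 hc.closed
      have hlip := hc.lip
      obtain ⟨C1, t1, ht1, hCt1⟩ := @hlip y ⟨mem_univ _, hyL⟩
      rw [hLo.nhdsWithin_eq ⟨mem_univ _, hyL⟩] at ht1
      have h2 : ∀ᶠ z in 𝓝 y, c' z = c' y := hc' y ⟨mem_univ _, hyL⟩
      refine ⟨C1 + 0 + Real.toNNReal η, t1 ∩ {z | c' z = c' y}, Filter.inter_mem ht1 h2, ?_⟩
      have hcl : LipschitzOnWith 0 c' (t1 ∩ {z | c' z = c' y}) := by
        intro p hp q hq
        have e1 : c' p = c' y := hp.2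
        have e2 : c' q = c' y := hq.2
        simp [e1, e2]
      have hfin : LipschitzOnWith (C1 + 0 + Real.toNNReal η) (fun z => w z + c' z + F z)
          (t1 ∩ {z | c' z = c' y}) :=
        LipschitzOnWith.add (LipschitzOnWith.add (hCt1.mono inter_subset_left) hcl)
          hF.lipschitzOnWith
      exact hfin.mono inter_subset_left
  · -- eqw
    intro y hy
    unfold tpW
    rw [if_neg (fun h => hy.2 (Or.inr h))]
  · -- keeps
    intro c hcl
    have hrl : LocConstOn (univ \ K0) (fun z => c (r z)) := by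
      intro y hy
      filter_upwards [hr y hy.2] with z hz
      simp [hz]
    obtain ⟨c1, hc1, hc1e⟩ := hc.keeps _ hrl
    refine ⟨fun z => if z ∈ closedBall x s then c1 z else c z, ?_, ?_⟩
    · intro y hy
      by_cases hycb : y ∈ closedBall x s
      · by_cases hyb : y ∈ ball x s
        · have hyL := hLsphere y hy hycb
          filter_upwards [isOpen_ball.mem_nhds hyb, hc1 y ⟨mem_univ _, hyL⟩] with z hz hz1
          rw [if_pos (ball_subset_closedBall hz), if_pos hycb, hz1]
        · have hyS := hSmem y hy hyb hycb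
          have hyL := hLsphere y hy hycb
          have hyK := hKout y hy hyb
          have e1 : c1 y = c (r y) := by
            apply hc1e
            exact ⟨mem_univ _, fun h => h.elim (hSK0 hyS) (hSρ hyS)⟩
          have e2 : c y = c (r y) := hcS y hyS c hcl
          filter_upwards [hc1 y ⟨mem_univ _, hyL⟩, hcl y ⟨hy.1, hyK⟩] with z hz1 hz2
          rw [if_pos hycb]
          split_ifs
          · exact hz1
          · rw [hz2, e2, e1]
      · have hyK : y ∉ K := hKout y hy (fun h => hycb (ball_subset_closedBall h))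
        filter_upwards [isClosed_closedBall.isOpen_compl.mem_nhds hycb, hcl y ⟨hy.1, hyK⟩]
          with z hz hz1
        rw [if_neg hz, if_neg hycb, hz1]
    · intro y hy
      simp only
      rw [if_neg (fun h => hy.2 (Or.inr h))]

open Classical in
/-- energy of the transplanted pair -/
theorem transplant_energy {K L Z : Set E2} {u w c' F : E2 → ℝ}
    {x : E2} {s η t : ℝ} (hη : 0 ≤ η) (ht : 0 < t)
    (hL : IsClosed L) (hZ : IsClosed Z) (hZs : Z ⊆ sphere x s)
    (hc' : LocConstOn (univ \ L) c')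
    (hF : Differentiable ℝ F) (hFη : ∀ z, ‖gradient F z‖ ≤ η) :
    enE (tpW u (fun z => w z + c' z + F z) x s) (tpL K L Z x s) (closedBall x s) ≤
      ENNReal.ofReal (1 + t) * dirE w L (closedBall x s)
        + ENNReal.ofReal ((1 + 1 / t) * η ^ 2) * volume (closedBall x s)
        + (len Z + len (L ∩ closedBall x s)) := by
  have hcap : tpL K L Z x s ∩ closedBall x s = Z ∪ (L ∩ closedBall x s) := by
    ext y
    constructor
    · rintro ⟨(hy | hy) | hy, hys⟩
      · exact absurd hys hy.2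
      · exact Or.inl hy
      · exact Or.inr hy
    · rintro (hy | hy)
      · exact ⟨Or.inl (Or.inr hy), sphere_subset_closedBall (hZs hy)⟩
      · exact ⟨Or.inr hy, hy.2⟩
  unfold enE
  gcongr ?_ + ?_
  · have hBe : closedBall x s \ tpL K L Z x s = closedBall x s \ (Z ∪ (L ∩ closedBall x s)) := by
      rw [← hcap]
      ext y
      constructor
      · rintro ⟨h1, h2⟩
        exact ⟨h1, fun h => h2 h.1⟩
      · rintro ⟨h1, h2⟩
        exact ⟨h1, fun h => h2 ⟨h, h1⟩⟩
    have hBm : MeasurableSet (closedBall x s \ tpL K L Z x s) := by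
      rw [hBe]
      exact isClosed_closedBall.measurableSet.diff
        (hZ.measurableSet.union (hL.measurableSet.inter isClosed_closedBall.measurableSet))
    have hBL : closedBall x s \ tpL K L Z x s ⊆ closedBall x s \ L :=
      fun y hy => ⟨hy.1, fun h => hy.2 (Or.inr ⟨h, hy.1⟩)⟩
    have hsph0 : ∀ᵐ y ∂(volume : Measure E2), y ∉ sphere x s := by
      have h0 : volume (sphere x s) = 0 := Measure.addHaar_sphere volume x s
      exact measure_eq_zero_iff_ae_notMem.1 h0
    have hae : ∀ᵐ y ∂volume.restrict (closedBall x s \ tpL K L Z x s),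
        0 ≤ ‖gradient (tpW u (fun z => w z + c' z + F z) x s) y‖ ∧
        ‖gradient (tpW u (fun z => w z + c' z + F z) x s) y‖ ≤ ‖gradient w y‖ + η := by
      rw [ae_restrict_iff' hBm]
      filter_upwards [hsph0] with y hy hyB
      refine ⟨norm_nonneg _, ?_⟩
      have hyb : y ∈ ball x s := by
        rcases lt_or_eq_of_le (mem_closedBall.1 hyB.1) with h | h
        · exact h
        · exact absurd (mem_sphere.2 h) hy
      have hyL : y ∉ L := (hBL hyB).2
      have e1 : (tpW u (fun z => w z + c' z + F z) x s) =ᶠ[𝓝 y]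
          fun z => w z + (F z + c' y) := by
        filter_upwards [isOpen_ball.mem_nhds hyb, hc' y ⟨mem_univ _, hyL⟩] with z hz hz1
        unfold tpW
        rw [if_pos (ball_subset_closedBall hz)]
        change w z + c' z + F z = w z + (F z + c' y)
        rw [hz1]
        ring
      rw [gradient_congr_nhds e1]
      have e2 : DifferentiableAt ℝ (fun z => F z + c' y) y := (hF y).add_const _
      refine (norm_gradient_add_le e2).trans ?_
      gcongr
      have e3 : gradient (fun z => F z + c' y) y = gradient F y := by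
        unfold gradient
        rw [fderiv_add_const]
      rw [e3]
      exact hFη y
    have h1 := lintegral_sq_perturb_le (B := closedBall x s \ tpL K L Z x s)
      (g := fun y => ‖gradient w y‖) (fun y => norm_nonneg _) hη ht hae
      (measurable_gradient w).norm
    unfold dirE
    simp only [ofReal_norm] at h1
    refine h1.trans ?_
    gcongr ?_ + ?_
    · gcongr
    · gcongr
      exact sdiff_subset
  · rw [hcap]
    exact len_union_le _ _

/-- **Transplantation**: the energy of any competitor of the limit bounds the energies at level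
`n` from above. -/
theorem LimSeq.transplant (h : LimSeq U lam u K u0 K0) {x : E2} {ρ s : ℝ} (hρ : 0 < ρ)
    (hs : ρ < s) {w : E2 → ℝ} {L : Set E2} (hc : IsComp univ u0 K0 x ρ w L)
    (hlen : len (K0 ∩ closedBall x s) < ⊤) (hsph : len (K0 ∩ sphere x s) = 0) {ε : ℝ}
    (hε : 0 < ε) :
    ∀ᶠ n in atTop, enE (u n) (K n) (closedBall x s) ≤
      enE w L (closedBall x s) + ENNReal.ofReal ε := by
  have hs0 : 0 < s := hρ.trans hs
  by_cases hD : dirE w L (closedBall x s) = ⊤
  · filter_upwards with n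
    unfold enE
    rw [hD]
    simp
  -- data
  set D := dirE w L (closedBall x s) with hDdef
  set A := K0 ∩ sphere x s with hA
  have hAc : IsCompact A := (isCompact_sphere x s).inter_left h.closed
  have hε4 : (0 : ℝ≥0∞) < ENNReal.ofReal (ε / 4) := ENNReal.ofReal_pos.2 (by positivity)
  obtain ⟨δ, hδ, hZlen⟩ := exists_small_nhd hs0 hAc hsph hε4
  set Z := cthickening δ A ∩ sphere x s with hZdef
  set S := sphere x s \ thickening δ A with hSdef
  have hZcl : IsClosed Z := isClosed_cthickening.inter isClosed_sphere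
  have hZs : Z ⊆ sphere x s := inter_subset_right
  have hZl : len Z < ⊤ := hZlen.trans_lt ENNReal.ofReal_lt_top
  have hSc : IsCompact S := (isCompact_sphere x s).diff isOpen_thickening
  have hSZ : sphere x s ⊆ S ∪ Z := by
    intro y hy
    by_cases h1 : y ∈ thickening δ A
    · exact Or.inr ⟨thickening_subset_cthickening _ _ h1, hy⟩
    · exact Or.inl ⟨hy, h1⟩
  have hSK0 : S ⊆ K0ᶜ := by
    intro y hy hyK
    exact hy.2 (self_subset_thickening hδ A ⟨hyK, hy.1⟩)
  have hSρ : S ⊆ (closedBall x ρ)ᶜ := by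
    intro y hy hyρ
    have h1 : dist y x = s := hy.1
    have h2 : dist y x ≤ ρ := hyρ
    linarith
  obtain ⟨χ, hχ, hχc, hχs, -, hχS, hχ1⟩ := exists_cutoffE2 hSc
    (h.closed.isOpen_compl.inter (isClosed_closedBall (x := x) (ε := ρ)).isOpen_compl)
    (fun y hy => ⟨hSK0 hy, hSρ hy⟩)
  -- parameters
  set a := D.toReal with ha
  have ha0 : 0 ≤ a := ENNReal.toReal_nonneg
  set V := (volume (closedBall x s)).toReal with hV
  have hV0 : 0 ≤ V := ENNReal.toReal_nonneg
  have hVfin : volume (closedBall x s) ≠ ⊤ := measure_closedBall_lt_top.ne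
  set t := ε / (4 * (a + 1)) with ht
  have ht0 : 0 < t := by positivity
  obtain ⟨η, hη0, hη⟩ : ∃ η : ℝ, 0 < η ∧ (1 + 1 / t) * η ^ 2 * V ≤ ε / 4 := by
    have hlim : Tendsto (fun η : ℝ => (1 + 1 / t) * η ^ 2 * V) (𝓝[>] 0)
        (𝓝 ((1 + 1 / t) * 0 ^ 2 * V)) := by
      apply Tendsto.mono_left _ nhdsWithin_le_nhds
      apply Continuous.tendsto
      fun_prop
    have h0 : (1 + 1 / t) * 0 ^ 2 * V < ε / 4 := by
      simp; positivity
    obtain ⟨η, h1, h2⟩ := ((hlim.eventually (gt_mem_nhds h0)).and self_mem_nhdsWithin).exists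
    exact ⟨η, h2, h1.le⟩
  have hlamev : ∀ᶠ n in atTop, lam n * s ^ 2 ≤ ε / 4 := by
    have hl : Tendsto (fun n => lam n * s ^ 2) atTop (𝓝 (0 * s ^ 2)) := h.lam_lim.mul_const _
    have h0 : 0 * s ^ 2 < ε / 4 := by simp; positivity
    exact (hl.eventually (gt_mem_nhds h0)).mono fun n hn => hn.le
  have hLcl : IsClosed L := isClosed_of_closure_univ hc.closed
  filter_upwards [h.cutoff_err hχ hχc (hχs.trans inter_subset_left) hχ1 hη0,
    h.eventually_sub hSc hSK0, h.compact hSc hSK0 one_pos, h.exh _ (isCompact_closedBall x s),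
    hlamev] with n h1 h2 h3 h4 h5
  obtain ⟨hFd, hFη⟩ := h1
  obtain ⟨c', hc'1, hc'2⟩ := hc.keeps _ (h.locConst_comp_rep (fun z => u n z - u0 z))
  have hFlip : LipschitzWith (Real.toNNReal η) (fun z => χ z * errF U u K u0 n z) := by
    apply lipschitzWith_of_nnnorm_fderiv_le hFd
    intro z
    have := hFη z
    rw [norm_gradient_eq_norm_fderiv] at this
    rw [← NNReal.coe_le_coe, coe_nnnorm, Real.coe_toNNReal _ hη0.le]
    exact this
  have hcomp := transplant_isComp (F := fun z => χ z * errF U u K u0 n z)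
    (r := rep U u K u0) (h.qm n) hc hlen h4 hZcl hZs hZl hSZ hSK0 hSρ h2
    (fun y hy => h.rep_locConst hy) hc'1 (fun y hy => hc'2 y hy) hFlip
    (fun y hy => by simp only [hχS y hy, one_mul, errF]) (fun y hy => (h3 y hy).2)
  have hmin := (h.qm n).min x s hs0 h4 _ _ hcomp
  have hen := transplant_energy (K := K n) (u := u n) (F := fun z => χ z * errF U u K u0 n z)
    hη0.le ht0 hLcl hZcl hZs hc'1 hFd hFη (w := w)
  have hD' : D = ENNReal.ofReal a := (ENNReal.ofReal_toReal hD).symm
  have hV' : volume (closedBall x s) = ENNReal.ofReal V := (ENNReal.ofReal_toReal hVfin).symm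
  calc enE (u n) (K n) (closedBall x s)
      ≤ (ENNReal.ofReal (1 + t) * D + ENNReal.ofReal ((1 + 1 / t) * η ^ 2)
          * volume (closedBall x s) + (len Z + len (L ∩ closedBall x s)))
        + ENNReal.ofReal (lam n * s ^ 2) := hmin.trans (by gcongr)
    _ ≤ ((D + ENNReal.ofReal (ε / 4)) + ENNReal.ofReal (ε / 4)
          + (ENNReal.ofReal (ε / 4) + len (L ∩ closedBall x s))) + ENNReal.ofReal (ε / 4) := by
        gcongr
        · rw [hD', ← ENNReal.ofReal_mul (by positivity), ← ENNReal.ofReal_add ha0 (by positivity)]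
          apply ENNReal.ofReal_le_ofReal
          have : t * a ≤ ε / 4 := by
            rw [ht, div_mul_eq_mul_div, div_le_iff₀ (by positivity)]
            nlinarith
          linarith
        · rw [hV', ← ENNReal.ofReal_mul (by positivity)]
          exact ENNReal.ofReal_le_ofReal hη
    _ = (D + len (L ∩ closedBall x s)) + (ENNReal.ofReal (ε / 4) + ENNReal.ofReal (ε / 4)
          + ENNReal.ofReal (ε / 4) + ENNReal.ofReal (ε / 4)) := by ring
    _ = enE w L (closedBall x s) + ENNReal.ofReal ε := by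
        rw [← ENNReal.ofReal_add (by positivity) (by positivity),
          ← ENNReal.ofReal_add (by positivity) (by positivity),
          ← ENNReal.ofReal_add (by positivity) (by positivity)]
        unfold enE
        rw [show ε / 4 + ε / 4 + ε / 4 + ε / 4 = ε by ring]

end Crest.Agent.R135.Lim
end

-- ▼ part R135/LimD
section

/-!
# R135, block BL (helper517): lower semicontinuity, strong convergence

Inputs: `hlsc` (lower semicontinuity of length on open sets) and `hub` (local upper bounds of the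
energies).
-/

set_option autoImplicit false

open MeasureTheory Set Filter Topology Metric
open scoped ENNReal NNReal ContDiff Gradient

namespace Crest.Agent.R135.Lim

open Crest.Agent.R135

/-! ### `ENNReal` lemmas -/

theorem eventually_le_add_of_le_liminf {b : ℝ≥0∞} {bn : ℕ → ℝ≥0∞} (h : b ≤ liminf bn atTop)
    (hb : b ≠ ⊤) {ε : ℝ≥0∞} (hε : 0 < ε) : ∀ᶠ n in atTop, b ≤ bn n + ε := by
  by_cases hb0 : b = 0
  · filter_upwards with n
    rw [hb0]; exact zero_le
  by_cases hεt : ε = ⊤
  · filter_upwards with n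
    rw [hεt]; simp
  have h1 : b - ε < b := ENNReal.sub_lt_self hb hb0 hε.ne'
  filter_upwards [eventually_lt_of_lt_liminf (h1.trans_le h)] with n hn
  exact tsub_le_iff_right.1 hn.le

theorem tendsto_of_sum_le {a b : ℝ≥0∞} {an bn : ℕ → ℝ≥0∞} (ha : a ≤ liminf an atTop)
    (hb : b ≤ liminf bn atTop) (hat : a ≠ ⊤) (hbt : b ≠ ⊤)
    (hab : ∀ ε : ℝ, 0 < ε → ∀ᶠ n in atTop, an n + bn n ≤ a + b + ENNReal.ofReal ε) :
    Tendsto an atTop (𝓝 a) := by
  rw [ENNReal.tendsto_nhds hat]
  intro ε hε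
  -- reduce to a real ε
  obtain ⟨e, he0, hee⟩ : ∃ e : ℝ, 0 < e ∧ ENNReal.ofReal e ≤ ε := by
    by_cases hεt : ε = ⊤
    · exact ⟨1, one_pos, by rw [hεt]; exact le_top⟩
    · exact ⟨ε.toReal, ENNReal.toReal_pos hε.ne' hεt, by rw [ENNReal.ofReal_toReal hεt]⟩
  have h2 : (0 : ℝ≥0∞) < ENNReal.ofReal (e / 2) := ENNReal.ofReal_pos.2 (by positivity)
  filter_upwards [eventually_le_add_of_le_liminf ha hat hε,
    eventually_le_add_of_le_liminf hb hbt h2, hab (e / 2) (by positivity)] with n h3 h4 h5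
  refine ⟨tsub_le_iff_right.2 h3, ?_⟩
  refine le_trans ?_ (add_le_add_right hee a)
  have h6 : an n + b ≤ (a + ENNReal.ofReal e) + b := by
    calc an n + b ≤ an n + (bn n + ENNReal.ofReal (e / 2)) := by gcongr
      _ = (an n + bn n) + ENNReal.ofReal (e / 2) := by ring
      _ ≤ (a + b + ENNReal.ofReal (e / 2)) + ENNReal.ofReal (e / 2) := by gcongr
      _ = (a + (ENNReal.ofReal (e / 2) + ENNReal.ofReal (e / 2))) + b := by ring
      _ = (a + ENNReal.ofReal e) + b := by
          rw [← ENNReal.ofReal_add (by positivity) (by positivity), add_halves]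
  exact (ENNReal.add_le_add_iff_right hbt).1 h6

theorem le_of_forall_ofReal {a b : ℝ≥0∞} (h : ∀ ε : ℝ, 0 < ε → a ≤ b + ENNReal.ofReal ε) :
    a ≤ b := by
  apply ENNReal.le_of_forall_pos_le_add
  intro ε hε _
  have := h ε hε
  rwa [ENNReal.ofReal_coe_nnreal] at this

variable {U : ℕ → Set E2} {lam : ℕ → ℝ} {u : ℕ → E2 → ℝ} {K : ℕ → Set E2}
    {u0 : E2 → ℝ} {K0 : Set E2}

/-- Fatou for the Dirichlet energies -/
theorem LimSeq.dirE_le_liminf (h : LimSeq U lam u K u0 K0) {B : Set E2} {R : ℝ} (hBR : B ⊆ closedBall 0 R) :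
    dirE u0 K0 B ≤ liminf (fun n => dirE (u n) (K n) B) atTop := by
  classical
  have hmeas : ∀ n, Measurable (fun y => (U n \ K n).indicator
      (fun y => ‖gradient (u n) y‖ₑ ^ 2) y) := fun n =>
    ((measurable_gradient (u n)).enorm.pow_const 2).indicator (h.qm n).isOpen_diff.measurableSet
  have h1 : dirE u0 K0 B ≤ ∫⁻ y in B, liminf (fun n => (U n \ K n).indicator
      (fun y => ‖gradient (u n) y‖ₑ ^ 2) y) atTop := by
    have h2 : dirE u0 K0 B = ∫⁻ y in B, (K0ᶜ).indicator (fun y => ‖gradient u0 y‖ₑ ^ 2) y := by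
      unfold dirE
      rw [lintegral_indicator h.closed.isOpen_compl.measurableSet, Measure.restrict_restrict
        h.closed.isOpen_compl.measurableSet, inter_comm]
      rfl
    rw [h2]
    apply lintegral_mono
    intro y
    by_cases hy : y ∈ K0
    · simp [hy]
    · have hyc : y ∈ K0ᶜ := hy
      simp only [indicator_of_mem hyc]
      have hs : ∀ᶠ n in atTop, ({y} : Set E2) ⊆ U n \ K n :=
        h.eventually_sub isCompact_singleton (by simpa using hy)
      have hl : Tendsto (fun n => gradient (u n) y) atTop (𝓝 (gradient u0 y)) :=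
        h.grad.tendsto_at hyc
      have hl2 : Tendsto (fun n => (U n \ K n).indicator
          (fun y => ‖gradient (u n) y‖ₑ ^ 2) y) atTop (𝓝 (‖gradient u0 y‖ₑ ^ 2)) := by
        have hl3 : Tendsto (fun n => ‖gradient (u n) y‖ₑ ^ 2) atTop (𝓝 (‖gradient u0 y‖ₑ ^ 2)) :=
          ((ENNReal.continuous_pow 2).tendsto _).comp hl.enorm
        refine hl3.congr' ?_
        filter_upwards [hs] with n hn
        rw [indicator_of_mem (hn (mem_singleton y))]
      exact hl2.liminf_eq.ge
  refine h1.trans ((lintegral_liminf_le (fun n => hmeas n)).trans ?_)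
  apply le_of_eq
  apply liminf_congr
  filter_upwards [h.exh _ (isCompact_closedBall 0 R)] with n hn
  unfold dirE
  rw [lintegral_indicator (h.qm n).isOpen_diff.measurableSet, Measure.restrict_restrict
    (h.qm n).isOpen_diff.measurableSet]
  congr 2
  ext y
  constructor
  · rintro ⟨h3, h4⟩
    exact ⟨h4, h3.2⟩
  · rintro ⟨h3, h4⟩
    exact ⟨⟨hn (hBR h3), h4⟩, h3⟩

theorem dirE_mono {w : E2 → ℝ} {L A B : Set E2} (h : A ⊆ B) : dirE w L A ≤ dirE w L B :=
  lintegral_mono_set (sdiff_subset_sdiff_left h)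


theorem len_closedBall {K : Set E2} {x : E2} {s : ℝ} (h : len (K ∩ sphere x s) = 0) :
    len (K ∩ closedBall x s) = len (K ∩ ball x s) := by
  apply le_antisymm
  · rw [← ball_union_sphere, inter_union_distrib_left]
    exact (len_union_le _ _).trans (by rw [h, add_zero])
  · exact len_mono (inter_subset_inter_right _ ball_subset_closedBall)

/-- almost all radii (in fact all but countably many) are good for a set of locally finite length -/
theorem countable_bad_radii {K : Set E2} {x : E2} {R : ℝ}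
    (hfin : len (K ∩ closedBall x R) < ⊤) :
    {s : ℝ | s ≤ R ∧ 0 < len (K ∩ sphere x s)}.Countable := by
  have hf : IsFiniteMeasure ((Measure.hausdorffMeasure 1 : Measure E2).restrict
      (K ∩ closedBall x R)) := by
    refine ⟨?_⟩
    rw [Measure.restrict_apply_univ]
    exact hfin
  have h1 := Measure.countable_meas_level_set_pos (μ := (Measure.hausdorffMeasure 1 :
    Measure E2).restrict (K ∩ closedBall x R)) (g := fun y : E2 => dist y x) (by fun_prop)
  refine h1.mono ?_
  rintro s ⟨hs, hpos⟩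
  rw [mem_ofPred_eq]
  rw [Measure.restrict_apply (by measurability)]
  refine hpos.trans_le (len_mono ?_)
  rintro y ⟨hy, hys⟩
  exact ⟨hys, hy, (mem_closedBall.2 ((mem_sphere.1 hys).le.trans hs))⟩

theorem exists_good_radius {K : Set E2} {x : E2} {R a b : ℝ}
    (hfin : len (K ∩ closedBall x R) < ⊤) (hab : a < b) (hbR : b ≤ R) :
    ∃ s ∈ Ioo a b, len (K ∩ sphere x s) = 0 := by
  by_contra hcon
  push Not at hcon
  have h1 : Ioo a b ⊆ {s : ℝ | s ≤ R ∧ 0 < len (K ∩ sphere x s)} := by
    intro s hs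
    exact ⟨hs.2.le.trans hbR, pos_iff_ne_zero.2 (hcon s hs)⟩
  have h2 := (countable_bad_radii hfin).mono h1
  rw [← Cardinal.le_aleph0_iff_set_countable, Cardinal.mk_Ioo_real hab] at h2
  exact absurd h2 (not_le.2 Cardinal.aleph0_lt_continuum)

end Crest.Agent.R135.Lim
end

-- ▼ part R135/LimE
section

/-!
# R135, block BL (helper517): strong convergence and minimality of the limit
-/

set_option autoImplicit false

open MeasureTheory Set Filter Topology Metric
open scoped ENNReal NNReal ContDiff Gradient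

namespace Crest.Agent.R135.Lim

open Crest.Agent.R135

variable {U : ℕ → Set E2} {lam : ℕ → ℝ} {u : ℕ → E2 → ℝ} {K : ℕ → Set E2}
    {u0 : E2 → ℝ} {K0 : Set E2}

/-- lower semicontinuity of length along the sequence (input from the concentration block) -/
def LenLsc (K : ℕ → Set E2) (K0 : Set E2) : Prop :=
  ∀ V : Set E2, IsOpen V → len (K0 ∩ V) ≤ liminf (fun n => len (K n ∩ V)) atTop

theorem LimSeq.enE_bound (h : LimSeq U lam u K u0 K0) {x : E2} {ρ : ℝ} (hρ : 0 < ρ) :
    ∀ᶠ n in atTop, enE (u n) (K n) (closedBall x ρ) ≤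
      ENNReal.ofReal (2 * Real.pi * ρ + 1 * ρ ^ 2) := by
  filter_upwards [h.exh _ (isCompact_closedBall x ρ), h.lam_lim.eventually (gt_mem_nhds one_pos)]
    with n h1 h2
  refine ((h.qm n).energy_le hρ h1).trans (ENNReal.ofReal_le_ofReal ?_)
  gcongr

theorem LimSeq.len_fin (h : LimSeq U lam u K u0 K0) (hl : LenLsc K K0) (x : E2) (ρ : ℝ) :
    len (K0 ∩ closedBall x ρ) < ⊤ := by
  rcases lt_or_ge ρ 0 with hneg | hρ
  · rw [closedBall_eq_empty.2 hneg, inter_empty]
    unfold len
    rw [measure_empty]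
    exact ENNReal.zero_lt_top
  have h1 : len (K0 ∩ closedBall x ρ) ≤ len (K0 ∩ ball x (ρ + 1)) :=
    len_mono (inter_subset_inter_right _ (closedBall_subset_ball (by linarith)))
  refine (h1.trans (hl _ isOpen_ball)).trans_lt ?_
  refine lt_of_le_of_lt ?_ (ENNReal.ofReal_lt_top
    (r := 2 * Real.pi * (ρ + 1) + 1 * (ρ + 1) ^ 2))
  apply liminf_le_of_frequently_le'
  apply Eventually.frequently
  filter_upwards [h.enE_bound (x := x) (ρ := ρ + 1) (by linarith)] with n hn
  refine le_trans ?_ hn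
  unfold enE
  exact (len_mono (inter_subset_inter_right _ ball_subset_closedBall)).trans le_add_self

theorem LimSeq.dir_fin (h : LimSeq U lam u K u0 K0) (x : E2) (ρ : ℝ) :
    dirE u0 K0 (closedBall x ρ) < ⊤ := by
  have h0 : closedBall x ρ ⊆ closedBall x (max ρ 1) := closedBall_subset_closedBall (le_max_left _ _)
  refine (dirE_mono h0).trans_lt ?_
  set ρ' := max ρ 1
  have hρ' : 0 < ρ' := lt_max_of_lt_right one_pos
  have h1 : closedBall x ρ' ⊆ closedBall 0 (‖x‖ + ρ') := by
    apply closedBall_subset_closedBall'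
    rw [dist_zero_right]; linarith
  refine (h.dirE_le_liminf h1).trans_lt ?_
  refine lt_of_le_of_lt ?_ (ENNReal.ofReal_lt_top (r := 2 * Real.pi * ρ' + 1 * ρ' ^ 2))
  apply liminf_le_of_frequently_le'
  apply Eventually.frequently
  filter_upwards [h.enE_bound (x := x) hρ'] with n hn
  refine le_trans ?_ hn
  unfold enE
  exact le_self_add

theorem LimSeq.enE_fin (h : LimSeq U lam u K u0 K0) (hl : LenLsc K K0) (x : E2) (ρ : ℝ) :
    enE u0 K0 (closedBall x ρ) < ⊤ := by
  unfold enE
  exact ENNReal.add_lt_top.2 ⟨h.dir_fin x ρ, h.len_fin hl x ρ⟩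

/-- the limit is a competitor of itself -/
theorem LimSeq.isComp_self (h : LimSeq U lam u K u0 K0) (hl : LenLsc K K0) (x : E2) (ρ : ℝ) :
    IsComp univ u0 K0 x ρ u0 K0 where
  sub := subset_univ _
  closed := by rw [inter_univ, h.closed.closure_eq]
  len_fin := h.len_fin hl x ρ
  eqL := rfl
  lip := by
    have hV : IsOpen (univ \ K0) := by rw [← compl_eq_univ_sdiff]; exact h.closed.isOpen_compl
    rw [locallyLipschitzOn_iff_lipAt hV]
    intro y hy
    apply lipAt_of_contDiffAt
    exact h.c1.contDiffAt (h.closed.isOpen_compl.mem_nhds hy.2)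
  eqw := fun _ _ => rfl
  keeps := fun c hc => ⟨c, hc, fun _ _ => rfl⟩

theorem LimSeq.eventually_enE_le (h : LimSeq U lam u K u0 K0) (hl : LenLsc K K0) {x : E2} {s : ℝ}
    (hs : 0 < s) (hsph : len (K0 ∩ sphere x s) = 0) {ε : ℝ} (hε : 0 < ε) :
    ∀ᶠ n in atTop, enE (u n) (K n) (closedBall x s) ≤
      enE u0 K0 (closedBall x s) + ENNReal.ofReal ε :=
  h.transplant (half_pos hs) (half_lt_self hs) (h.isComp_self hl x (s / 2))
    (h.len_fin hl x s) hsph hε

/-- strong convergence: Dirichlet energies -/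
theorem LimSeq.tendsto_dirE (h : LimSeq U lam u K u0 K0) (hl : LenLsc K K0) {x : E2} {s : ℝ}
    (hs : 0 < s) (hsph : len (K0 ∩ sphere x s) = 0) :
    Tendsto (fun n => dirE (u n) (K n) (closedBall x s)) atTop
      (𝓝 (dirE u0 K0 (closedBall x s))) := by
  have h1 : closedBall x s ⊆ closedBall 0 (‖x‖ + s) := by
    apply closedBall_subset_closedBall'
    rw [dist_zero_right]; linarith
  apply tendsto_of_sum_le (b := len (K0 ∩ closedBall x s))
    (bn := fun n => len (K n ∩ closedBall x s)) (h.dirE_le_liminf h1) _ (h.dir_fin x s).ne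
    (h.len_fin hl x s).ne
  · intro ε hε
    exact h.eventually_enE_le hl hs hsph hε
  · rw [len_closedBall hsph]
    refine (hl _ isOpen_ball).trans (liminf_le_liminf ?_)
    filter_upwards with n
    exact len_mono (inter_subset_inter_right _ ball_subset_closedBall)

/-- strong convergence: lengths -/
theorem LimSeq.tendsto_len (h : LimSeq U lam u K u0 K0) (hl : LenLsc K K0) {x : E2} {s : ℝ}
    (hs : 0 < s) (hsph : len (K0 ∩ sphere x s) = 0) :
    Tendsto (fun n => len (K n ∩ closedBall x s)) atTop (𝓝 (len (K0 ∩ closedBall x s))) := by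
  have h1 : closedBall x s ⊆ closedBall 0 (‖x‖ + s) := by
    apply closedBall_subset_closedBall'
    rw [dist_zero_right]; linarith
  apply tendsto_of_sum_le (b := dirE u0 K0 (closedBall x s))
    (bn := fun n => dirE (u n) (K n) (closedBall x s)) _ (h.dirE_le_liminf h1)
    (h.len_fin hl x s).ne (h.dir_fin x s).ne
  · intro ε hε
    filter_upwards [h.eventually_enE_le hl hs hsph hε] with n hn
    unfold enE at hn
    rw [add_comm, add_comm (len (K0 ∩ closedBall x s))]
    exact hn
  · rw [len_closedBall hsph]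
    refine (hl _ isOpen_ball).trans (liminf_le_liminf ?_)
    filter_upwards with n
    exact len_mono (inter_subset_inter_right _ ball_subset_closedBall)

/-- strong convergence: total energies -/
theorem LimSeq.tendsto_enE (h : LimSeq U lam u K u0 K0) (hl : LenLsc K K0) {x : E2} {s : ℝ}
    (hs : 0 < s) (hsph : len (K0 ∩ sphere x s) = 0) :
    Tendsto (fun n => enE (u n) (K n) (closedBall x s)) atTop
      (𝓝 (enE u0 K0 (closedBall x s))) :=
  (h.tendsto_dirE hl hs hsph).add (h.tendsto_len hl hs hsph)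

theorem dirE_split {w : E2 → ℝ} {L A B : Set E2} (hA : MeasurableSet A)
    (hAB : A ⊆ B) :
    dirE w L B = dirE w L A + dirE w L (B \ A) := by
  unfold dirE
  rw [← lintegral_inter_add_sdiff (μ := volume) (fun x => ‖gradient w x‖ₑ ^ 2) (B \ L) hA]
  congr 2
  · congr 1
    ext y
    constructor
    · rintro ⟨h1, h2⟩; exact ⟨h2, h1.2⟩
    · rintro ⟨h1, h2⟩; exact ⟨⟨hAB h1, h2⟩, h1⟩
  · congr 1
    ext y
    constructor
    · rintro ⟨⟨h1, h2⟩, h3⟩; exact ⟨⟨h1, h3⟩, h2⟩
    · rintro ⟨⟨h1, h2⟩, h3⟩; exact ⟨⟨h1, h3⟩, h2⟩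

theorem len_split {L A B : Set E2} (hA : MeasurableSet A) (hAB : A ⊆ B) :
    len (L ∩ B) = len (L ∩ A) + len (L ∩ (B \ A)) := by
  unfold len
  rw [← measure_inter_add_sdiff (L ∩ B) hA]
  congr 2
  · ext y
    constructor
    · rintro ⟨⟨h1, h2⟩, h3⟩; exact ⟨h1, h3⟩
    · rintro ⟨h1, h2⟩; exact ⟨⟨h1, hAB h2⟩, h2⟩
  · ext y
    constructor
    · rintro ⟨⟨h1, h2⟩, h3⟩; exact ⟨h1, h2, h3⟩
    · rintro ⟨h1, h2, h3⟩; exact ⟨⟨h1, h2⟩, h3⟩

/-- **Minimality of the limit** -/
theorem LimSeq.min (h : LimSeq U lam u K u0 K0) (hl : LenLsc K K0) {x : E2} {ρ : ℝ}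
    (hρ : 0 < ρ) {w : E2 → ℝ} {L : Set E2} (hc : IsComp univ u0 K0 x ρ w L) :
    enE u0 K0 (closedBall x ρ) ≤ enE w L (closedBall x ρ) := by
  obtain ⟨s, hs, hsph⟩ := exists_good_radius (K := K0) (x := x) (R := ρ + 1) (a := ρ) (b := ρ + 1)
    (h.len_fin hl x (ρ + 1)) (by linarith) le_rfl
  have hs0 : 0 < s := hρ.trans hs.1
  have h1 : enE u0 K0 (closedBall x s) ≤ enE w L (closedBall x s) := by
    apply le_of_forall_ofReal
    intro ε hε
    exact le_of_tendsto (h.tendsto_enE hl hs0 hsph)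
      (h.transplant hρ hs.1 hc (h.len_fin hl x s) hsph hε)
  have hsub : closedBall x ρ ⊆ closedBall x s := closedBall_subset_closedBall hs.1.le
  have hm : MeasurableSet (closedBall x ρ) := isClosed_closedBall.measurableSet
  have e1 : enE u0 K0 (closedBall x s) =
      enE u0 K0 (closedBall x ρ) + enE u0 K0 (closedBall x s \ closedBall x ρ) := by
    unfold enE
    rw [dirE_split hm hsub, len_split hm hsub]
    ring
  have e2 : enE w L (closedBall x s) =
      enE w L (closedBall x ρ) + enE w L (closedBall x s \ closedBall x ρ) := by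
    unfold enE
    rw [dirE_split hm hsub, len_split hm hsub]
    ring
  have hdiff : ∀ y, y ∉ closedBall x ρ → (y ∈ L ↔ y ∈ K0) := by
    intro y hy
    constructor
    · intro hyL
      have : y ∈ L \ closedBall x ρ := ⟨hyL, hy⟩
      rw [hc.eqL] at this
      exact this.1
    · intro hyL
      have : y ∈ K0 \ closedBall x ρ := ⟨hyL, hy⟩
      rw [← hc.eqL] at this
      exact this.1
  have e3 : enE w L (closedBall x s \ closedBall x ρ)
      = enE u0 K0 (closedBall x s \ closedBall x ρ) := by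
    have e4 : (closedBall x s \ closedBall x ρ) \ L = (closedBall x s \ closedBall x ρ) \ K0 := by
      ext y
      constructor
      · rintro ⟨h3, h4⟩
        exact ⟨h3, fun h5 => h4 ((hdiff y h3.2).2 h5)⟩
      · rintro ⟨h3, h4⟩
        exact ⟨h3, fun h5 => h4 ((hdiff y h3.2).1 h5)⟩
    have e5 : L ∩ (closedBall x s \ closedBall x ρ) = K0 ∩ (closedBall x s \ closedBall x ρ) := by
      ext y
      constructor
      · rintro ⟨h3, h4⟩
        exact ⟨(hdiff y h4.2).1 h3, h4⟩
      · rintro ⟨h3, h4⟩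
        exact ⟨(hdiff y h4.2).2 h3, h4⟩
    unfold enE
    rw [e5]
    congr 1
    unfold dirE
    rw [e4]
    apply setLIntegral_congr_fun
    · exact (isClosed_closedBall.measurableSet.diff isClosed_closedBall.measurableSet).diff
        h.closed.measurableSet
    · intro y hy
      have e6 : w =ᶠ[𝓝 y] u0 := by
        have hV : IsOpen ((K0 ∪ closedBall x ρ)ᶜ) := (h.closed.union isClosed_closedBall).isOpen_compl
        have hyV : y ∈ (K0 ∪ closedBall x ρ)ᶜ := fun h7 => h7.elim hy.2 hy.1.2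
        filter_upwards [hV.mem_nhds hyV] with z hz
        exact hc.eqw z ⟨mem_univ _, hz⟩
      simp only [gradient_congr_nhds e6]
  rw [e1, e2, e3] at h1
  refine (ENNReal.add_le_add_iff_right ?_).1 h1
  refine (lt_of_le_of_lt ?_ (h.enE_fin hl x s)).ne
  rw [e1]
  exact le_add_self

end Crest.Agent.R135.Lim
end

-- ▼ part R135/LimF
section

/-!
# R135, block BL (helper517): Euler-Lagrange equation of the limit, reducedness, `Conv`
-/

set_option autoImplicit false

open MeasureTheory Set Filter Topology Metric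
open scoped ENNReal NNReal ContDiff Gradient

namespace Crest.Agent.R135.Lim

open Crest.Agent.R135

variable {U : ℕ → Set E2} {lam : ℕ → ℝ} {u : ℕ → E2 → ℝ} {K : ℕ → Set E2}
    {u0 : E2 → ℝ} {K0 : Set E2}

theorem LimSeq.isOpen0 (h : LimSeq U lam u K u0 K0) : IsOpen (univ \ K0) := by
  rw [← compl_eq_univ_sdiff]; exact h.closed.isOpen_compl

/-- variation `u0 + t φ` -/
theorem LimSeq.isComp_var (h : LimSeq U lam u K u0 K0) (hl : LenLsc K K0) {φ : E2 → ℝ}
    (hφ : LocallyLipschitzOn (univ \ K0) φ) {x : E2} {R : ℝ} (hs : ∀ y, y ∉ closedBall x R → φ y = 0)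
    (t : ℝ) : IsComp univ u0 K0 x R (fun y => u0 y + t * φ y) K0 where
  sub := subset_univ _
  closed := by rw [inter_univ, h.closed.closure_eq]
  len_fin := h.len_fin hl x R
  eqL := rfl
  lip := by
    rw [locallyLipschitzOn_iff_lipAt h.isOpen0] at hφ ⊢
    intro y hy
    have h1 : LipAt u0 y := lipAt_of_contDiffAt
      (h.c1.contDiffAt (h.closed.isOpen_compl.mem_nhds hy.2))
    exact h1.add ((lipAt_const t y).mul (hφ y hy))
  eqw := fun y hy => by
    rw [hs y (fun h1 => hy.2 (Or.inr h1)), mul_zero, add_zero]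
  keeps := fun c hc => ⟨c, hc, fun _ _ => rfl⟩

/-- Euler-Lagrange equation of the limit for all test functions jumping on `K0` -/
theorem LimSeq.el (h : LimSeq U lam u K u0 K0) (hl : LenLsc K K0) {φ : E2 → ℝ}
    (hφ : IsTest univ K0 φ) :
    ∫ x in univ \ K0, inner ℝ (gradient u0 x) (gradient φ x) = 0 := by
  obtain ⟨C, hC, -, hC0⟩ := hφ.supp
  obtain ⟨R, hR0, hR⟩ : ∃ R : ℝ, 0 < R ∧ C ⊆ closedBall 0 R := by
    obtain ⟨R, hR⟩ := hC.isBounded.subset_closedBall 0
    exact ⟨max R 1, lt_max_of_lt_right one_pos, hR.trans (closedBall_subset_closedBall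
      (le_max_left _ _))⟩
  have hs : ∀ y, y ∉ closedBall (0 : E2) R → φ y = 0 := fun y hy => hC0 y (fun h1 => hy (hR h1))
  set μ : Measure E2 := volume.restrict (closedBall 0 R \ K0) with hμ
  have hBm : MeasurableSet (closedBall (0 : E2) R \ K0) :=
    isClosed_closedBall.measurableSet.diff h.closed.measurableSet
  have hG : MemLp (fun y => gradient u0 y) 2 μ :=
    Gl.memLp_two_of_lintegral (measurable_gradient u0).aestronglyMeasurable (h.dir_fin 0 R)
  have hΦ : MemLp (fun y => gradient φ y) 2 μ := by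
    refine Gl.memLp_two_of_lintegral (measurable_gradient φ).aestronglyMeasurable ?_
    exact (dirE_mono (subset_univ _)).trans_lt hφ.dir_fin
  have hdiff := Gl.locLip_ae_diff h.isOpen0 hφ.lip
  -- the expansion
  have key : ∀ t : ℝ, 0 ≤ 2 * t * (∫ y, inner ℝ (gradient u0 y) (gradient φ y) ∂μ)
      + t ^ 2 * ∫ y, ‖gradient φ y‖ ^ 2 ∂μ := by
    intro t
    have hmin := h.min hl hR0 (h.isComp_var hl hφ.lip hs t)
    have hmin2 : dirE u0 K0 (closedBall 0 R) ≤
        dirE (fun y => u0 y + t * φ y) K0 (closedBall 0 R) := by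
      unfold enE at hmin
      exact (ENNReal.add_le_add_iff_right (h.len_fin hl 0 R).ne).1 hmin
    have e1 : dirE (fun y => u0 y + t * φ y) K0 (closedBall 0 R) =
        ∫⁻ y, ‖gradient u0 y + t • gradient φ y‖ₑ ^ 2 ∂μ := by
      unfold dirE
      apply lintegral_congr_ae
      rw [EventuallyEq, ae_restrict_iff' hBm]
      filter_upwards [hdiff] with y hy hyB
      have hd1 := h.diffAt0 hyB.2
      have hd2 := hy ⟨mem_univ _, hyB.2⟩
      have e2 : gradient (fun y => u0 y + t * φ y) y = gradient u0 y + t • gradient φ y := by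
        unfold gradient
        rw [fderiv_fun_add hd1 (hd2.const_mul t), fderiv_const_mul hd2, map_add, map_smul]
      rw [e2]
    have hS : MemLp (fun y => gradient u0 y + t • gradient φ y) 2 μ := hG.add (hΦ.const_smul t)
    rw [e1, Gl.lintegral_sq_eq hS] at hmin2
    have e3 : dirE u0 K0 (closedBall 0 R) = ENNReal.ofReal (∫ y, ‖gradient u0 y‖ ^ 2 ∂μ) :=
      Gl.lintegral_sq_eq hG
    rw [e3, ENNReal.ofReal_le_ofReal_iff (integral_nonneg fun y => by positivity)] at hmin2
    have e4 : ∫ y, ‖gradient u0 y + t • gradient φ y‖ ^ 2 ∂μ =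
        ∫ y, ‖gradient u0 y‖ ^ 2 ∂μ + (2 * t * (∫ y, inner ℝ (gradient u0 y) (gradient φ y) ∂μ)
          + t ^ 2 * ∫ y, ‖gradient φ y‖ ^ 2 ∂μ) := by
      have i1 := Gl.integrable_normsq hG
      have i2 := Gl.integrable_inner2 hG hΦ
      have i3 := Gl.integrable_normsq hΦ
      have I2 : Integrable (fun y => 2 * t * inner ℝ (gradient u0 y) (gradient φ y)) μ :=
        i2.const_mul _
      have I3 : Integrable (fun y => t ^ 2 * ‖gradient φ y‖ ^ 2) μ := i3.const_mul _
      have I23 : Integrable (fun y => 2 * t * inner ℝ (gradient u0 y) (gradient φ y)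
        + t ^ 2 * ‖gradient φ y‖ ^ 2) μ := I2.add I3
      rw [← integral_const_mul, ← integral_const_mul, ← integral_add I2 I3,
        ← integral_add i1 I23]
      apply integral_congr_ae
      filter_upwards with y
      have := norm_add_sq_real (gradient u0 y) (t • gradient φ y)
      rw [this, norm_smul, inner_smul_right, mul_pow, Real.norm_eq_abs, sq_abs]
      ring
    rw [e4] at hmin2
    linarith
  have h0 := Gl.quad_zero key
  rw [← h0, hμ]
  apply setIntegral_eq_of_subset_of_forall_sdiff_eq_zero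
  · exact h.isOpen0.measurableSet
  · exact sdiff_subset_sdiff_left (subset_univ _)
  · rintro y ⟨hy1, hy2⟩
    have hyB : y ∉ closedBall (0 : E2) R := fun h1 => hy2 ⟨h1, hy1.2⟩
    have e5 : gradient φ y = 0 := by
      apply gradient_eq_zero_of_eventually_const 0
      filter_upwards [isClosed_closedBall.isOpen_compl.mem_nhds hyB] with z hz
      exact hs z hz
    rw [e5, inner_zero_right]

/-- reducedness of the limit (input: density lower bound) -/
theorem LimSeq.red (h : LimSeq U lam u K u0 K0) (hl : LenLsc K K0)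
    (hd : ∃ c₀ : ℝ, 0 < c₀ ∧ ∀ n, ∀ x ∈ K n, ∀ r : ℝ, 0 < r → r ≤ 1 → closedBall x r ⊆ U n →
      lam n * r ≤ 1 → ENNReal.ofReal (c₀ * r) ≤ len (K n ∩ closedBall x r)) :
    ∀ x ∈ K0, ∀ r : ℝ, 0 < r → 0 < len (K0 ∩ ball x r) := by
  intro x hx r' hr'
  obtain ⟨c₀, hc₀, hd⟩ := hd
  refine lt_of_lt_of_le ?_ (len_mono (inter_subset_inter_right K0
    (ball_subset_ball (min_le_left r' 1))))
  have hr : 0 < Min.min r' 1 := lt_min hr' one_pos
  have hr1 : Min.min r' 1 ≤ 1 := min_le_right _ _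
  generalize Min.min r' 1 = r at hr hr1
  obtain ⟨s, hs, hsph⟩ := exists_good_radius (K := K0) (x := x) (R := r) (a := r / 2) (b := r)
    (h.len_fin hl x r) (by linarith) le_rfl
  have hs0 : 0 < s := (by positivity : (0:ℝ) < r / 2).trans hs.1
  have hlam : ∀ᶠ n in atTop, lam n * (r / 4) ≤ 1 := by
    have h1 : Tendsto (fun n => lam n * (r / 4)) atTop (𝓝 (0 * (r / 4))) := h.lam_lim.mul_const _
    rw [zero_mul] at h1
    exact (h1.eventually (gt_mem_nhds one_pos)).mono fun n hn => hn.le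
  have hev : ∀ᶠ n in atTop, ENNReal.ofReal (c₀ * (r / 4)) ≤ len (K n ∩ closedBall x s) := by
    filter_upwards [h.k2 x hx (r / 4) (by positivity), h.exh _ (isCompact_closedBall x r), hlam]
      with n h1 h2 h3
    obtain ⟨y, hyK, hyb⟩ := h1
    have hsub : closedBall y (r / 4) ⊆ closedBall x s := by
      apply closedBall_subset_closedBall'
      rw [mem_ball] at hyb
      linarith [hs.1]
    refine (hd n y hyK (r / 4) (by positivity) (by linarith) ?_ h3).trans
      (len_mono (inter_subset_inter_right _ hsub))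
    exact hsub.trans ((closedBall_subset_closedBall hs.2.le).trans h2)
  have h4 : ENNReal.ofReal (c₀ * (r / 4)) ≤ len (K0 ∩ closedBall x s) :=
    ge_of_tendsto (h.tendsto_len hl hs0 hsph) hev
  have h5 : 0 < ENNReal.ofReal (c₀ * (r / 4)) := ENNReal.ofReal_pos.2 (by positivity)
  exact (h5.trans_le h4).trans_le
    (len_mono (inter_subset_inter_right _ (closedBall_subset_ball hs.2)))

/-- **the limit is in the class** -/
theorem LimSeq.isQM (h : LimSeq U lam u K u0 K0) (hl : LenLsc K K0)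
    (hd : ∃ c₀ : ℝ, 0 < c₀ ∧ ∀ n, ∀ x ∈ K n, ∀ r : ℝ, 0 < r → r ≤ 1 → closedBall x r ⊆ U n →
      lam n * r ≤ 1 → ENNReal.ofReal (c₀ * r) ≤ len (K n ∩ closedBall x r)) :
    IsQM univ 0 u0 K0 where
  isOpen := isOpen_univ
  lam_nonneg := le_rfl
  sub := subset_univ _
  closed := by rw [inter_univ, h.closed.closure_eq]
  c1 := by rw [← compl_eq_univ_sdiff]; exact h.c1
  len_fin := fun x r _ => h.len_fin hl x r
  dir_fin := fun x r _ => h.dir_fin x r
  red := h.red hl hd
  min := fun x ρ hρ _ w L hc => by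
    rw [zero_mul, ENNReal.ofReal_zero, add_zero]
    exact h.min hl hρ hc
  el := ⟨fun _ => 0, measurable_const, fun x => by simp, fun φ hφ => by
    rw [h.el hl hφ]; simp⟩

/-! ### `Conv` -/

theorem LimSeq.volume_K0 (h : LimSeq U lam u K u0 K0) (hl : LenLsc K K0) : volume K0 = 0 := by
  apply measure_null_of_locally_null
  intro x _
  refine ⟨K0 ∩ closedBall x 1, ?_, ?_⟩
  · exact inter_mem_nhdsWithin K0 (closedBall_mem_nhds x one_pos)
  · exact volume_eq_zero_of_hausdorff_lt_top (h.len_fin hl x 1)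

theorem dirE_eq_of_null {w : E2 → ℝ} {L B : Set E2} (hL : volume L = 0) :
    dirE w L B = ∫⁻ y in B, ‖gradient w y‖ₑ ^ 2 := by
  unfold dirE
  apply setLIntegral_congr
  exact sdiff_null_ae_eq_self hL

theorem lintegral_sub_sq_tendsto {μ : Measure E2} {f : ℕ → E2 → E2} {g : E2 → E2}
    (hf : ∀ n, Measurable (f n)) (hg : Measurable g)
    (hlim : ∀ᵐ y ∂μ, Tendsto (fun n => f n y) atTop (𝓝 (g y)))
    (hfin : ∫⁻ y, ‖g y‖ₑ ^ 2 ∂μ ≠ ⊤)
    (hn : Tendsto (fun n => ∫⁻ y, ‖f n y‖ₑ ^ 2 ∂μ) atTop (𝓝 (∫⁻ y, ‖g y‖ₑ ^ 2 ∂μ))) :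
    Tendsto (fun n => ∫⁻ y, ‖f n y - g y‖ₑ ^ 2 ∂μ) atTop (𝓝 0) := by
  set a := ∫⁻ y, ‖g y‖ₑ ^ 2 ∂μ with ha
  -- the Fatou function
  set F : ℕ → E2 → ℝ≥0∞ := fun n y => ENNReal.ofReal (2 * ‖f n y‖ ^ 2 + 2 * ‖g y‖ ^ 2
    - ‖f n y - g y‖ ^ 2) with hF
  have hFm : ∀ n, Measurable (F n) := fun n => by
    have := hf n
    fun_prop
  have hpos : ∀ n y, 0 ≤ 2 * ‖f n y‖ ^ 2 + 2 * ‖g y‖ ^ 2 - ‖f n y - g y‖ ^ 2 := by
    intro n y
    have h1 := parallelogram_law_with_norm ℝ (f n y) (g y)
    nlinarith [norm_nonneg (f n y + g y), sq_nonneg ‖f n y + g y‖]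
  have hFsum : ∀ n y, F n y + ‖f n y - g y‖ₑ ^ 2 = 2 * ‖f n y‖ₑ ^ 2 + 2 * ‖g y‖ₑ ^ 2 := by
    intro n y
    have e : ∀ v : E2, ‖v‖ₑ ^ 2 = ENNReal.ofReal (‖v‖ ^ 2) := fun v => by
      rw [ENNReal.ofReal_pow (norm_nonneg _), ofReal_norm]
    have e2 : ∀ b : ℝ, (2 : ℝ≥0∞) * ENNReal.ofReal b = ENNReal.ofReal (2 * b) := fun b => by
      rw [ENNReal.ofReal_mul (by norm_num)]; simp
    rw [e, e, e, hF, e2, e2]
    simp only
    rw [← ENNReal.ofReal_add (hpos n y) (by positivity), ← ENNReal.ofReal_add (by positivity)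
      (by positivity)]
    congr 1
    ring
  have hInt : ∀ n, ∫⁻ y, F n y ∂μ + ∫⁻ y, ‖f n y - g y‖ₑ ^ 2 ∂μ =
      2 * ∫⁻ y, ‖f n y‖ₑ ^ 2 ∂μ + 2 * a := by
    intro n
    have hfn := hf n
    rw [← lintegral_add_left (hFm n)]
    simp_rw [hFsum]
    rw [lintegral_add_left (by fun_prop), lintegral_const_mul _ (by fun_prop),
      lintegral_const_mul _ (by fun_prop)]
  have hfatou : 4 * a ≤ liminf (fun n => ∫⁻ y, F n y ∂μ) atTop := by
    refine le_trans ?_ (lintegral_liminf_le hFm)
    have e1 : 4 * a = ∫⁻ y, 4 * ‖g y‖ₑ ^ 2 ∂μ := by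
      rw [lintegral_const_mul _ (by fun_prop)]
    rw [e1]
    apply lintegral_mono_ae
    filter_upwards [hlim] with y hy
    have h1 : Tendsto (fun n => F n y) atTop (𝓝 (ENNReal.ofReal (2 * ‖g y‖ ^ 2 + 2 * ‖g y‖ ^ 2
        - ‖g y - g y‖ ^ 2))) := by
      apply ENNReal.tendsto_ofReal
      exact (((hy.norm.pow 2).const_mul 2).add tendsto_const_nhds).sub
        ((hy.sub tendsto_const_nhds).norm.pow 2)
    rw [h1.liminf_eq]
    have e : ‖g y‖ₑ ^ 2 = ENNReal.ofReal (‖g y‖ ^ 2) := by
      rw [ENNReal.ofReal_pow (norm_nonneg _), ofReal_norm]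
    have e2 : ∀ b : ℝ, (4 : ℝ≥0∞) * ENNReal.ofReal b = ENNReal.ofReal (4 * b) := fun b => by
      rw [ENNReal.ofReal_mul (by norm_num)]; simp
    rw [e, e2]
    apply ENNReal.ofReal_le_ofReal
    simp
    linarith
  refine tendsto_of_sum_le (a := 0) (b := 4 * a) (bn := fun n => ∫⁻ y, F n y ∂μ) (zero_le) hfatou
    ENNReal.zero_ne_top (ENNReal.mul_ne_top (by simp) hfin) ?_
  intro ε hε
  have h2 : Tendsto (fun n => 2 * ∫⁻ y, ‖f n y‖ₑ ^ 2 ∂μ + 2 * a) atTop (𝓝 (2 * a + 2 * a)) :=
    (ENNReal.Tendsto.const_mul hn (Or.inr (by simp))).add tendsto_const_nhds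
  have h3 : 2 * a + 2 * a < 0 + 4 * a + ENNReal.ofReal ε := by
    have : 2 * a + 2 * a = 4 * a := by rw [← add_mul]; norm_num
    rw [this, zero_add]
    exact ENNReal.lt_add_right (ENNReal.mul_ne_top (by simp) hfin) (ENNReal.ofReal_pos.2 hε).ne'
  filter_upwards [h2.eventually (gt_mem_nhds h3)] with n hn'
  rw [add_comm, hInt n]
  exact hn'.le

theorem LimSeq.conv (h : LimSeq U lam u K u0 K0) (hl : LenLsc K K0) : Conv u K u0 K0 where
  near := fun x hx ε hε => (h.k2 x hx ε hε).mono fun n hn => by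
    obtain ⟨y, hy1, hy2⟩ := hn
    exact ⟨y, hy1, hy2⟩
  away := h.k1
  grad := fun C hC hd ε hε => by
    have hCK : C ⊆ K0ᶜ := fun y hy hyK => (disjoint_left.1 hd hy) hyK
    filter_upwards [h.eventually_grad hC hCK (half_pos hε)] with n hn y hy
    exact (hn y hy).trans_lt (half_lt_self hε)
  l2 := fun R => by
    obtain ⟨s, hs, hsph⟩ := exists_good_radius (K := K0) (x := 0) (R := max R 0 + 1)
      (a := max R 0) (b := max R 0 + 1) (h.len_fin hl 0 _) (by linarith) le_rfl
    have hs0 : 0 < s := (le_max_right R 0).trans_lt hs.1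
    have hRs : ball (0 : E2) R ⊆ closedBall 0 s :=
      ball_subset_closedBall.trans (closedBall_subset_closedBall ((le_max_left R 0).trans hs.1.le))
    have h1 : Tendsto (fun n => ∫⁻ y in closedBall (0 : E2) s,
        ‖gradient (u n) y - gradient u0 y‖ₑ ^ 2) atTop (𝓝 0) := by
      apply lintegral_sub_sq_tendsto (fun n => measurable_gradient (u n)) (measurable_gradient u0)
      · have h2 : ∀ᵐ y ∂(volume : Measure E2), y ∉ K0 :=
          measure_eq_zero_iff_ae_notMem.1 (h.volume_K0 hl)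
        filter_upwards [ae_restrict_of_ae h2] with y hy
        exact h.grad.tendsto_at hy
      · rw [← dirE_eq_of_null (h.volume_K0 hl)]
        exact (h.dir_fin 0 s).ne
      · have h2 := h.tendsto_dirE hl hs0 hsph
        rw [dirE_eq_of_null (h.volume_K0 hl)] at h2
        simp_rw [fun n => dirE_eq_of_null (w := u n) (B := closedBall (0:E2) s) (h.qm n).volume_K]
          at h2
        exact h2
    refine tendsto_of_tendsto_of_tendsto_of_le_of_le tendsto_const_nhds h1 (fun n => zero_le)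
      (fun n => lintegral_mono_set hRs)
  len := fun x R hsph => by
    rcases lt_or_ge 0 R with hR | hR
    · exact h.tendsto_len hl hR hsph
    · have h1 : ∀ L : Set E2, Crest.Agent.R135.len (L ∩ closedBall x R) = 0 := by
        intro L
        apply measure_mono_null (t := {x})
        · rintro y ⟨-, hy⟩
          rw [mem_closedBall] at hy
          exact mem_singleton_iff.2 (dist_le_zero.1 (hy.trans hR))
        · have : NullSingletonClass (Measure.hausdorffMeasure 1 : Measure E2) :=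
            Measure.nullSingletonClass_hausdorff E2 one_pos
          exact measure_singleton x
      simp_rw [h1]
      exact tendsto_const_nhds

end Crest.Agent.R135.Lim
end

-- ▼ part R135/GMT3
section

/-!
R135 toolbox (helper709): lower semicontinuity of `H¹` under uniform concentration.
-/

set_option autoImplicit false

open MeasureTheory Set Filter Topology Metric
open scoped ENNReal NNReal

namespace Crest.Agent.R135

variable {X : Type*} [MetricSpace X] [MeasurableSpace X] [BorelSpace X] [ProperSpace X]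

omit [MeasurableSpace X] [BorelSpace X] in
/-- Finitely many disjoint closed balls inside an open set can be slightly enlarged. -/
theorem exists_enlarge_balls (U : Set X) (hU : IsOpen U) (s : Finset (X × ℝ))
    (hsU : ∀ a ∈ s, closedBall a.1 a.2 ⊆ U)
    (hd : (s : Set (X × ℝ)).PairwiseDisjoint (fun a => closedBall a.1 a.2)) :
    ∃ η0 : ℝ, 0 < η0 ∧ ∀ η : ℝ, 0 < η → η ≤ η0 →
      (∀ a ∈ s, closedBall a.1 (a.2 + η) ⊆ U) ∧
      (s : Set (X × ℝ)).PairwiseDisjoint (fun a => closedBall a.1 (a.2 + η)) := by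
  -- for each single ball and open set
  have hone : ∀ (a : X × ℝ) (V : Set X), IsOpen V → closedBall a.1 a.2 ⊆ V →
      ∃ η0 : ℝ, 0 < η0 ∧ closedBall a.1 (a.2 + η0) ⊆ V := by
    intro a V hV haV
    by_contra hcon
    push Not at hcon
    -- a sequence of points outside V
    have hx : ∀ n : ℕ, ∃ x, x ∈ closedBall a.1 (a.2 + 1 / ((n : ℝ) + 1)) ∧ x ∉ V := by
      intro n
      have := hcon (1 / ((n : ℝ) + 1)) (by positivity)
      exact not_subset.1 this
    choose x hx hxV using hx
    have hcomp : IsCompact (closedBall a.1 (a.2 + 1)) := isCompact_closedBall _ _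
    have hxc : ∀ n, x n ∈ closedBall a.1 (a.2 + 1) := by
      intro n
      refine closedBall_subset_closedBall ?_ (hx n)
      have : 1 / ((n : ℝ) + 1) ≤ 1 := by
        rw [div_le_one (by positivity)]
        have : (0 : ℝ) ≤ n := Nat.cast_nonneg n
        linarith
      linarith
    obtain ⟨z, _, φ, hφ, hz⟩ := hcomp.tendsto_subseq hxc
    have hzV : z ∉ V := by
      have : z ∈ Vᶜ := hV.isClosed_compl.mem_of_tendsto hz
        (Eventually.of_forall fun n => hxV (φ n))
      exact this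
    apply hzV
    apply haV
    rw [mem_closedBall]
    have h1 : Tendsto (fun n => dist (x (φ n)) a.1) atTop (𝓝 (dist z a.1)) :=
      (hz.dist tendsto_const_nhds)
    have h2 : Tendsto (fun n => a.2 + 1 / (((φ n : ℕ) : ℝ) + 1)) atTop (𝓝 (a.2 + 0)) := by
      apply Tendsto.add tendsto_const_nhds
      exact tendsto_one_div_add_atTop_nhds_zero_nat.comp hφ.tendsto_atTop
    rw [add_zero] at h2
    exact le_of_tendsto_of_tendsto' h1 h2 (fun n => hx (φ n))
  -- U part
  have hUpart : ∃ η0 : ℝ, 0 < η0 ∧ ∀ a ∈ s, closedBall a.1 (a.2 + η0) ⊆ U := by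
    choose! f hf0 hf using fun (a : X × ℝ) (ha : a ∈ s) => hone a U hU (hsU a ha)
    rcases s.eq_empty_or_nonempty with rfl | hne
    · exact ⟨1, one_pos, by simp⟩
    · refine ⟨s.inf' hne f, ?_, ?_⟩
      · rw [Finset.lt_inf'_iff]
        exact fun a ha => hf0 a ha
      · intro a ha
        refine (closedBall_subset_closedBall ?_).trans (hf a ha)
        have := Finset.inf'_le f ha
        linarith
  -- pairs
  have hpair : ∀ a b : X × ℝ, Disjoint (closedBall a.1 a.2) (closedBall b.1 b.2) →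
      ∃ η0 : ℝ, 0 < η0 ∧ Disjoint (closedBall a.1 (a.2 + η0)) (closedBall b.1 (b.2 + η0)) := by
    intro a b hab
    obtain ⟨η1, hη1, h1⟩ := hone a (closedBall b.1 b.2)ᶜ isClosed_closedBall.isOpen_compl
      (disjoint_left.1 hab)
    obtain ⟨η2, hη2, h2⟩ := hone b (closedBall a.1 (a.2 + η1))ᶜ isClosed_closedBall.isOpen_compl
      (by
        intro z hz hz'
        exact h1 hz' hz)
    refine ⟨min η1 η2, lt_min hη1 hη2, ?_⟩
    rw [disjoint_left]
    intro z hz hz'
    exact h2 (closedBall_subset_closedBall (by gcongr; exact min_le_right _ _) hz')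
      (closedBall_subset_closedBall (by gcongr; exact min_le_left _ _) hz)
  have hPpart : ∃ η0 : ℝ, 0 < η0 ∧
      (s : Set (X × ℝ)).PairwiseDisjoint (fun a => closedBall a.1 (a.2 + η0)) := by
    classical
    have : ∀ p : (X × ℝ) × (X × ℝ), p ∈ (s ×ˢ s).filter (fun p => p.1 ≠ p.2) →
        ∃ η0 : ℝ, 0 < η0 ∧
          Disjoint (closedBall p.1.1 (p.1.2 + η0)) (closedBall p.2.1 (p.2.2 + η0)) := by
      intro p hp
      simp only [Finset.mem_filter, Finset.mem_product] at hp
      exact hpair p.1 p.2 (hd hp.1.1 hp.1.2 hp.2)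
    choose! f hf0 hf using this
    rcases ((s ×ˢ s).filter (fun p => p.1 ≠ p.2)).eq_empty_or_nonempty with he | hne
    · refine ⟨1, one_pos, ?_⟩
      intro a ha b hb hab
      exfalso
      have : (a, b) ∈ (s ×ˢ s).filter (fun p => p.1 ≠ p.2) := by
        simp only [Finset.mem_filter, Finset.mem_product]; exact ⟨⟨ha, hb⟩, hab⟩
      rw [he] at this
      simp at this
    · refine ⟨((s ×ˢ s).filter (fun p => p.1 ≠ p.2)).inf' hne f, ?_, ?_⟩
      · rw [Finset.lt_inf'_iff]
        exact fun p hp => hf0 p hp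
      · intro a ha b hb hab
        have hp : (a, b) ∈ (s ×ˢ s).filter (fun p => p.1 ≠ p.2) := by
          simp only [Finset.mem_filter, Finset.mem_product]; exact ⟨⟨ha, hb⟩, hab⟩
        have h1 := Finset.inf'_le f hp
        exact (hf _ hp).mono (closedBall_subset_closedBall (by simpa using h1))
          (closedBall_subset_closedBall (by simpa using h1))
  obtain ⟨η1, hη1, h1⟩ := hUpart
  obtain ⟨η2, hη2, h2⟩ := hPpart
  refine ⟨min η1 η2, lt_min hη1 hη2, ?_⟩
  intro η hη hle
  refine ⟨fun a ha => (closedBall_subset_closedBall ?_).trans (h1 a ha), ?_⟩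
  · have := hle.trans (min_le_left _ _); linarith
  · intro a ha b hb hab
    have hη2' := hle.trans (min_le_right η1 η2)
    exact (h2 ha hb hab).mono (closedBall_subset_closedBall (by linarith))
      (closedBall_subset_closedBall (by linarith))

/-- Lower semicontinuity of `H¹` from uniform concentration (Dal Maso–Morel–Solimini). -/
theorem hausdorff_le_liminf_of_concentration {ι : Type*} (l : Filter ι) (K : ι → Set X)
    (K0 U : Set X) (hU : IsOpen U) (κ C : ℝ) (hκ : 0 < κ) (hC : 0 < C)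
    (h : ∀ x ∈ K0 ∩ U, ∃ r0 : ℝ, 0 < r0 ∧ ∀ r : ℝ, 0 < r → r ≤ r0 → ∀ᶠ n in l,
      ∃ (y : X) (s : ℝ), dist x y + s ≤ r ∧ r ≤ C * s ∧
        ENNReal.ofReal (κ * (2 * s)) ≤ Measure.hausdorffMeasure 1 (K n ∩ closedBall y s)) :
    ENNReal.ofReal κ * Measure.hausdorffMeasure 1 (K0 ∩ U) ≤
      liminf (fun n => Measure.hausdorffMeasure 1 (K n ∩ U)) l := by
  classical
  by_contra hcon
  push Not at hcon
  obtain ⟨m, hm1, hm2⟩ := exists_between hcon
  have hmt : m ≠ ⊤ := (lt_of_lt_of_le hm2 le_top).ne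
  -- frequently below m
  have hfreq : ∃ᶠ n in l, Measure.hausdorffMeasure 1 (K n ∩ U) < m := by
    by_contra hnf
    rw [not_frequently] at hnf
    have : m ≤ liminf (fun n => Measure.hausdorffMeasure 1 (K n ∩ U)) l := by
      apply le_liminf_of_le (by isBoundedDefault)
      filter_upwards [hnf] with n hn
      exact not_lt.1 hn
    exact absurd hm1 (not_lt.2 this)
  have hne : (l ⊓ 𝓟 {n | Measure.hausdorffMeasure 1 (K n ∩ U) < m}).NeBot :=
    frequently_mem_iff_neBot.1 hfreq
  obtain ⟨𝒰, h𝒰⟩ := Ultrafilter.exists_le (l ⊓ 𝓟 {n | Measure.hausdorffMeasure 1 (K n ∩ U) < m})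
  have h𝒰l : (𝒰 : Filter ι) ≤ l := h𝒰.trans inf_le_left
  have h𝒰m : ∀ᶠ n in (𝒰 : Filter ι), Measure.hausdorffMeasure 1 (K n ∩ U) < m :=
    (le_principal_iff.1 (h𝒰.trans inf_le_right))
  -- the limit family
  let F : Set (X × ℝ) := {a | 0 < a.2 ∧ closedBall a.1 a.2 ⊆ U ∧ ∀ η : ℝ, 0 < η →
    ∀ᶠ n in (𝒰 : Filter ι), ENNReal.ofReal (κ * (2 * (a.2 - η))) ≤
      Measure.hausdorffMeasure 1 (K n ∩ closedBall a.1 (a.2 + η))}
  have hfam := hausdorff_le_of_fine_family (K0 ∩ U) C hC F (fun a ha => ha.1)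
    (by
      intro x hx
      obtain ⟨r1, hr1, hr⟩ := h x hx
      obtain ⟨ρ, hρ, hρU⟩ := Metric.nhds_basis_closedBall.mem_iff.1 (hU.mem_nhds hx.2)
      refine ⟨min r1 ρ, lt_min hr1 hρ, ?_⟩
      intro r hr0 hrle
      have hev := h𝒰l (hr r hr0 (hrle.trans (min_le_left _ _)))
      -- choose balls
      have hev' : ∀ᶠ n in (𝒰 : Filter ι), ∃ p : X × ℝ, dist x p.1 + p.2 ≤ r ∧ r ≤ C * p.2 ∧
          ENNReal.ofReal (κ * (2 * p.2)) ≤
            Measure.hausdorffMeasure 1 (K n ∩ closedBall p.1 p.2) := by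
        filter_upwards [hev] with n hn
        obtain ⟨y, s, h1, h2, h3⟩ := hn
        exact ⟨(y, s), h1, h2, h3⟩
      let S : ι → X × ℝ := fun n => if hn : ∃ p : X × ℝ, dist x p.1 + p.2 ≤ r ∧ r ≤ C * p.2 ∧
          ENNReal.ofReal (κ * (2 * p.2)) ≤
            Measure.hausdorffMeasure 1 (K n ∩ closedBall p.1 p.2) then hn.choose else (x, r)
      have hS : ∀ᶠ n in (𝒰 : Filter ι), dist x (S n).1 + (S n).2 ≤ r ∧ r ≤ C * (S n).2 ∧
          ENNReal.ofReal (κ * (2 * (S n).2)) ≤
            Measure.hausdorffMeasure 1 (K n ∩ closedBall (S n).1 (S n).2) := by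
        filter_upwards [hev'] with n hn
        simp only [S, dif_pos hn]
        exact hn.choose_spec
      have hSc : ∀ᶠ n in (𝒰 : Filter ι), S n ∈ closedBall x r ×ˢ Icc (r / C) r := by
        filter_upwards [hS] with n hn
        obtain ⟨h1, h2, _⟩ := hn
        have hs0 : r / C ≤ (S n).2 := by rw [div_le_iff₀ hC]; linarith
        have hs1 : 0 < r / C := by positivity
        refine ⟨?_, hs0, ?_⟩
        · rw [mem_closedBall, dist_comm]; linarith
        · have := dist_nonneg (x := x) (y := (S n).1); linarith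
      have hcomp : IsCompact (closedBall x r ×ˢ Icc (r / C) r) :=
        (isCompact_closedBall x r).prod isCompact_Icc
      obtain ⟨a, ha, hlim⟩ := hcomp.ultrafilter_le_nhds (𝒰.map S) (by
        rw [le_principal_iff]; exact hSc)
      have hlim' : Tendsto S (𝒰 : Filter ι) (𝓝 a) := hlim
      have h1lim : Tendsto (fun n => (S n).1) (𝒰 : Filter ι) (𝓝 a.1) :=
        (continuous_fst.tendsto a).comp hlim'
      have h2lim : Tendsto (fun n => (S n).2) (𝒰 : Filter ι) (𝓝 a.2) :=
        (continuous_snd.tendsto a).comp hlim'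
      have hsum : dist x a.1 + a.2 ≤ r := by
        have : Tendsto (fun n => dist x (S n).1 + (S n).2) (𝒰 : Filter ι) (𝓝 (dist x a.1 + a.2)) :=
          (tendsto_const_nhds.dist h1lim).add h2lim
        exact le_of_tendsto this (hS.mono fun n hn => hn.1)
      have hra : r ≤ C * a.2 := by
        have : Tendsto (fun n => C * (S n).2) (𝒰 : Filter ι) (𝓝 (C * a.2)) :=
          h2lim.const_mul C
        exact ge_of_tendsto this (hS.mono fun n hn => hn.2.1)
      have ha0 : 0 < a.2 := by
        by_contra hneg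
        push Not at hneg
        nlinarith
      have hasub : closedBall a.1 a.2 ⊆ closedBall x r := by
        apply closedBall_subset_closedBall'
        rw [dist_comm]; linarith
      refine ⟨a, ⟨ha0, ?_, ?_⟩, hasub, ?_, hra⟩
      · exact hasub.trans ((closedBall_subset_closedBall (hrle.trans (min_le_right _ _))).trans hρU)
      · intro η hη
        have h3 : ∀ᶠ n in (𝒰 : Filter ι), dist (S n).1 a.1 < η / 2 :=
          (Metric.tendsto_nhds.1 h1lim) (η / 2) (by positivity)
        have h4 : ∀ᶠ n in (𝒰 : Filter ι), dist (S n).2 a.2 < η / 2 :=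
          (Metric.tendsto_nhds.1 h2lim) (η / 2) (by positivity)
        filter_upwards [hS, h3, h4] with n hn hn3 hn4
        rw [Real.dist_eq, abs_lt] at hn4
        calc ENNReal.ofReal (κ * (2 * (a.2 - η))) ≤ ENNReal.ofReal (κ * (2 * (S n).2)) := by
              apply ENNReal.ofReal_le_ofReal
              have : a.2 - η ≤ (S n).2 := by linarith
              gcongr
          _ ≤ Measure.hausdorffMeasure 1 (K n ∩ closedBall (S n).1 (S n).2) := hn.2.2
          _ ≤ _ := by
              apply measure_mono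
              apply inter_subset_inter_right
              apply closedBall_subset_closedBall'
              linarith
      · have := dist_nonneg (x := x) (y := a.1); linarith)
    (m.toReal / κ)
    (by
      intro s hsF hsd
      obtain ⟨η0, hη0, hen⟩ := exists_enlarge_balls U hU s (fun a ha => (hsF ha).2.1) hsd
      -- bound for small η
      have hb : ∀ η : ℝ, 0 < η → η ≤ η0 → ∑ a ∈ s, κ * (2 * (a.2 - η)) ≤ m.toReal := by
        intro η hη hle
        obtain ⟨hsub, hdis⟩ := hen η hη hle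
        have hall : ∀ᶠ n in (𝒰 : Filter ι), ∀ a ∈ s, ENNReal.ofReal (κ * (2 * (a.2 - η))) ≤
            Measure.hausdorffMeasure 1 (K n ∩ closedBall a.1 (a.2 + η)) := by
          rw [Filter.eventually_all_finset]
          intro a ha
          exact (hsF ha).2.2 η hη
        obtain ⟨n, hn, hnm⟩ := (hall.and h𝒰m).exists
        have h5 : ∑ a ∈ s, ENNReal.ofReal (κ * (2 * (a.2 - η))) ≤ m := by
          calc ∑ a ∈ s, ENNReal.ofReal (κ * (2 * (a.2 - η)))
              ≤ ∑ a ∈ s, Measure.hausdorffMeasure 1 (K n ∩ closedBall a.1 (a.2 + η)) :=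
                Finset.sum_le_sum hn
            _ = ∑ a ∈ s, (Measure.hausdorffMeasure 1).restrict (K n) (closedBall a.1 (a.2 + η)) := by
                apply Finset.sum_congr rfl
                intro a _
                rw [Measure.restrict_apply isClosed_closedBall.measurableSet, inter_comm]
            _ = (Measure.hausdorffMeasure 1).restrict (K n)
                  (⋃ a ∈ s, closedBall a.1 (a.2 + η)) := by
                rw [measure_biUnion_finset hdis (fun a _ => isClosed_closedBall.measurableSet)]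
            _ ≤ (Measure.hausdorffMeasure 1).restrict (K n) U := by
                apply measure_mono
                intro z hz
                simp only [mem_iUnion] at hz
                obtain ⟨a, ha, hz⟩ := hz
                exact hsub a ha hz
            _ = Measure.hausdorffMeasure 1 (K n ∩ U) := by
                rw [Measure.restrict_apply hU.measurableSet, inter_comm]
            _ ≤ m := hnm.le
        have h6 : ∑ a ∈ s, κ * (2 * (a.2 - η)) ≤
            ∑ a ∈ s, (ENNReal.ofReal (κ * (2 * (a.2 - η)))).toReal := by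
          apply Finset.sum_le_sum
          intro a _
          exact Real.le_coe_toNNReal _
        have h7 : ∑ a ∈ s, (ENNReal.ofReal (κ * (2 * (a.2 - η)))).toReal =
            (∑ a ∈ s, ENNReal.ofReal (κ * (2 * (a.2 - η)))).toReal := by
          rw [ENNReal.toReal_sum]
          intro a _
          exact ENNReal.ofReal_ne_top
        rw [h7] at h6
        exact h6.trans (ENNReal.toReal_mono hmt h5)
      -- let η → 0
      have hlim : Tendsto (fun η : ℝ => ∑ a ∈ s, κ * (2 * (a.2 - η))) (𝓝[>] 0)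
          (𝓝 (∑ a ∈ s, κ * (2 * (a.2 - 0)))) := by
        apply Tendsto.mono_left _ nhdsWithin_le_nhds
        apply Continuous.tendsto
        fun_prop
      have hfin : ∑ a ∈ s, κ * (2 * (a.2 - 0)) ≤ m.toReal := by
        apply le_of_tendsto hlim
        filter_upwards [Ioc_mem_nhdsGT hη0] with η hη
        exact hb η hη.1 hη.2
      rw [le_div_iff₀ hκ]
      calc (∑ a ∈ s, 2 * a.2) * κ = ∑ a ∈ s, κ * (2 * (a.2 - 0)) := by
            rw [Finset.sum_mul]
            apply Finset.sum_congr rfl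
            intro a _
            ring
        _ ≤ m.toReal := hfin)
  -- contradiction
  have h8 : ENNReal.ofReal κ * Measure.hausdorffMeasure 1 (K0 ∩ U) ≤ m := by
    calc ENNReal.ofReal κ * Measure.hausdorffMeasure 1 (K0 ∩ U)
        ≤ ENNReal.ofReal κ * ENNReal.ofReal (m.toReal / κ) := by gcongr
      _ = ENNReal.ofReal (κ * (m.toReal / κ)) := by rw [ENNReal.ofReal_mul hκ.le]
      _ = m := by
          rw [mul_div_cancel₀ _ hκ.ne', ENNReal.ofReal_toReal hmt]
  exact absurd hm2 (not_lt.2 h8)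

end Crest.Agent.R135
end

-- ▼ part R135/IF_B1
section

/-! INTERFACE B1: energy upper bound `IsQM.energy_le` (proved in QMBasic.lean, helper140):
`h.energy_le (hr : 0 < r) (hx : closedBall x r ⊆ U) :
  enE u K (closedBall x r) ≤ ENNReal.ofReal (2 * π * r + lam * r ^ 2)`. -/
end

-- ▼ part R135/Conc4
section

/-!
R135 (helper709): concentration, part 4: the concentration property of quasi-minimizers and lower
semicontinuity of the length along sequences of quasi-minimizers (input of B3).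
-/

set_option autoImplicit false

open MeasureTheory Set Filter Topology Metric
open scoped ENNReal NNReal Gradient

namespace Crest.Agent.R135

section QM

variable {U K : Set E2} {lam : ℝ} {u : E2 → ℝ}

theorem IsQM.volume_inter (hq : IsQM U lam u K) {x : E2} {r : ℝ} (h : closedBall x r ⊆ U) :
    volume (K ∩ closedBall x r) = 0 :=
  volume_eq_zero_of_hausdorff_lt_top (hq.len_fin x r h)

theorem IsQM.lintegral_ball_le (hq : IsQM U lam u K) {x : E2} {r : ℝ} (h : closedBall x r ⊆ U)
    (f : E2 → ℝ≥0∞) : ∫⁻ z in ball x r, f z ≤ ∫⁻ z in closedBall x r \ K, f z := by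
  have h0 : (closedBall x r \ K : Set E2) =ᵐ[volume] closedBall x r := by
    have h1 : volume (closedBall x r ∩ K) = 0 := by
      rw [inter_comm]
      exact hq.volume_inter h
    rw [ae_eq_set]
    refine ⟨?_, ?_⟩
    · rw [sdiff_eq_empty.2 sdiff_subset, measure_empty]
    · rw [sdiff_sdiff_right_self]
      exact h1
  rw [setLIntegral_congr h0]
  exact lintegral_mono_set ball_subset_closedBall

end QM

/-- **Concentration property** (Dal Maso–Morel–Solimini) for quasi-minimizers. -/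
theorem concentration (ε : ℝ) (hε : 0 < ε) (hε1 : ε ≤ 1) :
    ∃ C : ℝ, 0 < C ∧ ∃ l0 : ℝ, 0 < l0 ∧ ∀ {U : Set E2} {lam : ℝ} {u : E2 → ℝ} {K : Set E2},
      IsQM U lam u K → ∀ x ∈ K, ∀ r : ℝ, 0 < r → r ≤ 1 → closedBall x (2 * r) ⊆ U →
      lam * r ≤ l0 →
      ∃ y ∈ K, dist y x < r / 2 ∧ ∃ s : ℝ, 0 < s ∧ s ≤ r / 4 ∧ r ≤ C * s ∧
        ENNReal.ofReal ((2 - ε) * s) ≤ len (K ∩ ball y s) := by
  have hpi := Real.pi_pos
  obtain ⟨c₀, hc₀, hdens⟩ := density_lower_small
  set C0 : ℝ := 2 * Real.pi + 1 with hC0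
  have hC0pos : 0 < C0 := by positivity
  obtain ⟨e, he, l1, hl1, hC2⟩ := exists_conc_of_small_L1 c₀ C0 hc₀ hC0pos ε hε hε1
  obtain ⟨C, hC, hC1⟩ := exists_small_L1 (c₀ / 2) C0 (by positivity) hC0pos e he
  refine ⟨C, hC, min 1 l1, lt_min one_pos hl1, ?_⟩
  intro U lam u K hq x hx r hr hr1 hball hlam
  have hlam1 : lam * r ≤ 1 := hlam.trans (min_le_left _ _)
  have hlam2 : lam * r ≤ l1 := hlam.trans (min_le_right _ _)
  have hlams : ∀ s : ℝ, s ≤ r → lam * s ≤ lam * r := fun s hs =>
    mul_le_mul_of_nonneg_left hs hq.lam_nonneg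
  have hsubU : ∀ (y : E2) (s : ℝ), dist y x < r → s ≤ r → closedBall y s ⊆ U := by
    intro y s hy hs
    refine Subset.trans ?_ hball
    apply closedBall_subset_closedBall'
    linarith
  have hlow : ∀ y ∈ K, dist y x < r → ∀ s : ℝ, 0 < s → s ≤ r →
      ENNReal.ofReal (c₀ * s) ≤ len (K ∩ closedBall y s) := by
    intro y hy hyx s hs hsr
    exact hdens hq y hy s hs (hsr.trans hr1) (hsubU y s hyx hsr) ((hlams s hsr).trans hlam1)
  have hlow' : ∀ y ∈ K, dist y x < r → ∀ s : ℝ, 0 < s → s ≤ r →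
      ENNReal.ofReal (c₀ / 2 * s) ≤ Measure.hausdorffMeasure 1 (K ∩ ball y s) := by
    intro y hy hyx s hs hsr
    have h1 := hlow y hy hyx (s / 2) (by positivity) (by linarith)
    rw [show c₀ / 2 * s = c₀ * (s / 2) by ring]
    refine h1.trans (measure_mono (inter_subset_inter_right _ ?_))
    exact closedBall_subset_ball (by linarith)
  have hen : ∀ y : E2, dist y x < r → ∀ s : ℝ, 0 < s → s ≤ r →
      enE u K (closedBall y s) ≤ ENNReal.ofReal (C0 * s) := by
    intro y hyx s hs hsr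
    refine (hq.energy_le hs (hsubU y s hyx hsr)).trans (ENNReal.ofReal_le_ofReal ?_)
    have h1 : lam * s ≤ 1 := (hlams s hsr).trans hlam1
    rw [hC0]
    nlinarith
  have hup : ∀ y : E2, dist y x < r → ∀ s : ℝ, 0 < s → s ≤ r →
      Measure.hausdorffMeasure 1 (K ∩ closedBall y s) ≤ ENNReal.ofReal (C0 * s) :=
    fun y hyx s hs hsr => le_trans le_add_self (hen y hyx s hs hsr)
  have hen2 : ∀ y : E2, dist y x < r → ∀ s : ℝ, 0 < s → s ≤ r →
      ∫⁻ z in ball y s, ‖∇ u z‖ₑ ^ 2 ≤ ENNReal.ofReal (C0 * s) := by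
    intro y hyx s hs hsr
    refine (hq.lintegral_ball_le (hsubU y s hyx hsr) _).trans ?_
    exact le_trans le_self_add (hen y hyx s hs hsr)
  obtain ⟨y, hy, hyx, s, hs, hsr, hrC, hL1⟩ := hC1 K x r hr hx hq.measurable_K hlow' hup
    (fun z => ‖∇ u z‖ₑ) (measurable_gradient u).enorm hen2
  have hyr : dist y x < r := by linarith
  refine ⟨y, hy, hyx, s, hs, hsr, hrC, ?_⟩
  refine hC2 hq y s hs (hsubU y s hyr (by linarith)) ((hlams s (by linarith)).trans hlam2) ?_
    (hen2 y hyr s hs (by linarith)) hL1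
  intro ρ hρ hρs
  exact hlow y hy hyr ρ hρ (by linarith)

/-- **Lower semicontinuity of the length** along quasi-minimizers. -/
theorem len_le_liminf {ι : Type*} {l : Filter ι} {Uk : ι → Set E2} {lamk : ι → ℝ}
    {uk : ι → E2 → ℝ} {Kk : ι → Set E2} (h : ∀ k, IsQM (Uk k) (lamk k) (uk k) (Kk k))
    {K V : Set E2} (hV : IsOpen V)
    (near : ∀ x ∈ K ∩ V, ∀ ε : ℝ, 0 < ε → ∀ᶠ k in l, ∃ y ∈ Kk k, dist y x < ε)
    (loc : ∀ x ∈ K ∩ V, ∃ r0 : ℝ, 0 < r0 ∧ ∃ Λ : ℝ, ∀ᶠ k in l, closedBall x r0 ⊆ Uk k ∧ lamk k ≤ Λ) :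
    len (K ∩ V) ≤ liminf (fun k => len (Kk k ∩ V)) l := by
  have hkey : ∀ ε : ℝ, 0 < ε → ε ≤ 1 →
      ENNReal.ofReal ((2 - ε) / 2) * len (K ∩ V) ≤ liminf (fun k => len (Kk k ∩ V)) l := by
    intro ε hε hε1
    obtain ⟨C, hC, l0, hl0, hconc⟩ := concentration ε hε hε1
    apply hausdorff_le_liminf_of_concentration l Kk K V hV ((2 - ε) / 2) (4 * C) (by linarith)
      (by positivity)
    intro x hx
    obtain ⟨r0, hr0, Λ, hloc⟩ := loc x hx
    have hΛ : 0 < |Λ| + 1 := by positivity
    refine ⟨min 1 (min r0 (l0 / (|Λ| + 1))), lt_min one_pos (lt_min hr0 (by positivity)), ?_⟩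
    intro r hr hrr'
    have hr1 : r ≤ 1 := hrr'.trans (min_le_left _ _)
    have hrr : r ≤ min r0 (l0 / (|Λ| + 1)) := hrr'.trans (min_le_right _ _)
    have hrr0 : r ≤ r0 := hrr.trans (min_le_left _ _)
    have hrl : (|Λ| + 1) * r ≤ l0 := by
      have := hrr.trans (min_le_right _ _)
      rw [le_div_iff₀ hΛ] at this
      linarith
    filter_upwards [near x hx (r / 4) (by positivity), hloc] with k hk1 hk2
    obtain ⟨xk, hxk, hdist⟩ := hk1
    obtain ⟨y, _, hyx, s, hs, hsr, hrC, hlen⟩ := hconc (h k) xk hxk (r / 4) (by positivity)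
      (by linarith)
      (by
        refine Subset.trans ?_ hk2.1
        apply closedBall_subset_closedBall'
        linarith)
      (by
        have h1 : lamk k ≤ |Λ| + 1 := by linarith [hk2.2, le_abs_self Λ]
        have h2 : lamk k * (r / 4) ≤ (|Λ| + 1) * (r / 4) := by gcongr
        nlinarith [mul_pos hΛ hr])
    refine ⟨y, s, ?_, by linarith, ?_⟩
    · have h1 := dist_triangle x xk y
      rw [dist_comm x xk, dist_comm xk y] at h1
      linarith
    · rw [show (2 - ε) / 2 * (2 * s) = (2 - ε) * s by ring]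
      exact hlen.trans (measure_mono (inter_subset_inter_right _ ball_subset_closedBall))
  have hlim : Tendsto (fun n : ℕ => ENNReal.ofReal ((2 - 1 / ((n : ℝ) + 1)) / 2) * len (K ∩ V)) atTop
      (𝓝 (ENNReal.ofReal ((2 - 0) / 2) * len (K ∩ V))) := by
    apply ENNReal.Tendsto.mul_const
    · apply ENNReal.tendsto_ofReal
      exact (tendsto_const_nhds.sub tendsto_one_div_add_atTop_nhds_zero_nat).div_const _
    · left
      norm_num
  have h1 : ENNReal.ofReal ((2 - 0) / 2) * len (K ∩ V) = len (K ∩ V) := by norm_num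
  rw [h1] at hlim
  apply le_of_tendsto' hlim
  intro n
  apply hkey
  · positivity
  · rw [div_le_one (by positivity)]
    have : (0 : ℝ) ≤ n := Nat.cast_nonneg n
    linarith

end Crest.Agent.R135
end

-- ▼ part R135/IF_B3

/-! INTERFACE B3: compactness theorem (proved by helper517 on top of Lim*, Conc4, RegQM, Fell). -/

set_option autoImplicit false

open MeasureTheory Set Filter Topology Metric
open scoped ENNReal NNReal ContDiff Gradient
open Crest.AnalysisR.PDE.OnePhase Crest.AnalysisR.PDE.MumfordShah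

namespace Crest.Agent.R135

open Lim

theorem Lim.exists_limSeq {Uk : ℕ → Set E2} {lamk : ℕ → ℝ} {uk : ℕ → E2 → ℝ} {Kk : ℕ → Set E2}
    (h : ∀ k, IsQM (Uk k) (lamk k) (uk k) (Kk k))
    (hU : ∀ R : ℝ, ∀ᶠ k in atTop, closedBall (0 : E2) R ⊆ Uk k)
    (hlam : Tendsto lamk atTop (𝓝 0)) :
    ∃ φ : ℕ → ℕ, StrictMono φ ∧ ∃ (u : E2 → ℝ) (K : Set E2),
      LimSeq (fun k => Uk (φ k)) (fun k => lamk (φ k)) (fun k => uk (φ k)) (fun k => Kk (φ k)) u K := by
  obtain ⟨φ1, hφ1, K, hK⟩ := exists_fell_subseq Kk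
  have hexh : ∀ C : Set E2, IsCompact C → ∀ᶠ k in atTop, C ⊆ Uk k := by
    intro C hC
    obtain ⟨R, hR⟩ := hC.isBounded.subset_closedBall 0
    exact (hU R).mono fun k hk => hR.trans hk
  have hVW : ∀ C, IsCompact C → C ⊆ Kᶜ → ∀ᶠ n in atTop, C ⊆ Uk (φ1 n) \ Kk (φ1 n) := by
    intro C hC hCK
    filter_upwards [hφ1.tendsto_atTop.eventually (hexh C hC),
      hK.away C hC (disjoint_left.2 fun x hx => hCK hx)] with n h1 h2
    exact fun x hx => ⟨h1 hx, fun hx' => (disjoint_left.1 h2 hx) hx'⟩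
  have hlam1 : Tendsto (fun n => lamk (φ1 n)) atTop (𝓝 0) := hlam.comp hφ1.tendsto_atTop
  obtain ⟨φ2, hφ2, v, hv, -, hg⟩ := IsQM.exists_limit (fun n => h (φ1 n)) hlam1
    hK.closed.isOpen_compl hVW (by
      intro x _
      refine ⟨1, one_pos, ENNReal.ofReal (2 * Real.pi * 1 + 1 * 1 ^ 2), ENNReal.ofReal_lt_top, ?_⟩
      filter_upwards [hφ1.tendsto_atTop.eventually (hexh _ (isCompact_closedBall x 1)),
        hlam1.eventually (gt_mem_nhds one_pos)] with n h1 h2
      have h3 := ((h (φ1 n)).energy_le one_pos h1).trans (ENNReal.ofReal_le_ofReal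
        (show 2 * Real.pi * 1 + lamk (φ1 n) * 1 ^ 2 ≤ 2 * Real.pi * 1 + 1 * 1 ^ 2 by linarith))
      refine (dirE_mono ball_subset_closedBall).trans (le_trans ?_ h3)
      unfold enE
      exact le_self_add)
  refine ⟨φ1 ∘ φ2, hφ1.comp hφ2, v, K, ?_⟩
  exact
    { qm := fun n => h _
      lam_lim := hlam1.comp hφ2.tendsto_atTop
      exh := fun C hC => (hφ1.comp hφ2).tendsto_atTop.eventually (hexh C hC)
      closed := hK.closed
      c1 := hv.1.of_le (by simp)
      k1 := fun C hC hd => hφ2.tendsto_atTop.eventually (hK.away C hC hd)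
      k2 := fun x hx r hr => by
        filter_upwards [hφ2.tendsto_atTop.eventually (hK.near x hx r hr)] with n hn
        obtain ⟨y, hy, hyd⟩ := hn
        exact ⟨y, hy, hyd⟩
      grad := hg }

theorem Lim.LimSeq.lenLsc {U : ℕ → Set E2} {lam : ℕ → ℝ} {u : ℕ → E2 → ℝ} {K : ℕ → Set E2}
    {u0 : E2 → ℝ} {K0 : Set E2} (h : LimSeq U lam u K u0 K0) : LenLsc K K0 := by
  intro V hV
  apply len_le_liminf h.qm hV
  · rintro x ⟨hx, -⟩ ε hε
    filter_upwards [h.k2 x hx ε hε] with n hn
    obtain ⟨y, hy, hyd⟩ := hn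
    exact ⟨y, hy, hyd⟩
  · rintro x ⟨hx, -⟩
    refine ⟨1, one_pos, 1, ?_⟩
    filter_upwards [h.exh _ (isCompact_closedBall x 1), h.lam_lim.eventually (gt_mem_nhds one_pos)]
      with n h1 h2
    exact ⟨h1, h2.le⟩

theorem Lim.LimSeq.isQM' {U : ℕ → Set E2} {lam : ℕ → ℝ} {u : ℕ → E2 → ℝ} {K : ℕ → Set E2}
    {u0 : E2 → ℝ} {K0 : Set E2} (h : LimSeq U lam u K u0 K0) : IsQM univ 0 u0 K0 := by
  apply h.isQM h.lenLsc
  obtain ⟨c₀, hc₀, hd⟩ := density_lower_small
  exact ⟨c₀, hc₀, fun n x hx r hr hr1 hU hl => hd (h.qm n) x hx r hr hr1 hU hl⟩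

theorem compactness {Uk : ℕ → Set E2} {lamk : ℕ → ℝ} {uk : ℕ → E2 → ℝ} {Kk : ℕ → Set E2}
    (h : ∀ k, IsQM (Uk k) (lamk k) (uk k) (Kk k))
    (hU : ∀ R : ℝ, ∀ᶠ k in atTop, closedBall (0 : E2) R ⊆ Uk k)
    (hlam : Tendsto lamk atTop (𝓝 0)) :
    ∃ φ : ℕ → ℕ, StrictMono φ ∧ ∃ (u : E2 → ℝ) (K : Set E2), IsQM univ 0 u K ∧
      Conv (fun k => uk (φ k)) (fun k => Kk (φ k)) u K := by
  obtain ⟨φ, hφ, u, K, hs⟩ := exists_limSeq h hU hlam
  exact ⟨φ, hφ, u, K, hs.isQM', hs.conv hs.lenLsc⟩

/-- L² norm, as an extended nonnegative real -/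
noncomputable def Lim.nrm2 (μ : Measure E2) (f : E2 → E2) : ℝ≥0∞ :=
  (∫⁻ y, ‖f y‖ₑ ^ (2 : ℝ) ∂μ) ^ (1 / 2 : ℝ)

theorem Lim.nrm2_add_le {μ : Measure E2} {f g : E2 → E2} (hf : Measurable f) (hg : Measurable g) :
    nrm2 μ (fun y => f y + g y) ≤ nrm2 μ f + nrm2 μ g := by
  unfold nrm2
  refine le_trans ?_ (ENNReal.lintegral_Lp_add_le (μ := μ) (p := 2) (f := fun y => ‖f y‖ₑ)
    (g := fun y => ‖g y‖ₑ) hf.enorm.aemeasurable hg.enorm.aemeasurable (by norm_num))
  gcongr with y
  exact enorm_add_le _ _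

theorem Lim.nrm2_sq {μ : Measure E2} {f : E2 → E2} : nrm2 μ f ^ 2 = ∫⁻ y, ‖f y‖ₑ ^ 2 ∂μ := by
  unfold nrm2
  rw [← ENNReal.rpow_natCast, ← ENNReal.rpow_mul]
  norm_num

theorem Lim.tendsto_lintegral_sq_of_sub {μ : Measure E2} {f : ℕ → E2 → E2} {g : E2 → E2}
    (hf : ∀ n, Measurable (f n)) (hg : Measurable g) (hfin : ∫⁻ y, ‖g y‖ₑ ^ 2 ∂μ ≠ ⊤)
    (h : Tendsto (fun n => ∫⁻ y, ‖f n y - g y‖ₑ ^ 2 ∂μ) atTop (𝓝 0)) :
    Tendsto (fun n => ∫⁻ y, ‖f n y‖ₑ ^ 2 ∂μ) atTop (𝓝 (∫⁻ y, ‖g y‖ₑ ^ 2 ∂μ)) := by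
  have h1 : Tendsto (fun n => nrm2 μ (fun y => f n y - g y)) atTop (𝓝 0) := by
    have h2 : Tendsto (fun n => (∫⁻ y, ‖f n y - g y‖ₑ ^ 2 ∂μ) ^ (1 / 2 : ℝ)) atTop
        (𝓝 (0 ^ (1 / 2 : ℝ))) := (ENNReal.continuous_rpow_const.tendsto _).comp h
    rw [ENNReal.zero_rpow_of_pos (by norm_num)] at h2
    refine h2.congr fun n => ?_
    unfold nrm2
    congr 2
    ext y
    rw [← ENNReal.rpow_natCast]
    norm_num
  have hgn : nrm2 μ g ≠ ⊤ := by
    intro h3
    have := nrm2_sq (μ := μ) (f := g)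
    rw [h3] at this
    simp only [ne_eq, OfNat.ofNat_ne_zero, not_false_eq_true, ENNReal.top_pow] at this
    exact hfin this.symm
  have h4 : Tendsto (fun n => nrm2 μ (f n)) atTop (𝓝 (nrm2 μ g)) := by
    rw [ENNReal.tendsto_nhds hgn]
    intro ε hε
    filter_upwards [(ENNReal.tendsto_nhds_zero.1 h1) ε hε] with n hn
    constructor
    · rw [tsub_le_iff_right]
      have h5 := nrm2_add_le (μ := μ) (f := f n) (g := fun y => g y - f n y) (hf n)
        (hg.sub (hf n))
      have h6 : (fun y => f n y + (g y - f n y)) = g := by ext1 y; abel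
      rw [h6] at h5
      refine h5.trans ?_
      gcongr
      refine le_trans (le_of_eq ?_) hn
      unfold nrm2
      congr 2
      ext y
      rw [← enorm_neg, neg_sub]
    · have h5 := nrm2_add_le (μ := μ) (f := fun y => f n y - g y) (g := g) ((hf n).sub hg) hg
      have h6 : (fun y => f n y - g y + g y) = f n := by ext1 y; abel
      rw [h6, add_comm] at h5
      refine h5.trans ?_
      gcongr
  have h7 := (ENNReal.continuous_pow 2).tendsto (nrm2 μ g) |>.comp h4
  rw [nrm2_sq] at h7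
  refine h7.congr fun n => ?_
  simp only [Function.comp_apply]
  exact nrm2_sq

/-- convergence of the Dirichlet energies on all balls -/
theorem Conv.tendsto_Dr {uk : ℕ → E2 → ℝ} {Kk : ℕ → Set E2} {u : E2 → ℝ} {K : Set E2}
    (hc : Conv uk Kk u K) (hk : ∀ k, volume (Kk k) = 0) (hK : volume K = 0)
    (hfin : ∀ x r, dirE u K (closedBall x r) < ⊤) (x : E2) (r : ℝ) :
    Tendsto (fun k => Dr (uk k) (Kk k) x r) atTop (𝓝 (Dr u K x r)) := by
  have hfin' : dirE u K (ball x r) ≠ ⊤ :=
    ((dirE_mono ball_subset_closedBall).trans_lt (hfin x r)).ne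
  unfold Dr
  refine (ENNReal.tendsto_toReal hfin').comp ?_
  rw [dirE_eq_of_null hK] at hfin' ⊢
  simp_rw [fun k => dirE_eq_of_null (w := uk k) (B := ball x r) (hk k)]
  apply tendsto_lintegral_sq_of_sub (fun k => measurable_gradient (uk k)) (measurable_gradient u)
    hfin'
  have hsub : ball x r ⊆ ball (0 : E2) (‖x‖ + |r| + 1) := by
    intro y hy
    rw [mem_ball] at hy
    rw [mem_ball, dist_zero_right]
    have h1 : ‖y‖ ≤ dist y x + ‖x‖ := by
      rw [dist_eq_norm]
      calc ‖y‖ = ‖(y - x) + x‖ := by rw [sub_add_cancel]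
        _ ≤ _ := norm_add_le _ _
    have := le_abs_self r
    linarith
  exact tendsto_of_tendsto_of_tendsto_of_le_of_le tendsto_const_nhds (hc.l2 (‖x‖ + |r| + 1))
    (fun n => zero_le) (fun n => lintegral_mono_set hsub)

end Crest.Agent.R135
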