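import Crest.Agent.R135.CT1
import Crest.Agent.R135.IF_A2
import Crest.Agent.R135.IF_B3

-- ▼ part R135/CT2
section

/-!
# R135: convergence of lengths with moving centres and radii (helper270)
-/

set_option autoImplicit false

open MeasureTheory Set Filter Topology Metric
open scoped ENNReal NNReal ContDiff Gradient

namespace Crest.Agent.R135

/-- all but countably many circles centred at `x` carry no length of `K` -/
theorem countable_len_sphere_ne_zero {K : Set E2} (hfin : ∀ x r, R135.len (K ∩ closedBall x r) < ⊤)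
    (hKm : MeasurableSet K) (x : E2) : {t : ℝ | R135.len (K ∩ sphere x t) ≠ 0}.Countable := by
  have h : {t : ℝ | R135.len (K ∩ sphere x t) ≠ 0} ⊆
      ⋃ n : ℕ, {t : ℝ | 0 < ((Measure.hausdorffMeasure 1 : Measure E2).restrict
        (K ∩ closedBall x n)) {y | dist y x = t}} := by
    intro t ht
    obtain ⟨n, hn⟩ := exists_nat_ge t
    refine mem_iUnion.2 ⟨n, ?_⟩
    rw [mem_ofPred_eq, Measure.restrict_apply' (hKm.inter isClosed_closedBall.measurableSet)]
    refine pos_iff_ne_zero.2 fun h0 => ht ?_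
    refine measure_mono_null ?_ h0
    rintro y ⟨hy1, hy2⟩
    exact ⟨hy2, hy1, mem_closedBall.2 ((mem_sphere.1 hy2).le.trans hn)⟩
  refine Set.Countable.mono h (countable_iUnion fun n => ?_)
  have : IsFiniteMeasure ((Measure.hausdorffMeasure 1 : Measure E2).restrict
      (K ∩ closedBall x n)) := ⟨by
    rw [Measure.restrict_apply_univ]; exact hfin x n⟩
  exact Measure.countable_meas_level_set_pos (measurable_id.dist measurable_const)

theorem ct_exists_good_radius {K : Set E2} (hfin : ∀ x r, R135.len (K ∩ closedBall x r) < ⊤)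
    (hKm : MeasurableSet K) (x : E2) {a b : ℝ} (hab : a < b) :
    ∃ t ∈ Ioo a b, R135.len (K ∩ sphere x t) = 0 := by
  have h := countable_len_sphere_ne_zero hfin hKm x
  have hd := h.dense_compl ℝ
  obtain ⟨t, ht1, ht2⟩ := hd.exists_mem_open isOpen_Ioo (nonempty_Ioo.2 hab)
  refine ⟨t, ht2, ?_⟩
  by_contra hcon
  exact ht1 hcon

/-- upper semicontinuity of the length in closed balls -/
theorem exists_len_closedBall_lt {K : Set E2} (hfin : ∀ x r, R135.len (K ∩ closedBall x r) < ⊤)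
    (hKm : MeasurableSet K) (x : E2) (r : ℝ) {M : ℝ≥0∞} (hM : R135.len (K ∩ closedBall x r) < M) :
    ∃ R > r, R135.len (K ∩ sphere x R) = 0 ∧ R135.len (K ∩ closedBall x R) < M := by
  have h1 : Tendsto (fun n : ℕ => R135.len (K ∩ closedBall x (r + 1 / ((n : ℝ) + 1)))) atTop
      (𝓝 (R135.len (⋂ n : ℕ, K ∩ closedBall x (r + 1 / ((n : ℝ) + 1))))) := by
    refine tendsto_measure_iInter_atTop ?_ ?_ ⟨0, (hfin _ _).ne⟩
    · intro n
      exact (hKm.inter isClosed_closedBall.measurableSet).nullMeasurableSet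
    · intro m n hmn
      refine inter_subset_inter_right _ (closedBall_subset_closedBall ?_)
      have : (1 : ℝ) / ((n : ℝ) + 1) ≤ 1 / ((m : ℝ) + 1) := by
        have : (m : ℝ) ≤ n := by exact_mod_cast hmn
        gcongr
      linarith
  have h2 : (⋂ n : ℕ, K ∩ closedBall x (r + 1 / ((n : ℝ) + 1))) = K ∩ closedBall x r := by
    ext y
    simp only [mem_iInter, mem_inter_iff, mem_closedBall]
    constructor
    · intro h
      refine ⟨(h 0).1, ?_⟩
      have h3 : Tendsto (fun n : ℕ => r + 1 / ((n : ℝ) + 1)) atTop (𝓝 (r + 0)) :=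
        tendsto_const_nhds.add (tendsto_one_div_add_atTop_nhds_zero_nat (𝕜 := ℝ))
      rw [add_zero] at h3
      exact ge_of_tendsto' h3 fun n => (h n).2
    · intro h n
      have : (0 : ℝ) < 1 / ((n : ℝ) + 1) := by positivity
      exact ⟨h.1, by linarith [h.2]⟩
  rw [h2] at h1
  obtain ⟨n, hn⟩ := (h1.eventually (gt_mem_nhds hM)).exists
  have hpos : (0 : ℝ) < 1 / ((n : ℝ) + 1) := by positivity
  obtain ⟨t, ht, ht0⟩ := ct_exists_good_radius hfin hKm x (show r < r + 1 / ((n : ℝ) + 1) by linarith)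
  refine ⟨t, ht.1, ht0, lt_of_le_of_lt (measure_mono ?_) hn⟩
  exact inter_subset_inter_right _ (closedBall_subset_closedBall ht.2.le)


section Moving

variable {uk : ℕ → E2 → ℝ} {Kk : ℕ → Set E2} {u : E2 → ℝ} {K : Set E2}
  {xk : ℕ → E2} {x : E2} {rk : ℕ → ℝ} {r : ℝ}

theorem Conv.eventually_len_lt (hc : Conv uk Kk u K)
    (hfin : ∀ x r, R135.len (K ∩ closedBall x r) < ⊤) (hKm : MeasurableSet K)
    (hx : Tendsto xk atTop (𝓝 x)) (hr : Tendsto rk atTop (𝓝 r)) {M : ℝ≥0∞}
    (hM : R135.len (K ∩ closedBall x r) < M) :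
    ∀ᶠ k in atTop, R135.len (Kk k ∩ closedBall (xk k) (rk k)) < M := by
  obtain ⟨R, hR, hR0, hRM⟩ := exists_len_closedBall_lt hfin hKm x r hM
  have h1 := hc.len x R hR0
  have h2 : Tendsto (fun k => rk k + dist (xk k) x) atTop (𝓝 (r + dist x x)) :=
    hr.add (hx.dist tendsto_const_nhds)
  rw [dist_self, add_zero] at h2
  filter_upwards [h1.eventually (gt_mem_nhds hRM), h2.eventually (gt_mem_nhds hR)] with k hk1 hk2
  refine lt_of_le_of_lt (measure_mono (inter_subset_inter_right _ ?_)) hk1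
  exact closedBall_subset_closedBall' hk2.le






/-- real-valued upper bound, no condition on the sphere -/
theorem Conv.eventually_Lr_lt (hc : Conv uk Kk u K)
    (hfin : ∀ x r, R135.len (K ∩ closedBall x r) < ⊤) (hKm : MeasurableSet K)
    (hx : Tendsto xk atTop (𝓝 x)) (hr : Tendsto rk atTop (𝓝 r)) {M : ℝ} (hM : Lr K x r < M) :
    ∀ᶠ k in atTop, Lr (Kk k) (xk k) (rk k) < M := by
  have hM0 : 0 < M := lt_of_le_of_lt ENNReal.toReal_nonneg hM
  have h1 : R135.len (K ∩ closedBall x r) < ENNReal.ofReal M := by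
    rw [← ENNReal.ofReal_toReal (hfin x r).ne]
    exact (ENNReal.ofReal_lt_ofReal_iff hM0).2 hM
  filter_upwards [hc.eventually_len_lt hfin hKm hx hr h1] with k hk
  exact (ENNReal.toReal_lt_of_lt_ofReal hk)


end Moving

end Crest.Agent.R135
end

-- ▼ part R135/CT3
section

/-!
# R135: gradients at moving points, convergence of differences of values (helper270)
-/

set_option autoImplicit false

open MeasureTheory Set Filter Topology Metric
open scoped ENNReal NNReal ContDiff Gradient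

namespace Crest.Agent.R135

section

variable {uk : ℕ → E2 → ℝ} {Kk : ℕ → Set E2} {u : E2 → ℝ} {K : Set E2}

theorem IsQM.isClosed_univ {lam : ℝ} (h : IsQM univ lam u K) : IsClosed K := by
  have h1 := h.closed
  rw [inter_univ] at h1
  exact closure_subset_iff_isClosed.1 h1





end

end Crest.Agent.R135
namespace Crest.Agent.R135.Conv
end Crest.Agent.R135.Conv
end

-- ▼ part R135/CT4

/-!
# R135: blow-up and blow-down extraction with moving centres (helper270)

Everything is a consequence of `compactness` (interface B3).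
-/

set_option autoImplicit false

open MeasureTheory Set Filter Topology Metric
open scoped ENNReal NNReal ContDiff Gradient

namespace Crest.Agent.R135

theorem closedBall_subset_rescK {U : Set E2} {x : E2} {r R : ℝ} (hr : 0 < r)
    (h : closedBall x (r * R) ⊆ U) : closedBall (0 : E2) R ⊆ rescK U x r := by
  rw [closedBall_eq_rescK x 0 hr R]
  refine rescK_mono ?_ x r
  simpa [scm] using h

/-- **(CT3)** blow-up of a sequence of quasi-minimizers with moving centres -/
theorem ct_extract {Uk : ℕ → Set E2} {lamk : ℕ → ℝ} {uk : ℕ → E2 → ℝ} {Kk : ℕ → Set E2}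
    (h : ∀ k, IsQM (Uk k) (lamk k) (uk k) (Kk k)) {xk : ℕ → E2} {rk : ℕ → ℝ}
    (hr : ∀ k, 0 < rk k)
    (hlam : Tendsto (fun k => rk k * lamk k * (1 + √(rk k))) atTop (𝓝 0))
    (hd : ∀ R : ℝ, ∀ᶠ k in atTop, closedBall (xk k) (rk k * R) ⊆ Uk k) :
    ∃ φ : ℕ → ℕ, StrictMono φ ∧ ∃ (u : E2 → ℝ) (K : Set E2), IsQM univ 0 u K ∧
      Conv (fun k => rescF (uk (φ k)) (xk (φ k)) (rk (φ k)))
        (fun k => rescK (Kk (φ k)) (xk (φ k)) (rk (φ k))) u K := by
  have h0 : ∀ k, IsQM (rescK (Uk k) (xk k) (rk k)) (rk k * lamk k * (1 + √(rk k)))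
      (rescF (uk k) (xk k) (rk k)) (rescK (Kk k) (xk k) (rk k)) := by
    intro k
    have h1 := (h k).lam_nonneg
    have h2 := hr k
    have h3 := Real.sqrt_nonneg (rk k)
    refine (h k).resc' (xk k) h2 ?_ ?_
    · nlinarith [mul_nonneg (mul_nonneg h2.le h1) h3]
    · nlinarith [mul_nonneg h2.le h1]
  exact compactness h0 (fun R => (hd R).mono fun k hk => closedBall_subset_rescK (hr k) hk) hlam

/-- blow-up of one quasi-minimizer at moving centres, scales tending to zero -/
theorem ct_blowup {U : Set E2} {lam : ℝ} {u : E2 → ℝ} {K : Set E2} (h : IsQM U lam u K)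
    {xk : ℕ → E2} {rk : ℕ → ℝ} (hr : ∀ k, 0 < rk k) (hr0 : Tendsto rk atTop (𝓝 0))
    (hd : ∀ R : ℝ, ∀ᶠ k in atTop, closedBall (xk k) (rk k * R) ⊆ U) :
    ∃ φ : ℕ → ℕ, StrictMono φ ∧ ∃ (u' : E2 → ℝ) (K' : Set E2), IsQM univ 0 u' K' ∧
      Conv (fun k => rescF u (xk (φ k)) (rk (φ k)))
        (fun k => rescK K (xk (φ k)) (rk (φ k))) u' K' := by
  refine ct_extract (Uk := fun _ => U) (lamk := fun _ => lam) (uk := fun _ => u)
    (Kk := fun _ => K) (fun _ => h) hr ?_ hd
  have h1 : Tendsto (fun k => √(rk k)) atTop (𝓝 0) := by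
    have h2 := (Real.continuous_sqrt.tendsto 0).comp hr0
    rw [Real.sqrt_zero] at h2
    exact h2
  have h2 := (hr0.mul_const lam).mul (h1.const_add 1)
  simpa using h2

/-- balls with centres in a slightly smaller ball are inside `U` at small scales -/
theorem ct_inside {U : Set E2} {x₀ : E2} {R₀ R₁ : ℝ} (hR : R₁ < R₀) (hU : closedBall x₀ R₀ ⊆ U)
    {xk : ℕ → E2} {rk : ℕ → ℝ} (hx : ∀ᶠ k in atTop, xk k ∈ closedBall x₀ R₁)
    (hr0 : Tendsto rk atTop (𝓝 0)) (R : ℝ) :
    ∀ᶠ k in atTop, closedBall (xk k) (rk k * R) ⊆ U := by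
  have h1 : Tendsto (fun k => rk k * R) atTop (𝓝 0) := by simpa using hr0.mul_const R
  filter_upwards [hx, h1.eventually (gt_mem_nhds (sub_pos.2 hR))] with k hk1 hk2
  refine subset_trans (closedBall_subset_closedBall' ?_) hU
  have := mem_closedBall.1 hk1
  linarith

/-- **(CT1)** blow-up with centres in a closed ball strictly inside -/
theorem ct_blowup_ball {U : Set E2} {lam : ℝ} {u : E2 → ℝ} {K : Set E2} (h : IsQM U lam u K)
    {x₀ : E2} {R₀ R₁ : ℝ} (hR : R₁ < R₀) (hU : closedBall x₀ R₀ ⊆ U)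
    {xk : ℕ → E2} {rk : ℕ → ℝ} (hr : ∀ k, 0 < rk k) (hr0 : Tendsto rk atTop (𝓝 0))
    (hx : ∀ᶠ k in atTop, xk k ∈ closedBall x₀ R₁) :
    ∃ φ : ℕ → ℕ, StrictMono φ ∧ ∃ (u' : E2 → ℝ) (K' : Set E2), IsQM univ 0 u' K' ∧
      Conv (fun k => rescF u (xk (φ k)) (rk (φ k)))
        (fun k => rescK K (xk (φ k)) (rk (φ k))) u' K' :=
  ct_blowup h hr hr0 (ct_inside hR hU hx hr0)


/-! ### reading the convergence of rescalings at the original scale -/

section Read

variable {Uk : ℕ → Set E2} {lamk : ℕ → ℝ} {uk : ℕ → E2 → ℝ} {Kk : ℕ → Set E2}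
  {xk : ℕ → E2} {rk : ℕ → ℝ} {u : E2 → ℝ} {K : Set E2}

theorem volume_rescK_zero {K : Set E2} (hK : volume K = 0) (x : E2) {r : ℝ} (hr : 0 < r) :
    volume (rescK K x r) = 0 := by
  have h := lintegral_scm x hr (fun _ => 1) K
  rw [lintegral_one, lintegral_one, Measure.restrict_apply_univ, Measure.restrict_apply_univ, hK,
    mul_zero] at h
  exact h

/-- Dirichlet energy at the original scale, with moving point and radius -/
theorem Conv.tendsto_Dr_resc (hr : ∀ k, 0 < rk k) (hk : ∀ k, volume (Kk k) = 0)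
    (hq : IsQM univ 0 u K)
    (hc : Conv (fun k => rescF (uk k) (xk k) (rk k)) (fun k => rescK (Kk k) (xk k) (rk k)) u K)
    {yk : ℕ → E2} {y : E2} {sk : ℕ → ℝ} {s : ℝ} (hy : Tendsto yk atTop (𝓝 y))
    (hs : Tendsto sk atTop (𝓝 s)) :
    Tendsto (fun k => (rk k)⁻¹ * Dr (uk k) (Kk k) (xk k + rk k • yk k) (rk k * sk k)) atTop
      (𝓝 (Dr u K y s)) := by
  have h1 := hc.tendsto_Dr_moving (fun k => volume_rescK_zero (hk k) (xk k) (hr k)) hq.volume_K
    (fun x r => hq.dir_fin x r (subset_univ _)) hy hs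
  refine h1.congr fun k => ?_
  exact Dr_resc (uk k) (Kk k) (xk k) (yk k) (hr k)



/-- closeness at the original scale -/
theorem HClose.of_resc {ε R r : ℝ} (hr : 0 < r) {x y : E2} {A B : Set E2}
    (h : HClose ε y R (rescK A x r) (rescK B x r)) :
    HClose (ε * r) (x + r • y) (r * R) A B := by
  have key : ∀ A B : Set E2, (∀ a ∈ rescK A x r ∩ ball y R, ∃ z ∈ rescK B x r, dist a z < ε) →
      ∀ a ∈ A ∩ ball (x + r • y) (r * R), ∃ z ∈ B, dist a z < ε * r := by
    intro A B h a ha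
    have h1 : scI x r a ∈ rescK A x r := by
      rw [mem_rescK', scm_scI x hr.ne']; exact ha.1
    have h2 : scI x r a ∈ ball y R := by
      rw [ball_eq_rescK x y hr R, mem_rescK', scm_scI x hr.ne']; exact ha.2
    obtain ⟨z, hz, hd⟩ := h _ ⟨h1, h2⟩
    refine ⟨scm x r z, hz, ?_⟩
    have h3 := dist_scm x r (scI x r a) z
    rw [scm_scI x hr.ne', abs_of_pos hr] at h3
    rw [h3, mul_comm]
    exact mul_lt_mul_of_pos_right hd hr
  exact ⟨key A B h.1, key B A h.2⟩



/-- limits of rescaled points of the cracks -/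
theorem Conv.mem_of_points (hr : ∀ k, 0 < rk k)
    (hc : Conv (fun k => rescF (uk k) (xk k) (rk k)) (fun k => rescK (Kk k) (xk k) (rk k)) u K)
    (hK : IsClosed K) {pk : ℕ → E2} (hp : ∃ᶠ k in atTop, pk k ∈ Kk k) {y : E2}
    (hy : Tendsto (fun k => (rk k)⁻¹ • (pk k - xk k)) atTop (𝓝 y)) : y ∈ K := by
  refine hc.mem_of_tendsto hK tendsto_id (y := fun k => (rk k)⁻¹ • (pk k - xk k)) ?_ hy
  refine hp.mono fun k hk => ?_
  have : scm (xk k) (rk k) (scI (xk k) (rk k) (pk k)) = pk k := scm_scI _ (hr k).ne' _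
  rw [id, mem_rescK']
  show scm (xk k) (rk k) (scI (xk k) (rk k) (pk k)) ∈ Kk k
  rw [this]; exact hk


end Read

end Crest.Agent.R135
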