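import Crest.Agent.R135.IFDefs2
import Mathlib
import Crest.Agent.R135.PolarG
import Crest.Agent.R135.IFDefs
import Crest.Agent.R135.IF_B4
import Crest.Agent.R135.QMMono
import Crest.Agent.R135.QMOps

-- ▼ part R135/AsmLoc
section

/-!
# R135: assembly of `line_flat` and `arc_or_triple` (helper370)

The statements of the blocks used are hypotheses here (definitions `...Stmt`); they are
instantiated in IF_LOC.lean.
-/

set_option autoImplicit false

open MeasureTheory Set Filter Topology Metric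
open scoped ENNReal NNReal ContDiff Gradient
open Crest.AnalysisR.PDE.OnePhase Crest.AnalysisR.PDE.MumfordShah

namespace Crest.Agent.R135.Asm

/-- statement of `line_reg` -/
def LineRegStmt : Prop := ∀ ε : ℝ, 0 < ε → ∃ ε₀ c : ℝ, 0 < ε₀ ∧ 0 < c ∧ c ≤ 1 / 4 ∧
    ∀ {U : Set E2} {lam : ℝ} {u : E2 → ℝ} {K : Set E2}, IsQM U lam u K →
      ∀ y ∈ K, ∀ r : ℝ, 0 < r → r ≤ 1 → closedBall y r ⊆ U → lam * r ≤ ε₀ →
        Dr u K y r ≤ ε₀ * r → LineLike ε₀ K y r → LineReg ε U lam u K y (c * r)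

/-- statement of `decay_line` -/
def DecayLineStmt : Prop := ∃ ε C γ : ℝ, 0 < ε ∧ 0 < C ∧ 0 < γ ∧ γ ≤ 1 / 4 ∧
    ∀ {U : Set E2} {lam : ℝ} {u : E2 → ℝ} {K : Set E2} {y : E2} {r : ℝ}, IsSQM U lam u K →
      LineReg ε U lam u K y r → ∀ z ∈ K, dist z y ≤ r / 2 → ∀ s : ℝ, 0 < s → s ≤ r / 16 →
        Dr u K z s ≤ C * s * (s / r) ^ (2 * γ)

/-- statement of `exc_line` -/
def ExcLineStmt : Prop := ∃ ε C : ℝ, 0 < ε ∧ 0 < C ∧
    ∀ {U : Set E2} {lam : ℝ} {u : E2 → ℝ} {K : Set E2} {y : E2} {r : ℝ}, IsSQM U lam u K →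
      LineReg ε U lam u K y r → ∀ z ∈ K, dist z y ≤ r / 4 → ∀ s : ℝ, 0 < s → s ≤ r / 64 →
        ∃ e : E2, Arc.Flat K z e s (C * s * Real.sqrt (Dr u K z (4 * s) / s + lam * s))

/-- statement of `line_flat` -/
def LineFlatStmt : Prop := ∃ ε c C γ : ℝ, 0 < ε ∧ 0 < c ∧ 0 < C ∧ 0 < γ ∧
    ∀ {U : Set E2} {lam : ℝ} {u : E2 → ℝ} {K : Set E2}, IsSQM U lam u K →
      ∀ y ∈ K, ∀ r : ℝ, 0 < r → r ≤ 1 → closedBall y r ⊆ U → lam * r ≤ ε →
        Dr u K y r ≤ ε * r → LineLike ε K y r →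
        ∀ z ∈ K, dist z y ≤ c * r → ∀ ρ : ℝ, 0 < ρ → ρ ≤ c * r →
          ∃ e : E2, Arc.Flat K z e ρ (C * ρ * (ρ / r) ^ γ)

/-- statement of `local_shape` -/
def LocalShapeStmt : Prop := ∀ ε : ℝ, 0 < ε → ∃ ε₀ : ℝ, 0 < ε₀ ∧
    ∀ {U : Set E2} {lam : ℝ} {u : E2 → ℝ} {K : Set E2}, IsQM U lam u K →
      ∀ x ∈ K, ∀ r : ℝ, 0 < r → r ≤ 1 → closedBall x r ⊆ U → lam * r ≤ ε₀ →
        Dr u K x r ≤ ε₀ * r →
        ∃ ρ₀ : ℝ, LineReg ε U lam u K x ρ₀ ∨ PropReg ε U lam u K x ρ₀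

/-- statement of `decay_prop` -/
def DecayPropStmt : Prop := ∃ ε C γ : ℝ, 0 < ε ∧ 0 < C ∧ 0 < γ ∧ γ ≤ 1 / 4 ∧
    ∀ {U : Set E2} {lam : ℝ} {u : E2 → ℝ} {K : Set E2} {x : E2} {r : ℝ}, IsSQM U lam u K →
      PropReg ε U lam u K x r → ∀ s : ℝ, 0 < s → s ≤ r / 16 →
        Dr u K x s ≤ C * s * (s / r) ^ (2 * γ)

/-- statement of `star_prop` -/
def StarPropStmt : Prop := ∃ ε : ℝ, 0 < ε ∧ ∀ C₀ γ : ℝ, 0 < C₀ → 0 < γ → γ ≤ 1 / 4 →
    ∃ C c : ℝ, 0 < C ∧ 0 < c ∧
    ∀ {U : Set E2} {lam : ℝ} {u : E2 → ℝ} {K : Set E2} {x : E2} {r : ℝ}, IsSQM U lam u K →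
      PropReg ε U lam u K x r →
      (∀ s : ℝ, 0 < s → s ≤ r / 16 → Dr u K x s ≤ C₀ * s * (s / r) ^ (2 * γ)) →
      ∀ s : ℝ, 0 < s → s ≤ c * r →
        ∃ e : E2, Arc.StarAt Arc.a3 Arc.b3 K x e s (C * s * (s / r) ^ γ)

/-- statement of `arc_or_triple` -/
def ArcOrTripleStmt : Prop := ∃ ε₀ : ℝ, 0 < ε₀ ∧
    ∀ {U : Set E2} {lam : ℝ} {u : E2 → ℝ} {K : Set E2}, IsSQM U lam u K →
      ∀ x ∈ K, ∀ r : ℝ, 0 < r → r ≤ 1 → closedBall x r ⊆ U → lam * r ≤ ε₀ →
        Dr u K x r ≤ ε₀ * r → IsArcInteriorPoint U K x ∨ IsTripleJunctionPoint U K x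

/-! ### monotonicity in the precision -/

theorem flat_mono {K : Set E2} {y e : E2} {ρ E ρ' E' : ℝ} (h : Arc.Flat K y e ρ E)
    (hρ : ρ' ≤ ρ) (hE : E ≤ E') : Arc.Flat K y e ρ' E' :=
  ⟨h.1, fun z hz hd => (h.2.1 z hz (hd.trans hρ)).trans hE, fun t ht => by
    obtain ⟨z, hz, hd⟩ := h.2.2 t (ht.trans hρ)
    exact ⟨z, hz, hd.trans hE⟩⟩

theorem starAt_mono {ι : Type*} {a b : ι → ℝ} {K : Set E2} {y e : E2} {ρ E ρ' E' : ℝ}
    (h : Arc.StarAt a b K y e ρ E) (hρ : ρ' ≤ ρ) (hE : E ≤ E') : Arc.StarAt a b K y e ρ' E' :=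
  ⟨h.1, fun z hz hd => by
    obtain ⟨k, t, ht, hkt⟩ := h.2.1 z hz (hd.trans hρ)
    exact ⟨k, t, ht, hkt.trans hE⟩, fun k t ht ht' => by
    obtain ⟨z, hz, hd⟩ := h.2.2 k t ht (ht'.trans hρ)
    exact ⟨z, hz, hd.trans hE⟩⟩

theorem lineLike_mono {η η' : ℝ} {K : Set E2} {y : E2} {ρ : ℝ} (h : LineLike η K y ρ)
    (hη : η ≤ η') (hρ : 0 ≤ ρ) : LineLike η' K y ρ := by
  obtain ⟨e, he⟩ := h
  exact ⟨e, flat_mono he le_rfl (mul_le_mul_of_nonneg_right hη hρ)⟩

theorem propLike_mono {η η' : ℝ} {K : Set E2} {y : E2} {ρ : ℝ} (h : PropLike η K y ρ)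
    (hη : η ≤ η') (hρ : 0 ≤ ρ) : PropLike η' K y ρ := by
  obtain ⟨e, he⟩ := h
  exact ⟨e, starAt_mono he le_rfl (mul_le_mul_of_nonneg_right hη hρ)⟩

theorem lineReg_mono {ε ε' : ℝ} {U : Set E2} {lam : ℝ} {u : E2 → ℝ} {K : Set E2} {y : E2} {r : ℝ}
    (h : LineReg ε U lam u K y r) (hε : ε ≤ ε') : LineReg ε' U lam u K y r where
  pos := h.pos
  le_one := h.le_one
  mem := h.mem
  sub := h.sub
  lam_le := h.lam_le.trans hε
  en := fun z hz hd s hs hsr => (h.en z hz hd s hs hsr).trans (mul_le_mul_of_nonneg_right hε hs.le)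
  flat := fun z hz hd s hs hsr => lineLike_mono (h.flat z hz hd s hs hsr) hε hs.le
  len_le := fun z hz hd s hs hsr => (h.len_le z hz hd s hs hsr).trans
    (mul_le_mul_of_nonneg_right (by linarith) hs.le)

theorem propReg_mono {ε ε' : ℝ} {U : Set E2} {lam : ℝ} {u : E2 → ℝ} {K : Set E2} {y : E2} {r : ℝ}
    (h : PropReg ε U lam u K y r) (hε : ε ≤ ε') : PropReg ε' U lam u K y r where
  pos := h.pos
  le_one := h.le_one
  mem := h.mem
  sub := h.sub
  lam_le := h.lam_le.trans hε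
  en := fun z hz hd s hs hsr => (h.en z hz hd s hs hsr).trans (mul_le_mul_of_nonneg_right hε hs.le)
  prop := fun s hs hsr => propLike_mono (h.prop s hs hsr) hε hs.le
  len_le := fun s hs hsr => (h.len_le s hs hsr).trans
    (mul_le_mul_of_nonneg_right (by linarith) hs.le)
  line := fun z hz h0 hd s hs hsr => ⟨lineLike_mono (h.line z hz h0 hd s hs hsr).1 hε hs.le,
    (h.line z hz h0 hd s hs hsr).2.trans (mul_le_mul_of_nonneg_right (by linarith) hs.le)⟩

/-! ### flatness decay in the line-like regime -/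

theorem flat_of_lineReg (h2 : DecayLineStmt) (h3 : ExcLineStmt) :
    ∃ ε C γ : ℝ, 0 < ε ∧ 0 < C ∧ 0 < γ ∧ γ ≤ 1 / 4 ∧
    ∀ {U : Set E2} {lam : ℝ} {u : E2 → ℝ} {K : Set E2} {y : E2} {r : ℝ}, IsSQM U lam u K →
      LineReg ε U lam u K y r → ∀ z ∈ K, dist z y ≤ r / 4 → ∀ s : ℝ, 0 < s → s ≤ r / 64 →
        ∃ e : E2, Arc.Flat K z e s (C * s * (s / r) ^ γ) := by
  obtain ⟨εD, CD, γ, hεD, hCD, hγ, hγ4, hD⟩ := h2
  obtain ⟨εE, CE, hεE, hCE, hE⟩ := h3
  set B : ℝ := 4 * CD * 4 ^ (2 * γ) + εD with hB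
  have hB0 : 0 < B := by positivity
  refine ⟨min εD εE, CE * √B, γ, lt_min hεD hεE, by positivity, hγ, hγ4, ?_⟩
  intro U lam u K y r h hreg z hz hzy s hs hsr
  have hr : 0 < r := hreg.pos
  have hregD := lineReg_mono hreg (min_le_left εD εE)
  have hregE := lineReg_mono hreg (min_le_right εD εE)
  obtain ⟨e, he⟩ := hE h hregE z hz hzy s hs hsr
  refine ⟨e, flat_mono he le_rfl ?_⟩
  have h4 := hD h hregD z hz (by linarith) (4 * s) (by positivity) (by linarith)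
  have hsr0 : 0 < s / r := by positivity
  have hsr1 : s / r ≤ 1 := by
    rw [div_le_one hr]; linarith
  have h5 : Dr u K z (4 * s) / s ≤ 4 * CD * 4 ^ (2 * γ) * (s / r) ^ (2 * γ) := by
    rw [div_le_iff₀ hs]
    refine h4.trans (le_of_eq ?_)
    rw [mul_div_assoc, Real.mul_rpow (by norm_num) hsr0.le]
    ring
  have h6 : lam * s ≤ εD * (s / r) ^ (2 * γ) := by
    have h7 : lam * s = lam * r * (s / r) := by field_simp
    rw [h7]
    have h8 : s / r ≤ (s / r) ^ (2 * γ) := by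
      conv_lhs => rw [← Real.rpow_one (s / r)]
      exact Real.rpow_le_rpow_of_exponent_ge hsr0 hsr1 (by linarith)
    exact mul_le_mul hregD.lam_le h8 hsr0.le hεD.le
  have h7 : √(Dr u K z (4 * s) / s + lam * s) ≤ √B * (s / r) ^ γ := by
    have h8 : (s / r) ^ (2 * γ) = ((s / r) ^ γ) ^ 2 := by
      rw [← Real.rpow_natCast, ← Real.rpow_mul hsr0.le]
      congr 1
      push_cast
      ring
    have h9 : √B * (s / r) ^ γ = √(B * (s / r) ^ (2 * γ)) := by
      rw [Real.sqrt_mul hB0.le, h8, Real.sqrt_sq (by positivity)]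
    rw [h9]
    apply Real.sqrt_le_sqrt
    rw [hB, add_mul]
    exact add_le_add h5 h6
  calc CE * s * √(Dr u K z (4 * s) / s + lam * s) ≤ CE * s * (√B * (s / r) ^ γ) :=
        mul_le_mul_of_nonneg_left h7 (by positivity)
    _ = CE * √B * s * (s / r) ^ γ := by ring

/-- **ε-regularity at line-like points.** -/
theorem line_flat_of (h1 : LineRegStmt) (h2 : DecayLineStmt) (h3 : ExcLineStmt) : LineFlatStmt := by
  obtain ⟨ε1, C1, γ, hε1, hC1, hγ, hγ4, hfl⟩ := flat_of_lineReg h2 h3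
  obtain ⟨ε0, c0, hε0, hc0, hc04, hreg⟩ := h1 ε1 hε1
  refine ⟨ε0, c0 / 64, C1 * (1 / c0) ^ γ, γ, hε0, by positivity, by positivity, hγ, ?_⟩
  intro U lam u K h y hy r hr hr1 hyU hlam hD hline z hz hzy ρ hρ hρr
  have hR := hreg h.toIsQM y hy r hr hr1 hyU hlam hD hline
  have hcr : 0 < c0 * r := by positivity
  obtain ⟨e, he⟩ := hfl h hR z hz (by linarith) ρ hρ (by linarith)
  refine ⟨e, flat_mono he le_rfl (le_of_eq ?_)⟩
  have h4 : ρ / (c0 * r) = (1 / c0) * (ρ / r) := by field_simp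
  rw [h4, Real.mul_rpow (by positivity) (by positivity)]
  ring

/-- **Small density: arc point or triple junction.** -/
theorem arc_or_triple_of (h1 : LineFlatStmt) (h2 : DecayLineStmt) (h3 : ExcLineStmt)
    (h4 : LocalShapeStmt) (h5 : DecayPropStmt) (h6 : StarPropStmt) : ArcOrTripleStmt := by
  obtain ⟨ε1, c1, C1, γ1, hε1, hc1, hC1, hγ1, hlf⟩ := h1
  obtain ⟨ε2, C2, γ2, hε2, hC2, hγ2, hγ24, hfl⟩ := flat_of_lineReg h2 h3
  obtain ⟨ε3, C3, γ3, hε3, hC3, hγ3, hγ34, hdp⟩ := h5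
  obtain ⟨ε4, hε4, hsp⟩ := h6
  obtain ⟨C4, c4, hC4, hc4, hstar⟩ := hsp C3 γ3 hC3 hγ3 hγ34
  set ε : ℝ := min (min ε1 ε2) (min ε3 ε4) with hε
  have hε0 : 0 < ε := lt_min (lt_min hε1 hε2) (lt_min hε3 hε4)
  have e1 : ε ≤ ε1 := (min_le_left _ _).trans (min_le_left _ _)
  have e2 : ε ≤ ε2 := (min_le_left _ _).trans (min_le_right _ _)
  have e3 : ε ≤ ε3 := (min_le_right _ _).trans (min_le_left _ _)
  have e4 : ε ≤ ε4 := (min_le_right _ _).trans (min_le_right _ _)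
  obtain ⟨ε₀, hε₀, hshape⟩ := h4 ε hε0
  refine ⟨ε₀, hε₀, ?_⟩
  intro U lam u K h x hx r hr hr1 hxU hlam hD
  obtain ⟨ρ₀, hL | hP⟩ := hshape h.toIsQM x hx r hr hr1 hxU hlam hD
  · -- line-like regime
    left
    have hρ₀ := hL.pos
    have hreg := lineReg_mono hL e2
    have hr0 : 0 < ρ₀ / 64 := by positivity
    have hballU : ball x (ρ₀ / 64) ⊆ U :=
      (ball_subset_closedBall.trans (closedBall_subset_closedBall (by linarith))).trans hL.sub
    refine Arc.isArcInteriorPoint_of_flat (r0 := ρ₀ / 64) (C := C2 * (1 / ρ₀) ^ γ2) (γ := γ2) hr0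
      (by positivity) hγ2 hx (fun y hy => h.closed ⟨hy.1, hballU hy.2⟩) hballU ?_
    intro y hy hyx ρ hρ hρr
    obtain ⟨v, hv⟩ := hfl h hreg y hy (by linarith) ρ hρ hρr.le
    refine ⟨v, flat_mono hv le_rfl (le_of_eq ?_)⟩
    rw [div_eq_mul_one_div, Real.mul_rpow hρ.le (by positivity), Real.rpow_add hρ, Real.rpow_one]
    ring
  · -- propeller-like regime
    right
    have hρ₀ := hP.pos
    set γ : ℝ := min γ1 γ3 with hγ
    have hγ0 : 0 < γ := lt_min hγ1 hγ3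
    set r0 : ℝ := min (min (ρ₀ / 2) (c4 * ρ₀)) 1 with hr0
    have hr00 : 0 < r0 := by positivity
    have hr0a : r0 ≤ ρ₀ / 2 := (min_le_left _ _).trans (min_le_left _ _)
    have hr0b : r0 ≤ c4 * ρ₀ := (min_le_left _ _).trans (min_le_right _ _)
    have hballU : ball x r0 ⊆ U :=
      (ball_subset_closedBall.trans (closedBall_subset_closedBall (by linarith))).trans hP.sub
    set c : ℝ := min (c1 / 2) (1 / 2) with hc
    have hc0 : 0 < c := by positivity
    set C : ℝ := C4 * (1 / ρ₀) ^ γ + C1 * 2 ^ γ1 with hC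
    have hC0 : 0 < C := by positivity
    refine Arc.isTripleJunctionPoint_of_moving (r0 := r0) (C := C) (γ := γ) (c := c) hr00 hC0 hγ0
      hc0 hx (fun y hy => h.closed ⟨hy.1, hballU hy.2⟩) hballU ?_ ?_
    · intro ρ hρ hρr
      obtain ⟨e, he⟩ := hstar h (propReg_mono hP e4)
        (fun s hs hsr => hdp h (propReg_mono hP e3) s hs hsr) ρ hρ (hρr.le.trans hr0b)
      refine ⟨e, starAt_mono he le_rfl ?_⟩
      have h7 : 0 < ρ / ρ₀ := by positivity
      have h8 : ρ / ρ₀ ≤ 1 := by rw [div_le_one hρ₀]; linarith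
      have h9 : (ρ / ρ₀) ^ γ3 ≤ (ρ / ρ₀) ^ γ :=
        Real.rpow_le_rpow_of_exponent_ge h7 h8 (min_le_right _ _)
      have h10 : C4 * ρ * (ρ / ρ₀) ^ γ3 ≤ C4 * ρ * (ρ / ρ₀) ^ γ :=
        mul_le_mul_of_nonneg_left h9 (by positivity)
      refine h10.trans ?_
      rw [div_eq_mul_one_div, Real.mul_rpow hρ.le (by positivity), Real.rpow_add hρ, Real.rpow_one,
        hC]
      have h11 : 0 ≤ C1 * 2 ^ γ1 * (ρ * ρ ^ γ) := by positivity
      nlinarith
    · intro y hy hyx hyr ρ hρ hρc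
      have hd : 0 < dist y x := dist_pos.2 hyx
      set d : ℝ := dist y x with hd'
      have hdρ : d < ρ₀ := by linarith
      have hd1 : d < 1 := hyr.trans_le (min_le_right _ _)
      have hd2 : 0 < d / 2 := by positivity
      have hsubU : closedBall y (d / 2) ⊆ U := by
        refine (closedBall_subset_closedBall' ?_).trans hP.sub
        rw [← hd']
        linarith
      have hlam' : lam * (d / 2) ≤ ε1 := by
        refine le_trans (mul_le_mul_of_nonneg_left (by linarith) h.lam_nonneg) (hP.lam_le.trans e1)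
      have hline := hP.line y hy hd hdρ (d / 2) hd2 le_rfl
      obtain ⟨v, hv⟩ := hlf h y hy (d / 2) hd2 (by linarith) hsubU hlam'
        ((hP.en y hy hdρ (d / 2) hd2 (by linarith)).trans
          (mul_le_mul_of_nonneg_right e1 hd2.le))
        (lineLike_mono hline.1 e1 hd2.le) y hy (by rw [dist_self]; positivity) ρ hρ (by
          refine hρc.trans ?_
          have : c ≤ c1 / 2 := min_le_left _ _
          nlinarith)
      refine ⟨v, flat_mono hv le_rfl ?_⟩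
      have h7 : 0 < ρ / d := by positivity
      have h8 : ρ / d ≤ 1 := by
        rw [div_le_one hd]
        have : c ≤ 1 / 2 := min_le_right _ _
        nlinarith
      have h9 : (ρ / (d / 2)) ^ γ1 = 2 ^ γ1 * (ρ / d) ^ γ1 := by
        rw [← Real.mul_rpow (by norm_num) h7.le]
        congr 1
        field_simp
      have h10 : (ρ / d) ^ γ1 ≤ (ρ / d) ^ γ :=
        Real.rpow_le_rpow_of_exponent_ge h7 h8 (min_le_left _ _)
      rw [h9]
      calc C1 * ρ * (2 ^ γ1 * (ρ / d) ^ γ1) = C1 * 2 ^ γ1 * ρ * (ρ / d) ^ γ1 := by ring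
        _ ≤ C1 * 2 ^ γ1 * ρ * (ρ / d) ^ γ := mul_le_mul_of_nonneg_left h10 (by positivity)
        _ ≤ C * ρ * (ρ / d) ^ γ := by
            apply mul_le_mul_of_nonneg_right _ (by positivity)
            apply mul_le_mul_of_nonneg_right _ hρ.le
            have : 0 ≤ C4 * (1 / ρ₀) ^ γ := by positivity
            linarith

end Crest.Agent.R135.Asm
end

-- ▼ part R135/DcyArc
section

/-!
# R135, DECAY block (helper427): phases on a circle

A function `c`, locally constant off `K`, takes `m ≥ 2` distinct values on a circle. Then the circle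
meets `K` in at least `m` points, and if there are exactly `m` points then the flux through each arc
is the flux of `1_{c = v k}` for some `k`.
-/

set_option autoImplicit false

open MeasureTheory Set Filter Topology Metric
open scoped ENNReal NNReal ContDiff Gradient

namespace Crest.Agent.R135.Dcy

/-- a locally constant function is constant along an arc -/
theorem locConst_arc {B K : Set E2} {c : E2 → ℝ} (hc : LocConstOn (B \ K) c) {z : E2} {t a b : ℝ}
    (hB : ∀ θ : ℝ, cpt z t θ ∈ B) (hK : ∀ θ ∈ Ioo a b, cpt z t θ ∉ K) {p q : ℝ}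
    (hp : p ∈ Ioo a b) (hq : q ∈ Ioo a b) : c (cpt z t p) = c (cpt z t q) := by
  have key : ∀ θ ∈ Ioo a b, HasDerivAt (fun θ => c (cpt z t θ)) 0 θ := by
    intro θ hθ
    have h1 := hc (cpt z t θ) ⟨hB θ, hK θ hθ⟩
    have h2 : ∀ᶠ φ in 𝓝 θ, c (cpt z t φ) = c (cpt z t θ) :=
      (hasDerivAt_cpt z t θ).continuousAt.eventually h1
    exact (hasDerivAt_const θ (c (cpt z t θ))).congr_of_eventuallyEq h2
  refine isOpen_Ioo.is_const_of_deriv_eq_zero isPreconnected_Ioo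
    (fun θ hθ => (key θ hθ).differentiableAt.differentiableWithinAt) ?_ hp hq
  intro θ hθ
  exact (key θ hθ).deriv

theorem exists_idx {θ : ℕ → ℝ} {x : ℝ} (n : ℕ) (h0 : θ 0 ≤ x) (hn : x < θ n) :
    ∃ i < n, θ i ≤ x ∧ x < θ (i + 1) := by
  induction n with
  | zero => exact absurd hn (not_lt.2 h0)
  | succ n ih =>
    by_cases h : x < θ n
    · obtain ⟨i, hi, h1, h2⟩ := ih h
      exact ⟨i, by omega, h1, h2⟩
    · exact ⟨n, by omega, not_lt.1 h, hn⟩

/-- shift an angle into a window -/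
theorem exists_shift (a φ : ℝ) : ∃ j : ℤ, φ + 2 * Real.pi * j ∈ Ico a (a + 2 * Real.pi) := by
  refine ⟨-(toIcoDiv Real.two_pi_pos a φ), ?_⟩
  have h := toIcoMod_mem_Ico Real.two_pi_pos a φ
  have h1 : toIcoMod Real.two_pi_pos a φ = φ - toIcoDiv Real.two_pi_pos a φ • (2 * Real.pi) := rfl
  rw [h1, zsmul_eq_mul] at h
  have h2 : φ + 2 * Real.pi * ((-(toIcoDiv Real.two_pi_pos a φ) : ℤ) : ℝ) =
      φ - (toIcoDiv Real.two_pi_pos a φ : ℝ) * (2 * Real.pi) := by push_cast; ring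
  rw [h2]; exact h

theorem cpt_shift (z : E2) (t φ : ℝ) (j : ℤ) : cpt z t (φ + 2 * Real.pi * j) = cpt z t φ := by
  have h := (cpt_periodic z t).int_mul j φ
  rw [mul_comm (j : ℝ)] at h
  exact h

/-- the situation on a circle: `c` takes the distinct values `v k` -/
structure Vals (B K : Set E2) (c : E2 → ℝ) (z : E2) (t : ℝ) (m : ℕ) (v φ : Fin m → ℝ) : Prop where
  pos : 0 < t
  loc : LocConstOn (B \ K) c
  sub : ∀ θ : ℝ, cpt z t θ ∈ B
  inj : Function.Injective v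
  off : ∀ k, cpt z t (φ k) ∉ K
  val : ∀ k, c (cpt z t (φ k)) = v k

variable {B K : Set E2} {c : E2 → ℝ} {z : E2} {t : ℝ} {m : ℕ} {v φ : Fin m → ℝ}

theorem Vals.nonempty (h : Vals B K c z t m v φ) (hm : 2 ≤ m) : (K ∩ sphere z t).Nonempty := by
  by_contra hne
  rw [not_nonempty_iff_eq_empty] at hne
  have hoff : ∀ θ : ℝ, cpt z t θ ∉ K := by
    intro θ hθ
    have : cpt z t θ ∈ K ∩ sphere z t := ⟨hθ, cpt_mem_sphere h.pos.le⟩
    rw [hne] at this
    exact this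
  have h0 : (0 : ℕ) < m := by omega
  have h1 : (1 : ℕ) < m := by omega
  set a := min (φ ⟨0, h0⟩) (φ ⟨1, h1⟩) - 1
  set b := max (φ ⟨0, h0⟩) (φ ⟨1, h1⟩) + 1
  have e := locConst_arc h.loc (a := a) (b := b) h.sub (fun θ _ => hoff θ)
    (p := φ ⟨0, h0⟩) (q := φ ⟨1, h1⟩)
    ⟨by have := min_le_left (φ ⟨0, h0⟩) (φ ⟨1, h1⟩); simp only [a]; linarith,
     by have := le_max_left (φ ⟨0, h0⟩) (φ ⟨1, h1⟩); simp only [b]; linarith⟩
    ⟨by have := min_le_right (φ ⟨0, h0⟩) (φ ⟨1, h1⟩); simp only [a]; linarith,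
     by have := le_max_right (φ ⟨0, h0⟩) (φ ⟨1, h1⟩); simp only [b]; linarith⟩
  rw [h.val, h.val] at e
  have := h.inj e
  simp at this

/-- each phase point lies in one of the arcs -/
theorem Vals.exists_arc (h : Vals B K c z t m v φ) {n : ℕ} {θ : ℕ → ℝ}
    (hθn : θ n = θ 0 + 2 * Real.pi) (hθK : ∀ i ≤ n, cpt z t (θ i) ∈ K) (k : Fin m) :
    ∃ i < n, ∃ ψ ∈ Ioo (θ i) (θ (i + 1)), cpt z t ψ = cpt z t (φ k) := by
  obtain ⟨j, hj⟩ := exists_shift (θ 0) (φ k)
  obtain ⟨i, hi, h1, h2⟩ := exists_idx (θ := θ) n hj.1 (by rw [hθn]; exact hj.2)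
  refine ⟨i, hi, _, ⟨lt_of_le_of_ne h1 ?_, h2⟩, cpt_shift z t (φ k) j⟩
  intro he
  have h3 := hθK i hi.le
  rw [he, cpt_shift] at h3
  exact h.off k h3

theorem Vals.card_le (h : Vals B K c z t m v φ) (hm : 2 ≤ m) :
    (m : ℕ∞) ≤ (K ∩ sphere z t).encard := by
  by_cases hfin : (K ∩ sphere z t).Finite
  swap
  · have h0 : (K ∩ sphere z t).encard = ⊤ := Set.encard_eq_top_iff.2 hfin
    rw [h0]; exact le_top
  obtain ⟨n, θ, hn0, hn, hlt, hθn, hI, hθK, hoff, hall⟩ := exists_arcs h.pos hfin (h.nonempty hm)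
  choose i hi ψ hψ hcpt using fun k => h.exists_arc hθn hθK k
  have hinj : Function.Injective (fun k : Fin m => (⟨i k, hi k⟩ : Fin n)) := by
    intro k l hkl
    have hkl' : i k = i l := by simpa using hkl
    apply h.inj
    rw [← h.val k, ← h.val l, ← hcpt k, ← hcpt l]
    refine locConst_arc h.loc h.sub (hoff (i k) (hi k)) (hψ k) ?_
    rw [hkl']; exact hψ l
  have hcard := Fintype.card_le_of_injective _ hinj
  simp only [Fintype.card_fin] at hcard
  rw [← hfin.cast_ncard_eq, ← hn]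
  exact_mod_cast hcard

/-- every arc of the circle is one of the arcs of the decomposition, up to a shift -/
theorem arc_eq {n : ℕ} {θ : ℕ → ℝ} (ht : 0 < t) (hlt : ∀ i < n, θ i < θ (i + 1))
    (hθK : ∀ i ≤ n, cpt z t (θ i) ∈ K)
    (hoff : ∀ i < n, ∀ φ ∈ Ioo (θ i) (θ (i + 1)), cpt z t φ ∉ K)
    (hall : ∀ y ∈ K ∩ sphere z t, ∃ i < n, cpt z t (θ i) = y) {a b : ℝ}
    (hab : IsArc K z t a b) :
    ∃ i < n, ∃ j : ℤ, a = θ i + 2 * Real.pi * j ∧ b = θ (i + 1) + 2 * Real.pi * j := by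
  obtain ⟨h1, h2, h3, h4, h5⟩ := hab
  obtain ⟨i, hi, he⟩ := hall (cpt z t a) ⟨h3, cpt_mem_sphere ht.le⟩
  have hd : dir (θ i) = dir a := by
    have h6 : t • dir (θ i) = t • dir a := by simpa [cpt] using he
    exact smul_right_injective E2 ht.ne' h6
  obtain ⟨j, hj⟩ := dir_eq_dir_iff.1 hd
  have ha : a = θ i + 2 * Real.pi * ((-j : ℤ) : ℝ) := by push_cast; linarith
  refine ⟨i, hi, -j, ha, ?_⟩
  set s : ℝ := 2 * Real.pi * ((-j : ℤ) : ℝ) with hs
  rcases lt_trichotomy b (θ (i + 1) + s) with hb | hb | hb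
  · exfalso
    have h6 := hoff i hi (b + 2 * Real.pi * ((j : ℤ) : ℝ)) ⟨by
      have : s = -(2 * Real.pi * (j : ℝ)) := by rw [hs]; push_cast; ring
      linarith, by
      have : s = -(2 * Real.pi * (j : ℝ)) := by rw [hs]; push_cast; ring
      linarith⟩
    rw [cpt_shift] at h6
    exact h6 h4
  · exact hb
  · exfalso
    refine h5 (θ (i + 1) + s) ⟨?_, hb⟩ ?_
    · have := hlt i hi; linarith
    · rw [hs, cpt_shift]
      exact hθK (i + 1) (by omega)

/-- if there are exactly `m` crack points, the flux through each arc is the total flux of the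
indicator of one of the phases. -/
theorem Vals.flux_eq (h : Vals B K c z t m v φ) (hm : 2 ≤ m) {u : E2 → ℝ}
    (hg : GoodCirc K (gradient u) z t) (hcard : (K ∩ sphere z t).ncard = m) {a b : ℝ}
    (hab : IsArc K z t a b) :
    ∃ k : Fin m, flux u z t a b = t * ∫ θ in (-Real.pi)..Real.pi,
      (if c (cpt z t θ) = v k then (1 : ℝ) else 0) *
        inner ℝ (gradient u (cpt z t θ)) (dir θ) := by
  classical
  obtain ⟨n, θ, hn0, hn, hlt, hθn, hI, hθK, hoff, hall⟩ :=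
    exists_arcs h.pos hg.fin (h.nonempty hm)
  choose i hi ψ hψ hcpt using fun k => h.exists_arc hθn hθK k
  have hinj : Function.Injective (fun k : Fin m => (⟨i k, hi k⟩ : Fin n)) := by
    intro k l hkl
    have hkl' : i k = i l := by simpa using hkl
    apply h.inj
    rw [← h.val k, ← h.val l, ← hcpt k, ← hcpt l]
    refine locConst_arc h.loc h.sub (hoff (i k) (hi k)) (hψ k) ?_
    rw [hkl']; exact hψ l
  have hmn : m = n := by rw [hn, hcard]
  have hbij : Function.Bijective (fun k : Fin m => (⟨i k, hi k⟩ : Fin n)) := by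
    rw [Fintype.bijective_iff_injective_and_card]
    exact ⟨hinj, by simp [hmn]⟩
  -- value on the arcs
  have hval : ∀ k, ∀ θ' ∈ Ioo (θ (i k)) (θ (i k + 1)), c (cpt z t θ') = v k := by
    intro k θ' hθ'
    rw [← h.val k, ← hcpt k]
    exact locConst_arc h.loc h.sub (hoff (i k) (hi k)) hθ' (hψ k)
  obtain ⟨i0, hi0, j, ha, hb⟩ := arc_eq h.pos hlt hθK hoff hall hab
  obtain ⟨k, hk⟩ := hbij.2 ⟨i0, hi0⟩
  have hk' : i k = i0 := by simpa using hk
  refine ⟨k, ?_⟩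
  rw [flux]
  congr 1
  set g : ℝ → ℝ := fun θ => inner ℝ (gradient u (cpt z t θ)) (dir θ) with hgdef
  set F : ℝ → ℝ := fun θ => (if c (cpt z t θ) = v k then (1 : ℝ) else 0) * g θ with hF
  have hgper : Function.Periodic g (2 * Real.pi) := by
    intro θ
    simp only [hgdef, cpt_periodic z t θ, dir_periodic θ]
  have hFper : Function.Periodic F (2 * Real.pi) := by
    intro θ
    simp only [hF, cpt_periodic z t θ, hgper θ]
  -- value of `F` on the arcs
  have harc : ∀ l < n, ∀ θ' ∈ Ioo (θ l) (θ (l + 1)), F θ' = if l = i0 then g θ' else 0 := by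
    intro l hl θ' hθ'
    obtain ⟨k', hk2⟩ := hbij.2 ⟨l, hl⟩
    have hk2' : i k' = l := by simpa using hk2
    have h1 : c (cpt z t θ') = v k' := hval k' θ' (by rw [hk2']; exact hθ')
    simp only [hF, h1]
    by_cases hll : l = i0
    · have : k' = k := by
        apply hinj
        simp only [Fin.mk.injEq]
        rw [hk2', hll, hk']
      simp [this, hll]
    · have : k' ≠ k := by
        rintro rfl
        exact hll (by rw [← hk2', hk'])
      have h2 : v k' ≠ v k := fun he => this (h.inj he)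
      simp [h2, hll]
  have hgint : ∀ a b : ℝ, IntervalIntegrable g volume a b := fun a b =>
    hg.intervalIntegrable_dir a b
  have hcongr : ∀ l < n, ∫ θ' in θ l..θ (l + 1), F θ' =
      ∫ θ' in θ l..θ (l + 1), (if l = i0 then g θ' else 0) := by
    intro l hl
    refine intervalIntegral.integral_congr_ae ?_
    rw [uIoc_of_le (hlt l hl).le]
    have : ∀ᵐ x : ℝ, x ≠ θ (l + 1) := by
      simp [ae_iff]
    filter_upwards [this] with x hx hx'
    exact harc l hl x ⟨hx'.1, lt_of_le_of_ne hx'.2 hx⟩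
  have hFint : ∀ l < n, IntervalIntegrable F volume (θ l) (θ (l + 1)) := by
    intro l hl
    have h1 : IntervalIntegrable (fun θ' => if l = i0 then g θ' else 0) volume (θ l)
        (θ (l + 1)) := by
      by_cases hll : l = i0
      · simpa [hll] using hgint _ _
      · simp [hll]
    refine h1.congr_ae ?_
    rw [uIoc_of_le (hlt l hl).le]
    have h2 : ∀ᵐ x ∂(volume.restrict (Ioc (θ l) (θ (l + 1)))), x ≠ θ (l + 1) := by
      refine ae_restrict_of_ae ?_
      simp [ae_iff]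
    filter_upwards [h2, ae_restrict_mem measurableSet_Ioc] with x hx hx'
    exact (harc l hl x ⟨hx'.1, lt_of_le_of_ne hx'.2 hx⟩).symm
  have htot : ∫ θ' in (-Real.pi)..Real.pi, F θ' = ∫ θ' in θ 0..θ n, F θ' := by
    rw [hθn, hFper.intervalIntegral_add_eq (θ 0) (-Real.pi)]
    congr 1
    ring
  rw [htot, ← intervalIntegral.sum_integral_adjacent_intervals hFint,
    Finset.sum_congr rfl (fun l hl => hcongr l (Finset.mem_range.1 hl))]
  rw [Finset.sum_eq_single i0]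
  · simp only [if_true]
    rw [ha, hb]
    have h3 : ∫ θ' in (θ i0 + 2 * Real.pi * j)..(θ (i0 + 1) + 2 * Real.pi * j), g θ' =
        ∫ θ' in (θ i0)..(θ (i0 + 1)), g (θ' + 2 * Real.pi * j) := by
      rw [intervalIntegral.integral_comp_add_right]
    rw [h3]
    refine intervalIntegral.integral_congr fun θ' _ => ?_
    have := hgper.int_mul j θ'
    rw [mul_comm (j : ℝ)] at this
    exact this
  · intro l _ hl
    simp [hl]
  · intro hni
    exact absurd (Finset.mem_range.2 hi0) hni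

end Crest.Agent.R135.Dcy
end

-- ▼ part R135/DcyODE
section

/-!
# R135, DECAY block (helper427): integration of the differential inequality

`a` is nondecreasing, at good radii `a s ≤ θ s a'(s) + C s²`, the bad radii of `(ρ/2, ρ)` have
measure `≤ η ρ`. Then `a` decays like `ρ^(1+γ)`.
-/

set_option autoImplicit false

open MeasureTheory Set Filter Topology
open scoped ENNReal

namespace Crest.Agent.R135.Dcy

/-- one dyadic step. -/
theorem ode_step {a d : ℝ → ℝ} {θ η C ρ : ℝ} (hρ : 0 < ρ) (hθ : 0 < θ) (hC : 0 ≤ C)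
    (hη : 0 ≤ η) (ha : 0 ≤ a ρ) (hmono : MonotoneOn a (Icc (ρ / 2) ρ)) {G : Set ℝ}
    (hG : ∀ᵐ s ∂(volume.restrict (Ioo (ρ / 2) ρ)), s ∈ G →
      HasDerivAt a (d s) s ∧ a s ≤ θ * s * d s + C * s ^ 2)
    (hbad : volume (Ioo (ρ / 2) ρ \ G) ≤ ENNReal.ofReal (η * ρ)) :
    a (ρ / 2) ≤ Real.exp (-((Real.log 2 - 2 * η) / θ)) * a ρ + C * ρ ^ 2 := by
  have hρ2 : ρ / 2 < ρ := by linarith
  by_cases h0 : a (ρ / 2) ≤ C * ρ ^ 2
  · have := mul_nonneg (Real.exp_pos (-((Real.log 2 - 2 * η) / θ))).le ha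
    linarith
  push Not at h0
  set h : ℝ → ℝ := fun s => a s - C * ρ ^ 2 with hh
  have hpos : ∀ s ∈ Icc (ρ / 2) ρ, 0 < h s := by
    intro s hs
    have := hmono (left_mem_Icc.2 hρ2.le) hs hs.1
    simp only [hh]; linarith
  set g : ℝ → ℝ := fun s => Real.log (h s) with hg
  have hgm : MonotoneOn g (Icc (ρ / 2) ρ) := by
    intro s hs t ht hst
    exact Real.log_le_log (hpos s hs) (by simp only [hh]; linarith [hmono hs ht hst])
  have hgm' : MonotoneOn g (uIcc (ρ / 2) ρ) := by rwa [uIcc_of_le hρ2.le]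
  have hint := hgm'.intervalIntegrable_deriv
  have hle := hgm'.intervalIntegral_deriv_mem_uIcc
  have hgg : g (ρ / 2) ≤ g ρ := hgm (left_mem_Icc.2 hρ2.le) (right_mem_Icc.2 hρ2.le) hρ2.le
  rw [uIcc_of_le (by linarith)] at hle
  -- the bad set
  set B : Set ℝ := toMeasurable volume (Ioo (ρ / 2) ρ \ G) ∩ Ioo (ρ / 2) ρ with hB
  have hBm : MeasurableSet B := (measurableSet_toMeasurable _ _).inter measurableSet_Ioo
  have hBv : volume B ≤ ENNReal.ofReal (η * ρ) :=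
    (measure_mono inter_subset_left).trans (by rw [measure_toMeasurable]; exact hbad)
  have hGB : ∀ s ∈ Ioo (ρ / 2) ρ, s ∉ B → s ∈ G := by
    intro s hs hsB
    by_contra hsG
    exact hsB ⟨subset_toMeasurable _ _ ⟨hs, hsG⟩, hs⟩
  -- pointwise lower bound of the derivative
  have hlow : ∀ᵐ s ∂(volume.restrict (Ioo (ρ / 2) ρ)),
      (θ * s)⁻¹ - B.indicator (fun s => (θ * s)⁻¹) s ≤ deriv g s := by
    filter_upwards [hG, ae_restrict_mem measurableSet_Ioo] with s hs hsI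
    have hsI' : s ∈ Icc (ρ / 2) ρ := ⟨hsI.1.le, hsI.2.le⟩
    have hs0 : 0 < s := by have := hsI.1; linarith
    by_cases hsB : s ∈ B
    · rw [indicator_of_mem hsB, sub_self]
      rw [← derivWithin_of_mem_nhds (Icc_mem_nhds hsI.1 hsI.2)]
      exact hgm.derivWithin_nonneg
    · rw [indicator_of_notMem hsB, sub_zero]
      obtain ⟨hd, hle'⟩ := hs (hGB s hsI hsB)
      have hdh : HasDerivAt h (d s) s := by simpa [hh] using hd.sub_const (C * ρ ^ 2)
      have hdg : HasDerivAt g (d s / h s) s := hdh.log (hpos s hsI').ne'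
      rw [hdg.deriv, le_div_iff₀ (hpos s hsI'), inv_mul_le_iff₀ (by positivity)]
      have h2 : C * s ^ 2 ≤ C * ρ ^ 2 := by
        have : s ^ 2 ≤ ρ ^ 2 := pow_le_pow_left₀ hs0.le hsI.2.le 2
        exact mul_le_mul_of_nonneg_left this hC
      simp only [hh]; linarith
  -- integrate
  have hcont : ContinuousOn (fun s : ℝ => (θ * s)⁻¹) (uIcc (ρ / 2) ρ) := by
    apply ContinuousOn.inv₀ (by fun_prop)
    intro s hs
    rw [uIcc_of_le hρ2.le] at hs
    have : 0 < s := by have := hs.1; linarith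
    positivity
  have hi1 : IntervalIntegrable (fun s : ℝ => (θ * s)⁻¹) volume (ρ / 2) ρ :=
    hcont.intervalIntegrable
  have hi2 : IntervalIntegrable (B.indicator (fun s : ℝ => (θ * s)⁻¹)) volume (ρ / 2) ρ := by
    rw [intervalIntegrable_iff_integrableOn_Ioc_of_le hρ2.le] at hi1 ⊢
    exact hi1.indicator hBm
  have hint1 : ∫ s in (ρ / 2)..ρ, (θ * s)⁻¹ = Real.log 2 / θ := by
    have : ∀ s : ℝ, (θ * s)⁻¹ = θ⁻¹ * s⁻¹ := fun s => by rw [mul_inv]
    simp only [this]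
    rw [intervalIntegral.integral_const_mul, integral_inv_of_pos (by positivity) hρ]
    have : ρ / (ρ / 2) = 2 := by field_simp
    rw [this]; ring
  have hint2 : ∫ s in (ρ / 2)..ρ, B.indicator (fun s : ℝ => (θ * s)⁻¹) s ≤ 2 * η / θ := by
    rw [intervalIntegral.integral_of_le hρ2.le, setIntegral_indicator hBm]
    have hfin : volume (Ioc (ρ / 2) ρ ∩ B) < ⊤ := by
      refine (measure_mono inter_subset_right).trans_lt (hBv.trans_lt ENNReal.ofReal_lt_top)
    have h1 : ∫ s in Ioc (ρ / 2) ρ ∩ B, (θ * s)⁻¹ ≤ ∫ s in Ioc (ρ / 2) ρ ∩ B, 2 / (θ * ρ) := by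
      refine setIntegral_mono_on ?_ ?_ (measurableSet_Ioc.inter hBm) ?_
      · rw [intervalIntegrable_iff_integrableOn_Ioc_of_le hρ2.le] at hi1
        exact hi1.mono_set inter_subset_left
      · exact integrableOn_const hfin.ne
      · intro s hs
        have hs1 : ρ / 2 < s := hs.1.1
        rw [inv_le_comm₀ (by have : 0 < s := by linarith
                             positivity) (by positivity), inv_div]
        rw [div_le_iff₀ (by norm_num)]
        nlinarith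
    refine h1.trans ?_
    rw [setIntegral_const, smul_eq_mul]
    have h2 : volume.real (Ioc (ρ / 2) ρ ∩ B) ≤ η * ρ := by
      rw [measureReal_def]
      refine ENNReal.toReal_le_of_le_ofReal (by positivity) ?_
      exact (measure_mono inter_subset_right).trans hBv
    calc volume.real (Ioc (ρ / 2) ρ ∩ B) * (2 / (θ * ρ)) ≤ η * ρ * (2 / (θ * ρ)) := by
          gcongr
      _ = 2 * η / θ := by field_simp
  have hfinal : Real.log 2 / θ - 2 * η / θ ≤ g ρ - g (ρ / 2) := by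
    have h3 : ∫ s in (ρ / 2)..ρ, ((θ * s)⁻¹ - B.indicator (fun s : ℝ => (θ * s)⁻¹) s) ≤
        ∫ s in (ρ / 2)..ρ, deriv g s := by
      refine intervalIntegral.integral_mono_ae_restrict hρ2.le (hi1.sub hi2) hint ?_
      rw [← restrict_Ioo_eq_restrict_Icc]
      exact hlow
    rw [intervalIntegral.integral_sub hi1 hi2, hint1] at h3
    linarith [hle.2]
  -- conclude
  have hp1 := hpos (ρ / 2) (left_mem_Icc.2 hρ2.le)
  have hp2 := hpos ρ (right_mem_Icc.2 hρ2.le)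
  have h4 : (Real.log 2 - 2 * η) / θ ≤ Real.log (h ρ / h (ρ / 2)) := by
    rw [Real.log_div hp2.ne' hp1.ne', sub_div]
    exact hfinal
  rw [Real.le_log_iff_exp_le (by positivity), le_div_iff₀ hp1] at h4
  have h5 : h (ρ / 2) ≤ Real.exp (-((Real.log 2 - 2 * η) / θ)) * h ρ := by
    rw [Real.exp_neg, inv_mul_eq_div, le_div_iff₀ (Real.exp_pos _)]
    linarith
  have h6 : 0 ≤ Real.exp (-((Real.log 2 - 2 * η) / θ)) * (C * ρ ^ 2) := by positivity
  simp only [hh] at h5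
  nlinarith

/-- iteration of the dyadic step: `a (ρ/2) ≤ 2^{-p} a ρ + C ρ²` with `1 < p < 2`. -/
theorem iterate_step {a : ℝ → ℝ} {p C r : ℝ} (hr : 0 < r) (hp2 : p < 2)
    (hC : 0 ≤ C)
    (hstep : ∀ ρ : ℝ, 0 < ρ → ρ ≤ r → a (ρ / 2) ≤ 2 ^ (-p) * a ρ + C * ρ ^ 2) (k : ℕ) :
    a (r / 2 ^ k) ≤ (2 : ℝ) ^ (-(p * k)) * (a r + C * (2 ^ p / (1 - 2 ^ (p - 2))) * r ^ 2) := by
  have h2p : (0:ℝ) < 2 ^ p := Real.rpow_pos_of_pos (by norm_num) p
  have hq : (2:ℝ) ^ (p - 2) < 1 := Real.rpow_lt_one_of_one_lt_of_neg (by norm_num) (by linarith)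
  have hq0 : (0:ℝ) < 2 ^ (p - 2) := Real.rpow_pos_of_pos (by norm_num) _
  have h1q : 0 < 1 - (2:ℝ) ^ (p - 2) := by linarith
  -- stronger induction hypothesis
  have key : ∀ k : ℕ, a (r / 2 ^ k) ≤ (2 : ℝ) ^ (-(p * k)) *
      (a r + C * (2 ^ p * ((1 - (2 ^ (p - 2)) ^ k) / (1 - 2 ^ (p - 2)))) * r ^ 2) := by
    intro k
    induction k with
    | zero => simp
    | succ k ih =>
      have h1 := hstep (r / 2 ^ k) (by positivity) (div_le_self hr.le (one_le_pow₀ (by norm_num)))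
      have h2 : r / 2 ^ (k + 1) = r / 2 ^ k / 2 := by rw [pow_succ]; field_simp
      rw [h2]
      refine h1.trans ?_
      have h3 : (2:ℝ) ^ (-p) * a (r / 2 ^ k) ≤ 2 ^ (-p) * ((2 : ℝ) ^ (-(p * k)) *
          (a r + C * (2 ^ p * ((1 - (2 ^ (p - 2)) ^ k) / (1 - 2 ^ (p - 2)))) * r ^ 2)) :=
        mul_le_mul_of_nonneg_left ih (Real.rpow_pos_of_pos (by norm_num) _).le
      have h4 : (2:ℝ) ^ (-p) * (2 : ℝ) ^ (-(p * k)) = 2 ^ (-(p * ((k + 1 : ℕ) : ℝ))) := by
        rw [← Real.rpow_add (by norm_num)]; congr 1; push_cast; ring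
      have h5 : (r / 2 ^ k) ^ 2 = 2 ^ (-(p * ((k + 1 : ℕ) : ℝ))) * (2 ^ p * (2 ^ (p - 2)) ^ k)
          * r ^ 2 := by
        have e1 : ((2:ℝ) ^ (p - 2)) ^ k = 2 ^ ((p - 2) * k) := by
          rw [← Real.rpow_natCast, ← Real.rpow_mul (by norm_num)]
        have e2 : (2:ℝ) ^ (-(p * ((k + 1 : ℕ) : ℝ))) * (2 ^ p * 2 ^ ((p - 2) * k)) =
            2 ^ (-(2 * (k:ℝ))) := by
          rw [← Real.rpow_add (by norm_num), ← Real.rpow_add (by norm_num)]
          congr 1; push_cast; ring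
        rw [e1, e2, div_pow, Real.rpow_neg (by norm_num)]
        have e3 : (2:ℝ) ^ (2 * (k:ℝ)) = (2 ^ k) ^ 2 := by
          rw [← pow_mul, mul_comm k 2, ← Real.rpow_natCast]; push_cast; rfl
        rw [e3]; ring
      rw [h5]
      calc _ ≤ 2 ^ (-p) * ((2 : ℝ) ^ (-(p * k)) *
          (a r + C * (2 ^ p * ((1 - (2 ^ (p - 2)) ^ k) / (1 - 2 ^ (p - 2)))) * r ^ 2)) +
            C * (2 ^ (-(p * ((k + 1 : ℕ) : ℝ))) * (2 ^ p * (2 ^ (p - 2)) ^ k) * r ^ 2) := by
            linarith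
        _ = 2 ^ (-(p * ((k + 1 : ℕ) : ℝ))) * (a r + C * (2 ^ p *
            ((1 - (2 ^ (p - 2)) ^ k) / (1 - 2 ^ (p - 2)) + (2 ^ (p - 2)) ^ k)) * r ^ 2) := by
            rw [← mul_assoc, h4]; ring
        _ = _ := by
            congr 3
            rw [pow_succ]
            field_simp
            ring
  refine (key k).trans ?_
  gcongr
  rw [← mul_div_assoc]
  gcongr
  have : 0 ≤ ((2:ℝ) ^ (p - 2)) ^ k := by positivity
  nlinarith

/-- **Decay lemma** -/
theorem decay_of_step {a : ℝ → ℝ} {p C r : ℝ} (hr : 0 < r) (hp : 0 < p) (hp2 : p < 2)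
    (hC : 0 ≤ C) (ha0 : 0 ≤ a r) (hmono : MonotoneOn a (Ioc 0 r))
    (hstep : ∀ ρ : ℝ, 0 < ρ → ρ ≤ r → a (ρ / 2) ≤ 2 ^ (-p) * a ρ + C * ρ ^ 2)
    {ρ : ℝ} (hρ : 0 < ρ) (hρr : ρ ≤ r) :
    a ρ ≤ 2 ^ p * (ρ / r) ^ p * (a r + C * (2 ^ p / (1 - 2 ^ (p - 2))) * r ^ 2) := by
  have hq : (2:ℝ) ^ (p - 2) < 1 := Real.rpow_lt_one_of_one_lt_of_neg (by norm_num) (by linarith)
  have h1q : 0 < 1 - (2:ℝ) ^ (p - 2) := by linarith
  -- choose k with r/2^(k+1) < ρ ≤ r/2^k
  obtain ⟨k, hk1, hk2⟩ := exists_nat_pow_near (x := r / ρ) (y := 2)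
    (by rw [le_div_iff₀ hρ]; linarith) (by norm_num)
  have h1 : ρ ≤ r / 2 ^ k := by
    rw [le_div_iff₀ (by positivity)]
    rw [le_div_iff₀ hρ] at hk1
    linarith
  have h2 : r / ρ < 2 ^ (k + 1) := hk2
  have h3 : a ρ ≤ a (r / 2 ^ k) :=
    hmono ⟨hρ, hρr⟩ ⟨by positivity, div_le_self hr.le (one_le_pow₀ (by norm_num))⟩ h1
  refine h3.trans ((iterate_step hr hp2 hC hstep k).trans ?_)
  refine mul_le_mul_of_nonneg_right ?_ (by positivity)
  have h4 : (2:ℝ) ^ (-(p * k)) = 2 ^ p * ((2:ℝ) ^ (-((k:ℝ) + 1))) ^ p := by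
    rw [← Real.rpow_mul (by norm_num), ← Real.rpow_add (by norm_num)]
    congr 1; ring
  rw [h4]
  refine mul_le_mul_of_nonneg_left ?_ (Real.rpow_pos_of_pos (by norm_num) p).le
  refine Real.rpow_le_rpow (Real.rpow_pos_of_pos (by norm_num) _).le ?_ hp.le
  rw [Real.rpow_neg (by norm_num), le_div_iff₀ hr, inv_mul_le_iff₀ (Real.rpow_pos_of_pos (by norm_num) _)]
  have h5 : (2:ℝ) ^ ((k:ℝ) + 1) = 2 ^ (k + 1) := by
    rw [← Real.rpow_natCast]; push_cast; rfl
  rw [h5]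
  rw [div_lt_iff₀ hρ] at h2
  exact h2.le

end Crest.Agent.R135.Dcy
end

-- ▼ part R135/DcyStep
section

/-!
# R135, DECAY block (helper427): one dyadic step from the phases
-/

set_option autoImplicit false

open MeasureTheory Set Filter Topology Metric
open scoped ENNReal NNReal ContDiff Gradient

namespace Crest.Agent.R135.Dcy

/-- phases with `m` sectors at `(z, ρ)`: the angular gaps have half-width `β` -/
structure Sect (m : ℕ) (β δ : ℝ) (u : E2 → ℝ) (K : Set E2) (z : E2) (ρ : ℝ) (c : E2 → ℝ)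
    (θ : ℝ) (v : Fin m → ℝ) : Prop where
  loc : LocConstOn (ball z ρ \ K) c
  close : ∀ w ∈ ball z ρ \ K, |u w - c w| ≤ δ * Real.sqrt ρ
  inj : Function.Injective v
  sec : ∀ k : Fin m, ∀ t, ρ / 4 ≤ t → t < ρ → ∀ φ : ℝ,
    |φ - (θ + (2 * ((k : ℕ) : ℝ) + 1) * Real.pi / m)| ≤ Real.pi / m - β →
      cpt z t φ ∉ K ∧ c (cpt z t φ) = v k

variable {m : ℕ} {β δ : ℝ} {u : E2 → ℝ} {K : Set E2} {z : E2} {ρ : ℝ} {c : E2 → ℝ}
    {θ : ℝ} {v : Fin m → ℝ}

theorem Sect.vals (h : Sect m β δ u K z ρ c θ v) (hρ : 0 < ρ) (hβ : β ≤ Real.pi / m) {t : ℝ}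
    (ht : ρ / 4 ≤ t) (htρ : t < ρ) :
    Vals (ball z ρ) K c z t m v (fun k => θ + (2 * ((k : ℕ) : ℝ) + 1) * Real.pi / m) where
  pos := by linarith
  loc := h.loc
  sub := by
    intro φ
    have ht0 : 0 < t := by linarith
    rw [cpt_mem_ball ht0]; exact htρ
  inj := h.inj
  off := fun k => (h.sec k t ht htρ _ (by rw [sub_self, abs_zero]; linarith)).1
  val := fun k => (h.sec k t ht htρ _ (by rw [sub_self, abs_zero]; linarith)).2

/-- index of an integer sector -/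
def idx (m : ℕ) (hm : 0 < m) (k : ℤ) : Fin m :=
  ⟨(k % (m : ℤ)).toNat, by
    have h1 := Int.emod_lt_of_pos k (Int.natCast_pos.2 hm)
    have h2 := Int.emod_nonneg k (by omega : (m : ℤ) ≠ 0)
    omega⟩

theorem idx_ne (m : ℕ) (hm : 2 ≤ m) (k : ℤ) : idx m (by omega) (k - 1) ≠ idx m (by omega) k := by
  intro h
  have h1 : ((k - 1) % (m : ℤ)).toNat = (k % (m : ℤ)).toNat := by
    simpa [idx] using h
  have h2 := Int.emod_nonneg k (by omega : (m : ℤ) ≠ 0)
  have h3 := Int.emod_nonneg (k - 1) (by omega : (m : ℤ) ≠ 0)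
  have h4 : (k - 1) % (m : ℤ) = k % (m : ℤ) := by omega
  have h5 := Int.emod_add_mul_ediv (k - 1) (m : ℤ)
  have h6 := Int.emod_add_mul_ediv k (m : ℤ)
  have h7 : (m : ℤ) * (k / m - (k - 1) / m) = 1 := by rw [mul_sub]; omega
  have h8 : (m : ℤ) ∣ 1 := ⟨_, h7.symm⟩
  have h9 : (m : ℤ) ≤ 1 := Int.le_of_dvd one_pos h8
  omega

/-- the sector condition for all integers `k` -/
theorem Sect.sec_int (h : Sect m β δ u K z ρ c θ v) (hm : 0 < m) (k : ℤ) {t : ℝ}
    (ht : ρ / 4 ≤ t) (htρ : t < ρ) {φ : ℝ}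
    (hφ : |φ - (θ + (2 * (k : ℝ) + 1) * Real.pi / m)| ≤ Real.pi / m - β) :
    cpt z t φ ∉ K ∧ c (cpt z t φ) = v (idx m hm k) := by
  have hm0 : (0:ℝ) < m := by exact_mod_cast hm
  have h2 := Int.emod_nonneg k (by omega : (m : ℤ) ≠ 0)
  have h6 := Int.emod_add_mul_ediv k (m : ℤ)
  set j : ℤ := k / m with hj
  have hidx : (((idx m hm k : Fin m) : ℕ) : ℝ) = ((k % (m : ℤ) : ℤ) : ℝ) := by
    have : (((idx m hm k : Fin m) : ℕ) : ℤ) = k % (m : ℤ) := by
      simp only [idx]; exact Int.toNat_of_nonneg h2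
    exact_mod_cast congrArg (fun n : ℤ => (n : ℝ)) this
  have hk : (k : ℝ) = ((k % (m : ℤ) : ℤ) : ℝ) + m * j := by
    have : (k : ℝ) = ((k % (m : ℤ) + m * j : ℤ) : ℝ) := by rw [h6]
    rw [this]; push_cast; ring
  have h7 := h.sec (idx m hm k) t ht htρ (φ + 2 * Real.pi * ((-j : ℤ) : ℝ)) (by
    rw [hidx]
    refine le_trans (le_of_eq ?_) hφ
    congr 1
    rw [hk]
    push_cast
    field_simp
    ring)
  rw [cpt_shift] at h7
  exact h7

/-- opening of the arcs -/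
theorem Sect.opening (h : Sect m β δ u K z ρ c θ v) (hm : 2 ≤ m) (hρ : 0 < ρ)
    (hβ : β ≤ Real.pi / m) (hβ0 : 0 < β) {t : ℝ} (ht : ρ / 4 ≤ t) (htρ : t < ρ) {a b : ℝ}
    (hab : IsArc K z t a b) : b - a ≤ 2 * Real.pi / m + 2 * β := by
  by_contra hcon
  push Not at hcon
  have hm0 : (0:ℝ) < m := by have : 0 < m := by omega
                             exact_mod_cast this
  have hπ := Real.pi_pos
  set w : ℝ := 2 * Real.pi / m with hw
  have hw0 : 0 < w := by positivity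
  set k : ℤ := ⌊(a + β - θ) / w⌋ + 1 with hk
  have h1 : (a + β - θ) / w < k := by rw [hk]; push_cast; exact Int.lt_floor_add_one _
  have h2 : (k : ℝ) - 1 ≤ (a + β - θ) / w := by
    rw [hk]; push_cast; linarith [Int.floor_le ((a + β - θ) / w)]
  rw [div_lt_iff₀ hw0] at h1
  rw [le_div_iff₀ hw0] at h2
  set p : ℝ := θ + k * w - β with hp
  set q : ℝ := θ + k * w + β with hq
  have hpa : a < p := by rw [hp]; linarith
  have hqb : q < b := by rw [hq]; nlinarith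
  have hpq : p < q := by rw [hp, hq]; linarith
  have h3 := locConst_arc (h.vals hρ hβ ht htρ).loc (h.vals hρ hβ ht htρ).sub hab.2.2.2.2
    (p := p) (q := q) ⟨hpa, hpq.trans hqb⟩ ⟨hpa.trans hpq, hqb⟩
  have hm1 : 0 < m := by omega
  have h4 := (h.sec_int hm1 (k - 1) ht htρ (φ := p) (by
    have : p - (θ + (2 * ((k - 1 : ℤ) : ℝ) + 1) * Real.pi / m) = Real.pi / m - β := by
      rw [hp, hw]; push_cast; field_simp; ring
    rw [this, abs_of_nonneg (by linarith)])).2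
  have h5 := (h.sec_int hm1 k ht htρ (φ := q) (by
    have : q - (θ + (2 * (k : ℝ) + 1) * Real.pi / m) = -(Real.pi / m - β) := by
      rw [hq, hw]; field_simp; ring
    rw [this, abs_neg, abs_of_nonneg (by linarith)])).2
  rw [h4, h5] at h3
  exact idx_ne m hm k (h.inj h3)

/-- the indicator of a phase value is a jumping test function -/
theorem isJump_phase {U : Set E2} {lam : ℝ} {u : E2 → ℝ} (h : IsQM U lam u K) {R : ℝ}
    (hc : LocConstOn (U \ K) c) (hR : closedBall z R ⊆ U) (a : ℝ) :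
    QMC.IsJump U K z R (fun y => if c y = a then (1 : ℝ) else 0) ∧
      ∀ y ∈ U \ K, gradient (fun y => if c y = a then (1 : ℝ) else 0) y = 0 := by
  have hloc : LocConstOn (U \ K) (fun y => if c y = a then (1 : ℝ) else 0) := by
    intro y hy
    filter_upwards [hc y hy] with w hw
    simp only [hw]
  have hgrad : ∀ y ∈ U \ K, gradient (fun y => if c y = a then (1 : ℝ) else 0) y = 0 := by
    intro y hy
    exact gradient_eq_zero_of_eventually_const _ (hloc y hy)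
  refine ⟨⟨QMC.locLip_of_locConst hloc, ⟨1, ?_⟩, ?_⟩, hgrad⟩
  · intro y _
    split_ifs <;> simp
  · have h0 : dirE (fun y => if c y = a then (1 : ℝ) else 0) K (closedBall z R) = 0 := by
      unfold dirE
      rw [setLIntegral_congr_fun (g := fun _ => 0)
        (isClosed_closedBall.measurableSet.diff h.measurable_K)]
      · simp
      · intro y hy
        simp only
        rw [hgrad y ⟨hR hy.1, hy.2⟩]
        simp
    rw [h0]; exact ENNReal.zero_lt_top

/-- the flux bound, almost every circle -/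
theorem ae_flux {U : Set E2} {lam : ℝ} {u : E2 → ℝ} (h : IsQM U lam u K) {R : ℝ} (hR0 : 0 ≤ R)
    (hR : closedBall z R ⊆ U) (hc : LocConstOn (U \ K) c) (a : ℝ) :
    ∀ᵐ t : ℝ, t ∈ Ioo 0 R → |t * ∫ θ in (-Real.pi)..Real.pi,
      (if c (cpt z t θ) = a then (1 : ℝ) else 0) *
        inner ℝ (gradient u (cpt z t θ)) (dir θ)| ≤ lam * Real.pi * t ^ 2 := by
  obtain ⟨f, hf⟩ := QMC.exists_EL h
  obtain ⟨hj, hg⟩ := isJump_phase (z := z) (R := R) h hc hR a
  filter_upwards [QMC.circle_identity h hf hR0 hR hj] with t ht htm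
  have h1 := ht htm
  have hsub : ball z t ⊆ closedBall z R := (ball_subset_ball htm.2.le).trans ball_subset_closedBall
  have h0 : ∫ y in ball z t, inner ℝ (gradient u y)
      (gradient (fun y => if c y = a then (1 : ℝ) else 0) y) = 0 := by
    rw [← QMC.restrict_off h hR hsub]
    rw [setIntegral_congr_fun (g := fun _ => (0:ℝ)) (measurableSet_ball.diff h.measurable_K)]
    · simp
    · intro y hy
      simp only
      rw [hg y ⟨hR (hsub hy.1), hy.2⟩, inner_zero_right]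
  rw [h0] at h1
  have h2 := QMC.abs_rhs_le h hf hR htm.1.le htm.2.le (M := 1)
    (v := fun y => if c y = a then (1 : ℝ) else 0) (fun y _ => by
      split_ifs <;> simp)
  rw [mul_one] at h2
  rw [show t * ∫ θ in (-Real.pi)..Real.pi, (if c (cpt z t θ) = a then (1 : ℝ) else 0) *
        inner ℝ (gradient u (cpt z t θ)) (dir θ) =
      ∫ y in ball z t, f y * (if c y = a then (1 : ℝ) else 0) by linarith]
  exact h2

/-- the differential inequality on almost every circle with exactly `m` crack points -/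
theorem Sect.ineq {U : Set E2} {lam : ℝ} (h : IsQM U lam u K)
    (hs : Sect m β δ u K z (2 * ρ) c θ v) (hm : 2 ≤ m) (hβ : β ≤ Real.pi / m) (hβ0 : 0 < β)
    (hδ : 0 ≤ δ) (hρ : 0 < ρ) (hU : ball z (2 * ρ) ⊆ U) :
    ∀ᵐ t ∂(volume.restrict (Ioo (ρ / 2) ρ)), (K ∩ sphere z t).encard = m →
      HasDerivAt (fun s => Dr u K z s) (cirE (fun y => u y + -c y) z t) t ∧
      Dr u K z t ≤ (1 / m + β / Real.pi) * t * cirE (fun y => u y + -c y) z t
        + (δ * Real.sqrt (2 * ρ) * lam * Real.pi * (m + 1)) * t ^ 2 := by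
  have hm0 : (0:ℝ) < m := by have : 0 < m := by omega
                             exact_mod_cast this
  set B : Set E2 := ball z (2 * ρ) with hB
  set K' : Set E2 := K ∩ B with hK'
  have hBK : B \ K' = B \ K := by
    ext y; simp only [hK', Set.mem_sdiff, mem_inter_iff]; tauto
  have hloc' : LocConstOn (B \ K') (fun y => -c y) := by
    intro y hy
    rw [hBK] at hy
    filter_upwards [hs.loc y hy] with w hw
    rw [hw]
  have hloc'' : LocConstOn (B \ K') c := by rw [hBK]; exact hs.loc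
  have h' : IsQM B lam (fun y => u y + -c y) K' := (h.mono isOpen_ball hU).addConst hloc'
  set u' : E2 → ℝ := fun y => u y + -c y with hu'
  set M : ℝ := δ * Real.sqrt (2 * ρ) with hM
  have hM0 : 0 ≤ M := by positivity
  have hMb : ∀ y ∈ B \ K', |u' y| ≤ M := by
    intro y hy
    rw [hBK] at hy
    have := hs.close y hy
    rw [sub_eq_add_neg] at this
    exact this
  have hRB : closedBall z ρ ⊆ B := closedBall_subset_ball (by linarith)
  have hbon := bonnet_err h' hMb hRB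
  have hder := QMC.ae_hasDerivAt_Dr h' hRB hρ.le
  have hgood := QMC.ae_goodCirc_qm h' hRB
  have hfl : ∀ᵐ t : ℝ, ∀ k : Fin m, t ∈ Ioo 0 ρ → |t * ∫ θ in (-Real.pi)..Real.pi,
      (if c (cpt z t θ) = v k then (1 : ℝ) else 0) *
        inner ℝ (gradient u' (cpt z t θ)) (dir θ)| ≤ lam * Real.pi * t ^ 2 :=
    ae_all_iff.2 fun k => ae_flux h' hρ.le hRB hloc'' (v k)
  rw [ae_restrict_iff' measurableSet_Ioo] at hbon ⊢
  filter_upwards [hbon, hder, hgood, hfl] with t h1 h2 h3 h4 ht hN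
  have htm : t ∈ Ioo 0 ρ := ⟨by linarith [ht.1], ht.2⟩
  have ht4 : 2 * ρ / 4 ≤ t := by linarith [ht.1]
  have ht2 : t < 2 * ρ := by linarith [ht.2]
  have hsph : K' ∩ sphere z t = K ∩ sphere z t := by
    ext y
    constructor
    · rintro ⟨⟨a1, _⟩, a3⟩; exact ⟨a1, a3⟩
    · rintro ⟨a1, a3⟩
      refine ⟨⟨a1, ?_⟩, a3⟩
      rw [hB, mem_ball, mem_sphere.1 a3]; exact ht2
  have hDr : ∀ s ≤ 2 * ρ, Dr u' K' z s = Dr u K z s := by
    intro s hs2
    unfold Dr dirE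
    have e1 : ball z s \ K' = ball z s \ K := by
      ext y
      simp only [hK', Set.mem_sdiff, mem_inter_iff]
      constructor
      · rintro ⟨a1, a2⟩; exact ⟨a1, fun a3 => a2 ⟨a3, ball_subset_ball hs2 a1⟩⟩
      · rintro ⟨a1, a2⟩; exact ⟨a1, fun a3 => a2 a3.1⟩
    rw [e1]
    congr 1
    refine setLIntegral_congr_fun (measurableSet_ball.diff h.measurable_K) ?_
    intro y hy
    simp only
    have hy' : y ∈ B \ K' := by rw [hBK]; exact ⟨ball_subset_ball hs2 hy.1, hy.2⟩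
    rw [gradient_add_locConst (hloc' y hy')]
  refine ⟨?_, ?_⟩
  · refine (h2 htm).congr_of_eventuallyEq ?_
    have : ∀ᶠ s in 𝓝 t, s < 2 * ρ := Iio_mem_nhds ht2
    filter_upwards [this] with s hs'
    exact (hDr s hs'.le).symm
  · have hvals := hs.vals (by positivity) hβ ht4 ht2
    have hvals' : Vals B K' c z t m v (fun k => θ + (2 * ((k : ℕ) : ℝ) + 1) * Real.pi / m) :=
      ⟨hvals.pos, hloc'', hvals.sub, hvals.inj, fun k hk => hvals.off k hk.1, hvals.val⟩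
    have hne : (K' ∩ sphere z t).Nonempty := hvals'.nonempty hm
    have hfin : (K' ∩ sphere z t).Finite := by
      rw [hsph]; exact Set.finite_of_encard_eq_coe hN
    have hcard : (K' ∩ sphere z t).ncard = m := by
      rw [Set.ncard, hsph, hN]; rfl
    have harc : ∀ a b, IsArc K' z t a b → IsArc K z t a b := by
      rintro a b ⟨a1, a2, a3, a4, a5⟩
      refine ⟨a1, a2, a3.1, a4.1, fun φ hφ hK => a5 φ hφ ⟨hK, ?_⟩⟩
      rw [hB, cpt_mem_ball htm.1]; exact ht2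
    have h5 := h1 htm hne (lam * Real.pi * t ^ 2) (fun a b hab => by
      obtain ⟨k, hk⟩ := hvals'.flux_eq hm (h3 htm) hcard hab
      rw [hk]
      exact h4 k htm) (2 * Real.pi / m + 2 * β) (fun a b hab =>
        hs.opening hm (by positivity) hβ hβ0 ht4 ht2 (harc a b hab))
    rw [hDr t ht2.le, hcard] at h5
    refine h5.trans (le_of_eq ?_)
    have hπ := Real.pi_pos
    field_simp
    ring

/-- measure of the bad radii -/
theorem bad_radii {K : Set E2} {z : E2} {ρ η : ℝ} {m : ℕ} (hρ : 0 < ρ) (hη : 0 ≤ η)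
    (hN : ∀ t ∈ Ioo 0 ρ, (m : ℕ∞) ≤ (K ∩ sphere z t).encard)
    (hlen : len (K ∩ closedBall z ρ) ≤ ENNReal.ofReal ((m + η) * ρ)) :
    volume (Ioo (ρ / 2) ρ \ {t | (K ∩ sphere z t).encard = m}) ≤ ENNReal.ofReal (η * ρ) := by
  obtain ⟨g, hgm, hg, hgi⟩ := exists_fiber_majorant (fun y : E2 => dist y z)
    (K ∩ closedBall z ρ) ((lipschitzWith_dist_left z).lipschitzOnWith)
  have hfib : ∀ t ∈ Ioo 0 ρ, (K ∩ closedBall z ρ) ∩ (fun y : E2 => dist y z) ⁻¹' {t} =
      K ∩ sphere z t := by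
    intro t ht
    ext y
    simp only [mem_inter_iff, mem_closedBall, mem_preimage, mem_singleton_iff, mem_sphere]
    constructor
    · rintro ⟨⟨a, _⟩, b⟩; exact ⟨a, b⟩
    · rintro ⟨a, b⟩; exact ⟨⟨a, by rw [b]; exact ht.2.le⟩, b⟩
  have hlow : ∀ t ∈ Ioo 0 ρ, (m : ℝ≥0∞) ≤ g t := by
    intro t ht
    have h1 : ((m : ℕ∞) : ℝ≥0∞) ≤ ((K ∩ sphere z t).encard : ℝ≥0∞) := ENat.toENNReal_le.2 (hN t ht)
    have h2 := hg t
    rw [hfib t ht] at h2
    simpa using h1.trans h2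
  set Bd : Set ℝ := {t | (m : ℝ≥0∞) + 1 ≤ g t} ∩ Ioo 0 ρ with hBd
  have hBdm : MeasurableSet Bd := (measurableSet_le measurable_const hgm).inter measurableSet_Ioo
  have hsub : Ioo (ρ / 2) ρ \ {t | (K ∩ sphere z t).encard = m} ⊆ Bd := by
    rintro t ⟨ht, hne⟩
    have ht' : t ∈ Ioo 0 ρ := ⟨by linarith [ht.1], ht.2⟩
    refine ⟨?_, ht'⟩
    have h1 : (m : ℕ∞) < (K ∩ sphere z t).encard :=
      lt_of_le_of_ne (hN t ht') (fun he => hne he.symm)
    have h2 : ((m : ℕ∞) + 1) ≤ (K ∩ sphere z t).encard := Order.add_one_le_of_lt h1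
    have h3 : (((m : ℕ∞) + 1 : ℕ∞) : ℝ≥0∞) ≤ ((K ∩ sphere z t).encard : ℝ≥0∞) :=
      ENat.toENNReal_le.2 h2
    have h4 := hg t
    rw [hfib t ht'] at h4
    have h5 := h3.trans h4
    simpa using h5
  refine (measure_mono hsub).trans ?_
  have hint : (m : ℝ≥0∞) * ENNReal.ofReal ρ + volume Bd ≤ ENNReal.ofReal ((m + η) * ρ) := by
    calc (m : ℝ≥0∞) * ENNReal.ofReal ρ + volume Bd
        = ∫⁻ t in Ioo 0 ρ, ((m : ℝ≥0∞) + Bd.indicator (fun _ => 1) t) := by
          rw [lintegral_add_left measurable_const, lintegral_indicator hBdm]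
          simp only [lintegral_const, Measure.restrict_apply MeasurableSet.univ, univ_inter,
            Real.volume_Ioo, sub_zero, one_mul]
          rw [Measure.restrict_apply hBdm, inter_eq_left.2 inter_subset_right]
      _ ≤ ∫⁻ t in Ioo 0 ρ, g t := by
          refine setLIntegral_mono hgm fun t ht => ?_
          by_cases htB : t ∈ Bd
          · rw [indicator_of_mem htB]; exact htB.1
          · rw [indicator_of_notMem htB, add_zero]; exact hlow t ht
      _ ≤ ∫⁻ t, g t := setLIntegral_le_lintegral _ _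
      _ ≤ len (K ∩ closedBall z ρ) := hgi
      _ ≤ _ := hlen
  have h6 : ENNReal.ofReal ((m + η) * ρ) = (m : ℝ≥0∞) * ENNReal.ofReal ρ +
      ENNReal.ofReal (η * ρ) := by
    rw [add_mul, ENNReal.ofReal_add (by positivity) (by positivity),
      ENNReal.ofReal_mul (by positivity), ENNReal.ofReal_natCast]
  rw [h6] at hint
  exact (ENNReal.add_le_add_iff_left (ENNReal.mul_ne_top (ENNReal.natCast_ne_top m)
    ENNReal.ofReal_ne_top)).1 hint

end Crest.Agent.R135.Dcy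
end

-- ▼ part R135/Dcy

/-!
# R135, DECAY block (helper427): energy decay at line-like and propeller-like points
-/

set_option autoImplicit false

open MeasureTheory Set Filter Topology Metric
open scoped ENNReal NNReal ContDiff Gradient

namespace Crest.Agent.R135.Dcy

/-- the decay factor -/
theorem exp_le_rpow {m : ℕ} (hm : 2 ≤ m) {β η : ℝ} (hβ0 : 0 < β) (hβ : β ≤ 1 / 10)
    (hη : η ≤ 1 / 100) :
    Real.exp (-((Real.log 2 - 2 * η) / (1 / m + β / Real.pi))) ≤ (2 : ℝ) ^ (-(3 / 2 : ℝ)) := by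
  have hlog := Real.log_two_gt_d9
  have hπ := Real.pi_gt_three
  have hm2 : (2 : ℝ) ≤ m := by exact_mod_cast hm
  have hm0 : (0:ℝ) < m := by linarith
  have h1 : (1 : ℝ) / m ≤ 1 / 2 := one_div_le_one_div_of_le (by norm_num) hm2
  have h2 : β / Real.pi ≤ 1 / 30 := by
    rw [div_le_iff₀ Real.pi_pos]; nlinarith
  have h3 : 0 < 1 / (m : ℝ) + β / Real.pi := by have := Real.pi_pos; positivity
  rw [Real.rpow_def_of_pos (by norm_num)]
  apply Real.exp_le_exp.2
  rw [neg_div', neg_eq_neg_one_mul]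
  have h4 : Real.log 2 * (3 / 2) ≤ (Real.log 2 - 2 * η) / (1 / m + β / Real.pi) := by
    rw [le_div_iff₀ h3]
    have h5 : Real.log 2 * (3 / 2) * (1 / m + β / Real.pi) ≤
        Real.log 2 * (3 / 2) * (1 / 2 + 1 / 30) := by
      apply mul_le_mul_of_nonneg_left (by linarith)
      linarith
    nlinarith
  have h6 : -1 * (Real.log 2 - 2 * η) / (1 / (m:ℝ) + β / Real.pi) =
      -((Real.log 2 - 2 * η) / (1 / m + β / Real.pi)) := by ring
  rw [h6]
  linarith

/-- energy decay at a centre with `m` phases at all scales `≤ 2 r` -/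
theorem decay_core {U : Set E2} {lam : ℝ} {u : E2 → ℝ} {K : Set E2} (h : IsQM U lam u K)
    {m : ℕ} (hm : 2 ≤ m) {β η δ : ℝ} (hβ0 : 0 < β) (hβ : β ≤ 1 / 10) (hβm : β ≤ Real.pi / m)
    (hη0 : 0 ≤ η) (hη : η ≤ 1 / 100) (hδ : 0 ≤ δ) {z : E2} {r : ℝ} (hr : 0 < r) (hr1 : r ≤ 1)
    (hU : closedBall z (2 * r) ⊆ U)
    (hph : ∀ ρ : ℝ, 0 < ρ → ρ ≤ 2 * r → ∃ (c : E2 → ℝ) (θ : ℝ) (v : Fin m → ℝ),
      Sect m β δ u K z ρ c θ v)
    (hlen : ∀ ρ : ℝ, 0 < ρ → ρ ≤ r → Lr K z ρ ≤ (m + η) * ρ) {ρ : ℝ} (hρ : 0 < ρ)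
    (hρr : ρ ≤ r) :
    Dr u K z ρ ≤ 2 ^ (3 / 2 : ℝ) * (ρ / r) ^ (3 / 2 : ℝ) * (Dr u K z r +
      (δ * Real.sqrt 2 * lam * Real.pi * (m + 1)) *
        (2 ^ (3 / 2 : ℝ) / (1 - 2 ^ ((3 / 2 : ℝ) - 2))) * r ^ 2) := by
  have hlam := h.lam_nonneg
  have hπ := Real.pi_pos
  have hm0 : (0:ℝ) < m := by have : 0 < m := by omega
                             exact_mod_cast this
  have hmono : MonotoneOn (fun s => Dr u K z s) (Ioc 0 r) := by
    intro s hs t ht hst
    exact QMC.Dr_mono h ((closedBall_subset_closedBall (by linarith [ht.2])).trans hU) hst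
  refine decay_of_step (a := fun s => Dr u K z s) hr (by norm_num) (by norm_num) (by positivity)
    (QMC.Dr_nonneg _ _ _ _) hmono ?_ hρ hρr
  intro s hs hsr
  -- number of points
  have hN : ∀ t ∈ Ioo 0 s, (m : ℕ∞) ≤ (K ∩ sphere z t).encard := by
    intro t ht
    obtain ⟨c, θ, v, hc⟩ := hph (2 * t) (by linarith [ht.1]) (by linarith [ht.2])
    exact (hc.vals (by linarith [ht.1]) hβm (t := t) (by linarith [ht.1])
      (by linarith [ht.1])).card_le hm
  have hfin : len (K ∩ closedBall z s) < ⊤ :=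
    h.len_fin z s ((closedBall_subset_closedBall (by linarith)).trans hU)
  have hlen' : len (K ∩ closedBall z s) ≤ ENNReal.ofReal ((m + η) * s) := by
    rw [← ENNReal.ofReal_toReal hfin.ne]
    exact ENNReal.ofReal_le_ofReal (hlen s hs hsr)
  have hbad := bad_radii hs hη0 hN hlen'
  obtain ⟨c, θ, v, hc⟩ := hph (2 * s) (by linarith) (by linarith)
  have hineq := hc.ineq h hm hβm hβ0 hδ hs (ball_subset_closedBall.trans
    ((closedBall_subset_closedBall (by linarith)).trans hU))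
  have hstep := ode_step (a := fun s => Dr u K z s) (d := cirE (fun y => u y + -c y) z)
    (θ := 1 / m + β / Real.pi) (η := η) (C := δ * Real.sqrt 2 * lam * Real.pi * (m + 1)) hs
    (by positivity) (by positivity) hη0 (QMC.Dr_nonneg _ _ _ _)
    (hmono.mono fun t ht => ⟨by linarith [ht.1], ht.2.trans hsr⟩)
    (G := {t | (K ∩ sphere z t).encard = m}) (by
      filter_upwards [hineq, ae_restrict_mem measurableSet_Ioo] with t ht htI htG
      obtain ⟨h1, h2⟩ := ht htG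
      refine ⟨h1, h2.trans ?_⟩
      have h3 : Real.sqrt (2 * s) ≤ Real.sqrt 2 := Real.sqrt_le_sqrt (by linarith)
      have h4 : δ * Real.sqrt (2 * s) * lam * Real.pi * (m + 1) ≤
          δ * Real.sqrt 2 * lam * Real.pi * (m + 1) := by gcongr
      have h5 := mul_le_mul_of_nonneg_right h4 (sq_nonneg t)
      linarith) hbad
  refine hstep.trans ?_
  have h6 := exp_le_rpow hm hβ0 hβ hη
  have h7 := mul_le_mul_of_nonneg_right h6 (QMC.Dr_nonneg u K z s)
  linarith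

/-- the constant of the decay estimate -/
noncomputable def decC (m : ℕ) : ℝ :=
  2 ^ (3 / 2 : ℝ) * Real.sqrt 32 *
    (1 + (1 / 100) * Real.sqrt 2 * Real.pi * (m + 1) *
      (2 ^ (3 / 2 : ℝ) / (1 - 2 ^ ((3 / 2 : ℝ) - 2))))

theorem q_lt_one : (2:ℝ) ^ ((3 / 2 : ℝ) - 2) < 1 :=
  Real.rpow_lt_one_of_one_lt_of_neg (by norm_num) (by norm_num)

theorem decC_ge (m : ℕ) : Real.sqrt 32 ≤ decC m := by
  have h1 : (1:ℝ) ≤ 2 ^ (3 / 2 : ℝ) := Real.one_le_rpow (by norm_num) (by norm_num)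
  have h2 := q_lt_one
  have h2' : 0 < 1 - (2:ℝ) ^ ((3 / 2 : ℝ) - 2) := by linarith
  have h3 : (1:ℝ) ≤ 1 + (1 / 100) * Real.sqrt 2 * Real.pi * (m + 1) *
      (2 ^ (3 / 2 : ℝ) / (1 - 2 ^ ((3 / 2 : ℝ) - 2))) := by
    have : 0 ≤ (1 / 100) * Real.sqrt 2 * Real.pi * ((m:ℝ) + 1) *
      (2 ^ (3 / 2 : ℝ) / (1 - 2 ^ ((3 / 2 : ℝ) - 2))) := by
        have := Real.pi_pos
        positivity
    linarith
  unfold decC
  have h4 : (0:ℝ) ≤ Real.sqrt 32 := Real.sqrt_nonneg _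
  calc Real.sqrt 32 = 1 * Real.sqrt 32 * 1 := by ring
    _ ≤ _ := by gcongr

theorem decC_pos (m : ℕ) : 0 < decC m :=
  (Real.sqrt_pos.2 (by norm_num)).trans_le (decC_ge m)

/-- energy decay, final form -/
theorem decay_final {U : Set E2} {lam : ℝ} {u : E2 → ℝ} {K : Set E2} (h : IsQM U lam u K)
    {m : ℕ} (hm : 2 ≤ m) (hβm : (1 / 10 : ℝ) ≤ Real.pi / m) {z : E2} {r : ℝ} (hr : 0 < r)
    (hr1 : r ≤ 1) (hlr : lam * r ≤ 1) (hU : closedBall z (r / 16) ⊆ U)
    (hph : ∀ ρ : ℝ, 0 < ρ → ρ ≤ r / 16 → ∃ (c : E2 → ℝ) (θ : ℝ) (v : Fin m → ℝ),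
      Sect m (1 / 10) (1 / 100) u K z ρ c θ v)
    (hlen : ∀ ρ : ℝ, 0 < ρ → ρ ≤ r / 16 → Lr K z ρ ≤ (m + 1 / 100) * ρ)
    (hen : ∀ ρ : ℝ, 0 < ρ → ρ ≤ r / 16 → Dr u K z ρ ≤ ρ) {s : ℝ} (hs : 0 < s)
    (hsr : s ≤ r / 16) :
    Dr u K z s ≤ decC m * s * (s / r) ^ (2 * (1 / 4 : ℝ)) := by
  have hlam := h.lam_nonneg
  have hπ := Real.pi_pos
  have h12 : (2 * (1 / 4 : ℝ)) = 1 / 2 := by norm_num
  rw [h12]
  by_cases hsr' : s ≤ r / 32
  swap
  · push Not at hsr'
    have h1 : 1 ≤ Real.sqrt 32 * (s / r) ^ (1 / 2 : ℝ) := by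
      rw [← Real.sqrt_eq_rpow, ← Real.sqrt_mul (by norm_num), Real.one_le_sqrt]
      rw [← mul_div_assoc, le_div_iff₀ hr]; linarith
    calc Dr u K z s ≤ s * 1 := by rw [mul_one]; exact hen s hs hsr
      _ ≤ s * (decC m * (s / r) ^ (1 / 2 : ℝ)) := by
          refine mul_le_mul_of_nonneg_left (h1.trans ?_) hs.le
          exact mul_le_mul_of_nonneg_right (decC_ge m) (Real.rpow_nonneg (by positivity) _)
      _ = _ := by ring
  have hr0 : 0 < r / 32 := by positivity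
  have h1 := decay_core h hm (by norm_num) le_rfl hβm (by norm_num : (0:ℝ) ≤ 1 / 100) le_rfl
    (by norm_num : (0:ℝ) ≤ 1 / 100) (z := z) hr0 (by linarith)
    (by rw [show 2 * (r / 32) = r / 16 by ring]; exact hU)
    (fun ρ hρ hρr => hph ρ hρ (by linarith)) (fun ρ hρ hρr => hlen ρ hρ (by linarith)) hs hsr'
  refine h1.trans ?_
  have h2 : Dr u K z (r / 32) ≤ r / 32 := hen _ hr0 (by linarith)
  have hq := q_lt_one
  have hq' : 0 < 1 - (2:ℝ) ^ ((3 / 2 : ℝ) - 2) := by linarith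
  set Q : ℝ := 2 ^ (3 / 2 : ℝ) / (1 - 2 ^ ((3 / 2 : ℝ) - 2)) with hQ
  have hQ0 : 0 < Q := by positivity
  have h3 : 1 / 100 * Real.sqrt 2 * lam * Real.pi * (m + 1) * Q * (r / 32) ^ 2 ≤
      (1 / 100 * Real.sqrt 2 * Real.pi * (m + 1) * Q) * (r / 32) := by
    have h4 : lam * (r / 32) ≤ 1 := by nlinarith
    have h5 : 0 ≤ 1 / 100 * Real.sqrt 2 * Real.pi * (m + 1) * Q * (r / 32) := by positivity
    nlinarith
  have h6 : Dr u K z (r / 32) + 1 / 100 * Real.sqrt 2 * lam * Real.pi * (m + 1) * Q * (r / 32) ^ 2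
      ≤ (1 + 1 / 100 * Real.sqrt 2 * Real.pi * (m + 1) * Q) * (r / 32) := by linarith
  have h7 : (s / (r / 32)) ^ (3 / 2 : ℝ) * (r / 32) = s * (Real.sqrt 32 * (s / r) ^ (1 / 2 : ℝ)) := by
    have e1 : s / (r / 32) = 32 * (s / r) := by field_simp
    have e2 : (32 * (s / r)) ^ (3 / 2 : ℝ) = (32 * (s / r)) * (32 * (s / r)) ^ (1 / 2 : ℝ) := by
      rw [show (3 / 2 : ℝ) = 1 + 1 / 2 by norm_num, Real.rpow_add (by positivity), Real.rpow_one]
    rw [e1, e2, Real.mul_rpow (by norm_num) (by positivity), ← Real.sqrt_eq_rpow 32]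
    field_simp
  calc 2 ^ (3 / 2 : ℝ) * (s / (r / 32)) ^ (3 / 2 : ℝ) * (Dr u K z (r / 32) +
        1 / 100 * Real.sqrt 2 * lam * Real.pi * (m + 1) * Q * (r / 32) ^ 2)
      ≤ 2 ^ (3 / 2 : ℝ) * (s / (r / 32)) ^ (3 / 2 : ℝ) *
        ((1 + 1 / 100 * Real.sqrt 2 * Real.pi * (m + 1) * Q) * (r / 32)) := by
        refine mul_le_mul_of_nonneg_left h6 ?_
        exact mul_nonneg (Real.rpow_nonneg (by norm_num) _) (Real.rpow_nonneg (by positivity) _)
    _ = 2 ^ (3 / 2 : ℝ) * ((s / (r / 32)) ^ (3 / 2 : ℝ) * (r / 32)) *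
        (1 + 1 / 100 * Real.sqrt 2 * Real.pi * (m + 1) * Q) := by ring
    _ = _ := by rw [h7, decC]; ring

/-! ### the two cases -/

theorem sect_of_linePhase {u : E2 → ℝ} {K : Set E2} {z : E2} {ρ : ℝ} (hρ : 0 < ρ)
    (h : LinePhase (1 / 100) u K z ρ) :
    ∃ (c : E2 → ℝ) (θ : ℝ) (v : Fin 2 → ℝ), Sect 2 (1 / 10) (1 / 100) u K z ρ c θ v := by
  obtain ⟨c, e, m₁, m₂, hc, hfl, hne, hup, hdown⟩ := h
  obtain ⟨he, hf1, hf2⟩ := hfl
  obtain ⟨θ, -, hθ⟩ := exists_dir_eq e he 0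
  subst hθ
  have hπ := Real.pi_gt_three
  have hin : ∀ t φ : ℝ, inner ℝ (cpt z t φ - z) (Arc.J (dir θ)) = t * Real.sin (φ - θ) := by
    intro t φ
    have : cpt z t φ - z = t • dir φ := by simp [cpt]
    rw [this, inner_smul_left, inner_E2]
    simp [Arc.J, dir, Real.sin_sub]
    left
    ring
  have hsin : (1 / 25 : ℝ) < Real.sin (1 / 10) := by
    have := Real.sin_gt_sub_cube (x := 1 / 10) (by norm_num)
    norm_num at this ⊢
    linarith
  refine ⟨c, θ, ![m₁, m₂], hc.loc, hc.close, ?_, ?_⟩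
  · intro i j hij
    fin_cases i <;> fin_cases j <;> simp_all
  · intro k t ht htρ φ hφ
    have ht0 : 0 < t := by linarith
    have hball : cpt z t φ ∈ ball z ρ := by rw [cpt_mem_ball ht0]; exact htρ
    have key : (k = 0 ∧ 1 / 100 * ρ < t * Real.sin (φ - θ)) ∨
        (k = 1 ∧ t * Real.sin (φ - θ) < -(1 / 100 * ρ)) := by
      fin_cases k
      · left
        refine ⟨rfl, ?_⟩
        simp only [Nat.cast_zero, mul_zero, zero_add, one_mul,
          Nat.cast_ofNat] at hφ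
        rw [abs_le] at hφ
        have h1 : Real.sin (1 / 10) ≤ Real.sin (φ - θ) := by
          rw [← Real.cos_pi_div_two_sub, ← Real.cos_pi_div_two_sub (φ - θ),
            ← Real.cos_abs (Real.pi / 2 - (φ - θ))]
          refine Real.cos_le_cos_of_nonneg_of_le_pi (abs_nonneg _) (by linarith) ?_
          rw [abs_le]
          constructor <;> linarith
        nlinarith
      · right
        refine ⟨rfl, ?_⟩
        simp only [Nat.cast_one, mul_one, Nat.cast_ofNat] at hφ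
        rw [abs_le] at hφ
        have h1 : Real.sin (φ - θ) ≤ -Real.sin (1 / 10) := by
          have h2 : Real.sin (φ - θ) = -Real.cos (3 * Real.pi / 2 - (φ - θ)) := by
            have e1 : 3 * Real.pi / 2 - (φ - θ) = Real.pi + (Real.pi / 2 - (φ - θ)) := by ring
            rw [e1, add_comm, Real.cos_add_pi, Real.cos_pi_div_two_sub, neg_neg]
          rw [h2, ← Real.cos_pi_div_two_sub, ← Real.cos_abs (3 * Real.pi / 2 - (φ - θ))]
          apply neg_le_neg
          refine Real.cos_le_cos_of_nonneg_of_le_pi (abs_nonneg _) (by linarith) ?_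
          rw [abs_le]
          constructor <;> linarith
        nlinarith
    have hK : cpt z t φ ∉ K := by
      intro hK
      have h1 := hf1 _ hK (by rw [dist_comm, ← dist_comm]; exact (mem_ball.1 hball).le)
      rw [hin, abs_le] at h1
      rcases key with ⟨_, h2⟩ | ⟨_, h2⟩
      · linarith [h1.2]
      · linarith [h1.1]
    refine ⟨hK, ?_⟩
    rcases key with ⟨rfl, h2⟩ | ⟨rfl, h2⟩
    · simpa using hup _ hball (by rw [hin]; exact h2)
    · simpa using hdown _ hball (by rw [hin]; exact h2)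

theorem sect_of_propPhase {u : E2 → ℝ} {K : Set E2} {z : E2} {ρ : ℝ}
    (h : PropPhase (1 / 100) u K z ρ) :
    ∃ (c : E2 → ℝ) (θ : ℝ) (v : Fin 3 → ℝ), Sect 3 (1 / 10) (1 / 100) u K z ρ c θ v := by
  obtain ⟨c, θ, v, hc, hst, hinj, hsec⟩ := h
  refine ⟨c, θ, v, hc.loc, hc.close, hinj, ?_⟩
  intro k t ht htρ φ hφ
  exact hsec k t ht htρ φ (hφ.trans (by norm_num; linarith))

end Crest.Agent.R135.Dcy
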