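import Crest.Agent.R135.EarnPot
import Crest.Agent.R135.Core
import Crest.Agent.R135.QMOps
import Crest.Agent.R097.Harm

-- ▼ part R135/EarnKeeps
section

/-!
# R135, Earnshaw block (helper391), part 2: analytic Janiszewski theorem
a locally constant function off `K1 ∪ K2` (disjoint, `K1` compact, `K2` closed) splits as
`c1 + c2`, `ci` locally constant off `Ki`, `c1` compactly supported.
-/

set_option autoImplicit false
open MeasureTheory Metric Set Filter Topology Laplacian InnerProductSpace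
open scoped RealInnerProductSpace NNReal ENNReal ContDiff Gradient Convolution

namespace Crest.Agent.R135.Earn

open Crest.Agent.R097 (bv Harm laplacian_eq_sum gradient_coord inner_gradient norm_gradient
  exists_cutoff)
open Crest.Agent.R135.Reg

/-- a differentiable function with zero derivative near `x` is constant near `x`. -/
theorem eventually_const_of_fderiv {g : E2 → ℝ} {x : E2}
    (hd : ∀ᶠ y in 𝓝 x, DifferentiableAt ℝ g y) (h0 : ∀ᶠ y in 𝓝 x, fderiv ℝ g y = 0) :
    ∀ᶠ y in 𝓝 x, g y = g x := by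
  obtain ⟨r, hr, hball⟩ := Metric.eventually_nhds_iff_ball.1 (hd.and h0)
  filter_upwards [ball_mem_nhds x hr] with y hy
  exact (convex_ball x r).is_const_of_fderivWithin_eq_zero (𝕜 := ℝ)
    (fun z hz => (hball z hz).1.differentiableWithinAt)
    (fun z hz => by
      rw [fderivWithin_of_isOpen isOpen_ball hz]; exact (hball z hz).2) hy (mem_ball_self hr)


/-- **Analytic Janiszewski theorem.** -/
theorem splitLC {K1 K2 : Set E2} (h1 : IsCompact K1) (h2 : IsClosed K2) (hd : Disjoint K1 K2) :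
    ∃ R0 : ℝ, 0 < R0 ∧ ∀ c : E2 → ℝ, LocConstOn (K1 ∪ K2)ᶜ c → ∃ c1 c2 : E2 → ℝ,
      LocConstOn K1ᶜ c1 ∧ LocConstOn K2ᶜ c2 ∧ (∀ x, c x = c1 x + c2 x) ∧
      ∀ y, R0 ≤ ‖y‖ → c1 y = 0 := by
  obtain ⟨χ, hχ, hχc, hχU, -, hχ1⟩ := exists_cutoff h1 h2.isOpen_compl
    (hd.subset_compl_right)
  obtain ⟨a, ha, haχ⟩ : ∃ a : ℝ, 0 < a ∧ ∀ y, a < ‖y‖ → χ y = 0 := by
    obtain ⟨r, hr⟩ := hχc.isBounded.subset_closedBall (0 : E2)
    refine ⟨max r 1, by positivity, fun y hy => ?_⟩
    refine image_eq_zero_of_notMem_tsupport fun hmem => ?_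
    have := hr hmem
    rw [mem_closedBall_zero_iff] at this
    have := le_max_left r 1
    linarith
  refine ⟨2 * a, by positivity, fun c hc => ?_⟩
  have hχ' : ContDiff ℝ ∞ χ := hχ
  -- near K1 and K2 the derivative of χ vanishes
  have hD1 : ∀ x ∈ K1, ∀ᶠ y in 𝓝 x, fderiv ℝ χ y = 0 := by
    intro x hx
    filter_upwards [(hχ1 x hx).eventually_nhds] with y hy
    have : χ =ᶠ[𝓝 y] fun _ => (1 : ℝ) := hy
    rw [this.fderiv_eq]; simp
  have h02 : ∀ x ∈ K2, ∀ᶠ y in 𝓝 x, χ y = 0 := by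
    intro x hx
    have hx' : x ∉ tsupport χ := fun h => hχU h hx
    filter_upwards [(isClosed_tsupport χ).isOpen_compl.mem_nhds hx'] with y hy
    exact image_eq_zero_of_notMem_tsupport hy
  have hD2 : ∀ x ∈ K2, ∀ᶠ y in 𝓝 x, fderiv ℝ χ y = 0 := by
    intro x hx
    filter_upwards [(h02 x hx).eventually_nhds] with y hy
    have : χ =ᶠ[𝓝 y] fun _ => (0 : ℝ) := hy
    rw [this.fderiv_eq]; simp
  -- the field
  have hVs : ∀ v : E2, ContDiff ℝ ∞ (fun y => c y * fderiv ℝ χ y v) := by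
    intro v
    rw [contDiff_iff_contDiffAt]
    intro x
    by_cases hx : x ∈ K1 ∪ K2
    · have h0 : (fun y => c y * fderiv ℝ χ y v) =ᶠ[𝓝 x] fun _ => (0 : ℝ) := by
        rcases hx with hx | hx
        · filter_upwards [hD1 x hx] with y hy
          rw [hy]; simp
        · filter_upwards [hD2 x hx] with y hy
          rw [hy]; simp
      exact contDiffAt_const.congr_of_eventuallyEq h0
    · have h0 : (fun y => c y * fderiv ℝ χ y v) =ᶠ[𝓝 x] fun y => c x * fderiv ℝ χ y v := by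
        filter_upwards [hc x hx] with y hy
        rw [hy]
      exact (contDiffAt_const.mul (contDiff_fd hχ' v).contDiffAt).congr_of_eventuallyEq h0
  have hVd : ∀ v w x, fderiv ℝ (fun y => c y * fderiv ℝ χ y v) x w =
      fderiv ℝ (fun y => c y * fderiv ℝ χ y w) x v := by
    intro v w x
    by_cases hx : x ∈ K1 ∪ K2
    · have h0 : ∀ v : E2, (fun y => c y * fderiv ℝ χ y v) =ᶠ[𝓝 x] fun _ => (0 : ℝ) := by
        intro v
        rcases hx with hx | hx
        · filter_upwards [hD1 x hx] with y hy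
          rw [hy]; simp
        · filter_upwards [hD2 x hx] with y hy
          rw [hy]; simp
      rw [(h0 v).fderiv_eq, (h0 w).fderiv_eq]; simp
    · have h0 : ∀ v : E2,
          (fun y => c y * fderiv ℝ χ y v) =ᶠ[𝓝 x] fun y => c x * fderiv ℝ χ y v := by
        intro v
        filter_upwards [hc x hx] with y hy
        rw [hy]
      rw [(h0 v).fderiv_eq, (h0 w).fderiv_eq]
      have hD : DifferentiableAt ℝ (fderiv ℝ χ) x :=
        ((contDiff_infty_iff_fderiv.mp hχ').2.differentiable (by simp)).differentiableAt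
      have hDv : ∀ v : E2, DifferentiableAt ℝ (fun y => fderiv ℝ χ y v) x := fun v =>
        ((contDiff_fd hχ' v).differentiable (by simp)).differentiableAt
      rw [fderiv_const_mul (hDv v), fderiv_const_mul (hDv w)]
      simp only [smul_apply, smul_eq_mul]
      congr 1
      rw [fderiv_clm_apply hD (differentiableAt_const _), fderiv_clm_apply hD
        (differentiableAt_const _)]
      simp only [fderiv_fun_const, Pi.zero_apply, ContinuousLinearMap.comp_zero, zero_add,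
        ContinuousLinearMap.flip_apply]
      have hsym : IsSymmSndFDerivAt ℝ χ x :=
        (contDiff_infty.mp hχ' 2).contDiffAt.isSymmSndFDerivAt (by simp)
      exact hsym.eq w v
  have hVz : ∀ v : E2, ∀ y, a < ‖y‖ → c y * fderiv ℝ χ y v = 0 := by
    intro v y hy
    have : χ =ᶠ[𝓝 y] fun _ => (0 : ℝ) := by
      have hopen : IsOpen {z : E2 | a < ‖z‖} := isOpen_lt continuous_const continuous_norm
      filter_upwards [hopen.mem_nhds hy] with z hz
      exact haχ z hz
    rw [this.fderiv_eq]; simp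
  obtain ⟨q, hq, hq0, hqV⟩ := exists_potential (hVs (bv 0)) (hVs (bv 1)) ha (hVz (bv 0))
    (hVz (bv 1)) (fun x => hVd (bv 0) (bv 1) x)
  have hqD : ∀ x, fderiv ℝ q x = c x • fderiv ℝ χ x := by
    intro x
    refine clm_ext2 ?_ ?_
    · rw [(hqV x).1]; simp
    · rw [(hqV x).2]; simp
  have hqd : ∀ x, DifferentiableAt ℝ q x := fun x => (hq.differentiable (by simp)).differentiableAt
  have hχd : ∀ x, DifferentiableAt ℝ χ x := fun x =>
    (hχ'.differentiable (by simp)).differentiableAt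
  -- constancy in the three cases
  have hA : ∀ x ∉ K1 ∪ K2, ∀ᶠ y in 𝓝 x, χ y * c x - q y = χ x * c x - q x := by
    intro x hx
    refine eventually_const_of_fderiv (g := fun y => χ y * c x - q y)
      (Eventually.of_forall fun y => ((hχd y).mul_const _).sub (hqd y)) ?_
    filter_upwards [hc x hx] with y hy
    rw [fderiv_fun_sub ((hχd y).mul_const _) (hqd y), fderiv_mul_const (hχd y), hqD, hy, sub_self]
  have hB : ∀ x ∈ K1 ∪ K2, ∀ᶠ y in 𝓝 x, q y = q x := by
    intro x hx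
    refine eventually_const_of_fderiv (Eventually.of_forall fun y => hqd y) ?_
    rcases hx with hx | hx
    · filter_upwards [hD1 x hx] with y hy
      rw [hqD, hy, smul_zero]
    · filter_upwards [hD2 x hx] with y hy
      rw [hqD, hy, smul_zero]
  refine ⟨fun y => χ y * c y - q y, fun y => (1 - χ y) * c y + q y, ?_, ?_, fun x => by ring, ?_⟩
  · intro x hx
    by_cases hx2 : x ∈ K2
    · filter_upwards [hB x (Or.inr hx2), h02 x hx2] with y hy hy2
      rw [hy2, hy, (h02 x hx2).self_of_nhds]; ring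
    · have hx' : x ∉ K1 ∪ K2 := by simp only [mem_union, not_or]; exact ⟨hx, hx2⟩
      filter_upwards [hA x hx', hc x hx'] with y hy hy2
      rw [hy2]; exact hy
  · intro x hx
    by_cases hx1 : x ∈ K1
    · filter_upwards [hB x (Or.inl hx1), hχ1 x hx1] with y hy hy2
      rw [hy2, hy, (hχ1 x hx1).self_of_nhds]; ring
    · have hx' : x ∉ K1 ∪ K2 := by simp only [mem_union, not_or]; exact ⟨hx1, hx⟩
      filter_upwards [hA x hx', hc x hx'] with y hy hy2
      rw [hy2]; linarith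
  · intro y hy
    simp only
    rw [haχ y (by linarith), hq0 y hy]; ring

/-- moving a compact clopen piece keeps the separation outside a large ball. -/
theorem keeps_move {K1 K2 : Set E2} (h1 : IsCompact K1) (h2 : IsClosed K2)
    (hd : Disjoint K1 K2) :
    ∃ R0 : ℝ, 0 < R0 ∧ ∀ (T : E2 ≃ₜ E2) (R : ℝ), R0 ≤ R →
      (∀ y, R < ‖y‖ → R0 ≤ ‖T.symm y‖) →
      Keeps univ (K1 ∪ K2) (K2 ∪ T '' K1) (closedBall 0 R) := by
  obtain ⟨R0, hR0, H⟩ := splitLC h1 h2 hd
  refine ⟨R0, hR0, fun T R hR hT c hc => ?_⟩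
  rw [← compl_eq_univ_sdiff] at hc
  obtain ⟨c1, c2, hc1, hc2, hcc, hz⟩ := H c hc
  refine ⟨fun y => c2 y + c1 (T.symm y), ?_, ?_⟩
  · intro x hx
    have hx2 : x ∈ K2ᶜ := fun h => hx.2 (Or.inl h)
    have hx1 : T.symm x ∈ K1ᶜ := fun h => hx.2 (Or.inr ⟨_, h, T.apply_symm_apply x⟩)
    filter_upwards [hc2 x hx2, T.symm.continuous.continuousAt.eventually (hc1 _ hx1)] with y hy hy'
    rw [hy, hy']
  · rintro y ⟨-, hy⟩
    have hyR : R < ‖y‖ := by
      by_contra hcon
      push Not at hcon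
      exact hy (Or.inr (by rwa [mem_closedBall_zero_iff]))
    simp only
    rw [hcc y, hz _ (hT y hyR), hz y (by linarith)]; ring

end Crest.Agent.R135.Earn
end

-- ▼ part R135/EarnData
section

/-!
# R135, Earnshaw block (helper391), part 3: harmonicity off the crack, the decomposition `u = ζ + ue`
-/

set_option autoImplicit false
open MeasureTheory Metric Set Filter Topology Laplacian InnerProductSpace
open scoped RealInnerProductSpace NNReal ENNReal ContDiff Gradient Convolution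

namespace Crest.Agent.R135.Earn

open Crest.Agent.R097 (bv Harm laplacian_eq_sum gradient_coord inner_gradient norm_gradient
  exists_cutoff green1)
open Crest.Agent.R135.Reg

/-! ### gradient calculus -/

theorem grad_add {f g : E2 → ℝ} {x : E2} (hf : DifferentiableAt ℝ f x)
    (hg : DifferentiableAt ℝ g x) : ∇ (fun y => f y + g y) x = ∇ f x + ∇ g x := by
  unfold gradient; rw [fderiv_fun_add hf hg, map_add]

theorem grad_sub {f g : E2 → ℝ} {x : E2} (hf : DifferentiableAt ℝ f x)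
    (hg : DifferentiableAt ℝ g x) : ∇ (fun y => f y - g y) x = ∇ f x - ∇ g x := by
  unfold gradient; rw [fderiv_fun_sub hf hg, map_sub]

theorem grad_mul {f g : E2 → ℝ} {x : E2} (hf : DifferentiableAt ℝ f x)
    (hg : DifferentiableAt ℝ g x) :
    ∇ (fun y => f y * g y) x = f x • ∇ g x + g x • ∇ f x := by
  unfold gradient
  rw [fderiv_fun_mul hf hg, map_add]
  simp

theorem grad_eq_zero_of_near {f : E2 → ℝ} {x : E2} {c : ℝ} (h : ∀ᶠ y in 𝓝 x, f y = c) :
    ∇ f x = 0 := gradient_eq_zero_of_eventually_const c h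

theorem grad_notMem_tsupport {f : E2 → ℝ} {x : E2} (h : x ∉ tsupport f) : ∇ f x = 0 := by
  rw [notMem_tsupport_iff_eventuallyEq] at h
  exact grad_eq_zero_of_near h

theorem contDiff_grad {f : E2 → ℝ} (hf : ContDiff ℝ ∞ f) : ContDiff ℝ ∞ (fun x => ∇ f x) :=
  Crest.Agent.R097.contDiff_gradient hf (by simp)

theorem hasCompactSupport_grad {f : E2 → ℝ} (hc : HasCompactSupport f) :
    HasCompactSupport (fun x => ∇ f x) := by
  refine HasCompactSupport.intro hc fun x hx => grad_notMem_tsupport hx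

theorem integrable_inner_of_cs {V W : E2 → E2} (hV : Continuous V) (hW : Continuous W)
    (hc : HasCompactSupport W) : Integrable (fun x => ⟪V x, W x⟫_ℝ) := by
  refine (hV.inner hW).integrable_of_hasCompactSupport ?_
  refine HasCompactSupport.intro hc fun x hx => ?_
  rw [image_eq_zero_of_notMem_tsupport hx, inner_zero_right]

/-- Green's identity with smooth compactly supported test function. -/
theorem green_s {f φ : E2 → ℝ} (hf : ContDiff ℝ ∞ f) (hφ : ContDiff ℝ ∞ φ)
    (hc : HasCompactSupport φ) : ∫ x, ⟪∇ f x, ∇ φ x⟫_ℝ = - ∫ x, φ x * (Δ f) x := by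
  obtain ⟨C, hC⟩ := Crest.Agent.R097.lip_of_contDiff_compact (contDiff_infty.mp hφ 1) hc
  rw [← green1 (contDiff_infty.mp hf 2) hC hc]
  refine integral_congr_ae (Eventually.of_forall fun x => ?_)
  simp only
  rw [← inner_gradient, real_inner_comm]

/-! ### consequences of the Euler-Lagrange equation -/

section EL
variable {u : E2 → ℝ} {K : Set E2}

theorem isOpen_compl_K (h : IsQM univ 0 u K) : IsOpen Kᶜ := by
  have := h.isOpen_diff
  rwa [← compl_eq_univ_sdiff] at this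

theorem isClosed_K (h : IsQM univ 0 u K) : IsClosed K := isOpen_compl_iff.1 (isOpen_compl_K h)

theorem ae_notMem_K (h : IsQM univ 0 u K) : ∀ᵐ x : E2, x ∉ K := by
  rw [ae_iff]; simpa using h.volume_K

/-- Euler-Lagrange equation of a global object. -/
theorem el0 (h : IsQM univ 0 u K) {φ : E2 → ℝ} (hφ : IsTest univ K φ) :
    ∫ x, ⟪∇ u x, ∇ φ x⟫_ℝ = 0 := by
  obtain ⟨f, -, hf0, hf⟩ := h.el
  have h1 := hf φ hφ
  have h2 : ∀ x, f x = 0 := fun x => abs_eq_zero.1 (le_antisymm (hf0 x) (abs_nonneg _))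
  simp only [h2, zero_mul, integral_zero, neg_zero] at h1
  rw [← h1, ← compl_eq_univ_sdiff]
  symm
  have := setIntegral_univ (μ := (volume : Measure E2)) (f := fun x => ⟪∇ u x, ∇ φ x⟫_ℝ)
  rw [← this]
  refine setIntegral_congr_set ?_
  rw [compl_eq_univ_sdiff]
  exact sdiff_null_ae_eq_self h.volume_K

theorem isTest_of_smooth {φ : E2 → ℝ} (hφ : ContDiff ℝ ∞ φ) (hc : HasCompactSupport φ)
    (K : Set E2) : IsTest univ K φ where
  lip := fun x _ => by
    obtain ⟨C, t, ht, hC⟩ := lipAt_of_contDiffAt ((contDiff_infty.mp hφ 1).contDiffAt (x := x))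
    exact ⟨C, t, mem_nhdsWithin_of_mem_nhds ht, hC⟩
  bdd := by
    obtain ⟨C, hC⟩ := hc.exists_bound_of_continuous hφ.continuous
    exact ⟨C, fun y => by simpa using hC y⟩
  supp := ⟨tsupport φ, hc, subset_univ _, fun y hy => image_eq_zero_of_notMem_tsupport hy⟩
  dir_fin := by
    unfold dirE
    have h1 : MemLp (fun x => ∇ φ x) 2 volume :=
      (contDiff_grad hφ).continuous.memLp_of_hasCompactSupport (hasCompactSupport_grad hc)
    have h2 := h1.2
    rw [eLpNorm_lt_top_iff_lintegral_rpow_enorm_lt_top (by norm_num) (by norm_num)] at h2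
    refine lt_of_le_of_lt (setLIntegral_le_lintegral _ _) ?_
    simpa using h2

theorem el_smooth (h : IsQM univ 0 u K) {φ : E2 → ℝ} (hφ : ContDiff ℝ ∞ φ)
    (hc : HasCompactSupport φ) : ∫ x, ⟪∇ u x, ∇ φ x⟫_ℝ = 0 :=
  el0 h (isTest_of_smooth hφ hc K)

/-- `u` is harmonic off `K`. -/
theorem harm_u (h : IsQM univ 0 u K) : Harm u Kᶜ := by
  have hO := isOpen_compl_K h
  have hc1 : ContDiffOn ℝ 1 u Kᶜ := by
    have := h.c1
    rwa [← compl_eq_univ_sdiff] at this
  have hlip : LocallyLipschitzOn Kᶜ u :=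
    (locallyLipschitzOn_iff_lipAt hO).2 fun x hx => lipAt_of_contDiffOn hO hc1 hx
  have hw := isWeakGradOn_of_locallyLipschitzOn hO hlip
  obtain ⟨v, hv, hae, -⟩ := Crest.Agent.R097.weyl_grad hO hw (by
    intro φ hφ hc hs
    rw [← el_smooth h hφ hc]
    refine setIntegral_eq_integral_of_forall_compl_eq_zero fun x hx => ?_
    rw [grad_notMem_tsupport (fun h => hx (hs h)), inner_zero_right])
  have heq : ∀ x ∈ Kᶜ, u x = v x := by
    have := Measure.eqOn_open_of_ae_eq (μ := (volume : Measure E2)) hae hO hc1.continuousOn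
      hv.1.continuousOn
    exact this
  refine ⟨hv.1.congr heq, fun x hx => ?_⟩
  have hev : u =ᶠ[𝓝 x] v := by
    filter_upwards [hO.mem_nhds hx] with y hy
    exact heq y hy
  rw [Crest.Agent.R097.Hm.lap_congr_at hev, hv.2 x hx]

end EL

end Crest.Agent.R135.Earn
end

-- ▼ part R135/EarnSplit
section

/-!
# R135, Earnshaw block (helper391), part 4: construction of the decomposition `u = ζ + ue`
-/

set_option autoImplicit false
open MeasureTheory Metric Set Filter Topology Laplacian InnerProductSpace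
open scoped RealInnerProductSpace NNReal ENNReal ContDiff Gradient Convolution

namespace Crest.Agent.R135.Earn

open Crest.Agent.R097 (bv Harm laplacian_eq_sum gradient_coord inner_gradient norm_gradient
  exists_cutoff green1)
open Crest.Agent.R135.Reg

/-- a "singular part" with crack `S` -/
structure Sing (ζ : E2 → ℝ) (S : Set E2) : Prop where
  cpt : IsCompact S
  null : volume S = 0
  smooth : ContDiffOn ℝ ∞ ζ Sᶜ
  l2 : MemLp (fun x => ∇ ζ x) 2 volume
  divfree : ∀ φ : E2 → ℝ, ContDiff ℝ ∞ φ → HasCompactSupport φ → ∫ x, ⟪∇ ζ x, ∇ φ x⟫_ℝ = 0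
  decay : ∃ C R : ℝ, 0 ≤ C ∧ 0 < R ∧ ∀ x, R ≤ ‖x‖ → |ζ x| ≤ C / ‖x‖ ∧ ‖∇ ζ x‖ ≤ C / ‖x‖ ^ 2

/-- the data of the Earnshaw argument -/
structure Dat (u : E2 → ℝ) (K1 K2 : Set E2) (ρ : ℝ) (ζ ue p : E2 → ℝ) : Prop where
  ρpos : 0 < ρ
  K2c : IsClosed K2
  K2null : volume K2 = 0
  sep : thickening (3 * ρ) K1 ⊆ K2ᶜ
  sing : Sing ζ K1
  zharm : Harm ζ K1ᶜ
  ueh : ContDiffOn ℝ ∞ ue K2ᶜ
  psm : ContDiff ℝ ∞ p
  pharm : ∀ x ∈ thickening (3 * ρ) K1, (Δ p) x = 0
  near : ∀ x ∈ thickening (3 * ρ) K1, ue x = p x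
  sum : ∀ x ∉ K1 ∪ K2, u x = ζ x + ue x
  Ydiv : ∀ φ : E2 → ℝ, ContDiff ℝ ∞ φ → HasCompactSupport φ → ∫ x, ⟪∇ ue x, ∇ φ x⟫_ℝ = 0
  Yl2 : ∀ R : ℝ, MemLp (fun x => ∇ ue x) 2 (volume.restrict (closedBall 0 R))

/-! ### square integrability -/

/-- a continuous field which decays like `|x|^{-2}` is in `L²`. -/
theorem memLp_of_decay {V : E2 → E2} (hV : Continuous V) {C R : ℝ}
    (hd : ∀ x, R ≤ ‖x‖ → ‖V x‖ ≤ C / ‖x‖ ^ 2) : MemLp V 2 volume := by
  -- global bound by `C' / (1+‖x‖²)`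
  obtain ⟨M, hM⟩ := (isCompact_closedBall (0 : E2) (max R 1)).exists_bound_of_continuousOn
    hV.continuousOn
  have hM0 : 0 ≤ M := (norm_nonneg _).trans (hM 0 (mem_closedBall_self (by positivity)))
  have hb : ∀ x, ‖V x‖ ≤ (M * (1 + (max R 1) ^ 2) + 2 * |C|) * (1 + ‖x‖ ^ 2) ^ (-2 / 2 : ℝ) := by
    intro x
    have e1 : (1 + ‖x‖ ^ 2) ^ (-2 / 2 : ℝ) = (1 + ‖x‖ ^ 2)⁻¹ := by
      rw [show (-2 / 2 : ℝ) = -1 by norm_num, Real.rpow_neg_one]
    rw [e1, ← div_eq_mul_inv, le_div_iff₀ (by positivity)]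
    by_cases hx : x ∈ closedBall (0 : E2) (max R 1)
    · have h1 := hM x hx
      rw [mem_closedBall_zero_iff] at hx
      have h2 : ‖x‖ ^ 2 ≤ (max R 1) ^ 2 := pow_le_pow_left₀ (norm_nonneg _) hx 2
      calc ‖V x‖ * (1 + ‖x‖ ^ 2) ≤ M * (1 + (max R 1) ^ 2) := by gcongr
        _ ≤ _ := by linarith [abs_nonneg C]
    · rw [mem_closedBall_zero_iff, not_le, max_lt_iff] at hx
      have h1 := hd x hx.1.le
      have hx2 : 0 < ‖x‖ ^ 2 := by nlinarith [hx.2]
      have h3 : (1 : ℝ) ≤ ‖x‖ ^ 2 := by nlinarith [hx.2]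
      calc ‖V x‖ * (1 + ‖x‖ ^ 2) ≤ (|C| / ‖x‖ ^ 2) * (2 * ‖x‖ ^ 2) := by
            refine mul_le_mul (h1.trans ?_) (by linarith) (by positivity) (by positivity)
            gcongr
            exact le_abs_self C
        _ = 2 * |C| := by
            rw [div_mul_eq_mul_div, div_eq_iff hx2.ne']; ring
        _ ≤ _ := by
            have : 0 ≤ M * (1 + (max R 1) ^ 2) := by positivity
            linarith
  have hI : MemLp (fun x : E2 => (1 + ‖x‖ ^ 2) ^ (-2 / 2 : ℝ)) 2 volume := by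
    rw [memLp_two_iff_integrable_sq]
    · have h := integrable_rpow_neg_one_add_norm_sq (E := E2) (μ := volume) (r := 4) (by
        simp; norm_num)
      refine h.congr (Eventually.of_forall fun x => ?_)
      simp only
      rw [← Real.rpow_natCast ((1 + ‖x‖ ^ 2) ^ (-2 / 2 : ℝ)), ← Real.rpow_mul (by positivity)]
      norm_num
    · refine Continuous.aestronglyMeasurable ?_
      refine Continuous.rpow_const (by fun_prop) fun x => Or.inl (by positivity)
  refine (hI.const_mul (M * (1 + (max R 1) ^ 2) + 2 * |C|)).mono hV.aestronglyMeasurable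
    (Eventually.of_forall fun x => ?_)
  rw [Real.norm_eq_abs]
  exact (hb x).trans (le_abs_self _)

theorem memLp_integrable_inner {μ : Measure E2} {V W : E2 → E2} (hV : MemLp V 2 μ)
    (hW : MemLp W 2 μ) : Integrable (fun x => ⟪V x, W x⟫_ℝ) μ := by
  have h1 : Integrable (fun x => ‖V x‖ * ‖W x‖) μ := hV.norm.integrable_mul hW.norm
  refine h1.mono' (hV.1.inner hW.1) (Eventually.of_forall fun x => ?_)
  exact norm_inner_le_norm _ _

theorem int_cc {F : E2 → ℝ} (hF : Continuous F) {S : Set E2} (hS : IsCompact S)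
    (h : ∀ x, x ∉ S → F x = 0) : Integrable F :=
  hF.integrable_of_hasCompactSupport (HasCompactSupport.intro hS h)

/-- product of a locally square integrable field and a continuous compactly supported one -/
theorem integrable_inner_loc {V W : E2 → E2}
    (hV : ∀ R : ℝ, MemLp V 2 (volume.restrict (closedBall 0 R)))
    (hW : Continuous W) (hc : HasCompactSupport W) : Integrable (fun x => ⟪V x, W x⟫_ℝ) := by
  obtain ⟨R, hR⟩ := hc.isBounded.subset_closedBall (0 : E2)
  have h1 : IntegrableOn (fun x => ⟪V x, W x⟫_ℝ) (closedBall 0 R) :=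
    memLp_integrable_inner (hV R) ((hW.memLp_of_hasCompactSupport hc).restrict _)
  rw [← integrableOn_univ]
  refine h1.of_forall_sdiff_eq_zero MeasurableSet.univ fun x hx => ?_
  rw [image_eq_zero_of_notMem_tsupport (fun h => hx.2 (hR h)), inner_zero_right]

section Construct
variable {u : E2 → ℝ} {K K1 : Set E2}

theorem memLp_grad_u (h : IsQM univ 0 u K) (R : ℝ) :
    MemLp (fun x => ∇ u x) 2 (volume.restrict (closedBall 0 R)) := by
  refine ⟨(measurable_gradient u).aestronglyMeasurable, ?_⟩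
  rw [eLpNorm_lt_top_iff_lintegral_rpow_enorm_lt_top (by norm_num) (by norm_num)]
  have h1 := h.dir_fin 0 R (subset_univ _)
  unfold dirE at h1
  have h2 : ∫⁻ x in closedBall (0 : E2) R, ‖∇ u x‖ₑ ^ 2 =
      ∫⁻ x in closedBall (0 : E2) R \ K, ‖∇ u x‖ₑ ^ 2 :=
    (setLIntegral_congr (sdiff_null_ae_eq_self h.volume_K)).symm
  rw [← h2] at h1
  simpa using h1

/-- the singular/regular splitting -/
theorem exists_dat (h : IsQM univ 0 u K) (h1 : IsCompact K1) (hsub : K1 ⊆ K)
    (h2 : IsClosed (K \ K1)) : ∃ ρ ζ ue p, Dat u K1 (K \ K1) ρ ζ ue p := by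
  set K2 := K \ K1 with hK2
  have hKu : K = K1 ∪ K2 := (union_sdiff_cancel hsub).symm
  have hdis : K1 ⊆ K2ᶜ := fun x hx hx2 => hx2.2 hx
  obtain ⟨δ, hδ, hδ'⟩ := h1.exists_cthickening_subset_open h2.isOpen_compl hdis
  set ρ := δ / 4 with hρ
  have hρ0 : 0 < ρ := by positivity
  have hu := harm_u h
  have hO := isOpen_compl_K h
  -- cut-off
  set S3 := cthickening (3 * ρ) K1 with hS3
  have hS3c : IsCompact S3 := h1.cthickening
  have hS3U : S3 ⊆ K2ᶜ := (cthickening_mono (by linarith) _).trans hδ'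
  obtain ⟨χ, hχ, hχc, hχU, -, hχ1⟩ := exists_cutoff hS3c h2.isOpen_compl hS3U
  have hχs : ContDiff ℝ ∞ χ := hχ
  have hK1S : K1 ⊆ S3 := self_subset_cthickening _
  set A := tsupport (fderiv ℝ χ) with hA
  have hAc : IsCompact A := hχc.fderiv (𝕜 := ℝ)
  have h02 : ∀ x ∈ K2, ∀ᶠ y in 𝓝 x, χ y = 0 := by
    intro x hx
    have hx' : x ∉ tsupport χ := fun h => hχU h hx
    filter_upwards [(isClosed_tsupport χ).isOpen_compl.mem_nhds hx'] with y hy
    exact image_eq_zero_of_notMem_tsupport hy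
  have hfz : ∀ {x : E2} {c : ℝ}, (∀ᶠ y in 𝓝 x, χ y = c) → x ∉ A := by
    intro x c hx
    rw [hA, notMem_tsupport_iff_eventuallyEq]
    filter_upwards [hx.eventually_nhds] with y hy
    have : χ =ᶠ[𝓝 y] fun _ => c := hy
    rw [this.fderiv_eq]; simp
  have hAK : A ⊆ Kᶜ := by
    intro x hx hxK
    rw [hKu] at hxK
    rcases hxK with hxK | hxK
    · exact hfz (hχ1 x (hK1S hxK)) hx
    · exact hfz (h02 x hxK) hx
  obtain ⟨g, hg, hgc, hgu⟩ := Crest.Agent.R097.Hm.exists_ext (m := (⊤ : ℕ∞)) hO hu.1 hAc hAK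
  have hgs : ContDiff ℝ ∞ g := hg
  have hχg : ContDiff ℝ ∞ (fun x => χ x * g x) := hχs.mul hgs
  have hχgc : HasCompactSupport (fun x => χ x * g x) := hχc.mul_right
  -- away from `A` the cut-off is locally constant
  have hcst : ∀ x, x ∉ A → ∀ᶠ y in 𝓝 x, χ y = χ x := by
    intro x hx
    rw [hA, notMem_tsupport_iff_eventuallyEq] at hx
    exact eventually_const_of_fderiv
      (Eventually.of_forall fun y => (hχs.differentiable (by simp)).differentiableAt) hx
  -- the charge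
  set f : E2 → ℝ := fun x => (Δ (fun y => χ y * g y)) x - χ x * (Δ g) x with hf
  have hlaps : ∀ w : E2 → ℝ, ContDiff ℝ ∞ w → ContDiff ℝ ∞ (Δ w) := by
    intro w hw
    have : (Δ w) = fun x => fderiv ℝ (fun y => fderiv ℝ w y (bv 0)) x (bv 0) +
        fderiv ℝ (fun y => fderiv ℝ w y (bv 1)) x (bv 1) := by
      funext x
      exact lap_two ((contDiff_infty.mp hw 2).contDiffAt)
    rw [this]
    exact (contDiff_fd (contDiff_fd hw _) _).add (contDiff_fd (contDiff_fd hw _) _)
  have hfs : ContDiff ℝ ∞ f := (hlaps _ hχg).sub (hχs.mul (hlaps _ hgs))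
  have hf0 : ∀ x, x ∉ A → f x = 0 := by
    intro x hx
    have hev := hcst x hx
    have h3 : (fun y => χ y * g y) =ᶠ[𝓝 x] fun y => χ x * g y := by
      filter_upwards [hev] with y hy
      rw [hy]
    simp only [hf]
    rw [Crest.Agent.R097.Hm.lap_congr_at h3,
      Crest.Agent.R097.Hm.lap_const_mul_at _ ((contDiff_infty.mp hgs 2).contDiffAt), sub_self]
  have hfc : HasCompactSupport f := HasCompactSupport.intro hAc hf0
  have hpz : ContDiff ℝ ∞ (lp f) := contDiff_lp hfs hfc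
  -- the key identity
  have hAB : ∀ φ : E2 → ℝ, ContDiff ℝ ∞ φ → HasCompactSupport φ →
      ∫ x, (χ x * ⟪∇ u x, ∇ φ x⟫_ℝ + g x * ⟪∇ χ x, ∇ φ x⟫_ℝ) = - ∫ x, φ x * f x := by
    intro φ hφ hc
    have dχ : ∀ x, DifferentiableAt ℝ χ x := fun x =>
      (hχs.differentiable (by simp)).differentiableAt
    have dg : ∀ x, DifferentiableAt ℝ g x := fun x =>
      (hgs.differentiable (by simp)).differentiableAt
    have dφ : ∀ x, DifferentiableAt ℝ φ x := fun x =>
      (hφ.differentiable (by simp)).differentiableAt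
    have cχ := (contDiff_grad hχs).continuous
    have cg := (contDiff_grad hgs).continuous
    have cφ := (contDiff_grad hφ).continuous
    have hcφ := hasCompactSupport_grad hc
    have hχφ : ContDiff ℝ ∞ (fun x => χ x * φ x) := hχs.mul hφ
    have hχφc : HasCompactSupport (fun x => χ x * φ x) := hc.mul_left
    -- integrability
    have i0 : Integrable (fun x => χ x * ⟪∇ u x, ∇ φ x⟫_ℝ) := by
      have := integrable_inner_loc (memLp_grad_u h) (hχs.continuous.smul cφ)
        (hcφ.smul_left (f := χ))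
      refine this.congr (Eventually.of_forall fun x => ?_)
      simp only [Pi.smul_apply', inner_smul_right]
    have i1 : Integrable (fun x => χ x * ⟪∇ g x, ∇ φ x⟫_ℝ) :=
      int_cc (hχs.continuous.mul (cg.inner cφ)) hc fun x hx => by
        rw [grad_notMem_tsupport hx, inner_zero_right, mul_zero]
    have i2 : Integrable (fun x => g x * ⟪∇ χ x, ∇ φ x⟫_ℝ) :=
      int_cc (hgs.continuous.mul (cχ.inner cφ)) hc fun x hx => by
        rw [grad_notMem_tsupport hx, inner_zero_right, mul_zero]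
    have i3 : Integrable (fun x => φ x * ⟪∇ g x, ∇ χ x⟫_ℝ) :=
      int_cc (hφ.continuous.mul (cg.inner cχ)) hc fun x hx => by
        rw [image_eq_zero_of_notMem_tsupport hx, zero_mul]
    have i4 : Integrable (fun x => φ x * (Δ (fun y => χ y * g y)) x) :=
      int_cc (hφ.continuous.mul (hlaps _ hχg).continuous) hc fun x hx => by
        rw [image_eq_zero_of_notMem_tsupport hx, zero_mul]
    have i5 : Integrable (fun x => χ x * φ x * (Δ g) x) :=
      int_cc (hχφ.continuous.mul (hlaps _ hgs).continuous) hc fun x hx => by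
        rw [image_eq_zero_of_notMem_tsupport hx, mul_zero, zero_mul]
    have hDug : ∀ x, φ x * ⟪∇ u x, ∇ χ x⟫_ℝ = φ x * ⟪∇ g x, ∇ χ x⟫_ℝ := by
      intro x
      by_cases hx : x ∈ A
      · rw [gradient_congr_of_eventuallyEq (hgu x hx)]
      · rw [grad_eq_zero_of_near (hcst x hx), inner_zero_right, inner_zero_right]
    -- (A)
    have eA : (∫ x, χ x * ⟪∇ u x, ∇ φ x⟫_ℝ) + ∫ x, φ x * ⟪∇ g x, ∇ χ x⟫_ℝ = 0 := by
      rw [← integral_add i0 i3, ← el_smooth h hχφ hχφc]
      refine integral_congr_ae (Eventually.of_forall fun x => ?_)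
      simp only
      rw [grad_mul (dχ x) (dφ x), inner_add_right, inner_smul_right, inner_smul_right, hDug x]
    -- (B)
    have eB : (∫ x, χ x * ⟪∇ g x, ∇ φ x⟫_ℝ) + ∫ x, g x * ⟪∇ χ x, ∇ φ x⟫_ℝ =
        - ∫ x, φ x * (Δ (fun y => χ y * g y)) x := by
      rw [← integral_add i1 i2, ← green_s hχg hφ hc]
      refine integral_congr_ae (Eventually.of_forall fun x => ?_)
      simp only
      rw [grad_mul (dχ x) (dg x), inner_add_left, inner_smul_left, inner_smul_left]
      simp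
    have eC : (∫ x, χ x * ⟪∇ g x, ∇ φ x⟫_ℝ) + ∫ x, φ x * ⟪∇ g x, ∇ χ x⟫_ℝ =
        - ∫ x, χ x * φ x * (Δ g) x := by
      rw [← integral_add i1 i3, ← green_s hgs hχφ hχφc]
      refine integral_congr_ae (Eventually.of_forall fun x => ?_)
      simp only
      rw [grad_mul (dχ x) (dφ x), inner_add_right, inner_smul_right, inner_smul_right]
    have eD : ∫ x, φ x * f x = (∫ x, φ x * (Δ (fun y => χ y * g y)) x) -
        ∫ x, χ x * φ x * (Δ g) x := by
      rw [← integral_sub i4 i5]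
      refine integral_congr_ae (Eventually.of_forall fun x => ?_)
      simp only [hf]; ring
    rw [integral_add i0 i2, eD]
    linarith
  -- radius containing everything
  obtain ⟨a, ha, haχ⟩ : ∃ a : ℝ, 0 < a ∧ tsupport χ ⊆ closedBall 0 a := by
    obtain ⟨r, hr⟩ := hχc.isBounded.subset_closedBall (0 : E2)
    exact ⟨max r 1, by positivity, hr.trans (closedBall_subset_closedBall (le_max_left _ _))⟩
  have hAχ : A ⊆ tsupport χ := tsupport_fderiv_subset ℝ
  have hχz : ∀ x, a < ‖x‖ → x ∉ tsupport χ := by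
    intro x hx hmem
    have := haχ hmem
    rw [mem_closedBall_zero_iff] at this
    linarith
  have hfa : ∀ y, a < ‖y‖ → f y = 0 := fun y hy => hf0 y fun h => hχz y hy (hAχ h)
  -- mean zero
  have hmean : ∫ y, f y = 0 := by
    obtain ⟨ψ, hψ, hψc, -, -, hψ1⟩ := exists_cutoff (isCompact_closedBall (0 : E2) a)
      isOpen_univ (subset_univ _)
    have h3 := hAB ψ hψ hψc
    have h4 : ∫ x, (χ x * ⟪∇ u x, ∇ ψ x⟫_ℝ + g x * ⟪∇ χ x, ∇ ψ x⟫_ℝ) = 0 := by
      rw [← integral_zero E2 ℝ]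
      refine integral_congr_ae (Eventually.of_forall fun x => ?_)
      simp only
      by_cases hx : x ∈ tsupport χ
      · rw [grad_eq_zero_of_near (hψ1 x (haχ hx))]; simp
      · rw [image_eq_zero_of_notMem_tsupport hx, grad_notMem_tsupport hx]; simp
    have h5 : ∫ x, ψ x * f x = ∫ x, f x := by
      refine integral_congr_ae (Eventually.of_forall fun x => ?_)
      simp only
      by_cases hx : x ∈ closedBall (0 : E2) a
      · rw [(hψ1 x hx).self_of_nhds, one_mul]
      · rw [hfa x (by rwa [mem_closedBall_zero_iff, not_le] at hx), mul_zero]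
    rw [h4, h5] at h3
    linarith
  obtain ⟨C1, hC1, hd1⟩ := lp_decay hfs.continuous ha hfa hmean
  obtain ⟨C2, hC2, hd2⟩ := grad_lp_decay hfs ha hfa hmean
  -- differentiability facts
  have dχ : ∀ x, DifferentiableAt ℝ χ x := fun x =>
    (hχs.differentiable (by simp)).differentiableAt
  have dp : ∀ x, DifferentiableAt ℝ (lp f) x := fun x =>
    (hpz.differentiable (by simp)).differentiableAt
  have du : ∀ x ∉ K, DifferentiableAt ℝ u x := fun x hx =>
    (hu.1.contDiffAt (hO.mem_nhds hx)).differentiableAt (by simp)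
  have hugχ : ∀ x, u x • ∇ χ x = g x • ∇ χ x := by
    intro x
    by_cases hx : x ∈ A
    · rw [(hgu x hx).eq_of_nhds]
    · rw [grad_eq_zero_of_near (hcst x hx), smul_zero, smul_zero]
  set ζ : E2 → ℝ := fun x => χ x * u x - lp f x with hζ
  set ue : E2 → ℝ := fun x => (1 - χ x) * u x + lp f x with hue
  have hgζ : ∀ x ∉ K, ∇ ζ x = (χ x • ∇ u x + g x • ∇ χ x) - ∇ (lp f) x := by
    intro x hx
    have e1 := grad_sub (f := fun y => χ y * u y) (g := lp f) ((dχ x).mul (du x hx)) (dp x)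
    rw [hζ, e1, grad_mul (dχ x) (du x hx), hugχ]
  have hgue : ∀ x ∉ K, ∇ ue x = ∇ u x - ∇ ζ x := by
    intro x hx
    have h3 : DifferentiableAt ℝ ζ x := ((dχ x).mul (du x hx)).sub (dp x)
    rw [← grad_sub (du x hx) h3]
    congr 1
    funext y
    simp only [hζ, hue]; ring
  have haeK := ae_notMem_K h
  have hK1null : volume K1 = 0 := measure_mono_null hsub h.volume_K
  have hK2null : volume K2 = 0 := measure_mono_null sdiff_subset h.volume_K
  -- `∇ (lp f) ∈ L²`
  have hLp : MemLp (fun x => ∇ (lp f) x) 2 volume := by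
    refine memLp_of_decay (contDiff_grad hpz).continuous (C := C2) (R := 4 * a) fun x hx => ?_
    rw [norm_gradient]
    exact hd2 x hx
  -- `∇ ζ ∈ L²`
  have hχu : MemLp (fun x => χ x • ∇ u x) 2 volume := by
    obtain ⟨M, hM⟩ := hχc.exists_bound_of_continuous hχs.continuous
    have hM0 : 0 ≤ M := (norm_nonneg _).trans (hM 0)
    have h3 : MemLp (fun x => χ x • ∇ u x) 2 (volume.restrict (closedBall 0 a)) := by
      refine ((memLp_grad_u h a).const_smul M).mono
        (hχs.continuous.measurable.smul (measurable_gradient u)).aestronglyMeasurable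
        (Eventually.of_forall fun x => ?_)
      simp only [Pi.smul_apply]
      rw [norm_smul, norm_smul, Real.norm_of_nonneg hM0]
      exact mul_le_mul_of_nonneg_right (hM x) (norm_nonneg _)
    have h4 : (closedBall (0 : E2) a).indicator (fun x => χ x • ∇ u x) =
        fun x => χ x • ∇ u x := by
      funext x
      by_cases hx : x ∈ closedBall (0 : E2) a
      · rw [indicator_of_mem hx]
      · rw [indicator_of_notMem hx]
        rw [mem_closedBall_zero_iff, not_le] at hx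
        rw [image_eq_zero_of_notMem_tsupport (hχz x hx), zero_smul]
    rw [← memLp_indicator_iff_restrict isClosed_closedBall.measurableSet, h4] at h3
    exact h3
  have hgχ : MemLp (fun x => g x • ∇ χ x) 2 volume :=
    (hgs.continuous.smul (contDiff_grad hχs).continuous).memLp_of_hasCompactSupport
      (HasCompactSupport.intro hχc fun x hx => by
        simp only [Pi.smul_apply']
        rw [grad_notMem_tsupport hx, smul_zero])
  have hζ2 : MemLp (fun x => ∇ ζ x) 2 volume := by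
    refine ((hχu.add hgχ).sub hLp).ae_eq ?_
    filter_upwards [haeK] with x hx
    simp only [Pi.add_apply, Pi.sub_apply]
    rw [hgζ x hx]
  have hζs : ContDiffOn ℝ ∞ ζ K1ᶜ := by
    intro x hx
    apply ContDiffAt.contDiffWithinAt
    by_cases hxK : x ∈ K
    · have hx2 : x ∈ K2 := ⟨hxK, hx⟩
      have h3 : ζ =ᶠ[𝓝 x] fun y => - lp f y := by
        filter_upwards [h02 x hx2] with y hy
        simp only [hζ, hy]; ring
      exact hpz.contDiffAt.neg.congr_of_eventuallyEq h3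
    · exact (hχs.contDiffAt.mul (hu.1.contDiffAt (hO.mem_nhds hxK))).sub hpz.contDiffAt
  have hζd : ∀ φ : E2 → ℝ, ContDiff ℝ ∞ φ → HasCompactSupport φ →
      ∫ x, ⟪∇ ζ x, ∇ φ x⟫_ℝ = 0 := by
    intro φ hφ hc
    have h3 := hAB φ hφ hc
    have h4 := green_s hpz hφ hc
    have cφ := (contDiff_grad hφ).continuous
    have hcφ := hasCompactSupport_grad hc
    have i0 : Integrable (fun x => χ x * ⟪∇ u x, ∇ φ x⟫_ℝ) := by
      have := integrable_inner_loc (memLp_grad_u h) (hχs.continuous.smul cφ)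
        (hcφ.smul_left (f := χ))
      refine this.congr (Eventually.of_forall fun x => ?_)
      simp only [Pi.smul_apply', inner_smul_right]
    have i2 : Integrable (fun x => g x * ⟪∇ χ x, ∇ φ x⟫_ℝ) :=
      int_cc (hgs.continuous.mul ((contDiff_grad hχs).continuous.inner cφ)) hc fun x hx => by
        rw [grad_notMem_tsupport hx, inner_zero_right, mul_zero]
    have i3 : Integrable (fun x => ⟪∇ (lp f) x, ∇ φ x⟫_ℝ) :=
      integrable_inner_of_cs (contDiff_grad hpz).continuous cφ hcφ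
    have h5 : ∫ x, ⟪∇ ζ x, ∇ φ x⟫_ℝ =
        (∫ x, (χ x * ⟪∇ u x, ∇ φ x⟫_ℝ + g x * ⟪∇ χ x, ∇ φ x⟫_ℝ)) -
          ∫ x, ⟪∇ (lp f) x, ∇ φ x⟫_ℝ := by
      have i02 : Integrable (fun x => χ x * ⟪∇ u x, ∇ φ x⟫_ℝ + g x * ⟪∇ χ x, ∇ φ x⟫_ℝ) :=
        i0.add i2
      rw [← integral_sub i02 i3]
      refine integral_congr_ae ?_
      filter_upwards [haeK] with x hx
      rw [hgζ x hx, inner_sub_left, inner_add_left, inner_smul_left, inner_smul_left]
      simp
    rw [h5, h3, h4]
    have h6 : ∀ x, (Δ (lp f)) x = f x := fun x => lap_lp hfs hfc x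
    simp only [h6]
    ring
  have hζh : ∀ x ∈ K1ᶜ, (Δ ζ) x = 0 := by
    intro x hx
    by_cases hxA : x ∈ A
    · have h3 : ζ =ᶠ[𝓝 x] fun y => (χ y * g y) + -(lp f y) := by
        filter_upwards [hgu x hxA] with y hy
        simp only [hζ, hy]; ring
      rw [Crest.Agent.R097.Hm.lap_congr_at h3, Crest.Agent.R097.Hm.lap_add_at
        ((contDiff_infty.mp hχg 2).contDiffAt) ((contDiff_infty.mp hpz 2).contDiffAt.neg),
        Crest.Agent.R097.Hm.lap_neg, lap_lp hfs hfc]
      simp only [hf]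
      have h4 : (Δ g) x = 0 := by
        rw [Crest.Agent.R097.Hm.lap_congr_at (hgu x hxA), hu.2 x (hAK hxA)]
      rw [h4]; ring
    · by_cases hxK : x ∈ K
      · have hx2 : x ∈ K2 := ⟨hxK, hx⟩
        have h3 : ζ =ᶠ[𝓝 x] fun y => - lp f y := by
          filter_upwards [h02 x hx2] with y hy
          simp only [hζ, hy]; ring
        rw [Crest.Agent.R097.Hm.lap_congr_at h3, Crest.Agent.R097.Hm.lap_neg, lap_lp hfs hfc,
          hf0 x hxA, neg_zero]
      · have h3 : ζ =ᶠ[𝓝 x] fun y => (χ x * u y) + -(lp f y) := by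
          filter_upwards [hcst x hxA] with y hy
          simp only [hζ, hy]; ring
        have cu : ContDiffAt ℝ 2 u x :=
          (contDiffOn_infty.mp hu.1 2).contDiffAt (hO.mem_nhds hxK)
        rw [Crest.Agent.R097.Hm.lap_congr_at h3, Crest.Agent.R097.Hm.lap_add_at
          (contDiffAt_const.mul cu) ((contDiff_infty.mp hpz 2).contDiffAt.neg),
          Crest.Agent.R097.Hm.lap_neg, lap_lp hfs hfc,
          Crest.Agent.R097.Hm.lap_const_mul_at _ cu, hu.2 x hxK, hf0 x hxA]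
        ring
  have hnear1 : ∀ x ∈ thickening (3 * ρ) K1, x ∈ S3 := fun x hx =>
    thickening_subset_cthickening _ _ hx
  have hYl2 : ∀ R : ℝ, MemLp (fun x => ∇ ue x) 2 (volume.restrict (closedBall 0 R)) := by
    intro R
    refine ((memLp_grad_u h R).sub (hζ2.restrict _)).ae_eq ?_
    filter_upwards [ae_restrict_of_ae haeK] with x hx
    simp only [Pi.sub_apply]
    rw [hgue x hx]
  refine ⟨ρ, ζ, ue, lp f, hρ0, h2, hK2null, ?_, ⟨h1, hK1null, hζs, hζ2, hζd, ?_⟩, ⟨hζs, hζh⟩, ?_,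
    hpz, ?_, ?_, ?_, ?_, hYl2⟩
  · exact fun x hx => hS3U (hnear1 x hx)
  · refine ⟨max C1 C2, 4 * a, le_max_of_le_left hC1, by positivity, fun x hx => ?_⟩
    have hx0 : 0 < ‖x‖ := by linarith
    have hev : ∀ᶠ y in 𝓝 x, ζ y = - lp f y := by
      have hopen : IsOpen {z : E2 | a < ‖z‖} := isOpen_lt continuous_const continuous_norm
      filter_upwards [hopen.mem_nhds (by show a < ‖x‖; linarith)] with y hy
      simp only [hζ]
      rw [image_eq_zero_of_notMem_tsupport (hχz y hy)]; ring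
    have hev' : ζ =ᶠ[𝓝 x] fun y => - lp f y := hev
    constructor
    · rw [hev.self_of_nhds, abs_neg]
      refine (hd1 x (by linarith)).trans ?_
      gcongr
      exact le_max_left _ _
    · rw [gradient_congr_of_eventuallyEq hev', gradient_neg', norm_neg, norm_gradient]
      refine (hd2 x hx).trans ?_
      gcongr
      exact le_max_right _ _
  · intro x hx
    apply ContDiffAt.contDiffWithinAt
    by_cases hxK : x ∈ K
    · have hx1 : x ∈ K1 := by
        by_contra hcon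
        exact hx ⟨hxK, hcon⟩
      have h3 : ue =ᶠ[𝓝 x] fun y => lp f y := by
        filter_upwards [hχ1 x (hK1S hx1)] with y hy
        simp only [hue, hy]; ring
      exact hpz.contDiffAt.congr_of_eventuallyEq h3
    · exact ((contDiffAt_const.sub hχs.contDiffAt).mul
        (hu.1.contDiffAt (hO.mem_nhds hxK))).add hpz.contDiffAt
  · intro x hx
    rw [lap_lp hfs hfc, hf0 x (hfz (hχ1 x (hnear1 x hx)))]
  · intro x hx
    simp only [hue]
    rw [(hχ1 x (hnear1 x hx)).self_of_nhds]; ring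
  · intro x _
    simp only [hζ, hue]; ring
  · intro φ hφ hc
    have i1 := integrable_inner_loc (memLp_grad_u h) (contDiff_grad hφ).continuous
      (hasCompactSupport_grad hc)
    have i2 : Integrable (fun x => ⟪∇ ζ x, ∇ φ x⟫_ℝ) :=
      integrable_inner_loc (fun R => hζ2.restrict _) (contDiff_grad hφ).continuous
        (hasCompactSupport_grad hc)
    have h3 : ∫ x, ⟪∇ ue x, ∇ φ x⟫_ℝ = (∫ x, ⟪∇ u x, ∇ φ x⟫_ℝ) - ∫ x, ⟪∇ ζ x, ∇ φ x⟫_ℝ := by
      rw [← integral_sub i1 i2]
      refine integral_congr_ae ?_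
      filter_upwards [haeK] with x hx
      rw [hgue x hx, inner_sub_left]
    rw [h3, el_smooth h hφ hc, hζd φ hφ hc, sub_zero]

end Construct

end Crest.Agent.R135.Earn
end

-- ▼ part R135/EarnCut

/-!
# R135, Earnshaw block (helper391), part 5: cut-offs, energy inequality, Green's formula
-/

set_option autoImplicit false
open MeasureTheory Metric Set Filter Topology Laplacian InnerProductSpace
open scoped RealInnerProductSpace NNReal ENNReal ContDiff Gradient Convolution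

namespace Crest.Agent.R135.Earn

open Crest.Agent.R097 (bv Harm laplacian_eq_sum gradient_coord inner_gradient norm_gradient
  exists_cutoff green1)
open Crest.Agent.R135.Reg

/-! ### cut-offs at infinity -/

theorem exists_kappa : ∃ C : ℝ, 0 ≤ C ∧ ∀ R : ℝ, 0 < R → ∃ κ : E2 → ℝ, ContDiff ℝ ∞ κ ∧
    (∀ x, ‖x‖ ≤ R → ∀ᶠ y in 𝓝 x, κ y = 1) ∧ (∀ x, 2 * R ≤ ‖x‖ → κ x = 0) ∧
    (∀ x, κ x ∈ Icc (0 : ℝ) 1) ∧ ∀ x, ‖∇ κ x‖ ≤ C / R := by
  obtain ⟨κ, hκ, hκc, hκU, hκ01, hκ1⟩ := exists_cutoff (d := 2) (isCompact_closedBall (0 : E2) 1)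
    (isOpen_ball (x := (0 : E2)) (ε := 2)) (closedBall_subset_ball (by norm_num))
  obtain ⟨C, hC⟩ := (hasCompactSupport_grad hκc).exists_bound_of_continuous
    (contDiff_grad hκ).continuous
  refine ⟨C, (norm_nonneg _).trans (hC 0), fun R hR => ⟨fun x => κ (R⁻¹ • x), ?_, ?_, ?_, ?_, ?_⟩⟩
  · exact hκ.comp (contDiff_const_smul _)
  · intro x hx
    have h1 : R⁻¹ • x ∈ closedBall (0 : E2) 1 := by
      rw [mem_closedBall_zero_iff, norm_smul, norm_inv, Real.norm_of_nonneg hR.le,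
        inv_mul_le_iff₀ hR]
      linarith
    exact (continuous_const_smul R⁻¹).continuousAt.eventually (hκ1 _ h1)
  · intro x hx
    refine image_eq_zero_of_notMem_tsupport fun hmem => ?_
    have := hκU hmem
    rw [mem_ball_zero_iff, norm_smul, norm_inv, Real.norm_of_nonneg hR.le,
      inv_mul_lt_iff₀ hR] at this
    linarith
  · exact fun x => hκ01 _
  · intro x
    have h1 : HasFDerivAt (fun x : E2 => κ (R⁻¹ • x))
        ((fderiv ℝ κ (R⁻¹ • x)).comp (R⁻¹ • ContinuousLinearMap.id ℝ E2)) x := by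
      have h2 : HasFDerivAt κ (fderiv ℝ κ (R⁻¹ • x)) (R⁻¹ • x) :=
        ((hκ.differentiable (by simp)).differentiableAt).hasFDerivAt
      have h3 : HasFDerivAt (fun x : E2 => R⁻¹ • x) (R⁻¹ • ContinuousLinearMap.id ℝ E2) x :=
        (hasFDerivAt_id x).const_smul R⁻¹
      exact h2.comp x h3
    rw [norm_gradient, h1.fderiv]
    have h4 := hC (R⁻¹ • x)
    rw [norm_gradient] at h4
    calc ‖(fderiv ℝ κ (R⁻¹ • x)).comp (R⁻¹ • ContinuousLinearMap.id ℝ E2)‖
        ≤ ‖fderiv ℝ κ (R⁻¹ • x)‖ * ‖R⁻¹ • ContinuousLinearMap.id ℝ E2‖ :=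
          ContinuousLinearMap.opNorm_comp_le _ _
      _ ≤ C * R⁻¹ := by
          refine mul_le_mul h4 ?_ (norm_nonneg _) ((norm_nonneg _).trans h4)
          refine (norm_smul_le R⁻¹ (ContinuousLinearMap.id ℝ E2)).trans ?_
          rw [norm_inv, Real.norm_of_nonneg hR.le]
          calc R⁻¹ * ‖ContinuousLinearMap.id ℝ E2‖ ≤ R⁻¹ * 1 := by
                gcongr
                exact ContinuousLinearMap.norm_id_le
            _ = R⁻¹ := mul_one _
      _ = C / R := by rw [div_eq_mul_inv]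

/-! ### squares of norms -/

theorem lintegral_sq_eq {μ : Measure E2} {V : E2 → E2} (hV : MemLp V 2 μ) :
    ∫⁻ x, ‖V x‖ₑ ^ 2 ∂μ = ENNReal.ofReal (∫ x, ‖V x‖ ^ 2 ∂μ) := by
  have h1 : Integrable (fun x => ‖V x‖ ^ 2) μ := hV.integrable_norm_pow (by norm_num)
  rw [ofReal_integral_eq_lintegral_ofReal h1 (Eventually.of_forall fun x => by positivity)]
  refine lintegral_congr fun x => ?_
  rw [ENNReal.ofReal_pow (norm_nonneg _), ofReal_norm]

theorem integral_add_sq {μ : Measure E2} {V W : E2 → E2} (hV : MemLp V 2 μ) (hW : MemLp W 2 μ) :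
    ∫ x, ‖V x + W x‖ ^ 2 ∂μ =
      (∫ x, ‖V x‖ ^ 2 ∂μ) + 2 * (∫ x, ⟪V x, W x⟫_ℝ ∂μ) + ∫ x, ‖W x‖ ^ 2 ∂μ := by
  have h1 : Integrable (fun x => ‖V x‖ ^ 2) μ := hV.integrable_norm_pow (by norm_num)
  have h2 : Integrable (fun x => ‖W x‖ ^ 2) μ := hW.integrable_norm_pow (by norm_num)
  have h3 := memLp_integrable_inner hV hW
  have h13 : Integrable (fun x => ‖V x‖ ^ 2 + 2 * ⟪V x, W x⟫_ℝ) μ := h1.add (h3.const_mul 2)
  rw [← integral_const_mul, ← integral_add h1 (h3.const_mul 2), ← integral_add h13 h2]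
  refine integral_congr_ae (Eventually.of_forall fun x => ?_)
  simp only
  rw [norm_add_sq_real]

/-! ### the energy inequality -/

theorem energy_ineq {u : E2 → ℝ} {K : Set E2} (h : IsQM univ 0 u K) {R : ℝ} (hR : 0 < R)
    {w : E2 → ℝ} {L : Set E2} (hcomp : IsComp univ u K 0 R w L) (hL0 : volume L = 0)
    {Z : E2 → E2} (hZ2 : MemLp Z 2 (volume.restrict (closedBall 0 R)))
    (hZ : ∀ᵐ x, ∇ w x = ∇ u x + Z x) :
    (∫ x in closedBall 0 R, ‖∇ u x‖ ^ 2) + (len (K ∩ closedBall 0 R)).toReal ≤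
      (∫ x in closedBall 0 R, ‖∇ u x + Z x‖ ^ 2) + (len (L ∩ closedBall 0 R)).toReal := by
  have hmin := h.min 0 R hR (subset_univ _) w L hcomp
  simp only [zero_mul, ENNReal.ofReal_zero, add_zero] at hmin
  unfold enE dirE at hmin
  set B : Set E2 := closedBall 0 R
  have hu2 := memLp_grad_u h R
  have e1 : ∫⁻ x in B \ K, ‖∇ u x‖ₑ ^ 2 = ENNReal.ofReal (∫ x in B, ‖∇ u x‖ ^ 2) := by
    rw [← lintegral_sq_eq hu2]
    exact setLIntegral_congr (sdiff_null_ae_eq_self h.volume_K)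
  have e2 : ∫⁻ x in B \ L, ‖∇ w x‖ₑ ^ 2 = ENNReal.ofReal (∫ x in B, ‖∇ u x + Z x‖ ^ 2) := by
    have h3 : MemLp (fun x => ∇ u x + Z x) 2 (volume.restrict B) := hu2.add hZ2
    rw [← lintegral_sq_eq h3, setLIntegral_congr (sdiff_null_ae_eq_self hL0)]
    refine lintegral_congr_ae ?_
    filter_upwards [ae_restrict_of_ae hZ] with x hx
    rw [hx]
  rw [e1, e2] at hmin
  have f1 : len (K ∩ B) ≠ ⊤ := (h.len_fin 0 R (subset_univ _)).ne
  have f2 : len (L ∩ B) ≠ ⊤ := hcomp.len_fin.ne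
  have n1 : 0 ≤ ∫ x in B, ‖∇ u x‖ ^ 2 := integral_nonneg fun x => by positivity
  have n2 : 0 ≤ ∫ x in B, ‖∇ u x + Z x‖ ^ 2 := integral_nonneg fun x => by positivity
  have := ENNReal.toReal_mono (ENNReal.add_ne_top.2 ⟨ENNReal.ofReal_ne_top, f2⟩) hmin
  rw [ENNReal.toReal_add ENNReal.ofReal_ne_top f1, ENNReal.toReal_add ENNReal.ofReal_ne_top f2,
    ENNReal.toReal_ofReal n1, ENNReal.toReal_ofReal n2] at this
  exact this

/-! ### products vanishing near the crack -/

theorem smooth_mul_sing {ζ a : E2 → ℝ} {S : Set E2} (hS : IsClosed S)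
    (hζ : ContDiffOn ℝ ∞ ζ Sᶜ) (ha : ContDiff ℝ ∞ a) (h0 : ∀ x ∈ S, ∀ᶠ y in 𝓝 x, a y = 0) :
    ContDiff ℝ ∞ (fun x => a x * ζ x) := by
  rw [contDiff_iff_contDiffAt]
  intro x
  by_cases hx : x ∈ S
  · have : (fun x => a x * ζ x) =ᶠ[𝓝 x] fun _ => (0 : ℝ) := by
      filter_upwards [h0 x hx] with y hy
      rw [hy, zero_mul]
    exact contDiffAt_const.congr_of_eventuallyEq this
  · exact ha.contDiffAt.mul (hζ.contDiffAt (hS.isOpen_compl.mem_nhds hx))

theorem smooth_smul_sing {ζ : E2 → ℝ} {a : E2 → E2} {S : Set E2} (hS : IsClosed S)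
    (hζ : ContDiffOn ℝ ∞ ζ Sᶜ) (ha : ContDiff ℝ ∞ a) (h0 : ∀ x ∈ S, ∀ᶠ y in 𝓝 x, a y = 0) :
    ContDiff ℝ ∞ (fun x => ζ x • a x) := by
  rw [contDiff_iff_contDiffAt]
  intro x
  by_cases hx : x ∈ S
  · have : (fun x => ζ x • a x) =ᶠ[𝓝 x] fun _ => (0 : E2) := by
      filter_upwards [h0 x hx] with y hy
      rw [hy, smul_zero]
    exact contDiffAt_const.congr_of_eventuallyEq this
  · exact (hζ.contDiffAt (hS.isOpen_compl.mem_nhds hx)).smul ha.contDiffAt

theorem grad_near_zero {f : E2 → ℝ} {x : E2} {c : ℝ} (h : ∀ᶠ y in 𝓝 x, f y = c) :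
    ∀ᶠ y in 𝓝 x, ∇ f y = 0 := by
  filter_upwards [h.eventually_nhds] with y hy
  exact grad_eq_zero_of_near hy

/-- the boundary form of Green's formula -/
noncomputable def Mg (η p ζ : E2 → ℝ) : ℝ :=
  ∫ x, (ζ x * ⟪∇ η x, ∇ p x⟫_ℝ - p x * ⟪∇ η x, ∇ ζ x⟫_ℝ)

/-- **Green's formula**: the pairing of `∇ ue` with the field `∇ (κ ζ₀)`. -/
theorem green_pair {u : E2 → ℝ} {K1 K2 : Set E2} {ρ : ℝ} {ζ ue p : E2 → ℝ}
    (D : Dat u K1 K2 ρ ζ ue p) {η : E2 → ℝ} (hη : ContDiff ℝ ∞ η)
    (hηc : HasCompactSupport η) (hηs : tsupport η ⊆ thickening (3 * ρ) K1)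
    {ζ₀ : E2 → ℝ} {S : Set E2} (hS : Sing ζ₀ S) (hη1 : ∀ x ∈ S, ∀ᶠ y in 𝓝 x, η y = 1)
    {κ : E2 → ℝ} (hκ : ContDiff ℝ ∞ κ) (hκc : HasCompactSupport κ)
    (hκ1 : ∀ x ∈ S, ∀ᶠ y in 𝓝 x, κ y = 1) :
    Integrable (fun x => ⟪∇ ue x, κ x • ∇ ζ₀ x + ζ₀ x • ∇ κ x⟫_ℝ) ∧
    ∫ x, ⟪∇ ue x, κ x • ∇ ζ₀ x + ζ₀ x • ∇ κ x⟫_ℝ = Mg η p ζ₀ := by
  have hSc : IsClosed S := hS.cpt.isClosed
  have haeS : ∀ᵐ x : E2, x ∉ S := by rw [ae_iff]; simpa using hS.null
  have dζ : ∀ x ∉ S, DifferentiableAt ℝ ζ₀ x := fun x hx =>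
    (hS.smooth.contDiffAt (hSc.isOpen_compl.mem_nhds hx)).differentiableAt (by simp)
  have dsm : ∀ {f : E2 → ℝ}, ContDiff ℝ ∞ f → ∀ x, DifferentiableAt ℝ f x := fun hf x =>
    (hf.differentiable (by simp)).differentiableAt
  -- the smooth part
  have hq : ContDiff ℝ ∞ (fun x => (κ x - η x) * ζ₀ x) := by
    refine smooth_mul_sing hSc hS.smooth (hκ.sub hη) fun x hx => ?_
    filter_upwards [hκ1 x hx, hη1 x hx] with y hy hy'
    rw [hy, hy', sub_self]
  have hqc : HasCompactSupport (fun x => (κ x - η x) * ζ₀ x) := (hκc.sub hηc).mul_right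
  have h1 := D.Ydiv _ hq hqc
  have i1 : Integrable (fun x => ⟪∇ ue x, ∇ (fun x => (κ x - η x) * ζ₀ x) x⟫_ℝ) :=
    integrable_inner_loc D.Yl2 (contDiff_grad hq).continuous (hasCompactSupport_grad hqc)
  -- the part near the crack
  have hηp : ContDiff ℝ ∞ (fun x => η x * p x) := hη.mul D.psm
  have hηpc : HasCompactSupport (fun x => η x * p x) := hηc.mul_right
  have h2 := hS.divfree _ hηp hηpc
  have hζη : ContDiff ℝ ∞ (fun x => ζ₀ x • ∇ η x) :=
    smooth_smul_sing hSc hS.smooth (contDiff_grad hη) fun x hx => grad_near_zero (hη1 x hx)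
  have cp := (contDiff_grad D.psm).continuous
  have cη := (contDiff_grad hη).continuous
  have i2 : Integrable (fun x => η x * ⟪∇ ζ₀ x, ∇ p x⟫_ℝ) := by
    have hcs : HasCompactSupport (fun x => η x • ∇ p x) :=
      HasCompactSupport.intro hηc fun x hx => by
        rw [image_eq_zero_of_notMem_tsupport hx, zero_smul]
    have := integrable_inner_loc (fun R => hS.l2.restrict _) (hη.continuous.smul cp) hcs
    refine this.congr (Eventually.of_forall fun x => ?_)
    simp only [Pi.smul_apply', inner_smul_right]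
  have i3 : Integrable (fun x => p x * ⟪∇ ζ₀ x, ∇ η x⟫_ℝ) := by
    have hcs : HasCompactSupport (fun x => p x • ∇ η x) :=
      HasCompactSupport.intro hηc fun x hx => by
        rw [grad_notMem_tsupport hx, smul_zero]
    have := integrable_inner_loc (fun R => hS.l2.restrict _) (D.psm.continuous.smul cη) hcs
    refine this.congr (Eventually.of_forall fun x => ?_)
    simp only [Pi.smul_apply', inner_smul_right]
  have i4 : Integrable (fun x => ζ₀ x * ⟪∇ p x, ∇ η x⟫_ℝ) := by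
    refine (int_cc (cp.inner hζη.continuous) hηc fun x hx => ?_).congr
      (Eventually.of_forall fun x => ?_)
    · rw [grad_notMem_tsupport hx, smul_zero, inner_zero_right]
    · simp only [inner_smul_right]
  have h3 : (∫ x, η x * ⟪∇ ζ₀ x, ∇ p x⟫_ℝ) + ∫ x, p x * ⟪∇ ζ₀ x, ∇ η x⟫_ℝ = 0 := by
    rw [← integral_add i2 i3, ← h2]
    refine integral_congr_ae (Eventually.of_forall fun x => ?_)
    simp only
    rw [grad_mul (dsm hη x) (dsm D.psm x), inner_add_right, inner_smul_right, inner_smul_right]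
  have hYp : ∀ x ∈ tsupport η, ∇ ue x = ∇ p x := by
    intro x hx
    refine gradient_congr_of_eventuallyEq ?_
    filter_upwards [isOpen_thickening.mem_nhds (hηs hx)] with y hy
    exact D.near y hy
  have hpt : ∀ᵐ x, ⟪∇ ue x, κ x • ∇ ζ₀ x + ζ₀ x • ∇ κ x⟫_ℝ =
      ⟪∇ ue x, ∇ (fun x => (κ x - η x) * ζ₀ x) x⟫_ℝ +
        (η x * ⟪∇ ζ₀ x, ∇ p x⟫_ℝ + ζ₀ x * ⟪∇ p x, ∇ η x⟫_ℝ) := by
    filter_upwards [haeS] with x hx
    have e1 : ∇ (fun x => (κ x - η x) * ζ₀ x) x =
        (κ x - η x) • ∇ ζ₀ x + ζ₀ x • (∇ κ x - ∇ η x) := by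
      rw [grad_mul (f := fun x => κ x - η x) ((dsm hκ x).sub (dsm hη x)) (dζ x hx),
        grad_sub (dsm hκ x) (dsm hη x)]
    have e2 : η x * ⟪∇ ζ₀ x, ∇ p x⟫_ℝ + ζ₀ x * ⟪∇ p x, ∇ η x⟫_ℝ =
        ⟪∇ ue x, η x • ∇ ζ₀ x + ζ₀ x • ∇ η x⟫_ℝ := by
      by_cases hxs : x ∈ tsupport η
      · rw [hYp x hxs, inner_add_right, inner_smul_right, inner_smul_right, real_inner_comm]
      · rw [image_eq_zero_of_notMem_tsupport hxs, grad_notMem_tsupport hxs]; simp
    rw [e2, e1, ← inner_add_right]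
    congr 1
    module
  have i5 := i1.add (i2.add i4)
  constructor
  · exact i5.congr (hpt.mono fun x hx => hx.symm)
  · rw [integral_congr_ae hpt]
    have e5 := integral_add i1 (i2.add i4)
    have e6 := integral_add i2 i4
    simp only [Pi.add_apply] at e5
    rw [e5, e6, h1, zero_add]
    unfold Mg
    have i4' : Integrable (fun x => ζ₀ x * ⟪∇ η x, ∇ p x⟫_ℝ) := by
      refine i4.congr (Eventually.of_forall fun x => ?_)
      simp only [real_inner_comm]
    have i3' : Integrable (fun x => p x * ⟪∇ η x, ∇ ζ₀ x⟫_ℝ) := by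
      refine i3.congr (Eventually.of_forall fun x => ?_)
      simp only [real_inner_comm]
    rw [integral_sub i4' i3']
    have e7 : ∫ x, ζ₀ x * ⟪∇ η x, ∇ p x⟫_ℝ = ∫ x, ζ₀ x * ⟪∇ p x, ∇ η x⟫_ℝ := by
      simp only [real_inner_comm]
    have e8 : ∫ x, p x * ⟪∇ η x, ∇ ζ₀ x⟫_ℝ = ∫ x, p x * ⟪∇ ζ₀ x, ∇ η x⟫_ℝ := by
      simp only [real_inner_comm]
    rw [e7, e8]
    linarith

end Crest.Agent.R135.Earn
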