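import Mathlib

/-! R135 toolbox T2 + SB (helper391): connected sets and one-dimensional Hausdorff measure,
Sura–Bura clopen pieces, boundary bumping, counting unbounded components. -/

set_option autoImplicit false
open MeasureTheory Set Metric
open scoped ENNReal NNReal Topology

namespace Crest.Agent.R135

section H1conn
variable {X : Type*} [MetricSpace X] [MeasurableSpace X] [BorelSpace X]








end H1conn

section SuraBura
variable {X : Type*} [TopologicalSpace X] [T2Space X]

/-- **Sura–Bura**, set version: in a compact set `N` the component of `x` inside an open set `V`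
can be enclosed in a relatively clopen compact piece inside `V`. -/
theorem suraBura {N : Set X} (hN : IsCompact N) {x : X} (hx : x ∈ N) {V : Set X}
    (hV : IsOpen V) (hCV : connectedComponentIn N x ⊆ V) :
    ∃ K1 : Set X, IsCompact K1 ∧ IsCompact (N \ K1) ∧ x ∈ K1 ∧
      connectedComponentIn N x ⊆ K1 ∧ K1 ⊆ N ∧ K1 ⊆ V := by
  have : CompactSpace N := isCompact_iff_compactSpace.1 hN
  set x' : N := ⟨x, hx⟩
  set V' : Set N := (↑) ⁻¹' V
  have hV' : IsOpen V' := hV.preimage continuous_subtype_val
  have hcc : connectedComponentIn N x = (↑) '' connectedComponent x' := by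
    rw [connectedComponentIn_eq_image hx]
  have hsub : (⋂ s : { s : Set N // IsClopen s ∧ x' ∈ s }, (s : Set N)) ⊆ V' := by
    rw [← connectedComponent_eq_iInter_isClopen]
    intro y hy
    exact hCV (hcc ▸ ⟨y, hy, rfl⟩)
  have H1 := hV'.isClosed_compl.isCompact.inter_iInter_nonempty
      (fun s : { s : Set N // IsClopen s ∧ x' ∈ s } => (s : Set N)) fun s => s.2.1.1
  rw [← not_disjoint_iff_nonempty_inter, imp_not_comm, not_forall] at H1
  obtain ⟨si, H2⟩ := H1 (disjoint_compl_left_iff_subset.2 hsub)
  set S : Set N := ⋂ U ∈ si, Subtype.val U with hS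
  have hSclopen : IsClopen S := isClopen_biInter_finset fun s _ => s.2.1
  have hxS : x' ∈ S := mem_iInter₂.2 fun s _ => s.2.2
  have hSV : S ⊆ V' := by
    rwa [← disjoint_compl_left_iff_subset, disjoint_iff_inter_eq_empty,
        ← not_nonempty_iff_eq_empty]
  have hcS : connectedComponent x' ⊆ S := hSclopen.connectedComponent_subset hxS
  refine ⟨(↑) '' S, hSclopen.1.isCompact.image continuous_subtype_val, ?_, ⟨x', hxS, rfl⟩, ?_, ?_,
    ?_⟩
  · have : N \ ((↑) '' S) = (↑) '' Sᶜ := by
      ext y; constructor
      · rintro ⟨hy, hyS⟩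
        exact ⟨⟨y, hy⟩, fun h => hyS ⟨_, h, rfl⟩, rfl⟩
      · rintro ⟨z, hz, rfl⟩
        refine ⟨z.2, ?_⟩
        rintro ⟨w, hw, hwz⟩
        exact hz (Subtype.val_injective hwz ▸ hw)
    rw [this]
    exact hSclopen.compl.1.isCompact.image continuous_subtype_val
  · rw [hcc]; exact image_mono hcS
  · rintro _ ⟨z, -, rfl⟩; exact z.2
  · rintro _ ⟨z, hz, rfl⟩; exact hSV hz

end SuraBura

section Comp
variable {X : Type*} [TopologicalSpace X]



end Comp

section Bumping
variable {X : Type*} [MetricSpace X]

/-- **Boundary bumping / clopen piece alternative.** If `K ∩ closedBall x r` is compact and the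
component of `x` in it misses the sphere, then `x` lies in a compact piece `K1` of `K` inside the
open ball, at positive distance from the rest of `K`. -/
theorem exists_clopen_piece {K : Set X} {x : X} {r : ℝ} (hK : IsCompact (K ∩ closedBall x r))
    (hx : x ∈ K) {V : Set X} (hV : IsOpen V)
    (hCV : connectedComponentIn (K ∩ closedBall x r) x ⊆ V ∩ ball x r) (hr : 0 ≤ r) :
    ∃ K1 : Set X, IsCompact K1 ∧ x ∈ K1 ∧ K1 ⊆ K ∧ K1 ⊆ V ∧ K1 ⊆ ball x r ∧
      connectedComponentIn (K ∩ closedBall x r) x ⊆ K1 ∧
      Disjoint K1 (closure (K \ K1)) := by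
  obtain ⟨K1, h1, h2, h3, h4, h5, h6⟩ := suraBura hK (x := x) ⟨hx, mem_closedBall_self hr⟩
    (hV.inter isOpen_ball) hCV
  refine ⟨K1, h1, h3, h5.trans inter_subset_left, h6.trans inter_subset_left,
    h6.trans inter_subset_right, h4, ?_⟩
  have hsub : K \ K1 ⊆ (K ∩ closedBall x r) \ K1 ∪ (ball x r)ᶜ := by
    rintro y ⟨hy, hy1⟩
    by_cases hyr : y ∈ closedBall x r
    · exact Or.inl ⟨⟨hy, hyr⟩, hy1⟩
    · exact Or.inr fun h => hyr (ball_subset_closedBall h)
  have hcl : closure (K \ K1) ⊆ (K ∩ closedBall x r) \ K1 ∪ (ball x r)ᶜ :=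
    closure_minimal hsub (h2.isClosed.union isOpen_ball.isClosed_compl)
  rw [Set.disjoint_left]
  intro y hy hy'
  rcases hcl hy' with h | h
  · exact h.2 hy
  · exact h (h6 hy).2




/-- For a closed set in a proper space: a bounded component lies in arbitrarily small compact
clopen pieces. -/
theorem exists_clopen_piece_of_bounded [ProperSpace X] {K : Set X} (hK : IsClosed K) {x : X}
    (hx : x ∈ K) (hb : Bornology.IsBounded (connectedComponentIn K x)) {V : Set X}
    (hV : IsOpen V) (hCV : connectedComponentIn K x ⊆ V) :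
    ∃ K1 : Set X, IsCompact K1 ∧ x ∈ K1 ∧ K1 ⊆ K ∧ K1 ⊆ V ∧ connectedComponentIn K x ⊆ K1 ∧
      Disjoint K1 (closure (K \ K1)) := by
  obtain ⟨r, hr⟩ := hb.subset_ball x
  have hxr : x ∈ ball x r := hr (mem_connectedComponentIn hx)
  have hr0 : 0 < r := by simpa using hxr
  have hcomp : IsCompact (K ∩ closedBall x r) := (isCompact_closedBall x r).inter_left hK
  have hxN : x ∈ K ∩ closedBall x r := ⟨hx, mem_closedBall_self hr0.le⟩
  have hle : connectedComponentIn K x ⊆ connectedComponentIn (K ∩ closedBall x r) x :=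
    isPreconnected_connectedComponentIn.subset_connectedComponentIn
      (mem_connectedComponentIn hx)
      (subset_inter (connectedComponentIn_subset _ _) (hr.trans ball_subset_closedBall))
  have hge : connectedComponentIn (K ∩ closedBall x r) x ⊆ connectedComponentIn K x :=
    isPreconnected_connectedComponentIn.subset_connectedComponentIn
      (mem_connectedComponentIn hxN)
      ((connectedComponentIn_subset _ _).trans inter_subset_left)
  obtain ⟨K1, h1, h2, h3, h4, -, h6, h7⟩ := exists_clopen_piece hcomp hx hV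
    (subset_inter (hge.trans hCV) (hge.trans hr)) hr0.le
  exact ⟨K1, h1, h2, h3, h4, hle.trans h6, h7⟩

/-- If a closed set has no compact clopen piece, all its components are unbounded. -/
theorem component_unbounded [ProperSpace X] {K : Set X} (hK : IsClosed K)
    (hno : ∀ K1 : Set X, IsCompact K1 → K1.Nonempty → K1 ⊆ K → ¬ Disjoint K1 (closure (K \ K1)))
    {x : X} (hx : x ∈ K) : ¬ Bornology.IsBounded (connectedComponentIn K x) := by
  intro hb
  obtain ⟨K1, h1, h2, h3, -, -, h6⟩ := exists_clopen_piece_of_bounded hK hx hb isOpen_univ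
    (subset_univ _)
  exact hno K1 h1 ⟨x, h2⟩ h3 h6

end Bumping

section Count
variable {X : Type*} [MetricSpace X] [MeasurableSpace X] [BorelSpace X]


end Count

end Crest.Agent.R135
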