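import Mathlib
import Crest.Agent.R135.Core
import Crest.Agent.R135.TopConn

-- ▼ part R135/EpsGeo1
section

/-!
# R135, block EPS (helper983): geometry of lines and propellers, closeness between scales
-/

set_option autoImplicit false

open Set Filter Topology Metric

namespace Crest.Agent.R135

/-- straight line through `x` with direction `dir θ` -/
def lineAt (x : E2) (θ : ℝ) : Set E2 := ray x (dir θ) ∪ ray x (-dir θ)

/-- propeller with centre `x` -/
def propAt (x : E2) (θ : ℝ) : Set E2 :=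
  ray x (dir θ) ∪ ray x (dir (θ + 2 * Real.pi / 3)) ∪ ray x (dir (θ - 2 * Real.pi / 3))

/-- lines and propellers -/
def IsModel (Y : Set E2) : Prop := (∃ x θ, Y = lineAt x θ) ∨ ∃ x θ, Y = propAt x θ


lemma mem_ray {x e y : E2} : y ∈ ray x e ↔ ∃ s : ℝ, 0 ≤ s ∧ y = x + s • e := Iff.rfl


lemma self_mem_ray (x e : E2) : x ∈ ray x e := ⟨0, le_rfl, by simp⟩


lemma self_mem_propAt (x : E2) (θ : ℝ) : x ∈ propAt x θ := Or.inl (Or.inl (self_mem_ray _ _))

lemma mem_lineAt {x y : E2} {θ : ℝ} : y ∈ lineAt x θ ↔ ∃ s : ℝ, y = x + s • dir θ := by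
  constructor
  · rintro (⟨s, hs, rfl⟩ | ⟨s, hs, rfl⟩)
    · exact ⟨s, rfl⟩
    · exact ⟨-s, by simp⟩
  · rintro ⟨s, rfl⟩
    rcases le_total 0 s with h | h
    · exact Or.inl ⟨s, h, rfl⟩
    · exact Or.inr ⟨-s, by linarith, by simp⟩

/-- the three directions of a propeller -/
noncomputable def arm (θ : ℝ) (k : Fin 3) : ℝ :=
  θ + (k : ℕ) * (2 * Real.pi / 3)

lemma dir_sub_two_thirds (θ : ℝ) : dir (θ - 2 * Real.pi / 3) = dir (arm θ 2) := by
  have : arm θ 2 = (θ - 2 * Real.pi / 3) + 2 * Real.pi := by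
    simp only [arm]; norm_num; ring
  rw [this]
  apply ext_E2 <;> simp

lemma mem_propAt {x y : E2} {θ : ℝ} :
    y ∈ propAt x θ ↔ ∃ k : Fin 3, ∃ s : ℝ, 0 ≤ s ∧ y = x + s • dir (arm θ k) := by
  rw [propAt, dir_sub_two_thirds]
  have h0 : arm θ 0 = θ := by simp [arm]
  have h1 : arm θ 1 = θ + 2 * Real.pi / 3 := by simp only [arm]; norm_num
  constructor
  · rintro ((⟨s, hs, rfl⟩ | ⟨s, hs, rfl⟩) | ⟨s, hs, rfl⟩)
    · exact ⟨0, s, hs, by rw [h0]⟩
    · exact ⟨1, s, hs, by rw [h1]⟩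
    · exact ⟨2, s, hs, rfl⟩
  · rintro ⟨k, s, hs, rfl⟩
    fin_cases k
    · left; left; exact ⟨s, hs, by simp [h0]⟩
    · left; right; exact ⟨s, hs, by simp [h1]⟩
    · right; exact ⟨s, hs, rfl⟩

lemma cos_two_pi_div_three : Real.cos (2 * Real.pi / 3) = -1 / 2 := by
  have : (2 * Real.pi / 3) = Real.pi - Real.pi / 3 := by ring
  rw [this, Real.cos_pi_sub, Real.cos_pi_div_three]; norm_num

lemma sin_two_pi_div_three : Real.sin (2 * Real.pi / 3) = Real.sqrt 3 / 2 := by
  have : (2 * Real.pi / 3) = Real.pi - Real.pi / 3 := by ring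
  rw [this, Real.sin_pi_sub, Real.sin_pi_div_three]

lemma cos_four_pi_div_three : Real.cos (4 * Real.pi / 3) = -1 / 2 := by
  have : (4 * Real.pi / 3) = Real.pi / 3 + Real.pi := by ring
  rw [this, Real.cos_add_pi, Real.cos_pi_div_three]; norm_num

lemma sin_four_pi_div_three : Real.sin (4 * Real.pi / 3) = -(Real.sqrt 3 / 2) := by
  have : (4 * Real.pi / 3) = Real.pi / 3 + Real.pi := by ring
  rw [this, Real.sin_add_pi, Real.sin_pi_div_three]

/-- inner product of two different arms -/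
lemma inner_arm (θ : ℝ) {j k : Fin 3} (h : j ≠ k) :
    inner ℝ (dir (arm θ j)) (dir (arm θ k)) = -1 / 2 := by
  rw [inner_dir_dir]
  have e : ∀ a b : ℝ, arm θ j - arm θ k = (j : ℕ) * (2 * Real.pi / 3) - (k : ℕ) * (2 * Real.pi / 3) := by
    intro _ _; simp [arm]
  rw [e 0 0]
  fin_cases j <;> fin_cases k <;> simp at h ⊢
  · rw [← cos_two_pi_div_three]
  · rw [show 2 * (2 * Real.pi / 3) = 4 * Real.pi / 3 by ring, cos_four_pi_div_three]
  · exact cos_two_pi_div_three
  · rw [show 2 * Real.pi / 3 - 2 * (2 * Real.pi / 3) = -(2 * Real.pi / 3) by ring, Real.cos_neg,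
      cos_two_pi_div_three]
  · rw [show 2 * (2 * Real.pi / 3) = 4 * Real.pi / 3 by ring, cos_four_pi_div_three]
  · rw [show 2 * (2 * Real.pi / 3) - 2 * Real.pi / 3 = (2 * Real.pi / 3) by ring,
      cos_two_pi_div_three]

/-- among the three arms, one has a component of size `≥ 1/√2` along any unit vector -/
lemma exists_arm_inner_sq_ge (θ φ : ℝ) :
    ∃ k : Fin 3, 1 / 2 ≤ (inner ℝ (dir (arm θ k)) (tau φ)) ^ 2 := by
  have h0 : arm θ 0 = θ := by simp [arm]
  have h1 : arm θ 1 = θ + 2 * Real.pi / 3 := by simp only [arm]; norm_num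
  have h2 : arm θ 2 = θ + 4 * Real.pi / 3 := by simp only [arm]; norm_num; ring
  by_contra hcon
  push Not at hcon
  have a0 := hcon 0
  have a1 := hcon 1
  have a2 := hcon 2
  rw [h0] at a0
  rw [h1] at a1
  rw [h2] at a2
  simp only [inner_E2, dir_zero, dir_one, tau_zero, tau_one] at a0 a1 a2
  rw [Real.cos_add, Real.sin_add, cos_two_pi_div_three, sin_two_pi_div_three] at a1
  rw [Real.cos_add, Real.sin_add, cos_four_pi_div_three, sin_four_pi_div_three] at a2
  have s3 : Real.sqrt 3 ^ 2 = 3 := Real.sq_sqrt (by norm_num)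
  have p1 := Real.sin_sq_add_cos_sq θ
  have p2 := Real.sin_sq_add_cos_sq φ
  set c := Real.cos θ
  set s := Real.sin θ
  set C := Real.cos φ
  set S := Real.sin φ
  set q := Real.sqrt 3
  have key : (c * -S + s * C) ^ 2
      + ((c * (-1 / 2) - s * (q / 2)) * -S + (s * (-1 / 2) + c * (q / 2)) * C) ^ 2
      + ((c * (-1 / 2) - s * (-(q / 2))) * -S + (s * (-1 / 2) + c * (-(q / 2))) * C) ^ 2 = 3 / 2 := by
    have : (c * -S + s * C) ^ 2
      + ((c * (-1 / 2) - s * (q / 2)) * -S + (s * (-1 / 2) + c * (q / 2)) * C) ^ 2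
      + ((c * (-1 / 2) - s * (-(q / 2))) * -S + (s * (-1 / 2) + c * (-(q / 2))) * C) ^ 2
      = 3 / 2 * (c * S - s * C) ^ 2 + q ^ 2 / 2 * (s * S + c * C) ^ 2 := by ring
    rw [this, s3]
    have : 3 / 2 * (c * S - s * C) ^ 2 + 3 / 2 * (s * S + c * C) ^ 2
      = 3 / 2 * ((s ^ 2 + c ^ 2) * (S ^ 2 + C ^ 2)) := by ring
    rw [this, p1, p2]; norm_num
  linarith

/-- squared distance between two arm points -/
lemma dist_sq_arm (x : E2) (θ : ℝ) {j k : Fin 3} (h : j ≠ k) (s t : ℝ) :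
    dist (x + s • dir (arm θ j)) (x + t • dir (arm θ k)) ^ 2 = s ^ 2 + t ^ 2 + s * t := by
  rw [dist_eq_norm, add_sub_add_left_eq_sub, @norm_sub_sq ℝ]
  rw [norm_smul, norm_smul, norm_dir, norm_dir, inner_smul_left, inner_smul_right, inner_arm θ h]
  simp
  ring

lemma dist_arm_same (x : E2) (φ : ℝ) (s t : ℝ) :
    dist (x + s • dir φ) (x + t • dir φ) = |s - t| := by
  rw [dist_eq_norm, add_sub_add_left_eq_sub, ← sub_smul, norm_smul, norm_dir, mul_one,
    Real.norm_eq_abs]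

/-- distance of a point of another arm, or of the opposite ray, to an arm point -/
lemma le_dist_arm (x : E2) (θ : ℝ) {j k : Fin 3} (h : j ≠ k) {s t : ℝ} (hs : 0 ≤ s) (ht : 0 ≤ t) :
    s ≤ dist (x + s • dir (arm θ j)) (x + t • dir (arm θ k)) := by
  have h1 := dist_sq_arm x θ h s t
  have h2 := dist_nonneg (x := x + s • dir (arm θ j)) (y := x + t • dir (arm θ k))
  nlinarith [mul_nonneg hs ht, sq_nonneg t]

/-! ### Midpoint property of the model sets -/

lemma midpoint_line {x a b : E2} {θ : ℝ} (ha : a ∈ lineAt x θ) (hb : b ∈ lineAt x θ) :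
    ∃ m ∈ lineAt x θ, dist a m ≤ 29 / 50 * dist a b ∧ dist m b ≤ 29 / 50 * dist a b := by
  rw [mem_lineAt] at ha hb
  obtain ⟨s, rfl⟩ := ha
  obtain ⟨t, rfl⟩ := hb
  refine ⟨x + ((s + t) / 2) • dir θ, mem_lineAt.2 ⟨_, rfl⟩, ?_, ?_⟩
  · rw [dist_arm_same, dist_arm_same, show s - (s + t) / 2 = (s - t) / 2 by ring, abs_div, abs_two]
    have := abs_nonneg (s - t)
    linarith
  · rw [dist_arm_same, dist_arm_same, show (s + t) / 2 - t = (s - t) / 2 by ring, abs_div, abs_two]
    have := abs_nonneg (s - t)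
    linarith

lemma midpoint_prop_aux (x : E2) (θ : ℝ) {j k : Fin 3} (h : j ≠ k) {s t : ℝ} (ht : 0 ≤ t)
    (hst : t ≤ s) :
    ∃ m ∈ propAt x θ, dist (x + s • dir (arm θ j)) m ≤
        29 / 50 * dist (x + s • dir (arm θ j)) (x + t • dir (arm θ k)) ∧
      dist m (x + t • dir (arm θ k)) ≤
        29 / 50 * dist (x + s • dir (arm θ j)) (x + t • dir (arm θ k)) := by
  have h1 := dist_sq_arm x θ h s t
  set d := dist (x + s • dir (arm θ j)) (x + t • dir (arm θ k)) with hd
  have hd0 : 0 ≤ d := dist_nonneg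
  have hkey : (s + t) / 2 ≤ 29 / 50 * d := by
    have h3 : ((s + t) / 2) ^ 2 ≤ (29 / 50 * d) ^ 2 := by
      rw [mul_pow, h1]; nlinarith [sq_nonneg (s - t), mul_nonneg ht (ht.trans hst)]
    exact (abs_le_of_sq_le_sq' h3 (by positivity)).2
  refine ⟨x + ((s - t) / 2) • dir (arm θ j), mem_propAt.2 ⟨j, _, by linarith, rfl⟩, ?_, ?_⟩
  · rw [dist_arm_same, show s - (s - t) / 2 = (s + t) / 2 by ring, abs_of_nonneg (by linarith)]
    exact hkey
  · have h2 := dist_sq_arm x θ h ((s - t) / 2) t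
    have h4 : dist (x + ((s - t) / 2) • dir (arm θ j)) (x + t • dir (arm θ k)) ≤ (s + t) / 2 := by
      apply abs_le_of_sq_le_sq' _ (by linarith) |>.2
      rw [h2]; nlinarith [mul_nonneg ht (sub_nonneg.2 hst)]
    exact h4.trans hkey

lemma midpoint_prop {x a b : E2} {θ : ℝ} (ha : a ∈ propAt x θ) (hb : b ∈ propAt x θ) :
    ∃ m ∈ propAt x θ, dist a m ≤ 29 / 50 * dist a b ∧ dist m b ≤ 29 / 50 * dist a b := by
  rw [mem_propAt] at ha hb
  obtain ⟨j, s, hs, rfl⟩ := ha
  obtain ⟨k, t, ht, rfl⟩ := hb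
  by_cases hjk : j = k
  · subst hjk
    refine ⟨x + ((s + t) / 2) • dir (arm θ j), mem_propAt.2 ⟨j, _, by linarith, rfl⟩, ?_, ?_⟩
    · rw [dist_arm_same, dist_arm_same, show s - (s + t) / 2 = (s - t) / 2 by ring, abs_div, abs_two]
      have := abs_nonneg (s - t)
      linarith
    · rw [dist_arm_same, dist_arm_same, show (s + t) / 2 - t = (s - t) / 2 by ring, abs_div, abs_two]
      have := abs_nonneg (s - t)
      linarith
  · rcases le_total t s with hts | hts
    · exact midpoint_prop_aux x θ hjk ht hts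
    · obtain ⟨m, hm, h1, h2⟩ := midpoint_prop_aux x θ (Ne.symm hjk) hs hts
      refine ⟨m, hm, ?_, ?_⟩
      · rw [dist_comm _ m, dist_comm (x + s • dir (arm θ j))]; exact h2
      · rw [dist_comm m, dist_comm (x + s • dir (arm θ j))]; exact h1

/-- midpoint property of a line or a propeller -/
theorem IsModel.midpoint {Y : Set E2} (hY : IsModel Y) {a b : E2} (ha : a ∈ Y) (hb : b ∈ Y) :
    ∃ m ∈ Y, dist a m ≤ 29 / 50 * dist a b ∧ dist m b ≤ 29 / 50 * dist a b := by
  rcases hY with ⟨x, θ, rfl⟩ | ⟨x, θ, rfl⟩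
  · exact midpoint_line ha hb
  · exact midpoint_prop ha hb

/-! ### Basic properties of `HClose` -/

lemma HClose.mono_eps {ε ε' : ℝ} {x : E2} {R : ℝ} {K K' : Set E2} (h : HClose ε x R K K')
    (hε : ε ≤ ε') : HClose ε' x R K K' :=
  ⟨fun y hy => let ⟨z, hz, hd⟩ := h.1 y hy; ⟨z, hz, hd.trans_le hε⟩,
    fun y hy => let ⟨z, hz, hd⟩ := h.2 y hy; ⟨z, hz, hd.trans_le hε⟩⟩

lemma HClose.mono_ball {ε : ℝ} {x x' : E2} {R R' : ℝ} {K K' : Set E2} (h : HClose ε x R K K')
    (hb : ball x' R' ⊆ ball x R) : HClose ε x' R' K K' :=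
  ⟨fun y hy => h.1 y ⟨hy.1, hb hy.2⟩, fun y hy => h.2 y ⟨hy.1, hb hy.2⟩⟩

lemma HClose.mono_ball' {ε ε' : ℝ} {x x' : E2} {R R' : ℝ} {K K' : Set E2} (h : HClose ε x R K K')
    (hε : ε ≤ ε') (hb : dist x' x + R' ≤ R) : HClose ε' x' R' K K' := by
  apply (h.mono_eps hε).mono_ball
  intro z hz
  rw [mem_ball] at hz ⊢
  have := dist_triangle z x' x
  linarith

lemma HClose.swap {ε : ℝ} {x : E2} {R : ℝ} {K K' : Set E2} (h : HClose ε x R K K') :
    HClose ε x R K' K := ⟨h.2, h.1⟩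

/-- transitivity with loss of radius -/
lemma HClose.trans {ε ε' : ℝ} {x : E2} {R : ℝ} {Y K Y' : Set E2} (h : HClose ε x R Y K)
    (h' : HClose ε' x R K Y') (hε : 0 ≤ ε) (_hε' : 0 ≤ ε') :
    HClose (ε + ε') x (R - max ε ε') Y Y' := by
  have m1 := le_max_left ε ε'
  have m2 := le_max_right ε ε'
  constructor
  · rintro y ⟨hy, hyb⟩
    rw [mem_ball] at hyb
    obtain ⟨z, hz, hd⟩ := h.1 y ⟨hy, by rw [mem_ball]; linarith⟩
    obtain ⟨w, hw, hd'⟩ := h'.1 z ⟨hz, by
      rw [mem_ball]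
      have h1 := dist_triangle z y x
      rw [dist_comm z y] at h1
      linarith⟩
    exact ⟨w, hw, by have := dist_triangle y z w; linarith⟩
  · rintro y ⟨hy, hyb⟩
    rw [mem_ball] at hyb
    obtain ⟨z, hz, hd⟩ := h'.2 y ⟨hy, by rw [mem_ball]; linarith⟩
    obtain ⟨w, hw, hd'⟩ := h.2 z ⟨hz, by
      rw [mem_ball]
      have h1 := dist_triangle z y x
      rw [dist_comm z y] at h1
      linarith⟩
    exact ⟨w, hw, by have := dist_triangle y z w; linarith⟩

/-- moving the base point of a line -/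
lemma lineAt_translate {x x' y : E2} {θ : ℝ} (hy : y ∈ lineAt x θ) :
    ∃ z ∈ lineAt x' θ, dist y z ≤ dist x x' := by
  rw [mem_lineAt] at hy
  obtain ⟨s, rfl⟩ := hy
  exact ⟨x' + s • dir θ, mem_lineAt.2 ⟨s, rfl⟩, by rw [dist_add_right]⟩

lemma propAt_translate {x x' y : E2} {θ : ℝ} (hy : y ∈ propAt x θ) :
    ∃ z ∈ propAt x' θ, dist y z ≤ dist x x' := by
  rw [mem_propAt] at hy
  obtain ⟨k, s, hs, rfl⟩ := hy
  exact ⟨x' + s • dir (arm θ k), mem_propAt.2 ⟨k, s, hs, rfl⟩, by rw [dist_add_right]⟩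

/-- the line `lineAt x θ` is unchanged when the base point moves along it -/
lemma lineAt_eq_of_mem {x y : E2} {θ : ℝ} (hy : y ∈ lineAt x θ) : lineAt y θ = lineAt x θ := by
  rw [mem_lineAt] at hy
  obtain ⟨s, rfl⟩ := hy
  ext z
  rw [mem_lineAt, mem_lineAt]
  constructor
  · rintro ⟨t, rfl⟩; exact ⟨s + t, by module⟩
  · rintro ⟨t, rfl⟩; exact ⟨t - s, by module⟩

/-- moving the centre of the model set in a closeness statement -/
lemma HClose.line_move {ε : ℝ} {y x x' : E2} {R : ℝ} {K : Set E2} {θ : ℝ}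
    (h : HClose ε y R K (lineAt x θ)) {t : ℝ} (ht : dist x x' ≤ t) :
    HClose (ε + t) y (R - t) K (lineAt x' θ) := by
  have ht0 : 0 ≤ t := dist_nonneg.trans ht
  constructor
  · rintro z ⟨hz, hzb⟩
    rw [mem_ball] at hzb
    obtain ⟨w, hw, hd⟩ := h.1 z ⟨hz, by rw [mem_ball]; linarith⟩
    obtain ⟨w', hw', hd'⟩ := lineAt_translate (x' := x') hw
    exact ⟨w', hw', by have := dist_triangle z w w'; linarith⟩
  · rintro z ⟨hz, hzb⟩
    rw [mem_ball] at hzb
    obtain ⟨w, hw, hd⟩ := lineAt_translate (x' := x) hz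
    obtain ⟨w', hw', hd'⟩ := h.2 w ⟨hw, by
      rw [mem_ball]
      have := dist_triangle w z y
      rw [dist_comm w z] at this
      rw [dist_comm x' x] at hd
      linarith⟩
    rw [dist_comm x' x] at hd
    exact ⟨w', hw', by have := dist_triangle z w w'; linarith⟩

lemma HClose.prop_move {ε : ℝ} {y x x' : E2} {R : ℝ} {K : Set E2} {θ : ℝ}
    (h : HClose ε y R K (propAt x θ)) {t : ℝ} (ht : dist x x' ≤ t) :
    HClose (ε + t) y (R - t) K (propAt x' θ) := by
  have ht0 : 0 ≤ t := dist_nonneg.trans ht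
  constructor
  · rintro z ⟨hz, hzb⟩
    rw [mem_ball] at hzb
    obtain ⟨w, hw, hd⟩ := h.1 z ⟨hz, by rw [mem_ball]; linarith⟩
    obtain ⟨w', hw', hd'⟩ := propAt_translate (x' := x') hw
    exact ⟨w', hw', by have := dist_triangle z w w'; linarith⟩
  · rintro z ⟨hz, hzb⟩
    rw [mem_ball] at hzb
    obtain ⟨w, hw, hd⟩ := propAt_translate (x' := x) hz
    obtain ⟨w', hw', hd'⟩ := h.2 w ⟨hw, by
      rw [mem_ball]
      have := dist_triangle w z y
      rw [dist_comm w z] at this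
      rw [dist_comm x' x] at hd
      linarith⟩
    rw [dist_comm x' x] at hd
    exact ⟨w', hw', by have := dist_triangle z w w'; linarith⟩

/-! ### A propeller is not close to a line -/

lemma inner_tau_of_mem_lineAt {p z : E2} {φ : ℝ} (hz : z ∈ lineAt p φ) :
    inner ℝ (z - p) (tau φ) = 0 := by
  rw [mem_lineAt] at hz
  obtain ⟨s, rfl⟩ := hz
  rw [add_sub_cancel_left, inner_smul_left, inner_dir_tau]; simp

lemma abs_inner_tau_lt_of_near {p z z' : E2} {φ δ : ℝ} (hz' : z' ∈ lineAt p φ)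
    (hd : dist z z' < δ) : |inner ℝ (z - p) (tau φ)| < δ := by
  have h1 : (inner ℝ (z - p) (tau φ) : ℝ) = inner ℝ (z - z') (tau φ) := by
    have : z - p = (z - z') + (z' - p) := by abel
    rw [this, inner_add_left, inner_tau_of_mem_lineAt hz', add_zero]
  rw [h1]
  calc |(inner ℝ (z - z') (tau φ) : ℝ)| ≤ ‖z - z'‖ * ‖tau φ‖ := abs_real_inner_le_norm _ _
    _ = dist z z' := by rw [norm_tau, mul_one, dist_eq_norm]
    _ < δ := hd

/-- If the centre `c` and the three points at distance `s` on the arms are `δ`-close to a line,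
then `s < 3 δ`. -/
theorem not_propAt_near_line {c p : E2} {θ φ s δ : ℝ}
    (hc : ∃ z' ∈ lineAt p φ, dist c z' < δ)
    (h : ∀ k : Fin 3, ∃ z' ∈ lineAt p φ, dist (c + s • dir (arm θ k)) z' < δ) : s < 3 * δ := by
  obtain ⟨k, hk⟩ := exists_arm_inner_sq_ge θ φ
  obtain ⟨z0, hz0, hd0⟩ := hc
  obtain ⟨z1, hz1, hd1⟩ := h k
  have e0 := abs_inner_tau_lt_of_near hz0 hd0
  have e1 := abs_inner_tau_lt_of_near hz1 hd1
  have e2 : (inner ℝ (c + s • dir (arm θ k) - p) (tau φ) : ℝ)
      = inner ℝ (c - p) (tau φ) + s * inner ℝ (dir (arm θ k)) (tau φ) := by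
    rw [show c + s • dir (arm θ k) - p = (c - p) + s • dir (arm θ k) by abel, inner_add_left,
      inner_smul_left]
    simp
  rw [e2] at e1
  set u := (inner ℝ (c - p) (tau φ) : ℝ)
  set w := (inner ℝ (dir (arm θ k)) (tau φ) : ℝ)
  have hδ : 0 < δ := (abs_nonneg _).trans_lt e0
  have e3 : |s * w| < 2 * δ := by
    have : s * w = (u + s * w) - u := by ring
    rw [this]
    exact (abs_sub _ _).trans_lt (by linarith)
  by_contra hcon
  push Not at hcon
  have e4 : (s * w) ^ 2 < (2 * δ) ^ 2 := by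
    rw [sq_lt_sq, abs_of_pos (by linarith : (0:ℝ) < 2 * δ)]; exact e3
  rw [mul_pow] at e4
  have e5 : (3 * δ) ^ 2 ≤ s ^ 2 := pow_le_pow_left₀ (by positivity) hcon 2
  nlinarith [sq_nonneg s, mul_le_mul e5 hk (by norm_num) (sq_nonneg s)]

/-- Far from its centre, and near one of its points, a propeller is a line. -/
theorem propAt_far {c y q : E2} {θ δ t R' : ℝ} (hq : q ∈ propAt c θ) (hyq : dist y q ≤ δ)
    (hcy : t ≤ dist c y) (hR : R' ≤ t - 2 * δ) :
    ∃ φ, ∀ z ∈ ball y R', z ∈ propAt c θ ↔ z ∈ lineAt c φ := by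
  rw [mem_propAt] at hq
  obtain ⟨i, s, hs, rfl⟩ := hq
  refine ⟨arm θ i, fun z hz => ?_⟩
  rw [mem_ball] at hz
  have hcq : dist c (c + s • dir (arm θ i)) = s := by
    rw [dist_self_add_right, norm_smul, norm_dir, mul_one, Real.norm_eq_abs, abs_of_nonneg hs]
  have hs' : t - δ ≤ s := by
    have := dist_triangle c (c + s • dir (arm θ i)) y
    rw [dist_comm (c + s • dir (arm θ i)) y] at this
    linarith
  have hzq : dist z (c + s • dir (arm θ i)) < R' + δ := by
    have := dist_triangle z y (c + s • dir (arm θ i))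
    linarith
  constructor
  · intro hzp
    rw [mem_propAt] at hzp
    obtain ⟨j, r, hr, rfl⟩ := hzp
    by_cases hij : i = j
    · subst hij; exact mem_lineAt.2 ⟨r, rfl⟩
    · exfalso
      have := le_dist_arm c θ hij hs hr
      rw [dist_comm] at this
      linarith
  · intro hzl
    rw [mem_lineAt] at hzl
    obtain ⟨r, rfl⟩ := hzl
    rcases le_total 0 r with hr | hr
    · exact mem_propAt.2 ⟨i, r, hr, rfl⟩
    · exfalso
      rw [dist_arm_same, abs_sub_comm, abs_of_nonneg (by linarith)] at hzq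
      linarith

/-- Two propellers close to each other in a ball around the centre of the first have close
centres. -/
theorem propAt_center_close {c c' y : E2} {θ θ' ρ s δ : ℝ} (hδ : 0 < δ) (hcs : dist c y + s ≤ ρ)
    (hs : 3 * δ < s)
    (h : ∀ z ∈ propAt c θ ∩ ball y ρ, ∃ z' ∈ propAt c' θ', dist z z' < δ) :
    dist c c' ≤ 6 * δ := by
  by_contra hcon
  push Not at hcon
  have hcb : c ∈ ball y ρ := by rw [mem_ball]; linarith
  obtain ⟨q, hq, hcq⟩ := h c ⟨self_mem_propAt _ _, hcb⟩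
  obtain ⟨φ, hφ⟩ := propAt_far (y := c) (t := dist c' c) (δ := δ) (R' := dist c' c - 2 * δ) hq
    hcq.le le_rfl le_rfl
  rw [dist_comm c' c] at hφ
  -- choose s'
  set s' := min ((s + 3 * δ) / 2) (dist c c' - 3 * δ) with hs'
  have h1 : 3 * δ ≤ s' := by
    rw [hs', le_min_iff]; constructor <;> linarith
  have h2 : s' < s := (min_le_left _ _).trans_lt (by linarith)
  have h3 : s' + δ ≤ dist c c' - 2 * δ := by
    have := min_le_right ((s + 3 * δ) / 2) (dist c c' - 3 * δ)
    linarith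
  have hs0 : 0 ≤ s' := by linarith
  have := not_propAt_near_line (c := c) (p := c') (θ := θ) (φ := φ) (s := s') (δ := δ)
    ⟨q, (hφ q (by rw [mem_ball, dist_comm]; linarith)).1 hq, hcq⟩ (by
      intro k
      obtain ⟨z', hz', hd⟩ := h (c + s' • dir (arm θ k)) ⟨mem_propAt.2 ⟨k, s', hs0, rfl⟩, by
        rw [mem_ball]
        have e1 := dist_triangle (c + s' • dir (arm θ k)) c y
        have e2 : dist (c + s' • dir (arm θ k)) c = s' := by
          rw [dist_comm, dist_self_add_right, norm_smul, norm_dir, mul_one, Real.norm_eq_abs,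
            abs_of_nonneg hs0]
        linarith⟩
      refine ⟨z', (hφ z' ?_).1 hz', hd⟩
      rw [mem_ball]
      have e1 := dist_triangle z' (c + s' • dir (arm θ k)) c
      have e2 : dist (c + s' • dir (arm θ k)) c = s' := by
        rw [dist_comm, dist_self_add_right, norm_smul, norm_dir, mul_one, Real.norm_eq_abs,
          abs_of_nonneg hs0]
      rw [dist_comm z' (c + s' • dir (arm θ k))] at e1
      linarith)
  linarith

/-- midpoint property of a set close to a model at scale `2 |a - b|` -/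
theorem HClose.midpoint {K Y : Set E2} (hY : IsModel Y) {a b : E2} (ha : a ∈ K) (hb : b ∈ K)
    (hab : 0 < dist a b) (h : HClose (dist a b / 50) a (2 * dist a b) K Y) :
    ∃ c ∈ K, dist a c ≤ 13 / 20 * dist a b ∧ dist c b ≤ 13 / 20 * dist a b := by
  set d := dist a b with hd
  obtain ⟨a', ha', hda⟩ := h.1 a ⟨ha, mem_ball_self (by linarith)⟩
  obtain ⟨b', hb', hdb⟩ := h.1 b ⟨hb, by rw [mem_ball, dist_comm]; linarith⟩
  obtain ⟨m, hm, h1, h2⟩ := hY.midpoint ha' hb'
  have hab' : dist a' b' ≤ d + d / 50 + d / 50 := by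
    have e1 := dist_triangle a' a b'
    have e2 := dist_triangle a b b'
    rw [dist_comm a' a] at e1
    linarith
  have ham : dist a m ≤ d / 50 + 29 / 50 * (d + d / 50 + d / 50) := by
    have e1 := dist_triangle a a' m
    linarith
  have hbm : dist m b ≤ d / 50 + 29 / 50 * (d + d / 50 + d / 50) := by
    have e1 := dist_triangle m b' b
    rw [dist_comm b' b] at e1
    linarith
  obtain ⟨c, hc, hmc⟩ := h.2 m ⟨hm, by rw [mem_ball, dist_comm]; linarith⟩
  refine ⟨c, hc, ?_, ?_⟩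
  · have e1 := dist_triangle a m c
    linarith
  · have e1 := dist_triangle c m b
    rw [dist_comm c m] at e1
    linarith

end Crest.Agent.R135
end

-- ▼ part R135/EpsConn
section

/-!
# R135, block EPS (helper983): connectedness from the midpoint property (step (2.6))
-/

set_option autoImplicit false

open Set Filter Topology Metric

namespace Crest.Agent.R135

section Mid

variable {X : Type*} [MetricSpace X]

/-- Separation of two points of a compact set lying in different components. -/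
theorem exists_separation_of_not_mem_component {N : Set X} (hN : IsCompact N) {a b : X}
    (ha : a ∈ N) (hb : b ∈ N) (hab : b ∉ connectedComponentIn N a) :
    ∃ A B : Set X, IsCompact A ∧ IsCompact B ∧ a ∈ A ∧ b ∈ B ∧ Disjoint A B ∧ A ∪ B = N := by
  have hV : IsOpen ({b}ᶜ : Set X) := isOpen_compl_singleton
  obtain ⟨K1, h1, h2, h3, -, h5, h6⟩ := suraBura hN ha hV (by
    intro z hz hzb
    rw [mem_singleton_iff] at hzb
    exact hab (hzb ▸ hz))
  exact ⟨K1, N \ K1, h1, h2, h3, ⟨hb, fun h => h6 h rfl⟩, disjoint_sdiff_right, union_sdiff_cancel h5⟩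

/-- **Connectedness from the midpoint property** (minimisation of `|a-b| / (R - |a-y|)`). -/
theorem connected_of_midpoint {K : Set X} {y : X} {R : ℝ}
    (hK : IsCompact (K ∩ closedBall y R))
    (hmid : ∀ a ∈ K, ∀ b ∈ K, dist a y < R → dist a b ≤ (R - dist a y) / 2 →
      ∃ c ∈ K, dist a c ≤ 13 / 20 * dist a b ∧ dist c b ≤ 13 / 20 * dist a b)
    {a b : X} (ha : a ∈ K) (hb : b ∈ K) (hay : dist a y < R) (hby : dist b y ≤ R)
    (hab : dist a b ≤ (R - dist a y) / 2) :
    b ∈ connectedComponentIn (K ∩ closedBall y R) a := by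
  by_contra hcon
  obtain ⟨A, B, hA, hB, haA, hbB, hAB, hU⟩ :=
    exists_separation_of_not_mem_component hK ⟨ha, mem_closedBall.2 hay.le⟩
      ⟨hb, mem_closedBall.2 hby⟩ hcon
  have hAN : A ⊆ K ∩ closedBall y R := hU ▸ subset_union_left
  have hBN : B ⊆ K ∩ closedBall y R := hU ▸ subset_union_right
  -- minimise `2 |a'-b'| + |a'-y|`-type quotient; we use the compact set of pairs with
  -- `dist a' b' ≤ m * (R - dist a' y)` and the least such `m`.
  let S : Set (X × X) := {p | p.1 ∈ A ∧ p.2 ∈ B}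
  have hS : IsCompact S := hA.prod hB
  -- the infimum of admissible ratios
  let f : X × X → ℝ := fun p => (R - dist p.1 y) / dist p.1 p.2
  have hpos : ∀ p ∈ S, 0 < dist p.1 p.2 := by
    rintro ⟨p, q⟩ ⟨hp, hq⟩
    rw [dist_pos]
    intro hpq
    exact Set.disjoint_left.1 hAB hp (hpq ▸ hq)
  have hf : ContinuousOn f S := by
    apply ContinuousOn.div
    · exact (continuous_const.sub (continuous_fst.dist continuous_const)).continuousOn
    · exact (continuous_fst.dist continuous_snd).continuousOn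
    · intro p hp; exact (hpos p hp).ne'
  obtain ⟨p, hpS, hmax⟩ := hS.exists_isMaxOn ⟨(a, b), haA, hbB⟩ hf
  obtain ⟨a', b'⟩ := p
  have ha' : a' ∈ A := hpS.1
  have hb' : b' ∈ B := hpS.2
  set d := dist a' b' with hd
  have hd0 : 0 < d := hpos _ hpS
  -- value at (a, b) is at least 2
  have hab0 : 0 < dist a b := hpos (a, b) ⟨haA, hbB⟩
  have h2 : 2 ≤ (R - dist a' y) / d := by
    have h3 : f (a, b) ≤ f (a', b') := hmax ⟨haA, hbB⟩
    have h4 : 2 ≤ f (a, b) := by
      simp only [f]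
      rw [le_div_iff₀ hab0]
      linarith
    exact h4.trans h3
  set m := (R - dist a' y) / d with hm
  have hRm : R - dist a' y = m * d := by rw [hm]; field_simp
  have hm0 : 0 < m := by linarith
  have hRa : dist a' y < R := by nlinarith
  have hle : d ≤ (R - dist a' y) / 2 := by rw [hRm]; nlinarith
  obtain ⟨c, hcK, hc1, hc2⟩ := hmid a' (hAN ha').1 b' (hBN hb').1 hRa hle
  rw [← hd] at hc1 hc2
  have hcy : dist c y ≤ dist a' y + dist a' c := by
    have := dist_triangle c a' y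
    rw [dist_comm c a'] at this
    linarith
  have hcX : c ∈ K ∩ closedBall y R := by
    refine ⟨hcK, mem_closedBall.2 ?_⟩
    nlinarith
  rw [← hU] at hcX
  rcases hcX with hcA | hcB
  · -- pair (c, b')
    have hcb0 : 0 < dist c b' := hpos (c, b') ⟨hcA, hb'⟩
    have h5 : f (c, b') ≤ f (a', b') := hmax ⟨hcA, hb'⟩
    have h6 : (R - dist c y) / dist c b' ≤ m := h5
    rw [div_le_iff₀ hcb0] at h6
    nlinarith
  · have hac0 : 0 < dist a' c := hpos (a', c) ⟨ha', hcB⟩
    have h5 : f (a', c) ≤ f (a', b') := hmax ⟨ha', hcB⟩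
    have h6 : (R - dist a' y) / dist a' c ≤ m := h5
    rw [div_le_iff₀ hac0] at h6
    nlinarith

/-- Version on concentric balls. -/
theorem connected_of_midpoint_ball {K : Set X} {y : X} {ρ : ℝ}
    (hK : IsCompact (K ∩ closedBall y (5 * ρ)))
    (hmid : ∀ a ∈ K, ∀ b ∈ K, dist a y < 5 * ρ → dist a b ≤ (5 * ρ - dist a y) / 2 →
      ∃ c ∈ K, dist a c ≤ 13 / 20 * dist a b ∧ dist c b ≤ 13 / 20 * dist a b)
    (hρ : 0 < ρ) {a b : X} (ha : a ∈ K) (hb : b ∈ K) (hay : dist a y ≤ ρ) (hby : dist b y ≤ ρ) :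
    b ∈ connectedComponentIn (K ∩ closedBall y (5 * ρ)) a := by
  apply connected_of_midpoint hK hmid ha hb (by linarith) (by linarith)
  have := dist_triangle a y b
  rw [dist_comm y b] at this
  linarith

/-- **From local connectedness to connectedness of `K ∩ closedBall x s`** when the outer part of `K`
splits into finitely many closed pieces, each meeting the inner ball in one point. -/
theorem isPreconnected_inter_closedBall {K : Set X} {x : X} {s R : ℝ} {ι : Type*} [Finite ι]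
    (hsR : s ≤ R) (hK : IsCompact (K ∩ closedBall x R))
    (hΓ : ∀ a ∈ K ∩ closedBall x s, ∀ b ∈ K ∩ closedBall x s,
      b ∈ connectedComponentIn (K ∩ closedBall x R) a)
    (P : ι → Set X) (p : ι → X) (hPc : ∀ i, IsClosed (P i))
    (hdisj : ∀ i j, i ≠ j → Disjoint (P i) (P j))
    (hcov : (K ∩ closedBall x R) \ ball x s ⊆ ⋃ i, P i)
    (hPK : ∀ i, P i ⊆ K ∩ closedBall x R)
    (hp : ∀ i, P i ∩ closedBall x s = {p i}) :
    IsPreconnected (K ∩ closedBall x s) := by
  classical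
  rw [isPreconnected_closed_iff]
  intro A B hA hB hsub hAne hBne
  by_contra hcon
  rw [Set.not_nonempty_iff_eq_empty] at hcon
  obtain ⟨a, haN, haA⟩ := hAne
  obtain ⟨b, hbN, hbB⟩ := hBne
  have hpN : ∀ i, p i ∈ K ∩ closedBall x s := by
    intro i
    have h1 : p i ∈ P i ∩ closedBall x s := by rw [hp]; exact mem_singleton _
    exact ⟨(hPK i h1.1).1, h1.2⟩
  -- enlarge
  set N := K ∩ closedBall x s with hN
  have hNc : IsClosed (N ∩ A) := by
    have : N = (K ∩ closedBall x R) ∩ closedBall x s := by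
      rw [hN, inter_assoc]
      congr 1
      rw [inter_eq_right.2 (closedBall_subset_closedBall hsR)]
    rw [this]
    exact (hK.isClosed.inter isClosed_closedBall).inter hA
  have hNcB : IsClosed (N ∩ B) := by
    have : N = (K ∩ closedBall x R) ∩ closedBall x s := by
      rw [hN, inter_assoc]
      congr 1
      rw [inter_eq_right.2 (closedBall_subset_closedBall hsR)]
    rw [this]
    exact (hK.isClosed.inter isClosed_closedBall).inter hB
  let A' : Set X := (N ∩ A) ∪ ⋃ i : {i : ι // p i ∈ A}, P i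
  let B' : Set X := (N ∩ B) ∪ ⋃ i : {i : ι // p i ∈ B}, P i
  have hA'c : IsClosed A' := hNc.union (isClosed_iUnion_of_finite fun i => hPc i)
  have hB'c : IsClosed B' := hNcB.union (isClosed_iUnion_of_finite fun i => hPc i)
  have hcov' : K ∩ closedBall x R ⊆ A' ∪ B' := by
    intro z hz
    by_cases hzs : z ∈ ball x s
    · have hzN : z ∈ N := ⟨hz.1, ball_subset_closedBall hzs⟩
      rcases hsub hzN with h | h
      · exact Or.inl (Or.inl ⟨hzN, h⟩)
      · exact Or.inr (Or.inl ⟨hzN, h⟩)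
    · obtain ⟨i, hi⟩ := mem_iUnion.1 (hcov ⟨hz, hzs⟩)
      rcases hsub (hpN i) with h | h
      · exact Or.inl (Or.inr (mem_iUnion.2 ⟨⟨i, h⟩, hi⟩))
      · exact Or.inr (Or.inr (mem_iUnion.2 ⟨⟨i, h⟩, hi⟩))
  have hinter : A' ∩ B' = ∅ := by
    rw [Set.eq_empty_iff_forall_notMem]
    rintro z ⟨hzA, hzB⟩
    have key : ∀ i, z ∈ P i → z ∈ N → z = p i := by
      intro i hi hzN
      have : z ∈ P i ∩ closedBall x s := ⟨hi, hzN.2⟩
      rw [hp] at this
      exact this
    have hdis : ∀ w ∈ N, w ∈ A → w ∈ B → False := by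
      intro w hw h1 h2
      have : w ∈ N ∩ (A ∩ B) := ⟨hw, h1, h2⟩
      rw [hcon] at this
      exact this
    rcases hzA with hzA | hzA
    · rcases hzB with hzB | hzB
      · exact hdis z hzA.1 hzA.2 hzB.2
      · obtain ⟨⟨i, hi⟩, hzi⟩ := mem_iUnion.1 hzB
        have := key i hzi hzA.1
        rw [this] at hzA
        exact hdis _ hzA.1 hzA.2 hi
    · obtain ⟨⟨i, hi⟩, hzi⟩ := mem_iUnion.1 hzA
      rcases hzB with hzB | hzB
      · have := key i hzi hzB.1
        rw [this] at hzB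
        exact hdis _ hzB.1 hi hzB.2
      · obtain ⟨⟨j, hj⟩, hzj⟩ := mem_iUnion.1 hzB
        by_cases hij : i = j
        · subst hij
          exact hdis _ (hpN i) hi hj
        · exact Set.disjoint_left.1 (hdisj i j hij) hzi hzj
  -- contradiction with hΓ
  have hconn : IsPreconnected (connectedComponentIn (K ∩ closedBall x R) a) :=
    isPreconnected_connectedComponentIn
  rw [isPreconnected_closed_iff] at hconn
  have haR : a ∈ K ∩ closedBall x R := ⟨haN.1, closedBall_subset_closedBall hsR haN.2⟩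
  obtain ⟨z, hz, hzAB⟩ := hconn A' B' hA'c hB'c
    ((connectedComponentIn_subset _ _).trans hcov')
    ⟨a, mem_connectedComponentIn haR, Or.inl ⟨haN, haA⟩⟩
    ⟨b, hΓ a haN b hbN, Or.inl ⟨hbN, hbB⟩⟩
  rw [hinter] at hzAB
  exact hzAB

end Mid

end Crest.Agent.R135
end

-- ▼ part R135/EpsGeo2

/-!
# R135, block EPS (helper983): the line / propeller dichotomy from flatness at all scales

If `K` is, at all points near `x0` and all small scales, very close to a line or a propeller, then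
either all points near `x0` are line-like at all small scales, or `x0` is propeller-like at all small
scales and the points `y ≠ x0` are line-like at the scales `≤ dist y x0 / 40`.
-/

set_option autoImplicit false

open Set Filter Topology Metric

namespace Crest.Agent.R135

/-- closeness to some model (line or propeller), relative precision `η` -/
def Fl (η : ℝ) (K : Set E2) (y : E2) (ρ : ℝ) : Prop := ∃ Y, IsModel Y ∧ HClose (η * ρ) y ρ K Y

/-- closeness to a propeller with centre at distance `≤ ρ / 4` -/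
def Tr (η : ℝ) (K : Set E2) (y : E2) (ρ : ℝ) : Prop :=
  ∃ c θ, dist c y ≤ ρ / 4 ∧ HClose (η * ρ) y ρ K (propAt c θ)

/-- closeness to a line through `y` -/
def Ln (η : ℝ) (K : Set E2) (y : E2) (ρ : ℝ) : Prop := ∃ θ, HClose (η * ρ) y ρ K (lineAt y θ)

/-- closeness to a propeller centred at `y` -/
def Pr (η : ℝ) (K : Set E2) (y : E2) (ρ : ℝ) : Prop := ∃ θ, HClose (η * ρ) y ρ K (propAt y θ)

lemma Fl.of_Ln {η : ℝ} {K : Set E2} {y : E2} {ρ : ℝ} (h : Ln η K y ρ) : Fl η K y ρ := by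
  obtain ⟨θ, h⟩ := h
  exact ⟨_, Or.inl ⟨y, θ, rfl⟩, h⟩


lemma Fl.mono {η η' : ℝ} {K : Set E2} {y : E2} {ρ : ℝ} (h : Fl η K y ρ) (hη : η ≤ η')
    (hρ : 0 ≤ ρ) : Fl η' K y ρ := by
  obtain ⟨Y, hY, h⟩ := h
  exact ⟨Y, hY, h.mono_eps (mul_le_mul_of_nonneg_right hη hρ)⟩

lemma Ln.mono {η η' : ℝ} {K : Set E2} {y : E2} {ρ : ℝ} (h : Ln η K y ρ) (hη : η ≤ η')
    (hρ : 0 ≤ ρ) : Ln η' K y ρ := by
  obtain ⟨θ, h⟩ := h
  exact ⟨θ, h.mono_eps (mul_le_mul_of_nonneg_right hη hρ)⟩

lemma Pr.mono {η η' : ℝ} {K : Set E2} {y : E2} {ρ : ℝ} (h : Pr η K y ρ) (hη : η ≤ η')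
    (hρ : 0 ≤ ρ) : Pr η' K y ρ := by
  obtain ⟨θ, h⟩ := h
  exact ⟨θ, h.mono_eps (mul_le_mul_of_nonneg_right hη hρ)⟩

lemma dist_arm_center (c : E2) (φ : ℝ) {s : ℝ} (hs : 0 ≤ s) : dist (c + s • dir φ) c = s := by
  rw [dist_comm, dist_self_add_right, norm_smul, norm_dir, mul_one, Real.norm_eq_abs,
    abs_of_nonneg hs]

/-- a propeller-like ball is not line-like -/
theorem Tr.not_line {η : ℝ} {K : Set E2} {y : E2} {ρ : ℝ} (hρ : 0 < ρ) (hη : 0 ≤ η)
    (hη1 : η ≤ 1 / 100) (h : Tr η K y ρ) {δ R : ℝ} {x p : E2} {φ : ℝ} (hδ : 0 ≤ δ)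
    (hδ1 : δ ≤ ρ / 50) (hb : dist y x + ρ ≤ R) : ¬ HClose δ x R K (lineAt p φ) := by
  intro hl
  obtain ⟨c, θ, hc, hT⟩ := h
  have h1 : HClose δ y ρ K (lineAt p φ) := hl.mono_ball' le_rfl hb
  have h2 := hT.swap.trans h1 (by positivity) hδ
  have hmax : max (η * ρ) δ ≤ ρ / 50 := max_le (by nlinarith) hδ1
  have h3 : ρ / 2 < 3 * (η * ρ + δ) := by
    apply not_propAt_near_line (c := c) (p := p) (θ := θ) (φ := φ)
    · exact h2.1 c ⟨self_mem_propAt _ _, by rw [mem_ball]; linarith⟩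
    · intro k
      apply h2.1 _ ⟨mem_propAt.2 ⟨k, ρ / 2, by positivity, rfl⟩, _⟩
      rw [mem_ball]
      have e1 := dist_triangle (c + (ρ / 2) • dir (arm θ k)) c y
      rw [dist_arm_center c _ (by positivity)] at e1
      linarith
  nlinarith

/-- centres of propeller-like balls at comparable scales are close -/
theorem Tr.center_close {η : ℝ} {K : Set E2} {y : E2} {ρ ρ' : ℝ} (hρ : 0 < ρ) (hη : 0 < η)
    (hη1 : η ≤ 1 / 1000) {c c' : E2} {θ θ' : ℝ} (hc : dist c y ≤ ρ / 4)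
    (hT : HClose (η * ρ) y ρ K (propAt c θ)) (hle : ρ ≤ ρ') (hle' : ρ' ≤ 3 * ρ)
    (hT' : HClose (η * ρ') y ρ' K (propAt c' θ')) : dist c c' ≤ 24 * η * ρ := by
  have h1 : HClose (η * ρ') y ρ K (propAt c' θ') := hT'.mono_ball' le_rfl (by simpa using hle)
  have hρ' : 0 < ρ' := by linarith
  have h2 := hT.swap.trans h1 (by positivity) (by positivity)
  have hmax : max (η * ρ) (η * ρ') ≤ 3 / 1000 * ρ := max_le (by nlinarith) (by nlinarith)
  have h3 := propAt_center_close (c := c) (c' := c') (y := y) (θ := θ) (θ' := θ')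
    (ρ := ρ - max (η * ρ) (η * ρ')) (s := ρ / 2) (δ := 4 * η * ρ) (by positivity) (by linarith)
    (by nlinarith) (by
      intro z hz
      obtain ⟨w, hw, hd⟩ := h2.1 z hz
      exact ⟨w, hw, by nlinarith⟩)
  linarith

/-- a propeller-like ball propagates to larger scales -/
theorem Tr.up {η : ℝ} {K : Set E2} {y : E2} {ρ ρ' : ℝ} (hρ : 0 < ρ) (hη : 0 < η)
    (hη1 : η ≤ 1 / 1000) (h : Tr η K y ρ) (hle : 3 / 2 * ρ ≤ ρ') (hle' : ρ' ≤ 3 * ρ)
    (hF : Fl η K y ρ') : Tr η K y ρ' := by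
  obtain ⟨Y, hY, hc⟩ := hF
  rcases hY with ⟨p, φ, rfl⟩ | ⟨c', θ', rfl⟩
  · exfalso
    refine h.not_line hρ hη.le (by linarith) (δ := η * ρ') (R := ρ') (x := y) (by nlinarith)
      (by nlinarith) (by rw [dist_self]; linarith) hc
  · obtain ⟨c, θ, hcy, hT⟩ := h
    have h1 := Tr.center_close hρ hη hη1 hcy hT (by linarith) hle' hc
    refine ⟨c', θ', ?_, hc⟩
    have h2 := dist_triangle c' c y
    rw [dist_comm c' c] at h2
    nlinarith

/-- iterated version: propeller-like at a small scale gives propeller-like in each dyadic window -/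
theorem Tr.up_to {η : ℝ} {K : Set E2} {y : E2} {ρ M : ℝ} (hρ : 0 < ρ) (hη : 0 < η)
    (hη1 : η ≤ 1 / 1000) (h : Tr η K y ρ) (hM : ρ ≤ M)
    (hF : ∀ ρ', 0 < ρ' → ρ' ≤ M → Fl η K y ρ') : ∃ ρ', M / 2 < ρ' ∧ ρ' ≤ M ∧ Tr η K y ρ' := by
  have key : ∀ n : ℕ, ∀ ρ : ℝ, 0 < ρ → ρ ≤ M → M < 2 ^ (n + 1) * ρ → Tr η K y ρ →
      ∃ ρ', M / 2 < ρ' ∧ ρ' ≤ M ∧ Tr η K y ρ' := by
    intro n
    induction n with
    | zero =>
      intro ρ _ h1 h2 h3
      exact ⟨ρ, by simp at h2; linarith, h1, h3⟩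
    | succ n ih =>
      intro ρ h0 h1 h2 h3
      by_cases hlt : M / 2 < ρ
      · exact ⟨ρ, hlt, h1, h3⟩
      · push Not at hlt
        apply ih (2 * ρ) (by linarith) (by linarith) (by rw [pow_succ] at h2; linarith)
        exact h3.up h0 hη hη1 (by linarith) (by linarith) (hF _ (by linarith) (by linarith))
  obtain ⟨n, hn⟩ := pow_unbounded_of_one_lt (M / ρ) (one_lt_two (α := ℝ))
  apply key n ρ hρ hM _ h
  rw [div_lt_iff₀ hρ] at hn
  rw [pow_succ]
  nlinarith [pow_pos (two_pos (α := ℝ)) n]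

/-- not propeller-like (with nearby centre) implies line-like at a comparable scale -/
theorem Fl.line_of_not_Tr {η : ℝ} {K : Set E2} {y : E2} {ρ : ℝ} (hρ : 0 < ρ) (_hη : 0 < η)
    (hη1 : η ≤ 1 / 1000) (hy : y ∈ K) (hF : Fl η K y ρ) (hT : ¬ Tr η K y ρ) :
    Ln (16 * η) K y (ρ / 8) := by
  obtain ⟨Y, hY, h⟩ := hF
  have hηρ : η * ρ ≤ ρ / 1000 := by nlinarith
  obtain ⟨q, hq, hyq⟩ := h.1 y ⟨hy, mem_ball_self hρ⟩
  -- in both cases we get closeness to a line through `q`
  have key : ∃ φ, HClose (η * ρ) y (ρ / 6) K (lineAt q φ) := by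
    rcases hY with ⟨p, φ, rfl⟩ | ⟨c, θ, rfl⟩
    · refine ⟨φ, ?_⟩
      rw [lineAt_eq_of_mem hq]
      exact h.mono_ball' le_rfl (by rw [dist_self]; linarith)
    · have hcy : ρ / 4 ≤ dist c y := by
        by_contra hcon
        push Not at hcon
        exact hT ⟨c, θ, hcon.le, h⟩
      obtain ⟨φ, hφ⟩ := propAt_far hq hyq.le hcy le_rfl
      have hqb : q ∈ ball y (ρ / 4 - 2 * (η * ρ)) := by
        rw [mem_ball, dist_comm]; linarith
      refine ⟨φ, ?_⟩
      rw [lineAt_eq_of_mem ((hφ q hqb).1 hq)]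
      constructor
      · rintro z ⟨hz, hzb⟩
        rw [mem_ball] at hzb
        obtain ⟨w, hw, hd⟩ := h.1 z ⟨hz, by rw [mem_ball]; linarith⟩
        refine ⟨w, (hφ w ?_).1 hw, hd⟩
        rw [mem_ball]
        have := dist_triangle w z y
        rw [dist_comm w z] at this
        linarith
      · rintro z ⟨hz, hzb⟩
        rw [mem_ball] at hzb
        exact h.2 z ⟨(hφ z (by rw [mem_ball]; linarith)).2 hz, by rw [mem_ball]; linarith⟩
  obtain ⟨φ, hφ⟩ := key
  refine ⟨φ, ?_⟩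
  have h2 := hφ.line_move (x' := y) (t := η * ρ) (by rw [dist_comm]; exact hyq.le)
  exact h2.mono_ball' (by linarith) (by rw [dist_self]; linarith)

/-- **Dichotomy** (step (2.4)): from flatness at all scales to line-like points / one propeller. -/
theorem line_or_propeller {η : ℝ} {K : Set E2} {x0 : E2} {r0 : ℝ} (hη : 0 < η)
    (hη1 : η ≤ 1 / 1000000) (hx0 : x0 ∈ K) (hr0 : 0 < r0)
    (hF : ∀ y ∈ K ∩ ball x0 r0, ∀ ρ, 0 < ρ → ρ ≤ r0 → Fl η K y ρ) :
    (∃ r1, 0 < r1 ∧ ∀ y ∈ K ∩ ball x0 r1, ∀ ρ, 0 < ρ → ρ ≤ r1 → Ln (20 * η) K y ρ) ∨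
    (∃ r1, 0 < r1 ∧ (∀ ρ, 0 < ρ → ρ ≤ r1 → Pr (60 * η) K x0 ρ) ∧
      ∀ y ∈ K ∩ ball x0 r1, y ≠ x0 → ∀ ρ, 0 < ρ → ρ ≤ dist y x0 / 40 → Ln (20 * η) K y ρ) := by
  have hη2 : η ≤ 1 / 1000 := by linarith
  have hF0 : ∀ ρ, 0 < ρ → ρ ≤ r0 → Fl η K x0 ρ := hF x0 ⟨hx0, mem_ball_self hr0⟩
  by_cases hcase : ∃ ρs, 0 < ρs ∧ ρs ≤ r0 ∧ ∀ ρ, 0 < ρ → ρ ≤ ρs → ¬ Tr η K x0 ρ
  · left
    obtain ⟨ρs, hs0, hsr, hs⟩ := hcase
    obtain ⟨φ, hφ⟩ := (hF0 ρs hs0 hsr).line_of_not_Tr hs0 hη hη2 hx0 (hs ρs hs0 le_rfl)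
    refine ⟨ρs / 200, by positivity, ?_⟩
    rintro y ⟨hyK, hyb⟩ ρ hρ hρ1
    rw [mem_ball] at hyb
    have hyr0 : y ∈ K ∩ ball x0 r0 := ⟨hyK, by rw [mem_ball]; linarith⟩
    have hnT : ¬ Tr η K y (8 * ρ) := by
      intro hT
      obtain ⟨ρ', h1, h2, hT'⟩ := hT.up_to (M := ρs / 16) (by positivity) hη hη2 (by linarith)
        (fun ρ' h1 h2 => hF y hyr0 ρ' h1 (by linarith))
      refine hT'.not_line (by linarith) hη.le (by linarith) (by positivity) ?_ ?_ hφ
      · nlinarith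
      · linarith
    have := (hF y hyr0 (8 * ρ) (by positivity) (by linarith)).line_of_not_Tr (by positivity) hη hη2
      hyK hnT
    rw [mul_div_cancel_left₀ ρ (by norm_num : (8:ℝ) ≠ 0)] at this
    exact this.mono (by linarith) hρ.le
  · right
    push Not at hcase
    -- propeller-like at all scales
    have hall : ∀ σ, 0 < σ → σ ≤ r0 → Tr η K x0 σ := by
      intro σ hσ hσr
      obtain ⟨ρ, h1, h2, hT⟩ := hcase (σ * (2 / 3)) (by positivity) (by linarith)
      obtain ⟨ρ', h3, h4, hT'⟩ := hT.up_to (M := σ * (2 / 3)) h1 hη hη2 h2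
        (fun ρ' h1 h2 => hF0 ρ' h1 (by linarith))
      exact hT'.up (by linarith) hη hη2 (by linarith) (by linarith) (hF0 σ hσ hσr)
    -- centres are close to x0
    have hcen : ∀ σ, 0 < σ → σ ≤ r0 → ∃ c θ, dist c x0 ≤ 24 * η * σ ∧
        HClose (η * σ) x0 σ K (propAt c θ) := by
      intro σ hσ hσr
      have hσn : ∀ n : ℕ, 0 < σ * (1 / 2) ^ n ∧ σ * (1 / 2) ^ n ≤ r0 := by
        intro n
        refine ⟨by positivity, ?_⟩
        have : (1 / 2 : ℝ) ^ n ≤ 1 := pow_le_one₀ (by norm_num) (by norm_num)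
        nlinarith
      choose c θ hc hT using fun n : ℕ => hall (σ * (1 / 2) ^ n) (hσn n).1 (hσn n).2
      have hstep : ∀ n, dist (c (n + 1)) (c n) ≤ 24 * η * (σ * (1 / 2) ^ (n + 1)) := by
        intro n
        have e : σ * (1 / 2) ^ n = 2 * (σ * (1 / 2) ^ (n + 1)) := by rw [pow_succ]; ring
        have hp := (hσn (n + 1)).1
        exact Tr.center_close (hσn (n + 1)).1 hη hη2 (hc (n + 1)) (hT (n + 1)) (by linarith)
          (by linarith) (hT n)
      have hind : ∀ n : ℕ, dist (c 0) x0 ≤ dist (c n) x0 + 24 * η * σ * (1 - (1 / 2) ^ n) := by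
        intro n
        induction n with
        | zero => simp
        | succ n ih =>
          have h1 := hstep n
          have h2 := dist_triangle (c n) (c (n + 1)) x0
          rw [dist_comm (c n) (c (n + 1))] at h2
          have h3 : 24 * η * (σ * (1 / 2) ^ (n + 1)) = 24 * η * σ * ((1 / 2) ^ n - (1 / 2) ^ (n + 1)) := by
            rw [pow_succ]; ring
          rw [h3] at h1
          nlinarith
      refine ⟨c 0, θ 0, ?_, by simpa using hT 0⟩
      have hlim : Tendsto (fun n : ℕ => σ * (1 / 2 : ℝ) ^ n / 4 + 24 * η * σ) atTop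
          (𝓝 (σ * 0 / 4 + 24 * η * σ)) := by
        refine ((Tendsto.const_mul σ ?_).div_const 4).add_const _
        exact tendsto_pow_atTop_nhds_zero_of_lt_one (by norm_num) (by norm_num)
      rw [mul_zero, zero_div, zero_add] at hlim
      refine ge_of_tendsto' hlim fun n => ?_
      have h1 := hind n
      have h2 := hc n
      have h3 : (0:ℝ) ≤ (1 / 2) ^ n := by positivity
      have h4 : 0 ≤ 24 * η * σ := by positivity
      nlinarith
    refine ⟨r0 / 8, by positivity, ?_, ?_⟩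
    · intro ρ hρ hρr
      obtain ⟨c, θ, hc, hT⟩ := hcen (2 * ρ) (by positivity) (by linarith)
      refine ⟨θ, ?_⟩
      have h2 := hT.prop_move (x' := x0) hc
      exact h2.mono_ball' (by nlinarith) (by rw [dist_self]; nlinarith)
    · rintro y ⟨hyK, hyb⟩ hne ρ hρ hρ1
      rw [mem_ball] at hyb
      set D := dist y x0 with hD
      have hD0 : 0 < D := dist_pos.2 hne
      have hyr0 : y ∈ K ∩ ball x0 r0 := ⟨hyK, by rw [mem_ball]; linarith⟩
      have hηD : η * D ≤ D / 1000000 := by nlinarith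
      -- near y the set is line-like
      have hline : ∃ φ, HClose (104 * η * D) y (D / 4) K (lineAt x0 φ) := by
        obtain ⟨c, θ, hc, hT⟩ := hcen (4 * D) (by positivity) (by linarith)
        have h2 := hT.prop_move (x' := x0) hc
        have h3 : HClose (104 * η * D) x0 (3 * D) K (propAt x0 θ) :=
          h2.mono_ball' (by nlinarith) (by rw [dist_self]; nlinarith)
        obtain ⟨q, hq, hyq⟩ := h3.1 y ⟨hyK, by rw [mem_ball, ← hD]; linarith⟩
        obtain ⟨φ, hφ⟩ := propAt_far (t := D) hq hyq.le (by rw [dist_comm]) le_rfl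
        refine ⟨φ, ?_, ?_⟩
        · rintro z ⟨hz, hzb⟩
          rw [mem_ball] at hzb
          have hzx : dist z x0 < 3 * D := by
            have := dist_triangle z y x0
            linarith
          obtain ⟨w, hw, hd⟩ := h3.1 z ⟨hz, by rw [mem_ball]; exact hzx⟩
          refine ⟨w, (hφ w ?_).1 hw, hd⟩
          rw [mem_ball]
          have := dist_triangle w z y
          rw [dist_comm w z] at this
          nlinarith
        · rintro z ⟨hz, hzb⟩
          rw [mem_ball] at hzb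
          have hzx : dist z x0 < 3 * D := by
            have := dist_triangle z y x0
            linarith
          exact h3.2 z ⟨(hφ z (by rw [mem_ball]; nlinarith)).2 hz, by rw [mem_ball]; exact hzx⟩
      obtain ⟨φ, hφ⟩ := hline
      have hnT : ¬ Tr η K y (8 * ρ) := by
        intro hT
        obtain ⟨ρ', h1, h2, hT'⟩ := hT.up_to (M := D / 5) (by positivity) hη hη2 (by linarith)
          (fun ρ' h1 h2 => hF y hyr0 ρ' h1 (by linarith))
        refine hT'.not_line (by linarith) hη.le (by linarith) (by positivity) ?_ ?_ hφ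
        · nlinarith
        · rw [dist_self]; linarith
      have := (hF y hyr0 (8 * ρ) (by positivity) (by linarith)).line_of_not_Tr (by positivity) hη
        hη2 hyK hnT
      rw [mul_div_cancel_left₀ ρ (by norm_num : (8:ℝ) ≠ 0)] at this
      exact this.mono (by linarith) hρ.le

/-- **Connectedness** (step (2.6)) from flatness at all scales inside `closedBall y (5 ρ)`. -/
theorem connected_of_flat {K : Set E2} {y : E2} {ρ : ℝ}
    (hK : IsCompact (K ∩ closedBall y (5 * ρ)))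
    (hF : ∀ a ∈ K, dist a y < 5 * ρ → ∀ σ, 0 < σ → σ ≤ 5 * ρ - dist a y → Fl (1 / 100) K a σ)
    (hρ : 0 < ρ) {a b : E2} (ha : a ∈ K) (hb : b ∈ K) (hay : dist a y ≤ ρ) (hby : dist b y ≤ ρ) :
    b ∈ connectedComponentIn (K ∩ closedBall y (5 * ρ)) a := by
  apply connected_of_midpoint_ball hK _ hρ ha hb hay hby
  intro p hp q hq hpy hpq
  rcases eq_or_ne p q with rfl | hne
  · exact ⟨p, hp, by simp, by simp⟩
  have hd : 0 < dist p q := dist_pos.2 hne
  obtain ⟨Y, hY, h⟩ := hF p hp hpy (2 * dist p q) (by positivity) (by linarith)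
  refine HClose.midpoint hY hp hq hd ?_
  have e : 1 / 100 * (2 * dist p q) = dist p q / 50 := by ring
  rwa [e] at h

end Crest.Agent.R135
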