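import Crest.Prelude.Def_MumfordShah
import Crest.Agent.R135.ArcMove
import Crest.Agent.R135.IFDefs

-- ▼ part R135/TopC2
section

/-! R135 (S0185): conclusion (2) follows from conclusion (1) (helper391). -/

set_option autoImplicit false
open MeasureTheory Set
open Crest.AnalysisR.PDE.MumfordShah

namespace Crest.Agent.R135

local notation "E2" => EuclideanSpace ℝ (Fin 2)

lemma holderArc_contOn {α : NNReal} {γ γ' : ℝ → E2} (h : IsHolderArc α γ γ') :
    ContinuousOn γ (Icc 0 1) := fun t ht => (h.2.1 t ht).continuousWithinAt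

/-- near a point of one of the three shapes, `K` is connected. -/
lemma exists_nhd_preconnected {Ω K : Set E2} {x : E2}
    (h : IsArcInteriorPoint Ω K x ∨ IsArcEndPoint Ω K x ∨ IsTripleJunctionPoint Ω K x) :
    ∃ N : Set E2, IsOpen N ∧ N ⊆ Ω ∧ x ∈ N ∧ x ∈ K ∩ N ∧ IsPreconnected (K ∩ N) := by
  rcases h with ⟨N, hN, hNΩ, hxN, α, -, γ, γ', hγ, hK, hx⟩ |
    ⟨N, hN, hNΩ, hxN, α, -, γ, γ', hγ, hK, hx⟩ |
    ⟨N, hN, hNΩ, hxN, α, -, γ, γ', hγ, hx, hK, -, -⟩
  · refine ⟨N, hN, hNΩ, hxN, hK ▸ hx, ?_⟩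
    rw [hK]
    exact isPreconnected_Ioo.image _ ((holderArc_contOn hγ).mono Ioo_subset_Icc_self)
  · refine ⟨N, hN, hNΩ, hxN, ?_, ?_⟩
    · rw [hK]; exact ⟨0, by simp, hx⟩
    · rw [hK]
      exact isPreconnected_Ico.image _ ((holderArc_contOn hγ).mono Ico_subset_Icc_self)
  · refine ⟨N, hN, hNΩ, hxN, ?_, ?_⟩
    · rw [hK]; exact mem_iUnion.2 ⟨0, 0, by simp, hx 0⟩
    · rw [hK]
      refine isPreconnected_iUnion ⟨x, mem_iInter.2 fun k => ⟨0, by simp, hx k⟩⟩ fun k => ?_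
      exact isPreconnected_Ico.image _ ((holderArc_contOn (hγ k)).mono Ico_subset_Icc_self)

/-- **Conclusion (2) from conclusion (1).** -/
theorem finite_components_of_shapes {Ω K : Set E2} (hcl : closure K ∩ Ω ⊆ K)
    (h1 : ∀ x ∈ K, IsArcInteriorPoint Ω K x ∨ IsArcEndPoint Ω K x ∨ IsTripleJunctionPoint Ω K x)
    (U : Set E2) (hUc : IsCompact (closure U)) (hUΩ : closure U ⊆ Ω) :
    Set.Finite {C : Set E2 | ∃ x ∈ K ∩ U, C = connectedComponentIn K x} := by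
  have hN : ∀ x ∈ K, ∃ N : Set E2, IsOpen N ∧ N ⊆ Ω ∧ x ∈ N ∧ x ∈ K ∩ N ∧
      IsPreconnected (K ∩ N) := fun x hx => exists_nhd_preconnected (h1 x hx)
  choose! N hNo hNΩ hxN hxKN hpre using hN
  have hS : K ∩ closure U = closure K ∩ closure U := by
    ext y; constructor
    · rintro ⟨a, b⟩; exact ⟨subset_closure a, b⟩
    · rintro ⟨a, b⟩; exact ⟨hcl ⟨a, hUΩ b⟩, b⟩
  have hScomp : IsCompact (K ∩ closure U) := by
    rw [hS]; exact hUc.inter_left isClosed_closure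
  obtain ⟨t, htS, htcov⟩ := hScomp.elim_nhds_subcover N
    (fun x hx => (hNo x hx.1).mem_nhds (hxN x hx.1))
  refine (t.finite_toSet.image (fun z => connectedComponentIn K z)).subset ?_
  rintro C ⟨y, ⟨hyK, hyU⟩, rfl⟩
  have hy : y ∈ ⋃ z ∈ t, N z := htcov ⟨hyK, subset_closure hyU⟩
  simp only [mem_iUnion] at hy
  obtain ⟨z, hz, hyz⟩ := hy
  refine ⟨z, hz, ?_⟩
  have hzK : z ∈ K := (htS z hz).1
  have hsub : K ∩ N z ⊆ connectedComponentIn K z :=
    (hpre z hzK).subset_connectedComponentIn (hxKN z hzK) inter_subset_left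
  exact (connectedComponentIn_eq (hsub ⟨hyK, hyz⟩))

/-- S0185 reduces to its first conclusion. -/
theorem reduce_to_shapes {Ω K : Set E2} (hcl : closure K ∩ Ω ⊆ K)
    (h1 : ∀ x ∈ K, IsArcInteriorPoint Ω K x ∨ IsArcEndPoint Ω K x ∨ IsTripleJunctionPoint Ω K x) :
    (∀ x ∈ K, IsArcInteriorPoint Ω K x ∨ IsArcEndPoint Ω K x ∨ IsTripleJunctionPoint Ω K x) ∧
      ∀ U : Set (EuclideanSpace ℝ (Fin 2)), IsOpen U → IsCompact (closure U) → closure U ⊆ Ω →
        Set.Finite {C : Set (EuclideanSpace ℝ (Fin 2)) |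
          ∃ x ∈ K ∩ U, C = connectedComponentIn K x} :=
  ⟨h1, fun U _ hUc hUΩ => finite_components_of_shapes hcl h1 U hUc hUΩ⟩

end Crest.Agent.R135
end

-- ▼ part R135/FlatLine

/-!
# R135: final geometry (helper560)

* `LineAt`, `PropAt`, `TipAt`: the power-closeness outputs of the analysis at a point of `K`;
* `LineAt.shape`, `PropAt.shape`, `TipAt.shape`: the three shapes of S0185;
* conversions from `HClose` (Core) to `Flat` and `StarAt`;
* localisation of the three shapes.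
-/

set_option autoImplicit false

open Set Filter Topology Metric
open scoped NNReal

namespace Crest.Agent.R135.Arc

open Crest.AnalysisR.PDE.MumfordShah
open Crest.Agent.R135 (dir ray HClose IsLine IsProp IsRay)

/-! ### localisation -/

theorem isArcInteriorPoint_mono {Ω V K : Set E2} {x : E2} (hV : V ⊆ Ω)
    (h : IsArcInteriorPoint V (K ∩ V) x) : IsArcInteriorPoint Ω K x := by
  obtain ⟨N, hN, hNV, hx, α, hα, γ, γ', hγ, hK, hxγ⟩ := h
  refine ⟨N, hN, hNV.trans hV, hx, α, hα, γ, γ', hγ, ?_, hxγ⟩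
  rw [← hK, inter_assoc, inter_eq_self_of_subset_right hNV]

theorem isArcEndPoint_mono {Ω V K : Set E2} {x : E2} (hV : V ⊆ Ω)
    (h : IsArcEndPoint V (K ∩ V) x) : IsArcEndPoint Ω K x := by
  obtain ⟨N, hN, hNV, hx, α, hα, γ, γ', hγ, hK, hxγ⟩ := h
  refine ⟨N, hN, hNV.trans hV, hx, α, hα, γ, γ', hγ, ?_, hxγ⟩
  rw [← hK, inter_assoc, inter_eq_self_of_subset_right hNV]

theorem isTripleJunctionPoint_mono {Ω V K : Set E2} {x : E2} (hV : V ⊆ Ω)
    (h : IsTripleJunctionPoint V (K ∩ V) x) : IsTripleJunctionPoint Ω K x := by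
  obtain ⟨N, hN, hNV, hx, α, hα, γ, γ', hγ, h0, hK, h1, h2⟩ := h
  refine ⟨N, hN, hNV.trans hV, hx, α, hα, γ, γ', hγ, h0, ?_, h1, h2⟩
  rw [← hK, inter_assoc, inter_eq_self_of_subset_right hNV]

/-- `x` has one of the three shapes -/
def Shape (Ω K : Set E2) (x : E2) : Prop :=
  IsArcInteriorPoint Ω K x ∨ IsArcEndPoint Ω K x ∨ IsTripleJunctionPoint Ω K x

theorem Shape.mono {Ω V K : Set E2} {x : E2} (hV : V ⊆ Ω) (h : Shape V (K ∩ V) x) :
    Shape Ω K x :=
  h.imp (isArcInteriorPoint_mono hV) (Or.imp (isArcEndPoint_mono hV) (isTripleJunctionPoint_mono hV))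

/-! ### outputs of the analysis -/





theorem StarAt.mono {ι : Type*} {a b : ι → ℝ} {K : Set E2} {x0 e : E2} {ρ E E' : ℝ}
    (h : StarAt a b K x0 e ρ E) (hE : E ≤ E') : StarAt a b K x0 e ρ E' := by
  obtain ⟨h0, h1, h2⟩ := h
  refine ⟨h0, fun z hz hd => ?_, fun k t ht htρ => ?_⟩
  · obtain ⟨k, t, ht, h⟩ := h1 z hz hd
    exact ⟨k, t, ht, h.trans hE⟩
  · obtain ⟨z, hz, h⟩ := h2 k t ht htρ
    exact ⟨z, hz, h.trans hE⟩

theorem Flat.mono {K : Set E2} {y e : E2} {ρ ρ' E E' : ℝ} (h : Flat K y e ρ E) (hρ : ρ' ≤ ρ)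
    (hE : E ≤ E') : Flat K y e ρ' E' := by
  obtain ⟨h0, h1, h2⟩ := h
  refine ⟨h0, fun z hz hd => (h1 z hz (hd.trans hρ)).trans hE, fun t ht => ?_⟩
  obtain ⟨z, hz, h⟩ := h2 t (ht.trans hρ)
  exact ⟨z, hz, h.trans hE⟩






/-! ### conversions from `HClose` -/


theorem mem_line_iff {x e z : E2} : z ∈ ray x e ∪ ray x (-e) ↔ ∃ s : ℝ, z = x + s • e := by
  constructor
  · rintro (⟨s, -, h⟩ | ⟨s, -, h⟩)
    · exact ⟨s, h⟩
    · exact ⟨-s, by rw [h, smul_neg, neg_smul]⟩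
  · rintro ⟨s, h⟩
    rcases le_total 0 s with hs | hs
    · exact Or.inl ⟨s, hs, h⟩
    · exact Or.inr ⟨-s, by linarith, by rw [h, neg_smul_neg]⟩

/-- closeness to a line in a ball gives `Flat` -/
theorem flat_of_hclose {K : Set E2} {y x e : E2} {R ε ρ : ℝ} (he : ‖e‖ = 1) (hR : 0 < R)
    (hy : y ∈ K) (hρ : ρ + ε < R) (h0ε : 0 ≤ ε)
    (h : HClose ε y R K (ray x e ∪ ray x (-e))) : Flat K y e ρ (2 * ε) := by
  obtain ⟨h1, h2⟩ := h
  obtain ⟨w0, hw0, hd0⟩ := h1 y ⟨hy, mem_ball_self hR⟩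
  obtain ⟨s0, rfl⟩ := mem_line_iff.1 hw0
  have hJ : ∀ v : E2, |inner ℝ v (J e)| ≤ ‖v‖ := fun v => by
    have := abs_real_inner_le_norm v (J e)
    rwa [norm_J, he, mul_one] at this
  refine ⟨he, ?_, ?_⟩
  · intro z hz hd
    obtain ⟨w, hw, hdw⟩ := h1 z ⟨hz, by rw [mem_ball]; linarith⟩
    obtain ⟨s, rfl⟩ := mem_line_iff.1 hw
    have e1 : z - y = (z - (x + s • e)) + (s - s0) • e + ((x + s0 • e) - y) := by
      rw [sub_smul]; abel
    have e2 : inner ℝ (z - y) (J e) =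
        inner ℝ (z - (x + s • e)) (J e) + inner ℝ ((x + s0 • e) - y) (J e) := by
      rw [e1, inner_add_left, inner_add_left, inner_smul_left, inner_J_self, mul_zero, add_zero]
    rw [e2]
    have a1 := hJ (z - (x + s • e))
    have a2 := hJ ((x + s0 • e) - y)
    rw [← dist_eq_norm] at a1 a2
    rw [dist_comm] at a2
    have := abs_add_le (inner ℝ (z - (x + s • e)) (J e)) (inner ℝ ((x + s0 • e) - y) (J e))
    linarith
  · intro t ht
    have hnt : dist (x + s0 • e + t • e) (x + s0 • e) = |t| := by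
      rw [dist_eq_norm, add_sub_cancel_left, norm_smul, he, mul_one, Real.norm_eq_abs]
    have hball : x + s0 • e + t • e ∈ ball y R := by
      rw [mem_ball]
      have := dist_triangle (x + s0 • e + t • e) (x + s0 • e) y
      rw [dist_comm (x + s0 • e) y] at this
      linarith
    obtain ⟨z, hz, hdz⟩ := h2 (x + s0 • e + t • e) ⟨mem_line_iff.2 ⟨s0 + t, by
      rw [add_smul]; abel⟩, hball⟩
    refine ⟨z, hz, ?_⟩
    have h3 : dist (x + s0 • e + t • e) (y + t • e) = dist (x + s0 • e) y := by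
      rw [dist_add_right]
    have h4 := dist_triangle z (x + s0 • e + t • e) (y + t • e)
    rw [dist_comm z (x + s0 • e + t • e), h3, dist_comm (x + s0 • e) y] at h4
    linarith

theorem dir_rot_pos (θ : ℝ) : rt (a3 1) (b3 1) (dir θ) = dir (θ + 2 * Real.pi / 3) := by
  have hc : Real.cos (2 * Real.pi / 3) = -(1/2) := by
    have : 2 * Real.pi / 3 = Real.pi - Real.pi / 3 := by ring
    rw [this, Real.cos_pi_sub, Real.cos_pi_div_three]
  have hs : Real.sin (2 * Real.pi / 3) = Real.sqrt 3 / 2 := by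
    have : 2 * Real.pi / 3 = Real.pi - Real.pi / 3 := by ring
    rw [this, Real.sin_pi_sub, Real.sin_pi_div_three]
  ext i
  fin_cases i
  · simp [rt, a3, b3, Real.cos_add, hc, hs]; ring
  · simp [rt, a3, b3, Real.sin_add, hc, hs]; ring

theorem dir_rot_neg (θ : ℝ) : rt (a3 2) (b3 2) (dir θ) = dir (θ - 2 * Real.pi / 3) := by
  have hc : Real.cos (2 * Real.pi / 3) = -(1/2) := by
    have : 2 * Real.pi / 3 = Real.pi - Real.pi / 3 := by ring
    rw [this, Real.cos_pi_sub, Real.cos_pi_div_three]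
  have hs : Real.sin (2 * Real.pi / 3) = Real.sqrt 3 / 2 := by
    have : 2 * Real.pi / 3 = Real.pi - Real.pi / 3 := by ring
    rw [this, Real.sin_pi_sub, Real.sin_pi_div_three]
  ext i
  fin_cases i
  · simp [rt, a3, b3, Real.cos_sub, hc, hs]; ring
  · simp [rt, a3, b3, Real.sin_sub, hc, hs]; ring

theorem rt3_zero (e : E2) : rt (a3 0) (b3 0) e = e := by simp [rt, a3, b3]

/-- the propeller in terms of the rotations `a3, b3` -/
theorem mem_prop_iff {x z : E2} {θ : ℝ} :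
    z ∈ ray x (dir θ) ∪ ray x (dir (θ + 2 * Real.pi / 3)) ∪ ray x (dir (θ - 2 * Real.pi / 3)) ↔
      ∃ k, ∃ s : ℝ, 0 ≤ s ∧ z = x + s • rt (a3 k) (b3 k) (dir θ) := by
  constructor
  · rintro ((⟨s, hs, h⟩ | ⟨s, hs, h⟩) | ⟨s, hs, h⟩)
    · exact ⟨0, s, hs, by rw [rt3_zero]; exact h⟩
    · exact ⟨1, s, hs, by rw [dir_rot_pos]; exact h⟩
    · exact ⟨2, s, hs, by rw [dir_rot_neg]; exact h⟩
  · rintro ⟨k, s, hs, h⟩
    fin_cases k
    · refine Or.inl (Or.inl ⟨s, hs, ?_⟩)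
      have : z = x + s • rt (a3 0) (b3 0) (dir θ) := h
      rwa [rt3_zero] at this
    · refine Or.inl (Or.inr ⟨s, hs, ?_⟩)
      have : z = x + s • rt (a3 1) (b3 1) (dir θ) := h
      rwa [dir_rot_pos] at this
    · refine Or.inr ⟨s, hs, ?_⟩
      have : z = x + s • rt (a3 2) (b3 2) (dir θ) := h
      rwa [dir_rot_neg] at this

/-- closeness to a star centred at a nearby point gives `StarAt` -/
theorem starAt_of_hclose {ι : Type*} {a b : ι → ℝ} (hu : ∀ k, a k ^ 2 + b k ^ 2 = 1)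
    {K S : Set E2} {x0 x e : E2} {R ε ρ : ℝ} (he : ‖e‖ = 1)
    (hS : ∀ z, z ∈ S ↔ ∃ k, ∃ s : ℝ, 0 ≤ s ∧ z = x + s • rt (a k) (b k) e)
    (hε : dist x x0 ≤ ε) (hρ : ρ + ε < R) (h : HClose ε x0 R K S) :
    StarAt a b K x0 e ρ (2 * ε) := by
  obtain ⟨h1, h2⟩ := h
  have h0 : 0 ≤ ε := dist_nonneg.trans hε
  refine ⟨he, ?_, ?_⟩
  · intro z hz hd
    obtain ⟨w, hw, hdw⟩ := h1 z ⟨hz, by rw [mem_ball]; linarith⟩
    obtain ⟨k, s, hs, rfl⟩ := (hS w).1 hw
    refine ⟨k, s, hs, ?_⟩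
    have h3 := dist_triangle z (x + s • rt (a k) (b k) e) (x0 + s • rt (a k) (b k) e)
    rw [dist_add_right] at h3
    linarith
  · intro k t ht htρ
    have hn : ‖rt (a k) (b k) e‖ = 1 := by rw [norm_rt (hu k), he]
    have hball : x + t • rt (a k) (b k) e ∈ ball x0 R := by
      rw [mem_ball]
      have h3 := dist_triangle (x + t • rt (a k) (b k) e) x x0
      have h4 : dist (x + t • rt (a k) (b k) e) x = t := by
        rw [dist_eq_norm, add_sub_cancel_left, norm_smul, hn, mul_one, Real.norm_eq_abs,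
          abs_of_nonneg ht]
      linarith
    obtain ⟨z, hz, hdz⟩ := h2 _ ⟨(hS _).2 ⟨k, t, ht, rfl⟩, hball⟩
    refine ⟨z, hz, ?_⟩
    have h3 := dist_triangle z (x + t • rt (a k) (b k) e) (x0 + t • rt (a k) (b k) e)
    rw [dist_add_right, dist_comm z (x + t • rt (a k) (b k) e)] at h3
    linarith

/-- closeness to a propeller centred near `x0` -/
theorem starAt_of_hclose_prop {K : Set E2} {x0 x : E2} {θ R ε ρ : ℝ}
    (hε : dist x x0 ≤ ε) (hρ : ρ + ε < R)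
    (h : HClose ε x0 R K
      (ray x (dir θ) ∪ ray x (dir (θ + 2 * Real.pi / 3)) ∪ ray x (dir (θ - 2 * Real.pi / 3)))) :
    StarAt a3 b3 K x0 (dir θ) ρ (2 * ε) :=
  starAt_of_hclose rotGroup3.unit (by simp) (fun _ => mem_prop_iff) hε hρ h

/-- closeness to a half-line issued from a point near `x0` -/
theorem starAt_of_hclose_ray {K : Set E2} {x0 x e : E2} {R ε ρ : ℝ} (he : ‖e‖ = 1)
    (hε : dist x x0 ≤ ε) (hρ : ρ + ε < R) (h : HClose ε x0 R K (ray x e)) :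
    StarAt a1 b1 K x0 e ρ (2 * ε) := by
  refine starAt_of_hclose rotGroup1.unit he (fun z => ?_) hε hρ h
  have h1 : ∀ k, rt (a1 k) (b1 k) e = e := fun k => by simp [rt, a1, b1]
  simp only [h1]
  constructor
  · rintro ⟨s, hs, h⟩; exact ⟨0, s, hs, h⟩
  · rintro ⟨_, s, hs, h⟩; exact ⟨s, hs, h⟩


end Crest.Agent.R135.Arc
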