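import Crest.Agent.R135.IFDefs2
import Crest.Agent.R135.FlatLine
import Crest.Agent.R135.PolarD
import Crest.Agent.R135.EpsGeo2

/-!
# R135, block EPS (helper983): local connectedness in the regimes `LineReg`, `PropReg`

`conn_line'`, `conn_prop'` (statements of IF_LOC, `conn_line`, `conn_prop`), and the geometric
consequences used by the excess argument.
-/

set_option autoImplicit false

open MeasureTheory Set Filter Topology Metric
open scoped ENNReal NNReal ContDiff Gradient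

namespace Crest.Agent.R135.EpsLoc

open Crest.Agent.R135

/-! ### unit vectors are `dir θ` -/

lemma exists_dir_of_norm {e : E2} (he : ‖e‖ = 1) : ∃ θ : ℝ, dir θ = e := by
  obtain ⟨θ, -, h⟩ := exists_dir_eq e he 0
  exact ⟨θ, h⟩

/-- `Arc.Flat` gives closeness to a line -/
lemma hclose_of_flat {K : Set E2} {y e : E2} {ρ E : ℝ} (hE : 0 < E) (h : Arc.Flat K y e ρ E) :
    ∃ θ : ℝ, dir θ = e ∧ HClose (2 * E) y ρ K (lineAt y θ) := by
  obtain ⟨he, h1, h2⟩ := h
  obtain ⟨θ, hθ⟩ := exists_dir_of_norm he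
  refine ⟨θ, hθ, ?_, ?_⟩
  · rintro z ⟨hz, hzb⟩
    rw [mem_ball] at hzb
    refine ⟨y + (inner ℝ (z - y) e : ℝ) • dir θ, mem_lineAt.2 ⟨_, rfl⟩, ?_⟩
    have h3 : dist z (y + (inner ℝ (z - y) e : ℝ) • dir θ) = |(inner ℝ (z - y) (Arc.J e) : ℝ)| := by
      rw [dist_eq_norm, hθ]
      have h4 : z - (y + (inner ℝ (z - y) e : ℝ) • e)
          = (0 : ℝ) • e + (inner ℝ (z - y) (Arc.J e) : ℝ) • Arc.J e := by
        have h5 := Arc.frame_eq he (z - y)
        rw [← sub_sub, zero_smul, zero_add]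
        nth_rewrite 1 [h5]
        abel
      rw [h4]
      have h6 := Arc.norm_sq_frame he 0 (inner ℝ (z - y) (Arc.J e) : ℝ)
      rw [← Real.sqrt_sq (norm_nonneg _), h6, zero_pow (by norm_num), zero_add, Real.sqrt_sq_eq_abs]
    rw [h3]
    have := h1 z hz hzb.le
    linarith
  · rintro z ⟨hz, hzb⟩
    rw [mem_ball] at hzb
    obtain ⟨t, rfl⟩ := mem_lineAt.1 hz
    have h3 : |t| ≤ ρ := by
      have : dist (y + t • dir θ) y = |t| := by
        rw [dist_eq_norm, add_sub_cancel_left, norm_smul, hθ, he, mul_one, Real.norm_eq_abs]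
      rw [this] at hzb
      exact hzb.le
    obtain ⟨w, hw, hd⟩ := h2 t h3
    refine ⟨w, hw, ?_⟩
    rw [dist_comm, hθ]
    linarith

/-- `Arc.StarAt a3 b3` gives closeness to a propeller -/
lemma hclose_of_starAt {K : Set E2} {x e : E2} {ρ E : ℝ} (hE : 0 < E)
    (h : Arc.StarAt Arc.a3 Arc.b3 K x e ρ E) :
    ∃ θ : ℝ, dir θ = e ∧ HClose (2 * E) x ρ K (propAt x θ) := by
  obtain ⟨he, h1, h2⟩ := h
  obtain ⟨θ, hθ⟩ := exists_dir_of_norm he
  refine ⟨θ, hθ, ?_, ?_⟩
  · rintro z ⟨hz, hzb⟩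
    rw [mem_ball] at hzb
    obtain ⟨k, t, ht, hd⟩ := h1 z hz hzb.le
    refine ⟨x + t • Arc.rt (Arc.a3 k) (Arc.b3 k) e, ?_, by linarith⟩
    exact Arc.mem_prop_iff.2 ⟨k, t, ht, by rw [hθ]⟩
  · rintro z ⟨hz, hzb⟩
    rw [mem_ball] at hzb
    obtain ⟨k, t, ht, rfl⟩ := Arc.mem_prop_iff.1 hz
    have hn : ‖Arc.rt (Arc.a3 k) (Arc.b3 k) e‖ = 1 := by
      rw [Arc.norm_rt (Arc.rotGroup3.unit k), he]
    have h3 : t ≤ ρ := by
      have : dist (x + t • Arc.rt (Arc.a3 k) (Arc.b3 k) (dir θ)) x = t := by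
        rw [dist_eq_norm, add_sub_cancel_left, norm_smul, hθ, hn, mul_one, Real.norm_eq_abs,
          abs_of_nonneg ht]
      rw [this] at hzb
      exact hzb.le
    obtain ⟨w, hw, hd⟩ := h2 k t ht h3
    refine ⟨w, hw, ?_⟩
    rw [dist_comm, hθ]
    linarith

lemma fl_of_lineLike {η : ℝ} {K : Set E2} {y : E2} {ρ : ℝ} (hη : 0 < η) (hρ : 0 < ρ)
    (h : LineLike η K y ρ) : Fl (2 * η) K y ρ := by
  obtain ⟨e, he⟩ := h
  obtain ⟨θ, -, h⟩ := hclose_of_flat (by positivity) he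
  refine Fl.of_Ln ⟨θ, ?_⟩
  have : 2 * (η * ρ) = 2 * η * ρ := by ring
  rwa [this] at h

/-! ### compactness -/

lemma _root_.Crest.Agent.R135.IsQM.isCompact_inter_closedBall {U : Set E2} {lam : ℝ} {u : E2 → ℝ}
    {K : Set E2} (h : IsQM U lam u K) {z : E2} {R : ℝ} (hR : closedBall z R ⊆ U) :
    IsCompact (K ∩ closedBall z R) := by
  have : K ∩ closedBall z R = closure K ∩ closedBall z R := by
    apply Subset.antisymm (inter_subset_inter_left _ subset_closure)
    rintro w ⟨h1, h2⟩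
    exact ⟨h.closed ⟨h1, hR h2⟩, h2⟩
  rw [this, inter_comm]
  exact (isCompact_closedBall z R).inter_right isClosed_closure

/-! ### connectedness -/

/-- all of `K ∩ closedBall z s` lies in one component of `K ∩ closedBall z (5 s)` -/
theorem conn_line_aux {U : Set E2} {lam ε : ℝ} {u : E2 → ℝ} {K : Set E2} {y z : E2} {r s : ℝ}
    (hε : 0 < ε) (hε' : ε ≤ 1 / 200) (hq : IsQM U lam u K) (hL : LineReg ε U lam u K y r)
    (hs : 0 < s) (hzs : dist z y + 5 * s ≤ r) {a b : E2} (ha : a ∈ K) (hb : b ∈ K)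
    (haz : dist a z ≤ s) (hbz : dist b z ≤ s) :
    b ∈ connectedComponentIn (K ∩ closedBall z (5 * s)) a := by
  have hr := hL.pos
  have hsub : closedBall z (5 * s) ⊆ U := by
    apply Subset.trans _ hL.sub
    apply closedBall_subset_closedBall'
    linarith
  refine connected_of_flat (hq.isCompact_inter_closedBall hsub) ?_ hs ha hb haz hbz
  intro w hw hwz σ hσ hσ2
  have h1 : dist w y < r := by
    have := dist_triangle w z y
    linarith
  have h2 : σ ≤ r := by
    have : 0 ≤ dist w z := dist_nonneg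
    have : 0 ≤ dist z y := dist_nonneg
    linarith
  exact (fl_of_lineLike hε hσ (hL.flat w hw h1 σ hσ h2)).mono (by linarith) hσ.le



/-- flatness at all centres and scales in `closedBall x r`, from `PropReg` -/
lemma fl_of_propReg {U : Set E2} {lam ε : ℝ} {u : E2 → ℝ} {K : Set E2} {x : E2} {r : ℝ}
    (hε : 0 < ε) (hP : PropReg ε U lam u K x r) {w : E2} (hw : w ∈ K) {σ : ℝ} (hσ : 0 < σ)
    (hσ2 : σ + dist w x ≤ r) : Fl (6 * ε) K w σ := by
  by_cases hcase : 0 < dist w x ∧ σ ≤ dist w x / 2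
  · have h1 := (hP.line w hw hcase.1 (by linarith) σ hσ hcase.2).1
    exact (fl_of_lineLike hε hσ h1).mono (by linarith) hσ.le
  · have hd : dist w x ≤ 2 * σ := by
      rcases (dist_nonneg : 0 ≤ dist w x).lt_or_eq with h | h
      · have : ¬ σ ≤ dist w x / 2 := fun h' => hcase ⟨h, h'⟩
        linarith
      · rw [← h]; positivity
    obtain ⟨e, he⟩ := hP.prop (σ + dist w x) (by positivity) hσ2
    obtain ⟨θ, -, h⟩ := hclose_of_starAt (by positivity) he
    refine ⟨propAt x θ, Or.inr ⟨x, θ, rfl⟩, h.mono_ball' ?_ ?_⟩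
    · nlinarith
    · linarith



end Crest.Agent.R135.EpsLoc
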