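import Mathlib
import Crest.Prelude.Def_OnePhase
import Crest.Prelude.Def_MumfordShah

-- ▼ part R135/GlPolar
section

/-!
# R135 (T6): private polar coordinates for the gluing lemma
-/

set_option autoImplicit false
open MeasureTheory Set Metric Filter Topology
open scoped Real

namespace Crest.Agent.R135.Gl

/-- the Euclidean plane -/
abbrev P := EuclideanSpace ℝ (Fin 2)

/-- unit vector at angle `θ` -/
noncomputable def uv (θ : ℝ) : P := !₂[Real.cos θ, Real.sin θ]

@[simp] theorem uv_zero_apply (θ : ℝ) : uv θ 0 = Real.cos θ := rfl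
@[simp] theorem uv_one_apply (θ : ℝ) : uv θ 1 = Real.sin θ := rfl

@[simp] theorem norm_uv (θ : ℝ) : ‖uv θ‖ = 1 := by
  rw [EuclideanSpace.norm_eq]; simp










end Crest.Agent.R135.Gl
end

-- ▼ part R135/Glue4
section

/-!
# R135 (T6): gluing of weak gradients across a circle
-/

set_option autoImplicit false
open MeasureTheory Set Metric Filter Topology
open Crest.AnalysisR.PDE.OnePhase
open scoped Real ContDiff

namespace Crest.Agent.R135.Gl

/-- product of a locally integrable function with a compactly supported continuous one -/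
theorem int_mul_test {Ω : Set P} {f φ : P → ℝ} (hf : LocallyIntegrableOn f Ω)
    (hφ : Continuous φ) (hc : HasCompactSupport φ) (hs : tsupport φ ⊆ Ω) :
    Integrable (fun x => f x * φ x) := by
  have h1 : IntegrableOn (fun x => f x * φ x) (tsupport φ) :=
    (hf.integrableOn_compact_subset hs hc.isCompact).mul_continuousOn hφ.continuousOn hc.isCompact
  rw [← integrableOn_univ]
  refine h1.of_forall_sdiff_eq_zero MeasurableSet.univ ?_
  intro x hx
  rw [image_eq_zero_of_notMem_tsupport hx.2, mul_zero]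

theorem setInt_test {Ω : Set P} {f φ : P → ℝ} (hs : tsupport φ ⊆ Ω) :
    ∫ x in Ω, f x * φ x = ∫ x, f x * φ x :=
  setIntegral_eq_integral_of_forall_compl_eq_zero fun x hx => by
    rw [image_eq_zero_of_notMem_tsupport (fun h => hx (hs h)), mul_zero]

theorem locInt_coord {G : P → P} {Ω : Set P} (hG : LocallyIntegrableOn G Ω) (i : Fin 2) :
    LocallyIntegrableOn (fun x => G x i) Ω := by
  intro x hx
  obtain ⟨s, hs, hi⟩ := hG x hx
  exact ⟨s, hs, (EuclideanSpace.proj (𝕜 := ℝ) i).integrable_comp hi⟩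

theorem partialD_smooth {φ : P → ℝ} (hφ : ContDiff ℝ ∞ φ) (i : Fin 2) :
    ContDiff ℝ ∞ (partialD φ i) := by
  unfold partialD
  exact (hφ.fderiv_right (by simp)).clm_apply contDiff_const

theorem partialD_tsupport (φ : P → ℝ) (i : Fin 2) : tsupport (partialD φ i) ⊆ tsupport φ :=
  tsupport_fderiv_apply_subset ℝ _

theorem partialD_hcs {φ : P → ℝ} (hc : HasCompactSupport φ) (i : Fin 2) :
    HasCompactSupport (partialD φ i) :=
  hc.of_isClosed_subset (isClosed_tsupport _) (partialD_tsupport φ i)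


theorem weakGrad_int {W : Set P} {w : P → ℝ} {H : P → P} (h : IsWeakGradOn W w H)
    {φ : P → ℝ} (hφ : ContDiff ℝ ∞ φ) (hc : HasCompactSupport φ) (hs : tsupport φ ⊆ W)
    (i : Fin 2) : ∫ x, w x * partialD φ i x = - ∫ x, H x i * φ x := by
  have := h.2.2 φ hφ hc hs i
  rwa [setInt_test ((partialD_tsupport φ i).trans hs), setInt_test hs] at this

theorem weakGrad_of_int {W : Set P} {w : P → ℝ} {H : P → P} (hw : LocallyIntegrableOn w W)
    (hH : LocallyIntegrableOn H W)
    (h : ∀ φ : P → ℝ, ContDiff ℝ ∞ φ → HasCompactSupport φ → tsupport φ ⊆ W → ∀ i : Fin 2,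
      ∫ x, w x * partialD φ i x = - ∫ x, H x i * φ x) : IsWeakGradOn W w H := by
  refine ⟨hw, hH, fun φ hφ hc hs i => ?_⟩
  rw [setInt_test ((partialD_tsupport φ i).trans hs), setInt_test hs]
  exact h φ hφ hc hs i



end Crest.Agent.R135.Gl
end

-- ▼ part R135/FV0

/-!
# R135 (FV): abstract first variation
-/

set_option autoImplicit false
open MeasureTheory Set Metric Filter Topology
open Crest.AnalysisR.PDE.OnePhase Crest.AnalysisR.PDE.MumfordShah
open scoped Real ContDiff ENNReal RealInnerProductSpace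

namespace Crest.Agent.R135.Gl

theorem integrable_normsq {α F : Type*} [MeasurableSpace α] {μ : Measure α} [NormedAddCommGroup F]
    {f : α → F} (hf : MemLp f 2 μ) : Integrable (fun x => ‖f x‖ ^ 2) μ :=
  (memLp_two_iff_integrable_sq_norm hf.1).1 hf

theorem integrable_inner2 {α F : Type*} [MeasurableSpace α] {μ : Measure α} [NormedAddCommGroup F]
    [InnerProductSpace ℝ F] {f g : α → F} (hf : MemLp f 2 μ) (hg : MemLp g 2 μ) :
    Integrable (fun x => ⟪f x, g x⟫) μ := by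
  refine ((integrable_normsq hf).add (integrable_normsq hg)).mono' (hf.1.inner hg.1) ?_
  refine Eventually.of_forall fun x => ?_
  have h1 := norm_inner_le_norm (𝕜 := ℝ) (f x) (g x)
  refine h1.trans ?_
  simp only [Pi.add_apply]
  nlinarith [sq_nonneg (‖f x‖ - ‖g x‖), sq_nonneg ‖f x‖, sq_nonneg ‖g x‖]

theorem lintegral_sq_eq {α F : Type*} [MeasurableSpace α] {μ : Measure α} [NormedAddCommGroup F]
    {f : α → F} (hf : MemLp f 2 μ) :
    ∫⁻ x, ‖f x‖ₑ ^ 2 ∂μ = ENNReal.ofReal (∫ x, ‖f x‖ ^ 2 ∂μ) := by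
  rw [ofReal_integral_eq_lintegral_ofReal (integrable_normsq hf)
    (Eventually.of_forall fun x => by positivity)]
  refine lintegral_congr fun x => ?_
  rw [ENNReal.ofReal_pow (norm_nonneg _), ofReal_norm]

theorem memLp_two_of_lintegral {α F : Type*} [MeasurableSpace α] {μ : Measure α}
    [NormedAddCommGroup F] {f : α → F} (hf : AEStronglyMeasurable f μ)
    (h : ∫⁻ x, ‖f x‖ₑ ^ 2 ∂μ < ⊤) : MemLp f 2 μ := by
  refine ⟨hf, ?_⟩
  rw [eLpNorm_lt_top_iff_lintegral_rpow_enorm_lt_top (by norm_num) (by norm_num)]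
  simpa using h

theorem quad_zero {A B : ℝ} (h : ∀ t : ℝ, 0 ≤ 2 * t * A + t ^ 2 * B) : A = 0 := by
  by_contra hA
  have hB : 0 ≤ B := by
    have h1 := h 1; have h2 := h (-1); linarith
  have h1 := h (-A / (B + 1))
  have h2 : 2 * (-A / (B + 1)) * A + (-A / (B + 1)) ^ 2 * B
      = -(A ^ 2 * (B + 2)) / (B + 1) ^ 2 := by
    field_simp; ring
  rw [h2] at h1
  have h3 : 0 < A ^ 2 * (B + 2) := by positivity
  have h4 : -(A ^ 2 * (B + 2)) / (B + 1) ^ 2 < 0 := div_neg_of_neg_of_pos (by linarith) (by positivity)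
  linarith

/-- abstract first variation: `∫‖G‖² + β ∫ f²` minimal along `t ↦ (G + tΨ, f + tψ)` -/
theorem first_var {α β' F : Type*} [MeasurableSpace α] [MeasurableSpace β']
    {μ : Measure α} {ν : Measure β'} [NormedAddCommGroup F] [InnerProductSpace ℝ F]
    {G Ψ : α → F} {f ψ : β' → ℝ}
    (hG : MemLp G 2 μ) (hΨ : MemLp Ψ 2 μ) (hf : MemLp f 2 ν) (hψ : MemLp ψ 2 ν)
    (h : ∀ t : ℝ, (∫⁻ x, ‖G x‖ₑ ^ 2 ∂μ) + ∫⁻ x, ‖f x‖ₑ ^ 2 ∂ν ≤
      (∫⁻ x, ‖G x + t • Ψ x‖ₑ ^ 2 ∂μ) + ∫⁻ x, ‖f x + t * ψ x‖ₑ ^ 2 ∂ν) :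
    (∫ x, ⟪G x, Ψ x⟫ ∂μ) + ∫ x, f x * ψ x ∂ν = 0 := by
  have iGΨ : Integrable (fun x => ⟪G x, Ψ x⟫) μ := integrable_inner2 hG hΨ
  have ifψ : Integrable (fun x => f x * ψ x) ν := by
    have := hf.integrable_mul hψ
    exact this
  have key : ∀ t : ℝ, 0 ≤ 2 * t * ((∫ x, ⟪G x, Ψ x⟫ ∂μ) + ∫ x, f x * ψ x ∂ν)
      + t ^ 2 * ((∫ x, ‖Ψ x‖ ^ 2 ∂μ) + ∫ x, ‖ψ x‖ ^ 2 ∂ν) := by
    intro t
    have hGt : MemLp (fun x => G x + t • Ψ x) 2 μ := hG.add (hΨ.const_smul t)
    have hft : MemLp (fun x => f x + t * ψ x) 2 ν := hf.add (hψ.const_mul t)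
    have h1 := h t
    rw [lintegral_sq_eq hG, lintegral_sq_eq hf, lintegral_sq_eq hGt, lintegral_sq_eq hft,
      ← ENNReal.ofReal_add (integral_nonneg fun x => by positivity)
        (integral_nonneg fun x => by positivity),
      ← ENNReal.ofReal_add (integral_nonneg fun x => by positivity)
        (integral_nonneg fun x => by positivity)] at h1
    rw [ENNReal.ofReal_le_ofReal_iff (add_nonneg (integral_nonneg fun x => by positivity)
        (integral_nonneg fun x => by positivity))] at h1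
    have e1 : ∫ x, ‖G x + t • Ψ x‖ ^ 2 ∂μ = (∫ x, ‖G x‖ ^ 2 ∂μ) + 2 * t * (∫ x, ⟪G x, Ψ x⟫ ∂μ)
        + t ^ 2 * ∫ x, ‖Ψ x‖ ^ 2 ∂μ := by
      have i12 : Integrable (fun x => ‖G x‖ ^ 2 + 2 * t * ⟪G x, Ψ x⟫) μ :=
        (integrable_normsq hG).add (iGΨ.const_mul _)
      rw [← integral_const_mul, ← integral_const_mul, ← integral_add (integrable_normsq hG)
        (iGΨ.const_mul _), ← integral_add i12 ((integrable_normsq hΨ).const_mul _)]
      congr 1
      ext x
      rw [norm_add_sq_real, inner_smul_right, norm_smul, mul_pow, Real.norm_eq_abs, sq_abs]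
      ring
    have e2 : ∫ x, ‖f x + t * ψ x‖ ^ 2 ∂ν = (∫ x, ‖f x‖ ^ 2 ∂ν) + 2 * t * (∫ x, f x * ψ x ∂ν)
        + t ^ 2 * ∫ x, ‖ψ x‖ ^ 2 ∂ν := by
      have i12 : Integrable (fun x => ‖f x‖ ^ 2 + 2 * t * (f x * ψ x)) ν :=
        (integrable_normsq hf).add (ifψ.const_mul _)
      rw [← integral_const_mul, ← integral_const_mul, ← integral_add (integrable_normsq hf)
        (ifψ.const_mul _), ← integral_add i12 ((integrable_normsq hψ).const_mul _)]
      congr 1
      ext x
      simp only [Real.norm_eq_abs, sq_abs]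
      ring
    rw [e1, e2] at h1
    nlinarith [h1]
  exact quad_zero key

end Crest.Agent.R135.Gl
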