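import Mathlib
import Crest.Agent.R135.Core
import Crest.Agent.R135.PolarG
import Crest.Agent.R135.FV0
import Crest.Agent.R135.IFDefs

-- ▼ part R135/QMCirc1
section

/-!
R135 block B4, part 1 (helper980): basic facts about the class `IsQM`, products of locally
Lipschitz functions, radial ramps.
-/

set_option autoImplicit false

open MeasureTheory Set Filter Topology Metric
open scoped ENNReal NNReal ContDiff Gradient RealInnerProductSpace

namespace Crest.Agent.R135.QMC

variable {U : Set E2} {lam : ℝ} {u : E2 → ℝ} {K : Set E2} {x : E2} {R : ℝ}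

/-! ### basic facts -/

theorem isOpen_off (h : IsQM U lam u K) : IsOpen (U \ K) := by
  have : U \ K = U \ closure K := by
    ext y; constructor
    · rintro ⟨h1, h2⟩; exact ⟨h1, fun h3 => h2 (h.closed ⟨h3, h1⟩)⟩
    · rintro ⟨h1, h2⟩; exact ⟨h1, fun h3 => h2 (subset_closure h3)⟩
  rw [this]; exact h.isOpen.sdiff isClosed_closure

theorem measurableSet_K (h : IsQM U lam u K) : MeasurableSet K := by
  have : K = closure K ∩ U := Subset.antisymm (fun y hy => ⟨subset_closure hy, h.sub hy⟩) h.closed
  rw [this]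
  exact isClosed_closure.measurableSet.inter h.isOpen.measurableSet

theorem volume_K (h : IsQM U lam u K) (hx : closedBall x R ⊆ U) :
    volume (K ∩ closedBall x R) = 0 :=
  volume_eq_zero_of_hausdorff_lt_top (h.len_fin x R hx)


/-- the crack does not matter for Lebesgue integrals -/
theorem restrict_off (h : IsQM U lam u K) (hx : closedBall x R ⊆ U) {S : Set E2}
    (hS : S ⊆ closedBall x R) :
    (volume.restrict (S \ K) : Measure E2) = volume.restrict S := by
  apply Measure.restrict_congr_set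
  have h0 : volume (S ∩ K) = 0 := by
    have hsub : S ∩ K ⊆ K ∩ closedBall x R := fun y hy => ⟨hy.2, hS hy.1⟩
    exact measure_mono_null hsub (volume_K h hx)
  have : S \ K = S \ (S ∩ K) := by
    ext y; simp
  rw [this]
  exact sdiff_null_ae_eq_self h0

theorem hasGradientAt (h : IsQM U lam u K) {y : E2} (hy : y ∈ U \ K) :
    HasGradientAt u (gradient u y) y := by
  have h1 : ContDiffAt ℝ 1 u y := h.c1.contDiffAt ((isOpen_off h).mem_nhds hy)
  exact (h1.differentiableAt (by simp)).hasGradientAt

theorem locLip_of_contDiffOn {V : Set E2} (hV : IsOpen V) {u : E2 → ℝ}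
    (hu : ContDiffOn ℝ 1 u V) : LocallyLipschitzOn V u := by
  intro y hy
  have h1 : ContDiffAt ℝ 1 u y := hu.contDiffAt (hV.mem_nhds hy)
  obtain ⟨K, t, ht, hK⟩ := h1.exists_lipschitzOnWith
  exact ⟨K, t, mem_nhdsWithin_of_mem_nhds ht, hK⟩

theorem locLip (h : IsQM U lam u K) : LocallyLipschitzOn (U \ K) u :=
  locLip_of_contDiffOn (isOpen_off h) h.c1

theorem memLp_of_dirE {w : E2 → ℝ} (h : IsQM U lam u K) (hx : closedBall x R ⊆ U)
    (hw : dirE w K (closedBall x R) < ⊤) :
    MemLp (fun y => gradient w y) 2 (volume.restrict (closedBall x R)) := by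
  rw [← restrict_off h hx (subset_refl _)]
  exact Gl.memLp_two_of_lintegral (measurable_gradient w).aestronglyMeasurable hw

theorem memLp_gradient (h : IsQM U lam u K) (hx : closedBall x R ⊆ U) :
    MemLp (fun y => gradient u y) 2 (volume.restrict (closedBall x R)) :=
  memLp_of_dirE h hx (h.dir_fin x R hx)

/-! ### locally Lipschitz functions -/

theorem locLip_mul {V : Set E2} {a b : E2 → ℝ} (ha : LocallyLipschitzOn V a)
    (hb : LocallyLipschitzOn V b) : LocallyLipschitzOn V (fun y => a y * b y) := by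
  intro y hy
  obtain ⟨Ka, ta, hta, hKa⟩ := ha hy
  obtain ⟨Kb, tb, htb, hKb⟩ := hb hy
  have hya := mem_of_mem_nhdsWithin hy hta
  have hyb := mem_of_mem_nhdsWithin hy htb
  refine ⟨Real.toNNReal ((|a y| + Ka) * Kb + (|b y| + Kb) * Ka), (ta ∩ tb) ∩ ball y 1,
    Filter.inter_mem (Filter.inter_mem hta htb) (mem_nhdsWithin_of_mem_nhds
      (ball_mem_nhds y one_pos)), ?_⟩
  apply LipschitzOnWith.of_dist_le_mul
  rintro z ⟨⟨hza, hzb⟩, hz1⟩ w ⟨⟨hwa, hwb⟩, hw1⟩
  rw [Real.coe_toNNReal _ (by positivity)]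
  rw [Real.dist_eq]
  have h1 : |a z| ≤ |a y| + Ka := by
    have h2 := hKa.dist_le_mul z hza y hya
    rw [Real.dist_eq] at h2
    have h3 : dist z y ≤ 1 := (mem_ball.1 hz1).le
    have h4 : |a z| ≤ |a y| + |a z - a y| := by
      have := abs_add_le (a y) (a z - a y)
      simpa using this
    have h5 : (Ka : ℝ) * dist z y ≤ Ka * 1 := mul_le_mul_of_nonneg_left h3 Ka.2
    linarith
  have h1' : |b w| ≤ |b y| + Kb := by
    have h2 := hKb.dist_le_mul w hwb y hyb
    rw [Real.dist_eq] at h2
    have h3 : dist w y ≤ 1 := (mem_ball.1 hw1).le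
    have h4 : |b w| ≤ |b y| + |b w - b y| := by
      have := abs_add_le (b y) (b w - b y)
      simpa using this
    have h5 : (Kb : ℝ) * dist w y ≤ Kb * 1 := mul_le_mul_of_nonneg_left h3 Kb.2
    linarith
  have e1 := hKa.dist_le_mul z hza w hwa
  have e2 := hKb.dist_le_mul z hzb w hwb
  rw [Real.dist_eq] at e1 e2
  have h6 : |a z * b z - a w * b w| ≤ |a z| * |b z - b w| + |b w| * |a z - a w| := by
    have : a z * b z - a w * b w = a z * (b z - b w) + b w * (a z - a w) := by ring
    rw [this]
    refine (abs_add_le _ _).trans ?_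
    rw [abs_mul, abs_mul]
  have h7 : |a z| * |b z - b w| ≤ (|a y| + Ka) * (Kb * dist z w) :=
    mul_le_mul h1 e2 (abs_nonneg _) (by positivity)
  have h8 : |b w| * |a z - a w| ≤ (|b y| + Kb) * (Ka * dist z w) :=
    mul_le_mul h1' e1 (abs_nonneg _) (by positivity)
  calc |a z * b z - a w * b w| ≤ _ := h6
    _ ≤ (|a y| + Ka) * (Kb * dist z w) + (|b y| + Kb) * (Ka * dist z w) := add_le_add h7 h8
    _ = _ := by ring

theorem locLip_comp {V : Set E2} {a : E2 → ℝ} (ha : LocallyLipschitzOn V a) {g : ℝ → ℝ}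
    {C : ℝ≥0} (hg : LipschitzWith C g) : LocallyLipschitzOn V (fun y => g (a y)) := by
  intro y hy
  obtain ⟨Ka, ta, hta, hKa⟩ := ha hy
  exact ⟨C * Ka, ta, hta, hg.comp_lipschitzOnWith hKa⟩

theorem locLip_congr {V : Set E2} {a b : E2 → ℝ} (ha : LocallyLipschitzOn V a)
    (hab : ∀ y ∈ V, b y = a y) : LocallyLipschitzOn V b := by
  intro y hy
  obtain ⟨Ka, ta, hta, hKa⟩ := ha hy
  refine ⟨Ka, ta ∩ V, Filter.inter_mem hta self_mem_nhdsWithin, ?_⟩
  intro z hz w hw
  rw [hab z hz.2, hab w hw.2]
  exact hKa hz.1 hw.1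

theorem locLip_of_locConst {V : Set E2} {c : E2 → ℝ} (hc : LocConstOn V c) :
    LocallyLipschitzOn V c := by
  intro y hy
  refine ⟨0, {z | c z = c y}, mem_nhdsWithin_of_mem_nhds (hc y hy), ?_⟩
  intro z hz w hw
  rw [show c z = c y from hz, show c w = c y from hw]
  simp

/-- Rademacher for locally Lipschitz functions on an open set. -/
theorem ae_differentiableAt {V : Set E2} (hV : IsOpen V) {a : E2 → ℝ}
    (ha : LocallyLipschitzOn V a) : ∀ᵐ y ∂(volume.restrict V), DifferentiableAt ℝ a y := by
  rw [ae_restrict_iff' hV.measurableSet, ae_iff]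
  apply measure_null_of_locally_null
  intro y hy
  simp only [mem_ofPred_eq, Classical.not_imp] at hy
  obtain ⟨Ka, ta, hta, hKa⟩ := ha hy.1
  rw [hV.nhdsWithin_eq hy.1] at hta
  obtain ⟨r, hr, hrt⟩ := Metric.mem_nhds_iff.1 hta
  refine ⟨{z | ¬(z ∈ V → DifferentiableAt ℝ a z)} ∩ ball y r,
    Filter.inter_mem self_mem_nhdsWithin (mem_nhdsWithin_of_mem_nhds (ball_mem_nhds y hr)), ?_⟩
  have h1 := (hKa.mono hrt).ae_differentiableWithinAt_of_mem (μ := (volume : Measure E2))
  rw [ae_iff] at h1
  refine measure_mono_null ?_ h1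
  rintro z ⟨hz, hzb⟩
  simp only [mem_ofPred_eq, Classical.not_imp] at hz ⊢
  refine ⟨hzb, fun hd => hz.2 (hd.differentiableAt (isOpen_ball.mem_nhds hzb))⟩

theorem gradient_mul {a b : E2 → ℝ} {y : E2} (ha : DifferentiableAt ℝ a y)
    (hb : DifferentiableAt ℝ b y) :
    gradient (fun z => a z * b z) y = a y • gradient b y + b y • gradient a y := by
  unfold gradient
  rw [fderiv_fun_mul ha hb, map_add, map_smul, map_smul]

theorem gradient_congr {a b : E2 → ℝ} {y : E2} (h : a =ᶠ[𝓝 y] b) : gradient a y = gradient b y := by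
  unfold gradient
  rw [h.fderiv_eq]

/-! ### the radial unit field and the radial ramp -/

/-- radial unit field about `x` -/
noncomputable def nu (x y : E2) : E2 := (dist y x)⁻¹ • (y - x)

theorem nu_cpt {x : E2} {t θ : ℝ} (ht : 0 < t) : nu x (cpt x t θ) = dir θ := by
  unfold nu
  have h1 : dist (cpt x t θ) x = t := by
    have := cpt_mem_sphere (x := x) (θ := θ) ht.le
    exact Metric.mem_sphere.1 this
  rw [h1, cpt, add_sub_cancel_left, smul_smul, inv_mul_cancel₀ ht.ne', one_smul]

theorem norm_nu_le (x y : E2) : ‖nu x y‖ ≤ 1 := by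
  unfold nu
  rw [norm_smul, norm_inv, Real.norm_of_nonneg dist_nonneg, dist_eq_norm]
  rcases eq_or_ne (‖y - x‖) 0 with h | h
  · rw [h]; simp
  · rw [inv_mul_cancel₀ h]

theorem measurable_nu (x : E2) : Measurable (nu x) := by
  unfold nu
  have h1 : Measurable (fun y : E2 => dist y x) := by fun_prop
  have h2 : Measurable (fun y : E2 => y - x) := by fun_prop
  exact h1.inv.smul h2

theorem hasGradientAt_dist {x y : E2} (hy : y ≠ x) :
    HasGradientAt (fun z : E2 => dist z x) (nu x y) y := by
  have h1 : HasFDerivAt (fun z : E2 => ‖z - x‖ ^ 2) (2 • (innerSL ℝ (y - x))) y := by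
    have := (hasStrictFDerivAt_norm_sq (y - x)).hasFDerivAt.comp y
      ((hasFDerivAt_id y).sub_const x)
    exact this
  have hpos : 0 < ‖y - x‖ := by
    rw [norm_pos_iff]; exact sub_ne_zero.2 hy
  have h2 := h1.sqrt (by positivity)
  have h3 : (fun z : E2 => dist z x) = fun z => Real.sqrt (‖z - x‖ ^ 2) := by
    funext z; rw [Real.sqrt_sq (norm_nonneg _), dist_eq_norm]
  rw [h3, hasGradientAt_iff_hasFDerivAt]
  refine h2.congr_fderiv ?_
  ext v
  simp only [InnerProductSpace.toDual_apply_apply, Real.sqrt_sq (norm_nonneg (y - x)), nu,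
    inner_smul_left, dist_eq_norm, smul_apply, innerSL_apply_apply,
    smul_eq_mul, nsmul_eq_mul]
  simp only [map_inv₀, conj_trivial]
  push_cast
  field_simp

/-- radial ramp: `1` on `closedBall x s`, `0` outside `ball x t`, affine in between -/
noncomputable def ramp (x : E2) (s t : ℝ) (y : E2) : ℝ := max 0 (min 1 ((t - dist y x) / (t - s)))

theorem ramp_nonneg (x : E2) (s t : ℝ) (y : E2) : 0 ≤ ramp x s t y := le_max_left _ _

theorem ramp_le_one (x : E2) (s t : ℝ) (y : E2) : ramp x s t y ≤ 1 :=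
  max_le zero_le_one (min_le_left _ _)

theorem ramp_eq_one {x : E2} {s t : ℝ} (hst : s < t) {y : E2} (hy : dist y x ≤ s) :
    ramp x s t y = 1 := by
  unfold ramp
  have : 1 ≤ (t - dist y x) / (t - s) := by
    rw [le_div_iff₀ (by linarith)]; linarith
  rw [min_eq_left this, max_eq_right zero_le_one]

theorem ramp_eq_zero {x : E2} {s t : ℝ} (hst : s < t) {y : E2} (hy : t ≤ dist y x) :
    ramp x s t y = 0 := by
  unfold ramp
  have : (t - dist y x) / (t - s) ≤ 0 := div_nonpos_of_nonpos_of_nonneg (by linarith) (by linarith)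
  rw [max_eq_left ((min_le_right _ _).trans this)]

theorem ramp_eq_mid {x : E2} {s t : ℝ} (hst : s < t) {y : E2} (hy : s ≤ dist y x)
    (hy' : dist y x ≤ t) : ramp x s t y = (t - dist y x) / (t - s) := by
  unfold ramp
  have h1 : (t - dist y x) / (t - s) ≤ 1 := by
    rw [div_le_iff₀ (by linarith)]; linarith
  have h2 : 0 ≤ (t - dist y x) / (t - s) := div_nonneg (by linarith) (by linarith)
  rw [min_eq_right h1, max_eq_right h2]

theorem lipschitz_ramp (x : E2) {s t : ℝ} (hst : s < t) :
    LipschitzWith (Real.toNNReal (t - s)⁻¹) (ramp x s t) := by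
  have h0 : 0 < (t - s)⁻¹ := inv_pos.2 (by linarith)
  have h1 : LipschitzWith (Real.toNNReal (t - s)⁻¹) (fun y : E2 => (t - dist y x) / (t - s)) := by
    apply LipschitzWith.of_dist_le_mul
    intro y z
    rw [Real.coe_toNNReal _ h0.le, Real.dist_eq]
    have : (t - dist y x) / (t - s) - (t - dist z x) / (t - s) = (t - s)⁻¹ * (dist z x - dist y x) := by
      rw [div_eq_inv_mul, div_eq_inv_mul]; ring
    rw [this, abs_mul, abs_of_pos h0]
    apply mul_le_mul_of_nonneg_left _ h0.le
    have := abs_dist_sub_le z y x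
    rwa [dist_comm z y] at this
  have h2 := (h1.const_min 1).const_max 0
  exact h2

theorem gradient_ramp_in {x y : E2} {s t : ℝ} (hst : s < t) (hy : dist y x < s) :
    gradient (ramp x s t) y = 0 := by
  have : ramp x s t =ᶠ[𝓝 y] fun _ => (1:ℝ) := by
    filter_upwards [isOpen_ball.mem_nhds (mem_ball.2 hy)] with z hz
    exact ramp_eq_one hst (mem_ball.1 hz).le
  rw [gradient_congr this]
  simp

theorem gradient_ramp_out {x y : E2} {s t : ℝ} (hst : s < t) (hy : t < dist y x) :
    gradient (ramp x s t) y = 0 := by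
  have : ramp x s t =ᶠ[𝓝 y] fun _ => (0:ℝ) := by
    have hop : IsOpen {z : E2 | t < dist z x} := isOpen_lt continuous_const (by fun_prop)
    filter_upwards [hop.mem_nhds hy] with z hz
    exact ramp_eq_zero hst (le_of_lt hz)
  rw [gradient_congr this]
  simp

theorem hasGradientAt_ramp_mid {x y : E2} {s t : ℝ} (hs : 0 ≤ s) (hst : s < t)
    (hy : s < dist y x) (hy' : dist y x < t) :
    HasGradientAt (ramp x s t) (-((t - s)⁻¹ • nu x y)) y := by
  have h1 : ramp x s t =ᶠ[𝓝 y] fun z => (t - dist z x) / (t - s) := by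
    have hop : IsOpen {z : E2 | s < dist z x ∧ dist z x < t} := by
      have hc : Continuous (fun z : E2 => dist z x) := by fun_prop
      exact (isOpen_lt continuous_const hc).inter (isOpen_lt hc continuous_const)
    filter_upwards [hop.mem_nhds ⟨hy, hy'⟩] with z hz
    exact ramp_eq_mid hst hz.1.le hz.2.le
  have hne : y ≠ x := by
    rintro rfl
    rw [dist_self] at hy
    linarith
  have h2 := hasGradientAt_dist hne
  rw [hasGradientAt_iff_hasFDerivAt] at h2 ⊢
  have h3 := (h2.const_sub t).mul_const (t - s)⁻¹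
  refine (h3.congr_of_eventuallyEq ?_).congr_fderiv ?_
  · filter_upwards [h1] with z hz
    rw [hz, div_eq_mul_inv]
  · ext v
    simp

theorem gradient_ramp_mid {x y : E2} {s t : ℝ} (hs : 0 ≤ s) (hst : s < t)
    (hy : s < dist y x) (hy' : dist y x < t) :
    gradient (ramp x s t) y = -((t - s)⁻¹ • nu x y) :=
  (hasGradientAt_ramp_mid hs hst hy hy').gradient

theorem volume_sphere (x : E2) (t : ℝ) : volume (sphere x t) = 0 := by
  rcases le_or_gt t 0 with h | h
  · rcases h.lt_or_eq with h | h
    · rw [sphere_eq_empty_of_neg h]; simp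
    · rw [h, sphere_zero]; simp
  · exact Measure.addHaar_sphere_of_ne_zero volume x h.ne'

/-- the gradient of the ramp, almost everywhere -/
theorem ae_gradient_ramp (x : E2) {s t : ℝ} (hs : 0 ≤ s) (hst : s < t) :
    ∀ᵐ y : E2, DifferentiableAt ℝ (ramp x s t) y ∧
      gradient (ramp x s t) y
        = - ((t - s)⁻¹ • (ball x t \ ball x s).indicator (fun y => nu x y) y) := by
  have h1 : ∀ᵐ y : E2, y ∉ sphere x s := measure_eq_zero_iff_ae_notMem.1 (volume_sphere x s)
  have h2 : ∀ᵐ y : E2, y ∉ sphere x t := measure_eq_zero_iff_ae_notMem.1 (volume_sphere x t)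
  have h3 := (lipschitz_ramp x hst).ae_differentiableAt (μ := (volume : Measure E2))
  filter_upwards [h1, h2, h3] with y hy1 hy2 hy3
  refine ⟨hy3, ?_⟩
  rw [mem_sphere] at hy1 hy2
  rcases lt_or_gt_of_ne hy1 with ha | ha
  · rw [gradient_ramp_in hst ha, indicator_of_notMem]
    · simp
    · simp [ha]
  · rcases lt_or_gt_of_ne hy2 with hb | hb
    · rw [gradient_ramp_mid hs hst ha hb, indicator_of_mem]
      simp [ha.le, hb]
    · rw [gradient_ramp_out hst hb, indicator_of_notMem]
      · simp
      · simp [hb.le]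

end Crest.Agent.R135.QMC
end

-- ▼ part R135/QMCirc2
section

/-!
R135 block B4, part 2 (helper980): the circle identity for quasi-minimizers with test functions
which may jump across the crack.
-/

set_option autoImplicit false

open MeasureTheory Set Filter Topology Metric
open scoped ENNReal NNReal ContDiff Gradient RealInnerProductSpace

namespace Crest.Agent.R135.QMC

variable {U : Set E2} {lam : ℝ} {u : E2 → ℝ} {K : Set E2} {x : E2} {R : ℝ} {f φ : E2 → ℝ}

/-- `f` is the right-hand side of the Euler-Lagrange equation -/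
structure IsEL (U : Set E2) (lam : ℝ) (u : E2 → ℝ) (K : Set E2) (f : E2 → ℝ) : Prop where
  meas : Measurable f
  bdd : ∀ x, |f x| ≤ lam
  eq : ∀ φ : E2 → ℝ, IsTest U K φ →
    ∫ x in U \ K, inner ℝ (gradient u x) (gradient φ x) = - ∫ x in U, f x * φ x

theorem exists_EL (h : IsQM U lam u K) : ∃ f, IsEL U lam u K f := by
  obtain ⟨f, h1, h2, h3⟩ := h.el
  exact ⟨f, h1, h2, h3⟩

/-- jumping test function on `closedBall x R`: locally Lipschitz off `K`, bounded, finite energy
(no support condition) -/
structure IsJump (U K : Set E2) (x : E2) (R : ℝ) (φ : E2 → ℝ) : Prop where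
  lip : LocallyLipschitzOn (U \ K) φ
  bdd : ∃ M : ℝ, ∀ y ∈ closedBall x R \ K, |φ y| ≤ M
  dir_fin : dirE φ K (closedBall x R) < ⊤

theorem IsJump.aesm (h : IsQM U lam u K) (hx : closedBall x R ⊆ U) (hφ : IsJump U K x R φ) :
    AEStronglyMeasurable φ (volume.restrict (closedBall x R)) := by
  rw [← restrict_off h hx (subset_refl _)]
  have h1 : AEStronglyMeasurable φ (volume.restrict (U \ K)) :=
    hφ.lip.continuousOn.aestronglyMeasurable (isOpen_off h).measurableSet
  exact h1.mono_measure (Measure.restrict_mono (sdiff_subset_sdiff_left hx) le_rfl)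

theorem IsJump.ae_bdd (h : IsQM U lam u K) (hx : closedBall x R ⊆ U) {M : ℝ}
    (hM : ∀ y ∈ closedBall x R \ K, |φ y| ≤ M) :
    ∀ᵐ y ∂(volume.restrict (closedBall x R)), |φ y| ≤ M := by
  rw [← restrict_off h hx (subset_refl _)]
  exact (ae_restrict_iff' (measurableSet_closedBall.diff (measurableSet_K h))).2
    (Eventually.of_forall fun y hy => hM y hy)

theorem integrableOn_inner (h : IsQM U lam u K) (hx : closedBall x R ⊆ U)
    (hφ : IsJump U K x R φ) :
    IntegrableOn (fun y => ⟪gradient u y, gradient φ y⟫) (closedBall x R) :=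
  Gl.integrable_inner2 (memLp_gradient h hx) (memLp_of_dirE h hx hφ.dir_fin)

theorem integrableOn_gradient (h : IsQM U lam u K) (hx : closedBall x R ⊆ U) :
    IntegrableOn (fun y => gradient u y) (closedBall x R) := by
  have hfin : IsFiniteMeasure (volume.restrict (closedBall x R)) :=
    ⟨by rw [Measure.restrict_apply_univ]; exact measure_closedBall_lt_top⟩
  exact (memLp_gradient h hx).integrable (by norm_num)

theorem integrableOn_flux (h : IsQM U lam u K) (hx : closedBall x R ⊆ U)
    (hφ : IsJump U K x R φ) :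
    IntegrableOn (fun y => φ y * ⟪gradient u y, nu x y⟫) (closedBall x R) := by
  obtain ⟨M, hM⟩ := hφ.bdd
  have h1 := integrableOn_gradient h hx
  have h2 : IntegrableOn (fun y => ⟪gradient u y, nu x y⟫) (closedBall x R) := by
    refine Integrable.mono' h1.norm (h1.1.inner (measurable_nu x).aestronglyMeasurable) ?_
    refine Eventually.of_forall fun y => ?_
    refine (norm_inner_le_norm _ _).trans ?_
    have := norm_nu_le x y
    nlinarith [norm_nonneg (gradient u y)]
  refine h2.bdd_mul (hφ.aesm h hx) (c := M) ?_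
  filter_upwards [IsJump.ae_bdd h hx hM] with y hy
  rwa [Real.norm_eq_abs]

theorem integrableOn_rhs (h : IsQM U lam u K) (hf : IsEL U lam u K f) (hx : closedBall x R ⊆ U)
    (hφ : IsJump U K x R φ) :
    IntegrableOn (fun y => f y * φ y) (closedBall x R) := by
  obtain ⟨M, hM⟩ := hφ.bdd
  refine ⟨hf.meas.aestronglyMeasurable.mul (hφ.aesm h hx),
    HasFiniteIntegral.restrict_of_bounded (C := lam * M) measure_closedBall_lt_top ?_⟩
  filter_upwards [IsJump.ae_bdd h hx hM] with y hy
  rw [Real.norm_eq_abs, abs_mul]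
  exact mul_le_mul (hf.bdd y) hy (abs_nonneg _) h.lam_nonneg

/-- the cut-off test function -/
noncomputable def psi (K : Set E2) (x : E2) (s t : ℝ) (φ : E2 → ℝ) : E2 → ℝ :=
  Kᶜ.indicator fun y => ramp x s t y * φ y

/-- its gradient a.e. -/
noncomputable def Psi (x : E2) (s t : ℝ) (φ : E2 → ℝ) (y : E2) : E2 :=
  ramp x s t y • gradient φ y
    - ((t - s)⁻¹ * φ y) • (ball x t \ ball x s).indicator (fun y => nu x y) y

theorem psi_eq {s t : ℝ} {y : E2} (hy : y ∉ K) : psi K x s t φ y = ramp x s t y * φ y :=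
  indicator_of_mem (show y ∈ Kᶜ from hy) _

theorem psi_eq_zero {s t : ℝ} (hst : s < t) {y : E2} (hy : y ∉ ball x t) :
    psi K x s t φ y = 0 := by
  unfold psi
  rw [mem_ball, not_lt] at hy
  by_cases hK : y ∈ K
  · exact indicator_of_notMem (not_not.2 hK) _
  · rw [indicator_of_mem (show y ∈ Kᶜ from hK), ramp_eq_zero hst hy, zero_mul]

theorem Psi_eq_zero {s t : ℝ} (hst : s < t) {y : E2} (hy : y ∉ ball x t) :
    Psi x s t φ y = 0 := by
  unfold Psi
  rw [indicator_of_notMem (fun h => hy h.1)]
  rw [mem_ball, not_lt] at hy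
  rw [ramp_eq_zero hst hy]
  simp

theorem ae_gradient_psi (h : IsQM U lam u K) (hφ : LocallyLipschitzOn (U \ K) φ) {s t : ℝ}
    (hs : 0 ≤ s) (hst : s < t) :
    ∀ᵐ y ∂(volume.restrict (U \ K)), gradient (psi K x s t φ) y = Psi x s t φ y := by
  have h1 := ae_differentiableAt (isOpen_off h) hφ
  have h2 := ae_restrict_of_ae (s := U \ K) (ae_gradient_ramp x hs hst)
  filter_upwards [h1, h2, ae_restrict_mem (isOpen_off h).measurableSet] with y hy1 hy2 hy
  have h3 : psi K x s t φ =ᶠ[𝓝 y] fun z => ramp x s t z * φ z := by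
    filter_upwards [(isOpen_off h).mem_nhds hy] with z hz
    exact psi_eq hz.2
  rw [gradient_congr h3, gradient_mul hy2.1 hy1, hy2.2, Psi]
  rw [smul_neg, smul_smul, ← sub_eq_add_neg, mul_comm (φ y)]

theorem memLp_Psi (h : IsQM U lam u K) (hx : closedBall x R ⊆ U) (hφ : IsJump U K x R φ)
    {s t : ℝ} (hst : s < t) :
    MemLp (Psi x s t φ) 2 (volume.restrict (closedBall x R)) := by
  obtain ⟨M, hM⟩ := hφ.bdd
  have hfin : IsFiniteMeasure (volume.restrict (closedBall x R)) :=
    ⟨by rw [Measure.restrict_apply_univ]; exact measure_closedBall_lt_top⟩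
  have hr : AEStronglyMeasurable (ramp x s t) (volume.restrict (closedBall x R)) :=
    (lipschitz_ramp x hst).continuous.aestronglyMeasurable
  have hg := memLp_of_dirE h hx hφ.dir_fin
  unfold Psi
  apply MemLp.sub
  · refine MemLp.mono hg (hr.smul hg.1) (Eventually.of_forall fun y => ?_)
    rw [norm_smul, Real.norm_of_nonneg (ramp_nonneg x s t y)]
    exact mul_le_of_le_one_left (norm_nonneg _) (ramp_le_one x s t y)
  · refine MemLp.of_bound ?_ ((t - s)⁻¹ * M) ?_
    · exact ((hφ.aesm h hx).const_mul _).smul ((measurable_nu x).indicator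
        (measurableSet_ball.diff measurableSet_ball)).aestronglyMeasurable
    · filter_upwards [IsJump.ae_bdd h hx hM] with y hy
      have h0 : 0 < (t - s)⁻¹ := inv_pos.2 (by linarith)
      have hM0 : 0 ≤ M := (abs_nonneg _).trans hy
      rw [norm_smul, norm_mul, Real.norm_of_nonneg h0.le, Real.norm_eq_abs]
      have h3 : ‖(ball x t \ ball x s).indicator (fun y => nu x y) y‖ ≤ 1 := by
        refine (norm_indicator_le_norm_self _ _).trans (norm_nu_le x y)
      calc (t - s)⁻¹ * |φ y| * ‖(ball x t \ ball x s).indicator (fun y => nu x y) y‖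
          ≤ (t - s)⁻¹ * |φ y| * 1 := mul_le_mul_of_nonneg_left h3 (by positivity)
        _ ≤ (t - s)⁻¹ * M := by
          rw [mul_one]; exact mul_le_mul_of_nonneg_left hy h0.le

theorem isTest_psi (h : IsQM U lam u K) (hx : closedBall x R ⊆ U) (hφ : IsJump U K x R φ)
    {s t : ℝ} (hs : 0 ≤ s) (hst : s < t) (htR : t ≤ R) : IsTest U K (psi K x s t φ) := by
  obtain ⟨M, hM⟩ := hφ.bdd
  constructor
  · refine locLip_congr (locLip_mul (a := ramp x s t) ?_ hφ.lip) (fun y hy => psi_eq hy.2)
    exact fun y _ => (lipschitz_ramp x hst).locallyLipschitz.locallyLipschitzOn (by assumption)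
  · refine ⟨|M|, fun y => ?_⟩
    by_cases hy : y ∈ ball x t
    · by_cases hK : y ∈ K
      · unfold psi
        rw [indicator_of_notMem (not_not.2 hK)]
        simp
      · rw [psi_eq hK, abs_mul, abs_of_nonneg (ramp_nonneg x s t y)]
        have hyR : y ∈ closedBall x R \ K :=
          ⟨ball_subset_closedBall (ball_subset_ball htR hy), hK⟩
        have h1 := hM y hyR
        calc ramp x s t y * |φ y| ≤ 1 * |φ y| :=
              mul_le_mul_of_nonneg_right (ramp_le_one x s t y) (abs_nonneg _)
          _ ≤ |M| := by rw [one_mul]; exact h1.trans (le_abs_self M)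
    · rw [psi_eq_zero hst hy]; simp
  · refine ⟨closedBall x t, isCompact_closedBall x t, (closedBall_subset_closedBall htR).trans hx,
      fun y hy => psi_eq_zero hst (fun h => hy (ball_subset_closedBall h))⟩
  · have hm := memLp_Psi h hx hφ hst
    have e1 : dirE (psi K x s t φ) K U = ∫⁻ y in U \ K, ‖Psi x s t φ y‖ₑ ^ 2 := by
      unfold dirE
      refine lintegral_congr_ae ?_
      filter_upwards [ae_gradient_psi h hφ.lip hs hst] with y hy
      rw [hy]
    rw [e1]
    have e2 : ∫⁻ y in U \ K, ‖Psi x s t φ y‖ₑ ^ 2 ≤ ∫⁻ y in closedBall x R, ‖Psi x s t φ y‖ₑ ^ 2 := by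
      have e3 : (fun y => ‖Psi x s t φ y‖ₑ ^ 2)
          = (closedBall x R).indicator (fun y => ‖Psi x s t φ y‖ₑ ^ 2) := by
        funext y
        by_cases hy : y ∈ closedBall x R
        · rw [indicator_of_mem hy]
        · rw [indicator_of_notMem hy, Psi_eq_zero hst]
          · simp
          · exact fun h => hy (ball_subset_closedBall (ball_subset_ball htR h))
      calc ∫⁻ y in U \ K, ‖Psi x s t φ y‖ₑ ^ 2
          = ∫⁻ y in U \ K, (closedBall x R).indicator (fun y => ‖Psi x s t φ y‖ₑ ^ 2) y := by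
            rw [← e3]
        _ = ∫⁻ y in closedBall x R ∩ (U \ K), ‖Psi x s t φ y‖ₑ ^ 2 := by
            rw [lintegral_indicator measurableSet_closedBall,
              Measure.restrict_restrict measurableSet_closedBall]
        _ ≤ _ := lintegral_mono_set inter_subset_left
    refine e2.trans_lt ?_
    rw [Gl.lintegral_sq_eq hm]
    exact ENNReal.ofReal_lt_top

/-- **Euler-Lagrange with a radial ramp.** -/
theorem el_ramp (h : IsQM U lam u K) (hf : IsEL U lam u K f) (hx : closedBall x R ⊆ U)
    (hφ : IsJump U K x R φ) {s t : ℝ} (hs : 0 ≤ s) (hst : s < t) (htR : t ≤ R) :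
    (∫ y in ball x R, ramp x s t y * ⟪gradient u y, gradient φ y⟫)
      - (t - s)⁻¹ * ((∫ y in ball x t, φ y * ⟪gradient u y, nu x y⟫)
        - ∫ y in ball x s, φ y * ⟪gradient u y, nu x y⟫)
      = - ∫ y in ball x R, ramp x s t y * (f y * φ y) := by
  have h1 := hf.eq _ (isTest_psi h hx hφ hs hst htR)
  have hVo := isOpen_off h
  have hKm := measurableSet_K h
  have hbR : ball x R ⊆ closedBall x R := ball_subset_closedBall
  -- left-hand side
  have l1 : ∫ y in U \ K, ⟪gradient u y, gradient (psi K x s t φ) y⟫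
      = ∫ y in U \ K, ⟪gradient u y, Psi x s t φ y⟫ := by
    refine integral_congr_ae ?_
    filter_upwards [ae_gradient_psi h hφ.lip hs hst] with y hy
    rw [hy]
  have l2 : ∫ y in U \ K, ⟪gradient u y, Psi x s t φ y⟫
      = ∫ y in ball x R, ⟪gradient u y, Psi x s t φ y⟫ := by
    rw [← restrict_off h hx hbR]
    refine setIntegral_eq_of_subset_of_forall_sdiff_eq_zero hVo.measurableSet
      (sdiff_subset_sdiff_left (hbR.trans hx)) ?_
    rintro y ⟨hy, hy'⟩
    rw [Psi_eq_zero hst, inner_zero_right]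
    exact fun h2 => hy' ⟨ball_subset_ball htR h2, hy.2⟩
  have ir : AEStronglyMeasurable (ramp x s t) (volume.restrict (ball x R)) :=
    (lipschitz_ramp x hst).continuous.aestronglyMeasurable
  have i1 : IntegrableOn (fun y => ramp x s t y * ⟪gradient u y, gradient φ y⟫) (ball x R) := by
    refine ((integrableOn_inner h hx hφ).mono_set hbR).bdd_mul ir (c := 1) ?_
    refine Eventually.of_forall fun y => ?_
    rw [Real.norm_of_nonneg (ramp_nonneg x s t y)]
    exact ramp_le_one x s t y
  have i2 : IntegrableOn (fun y => φ y * ⟪gradient u y, nu x y⟫) (ball x R) :=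
    (integrableOn_flux h hx hφ).mono_set hbR
  have hmA : MeasurableSet (ball x t \ ball x s) := measurableSet_ball.diff measurableSet_ball
  have l3 : ∫ y in ball x R, ⟪gradient u y, Psi x s t φ y⟫
      = (∫ y in ball x R, ramp x s t y * ⟪gradient u y, gradient φ y⟫)
        - (t - s)⁻¹ * ∫ y in ball x R,
          (ball x t \ ball x s).indicator (fun y => φ y * ⟪gradient u y, nu x y⟫) y := by
    rw [← integral_const_mul, ← integral_sub i1 ((i2.indicator hmA).const_mul _)]
    refine integral_congr_ae (Eventually.of_forall fun y => ?_)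
    simp only [Psi, inner_sub_right, inner_smul_right]
    by_cases hy : y ∈ ball x t \ ball x s
    · rw [indicator_of_mem hy, indicator_of_mem hy]; ring
    · rw [indicator_of_notMem hy, indicator_of_notMem hy]; simp
  have l4 : ∫ y in ball x R,
        (ball x t \ ball x s).indicator (fun y => φ y * ⟪gradient u y, nu x y⟫) y
      = (∫ y in ball x t, φ y * ⟪gradient u y, nu x y⟫)
        - ∫ y in ball x s, φ y * ⟪gradient u y, nu x y⟫ := by
    rw [integral_indicator hmA, Measure.restrict_restrict hmA]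
    have : (ball x t \ ball x s) ∩ ball x R = ball x t \ ball x s := by
      apply inter_eq_left.2
      exact sdiff_subset.trans (ball_subset_ball htR)
    rw [this]
    exact setIntegral_sdiff measurableSet_ball (i2.mono_set (ball_subset_ball htR))
      (ball_subset_ball hst.le)
  -- right-hand side
  have r1 : ∫ y in U, f y * psi K x s t φ y = ∫ y in ball x R, f y * psi K x s t φ y := by
    refine setIntegral_eq_of_subset_of_forall_sdiff_eq_zero h.isOpen.measurableSet
      (hbR.trans hx) ?_
    rintro y ⟨hy, hy'⟩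
    rw [psi_eq_zero hst, mul_zero]
    exact fun h2 => hy' (ball_subset_ball htR h2)
  have r2 : ∫ y in ball x R, f y * psi K x s t φ y
      = ∫ y in ball x R, ramp x s t y * (f y * φ y) := by
    rw [← restrict_off h hx hbR]
    refine setIntegral_congr_fun (measurableSet_ball.diff hKm) ?_
    rintro y ⟨hy, hy'⟩
    simp only [psi_eq hy']
    ring
  rw [l1, l2, l3, l4, r1, r2] at h1
  exact h1

end Crest.Agent.R135.QMC
end

-- ▼ part R135/QMCirc3
section

/-!
R135 block B4, part 3 (helper980): the circle identity on almost every circle, the energy identity.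
-/

set_option autoImplicit false

open MeasureTheory Set Filter Topology Metric
open scoped ENNReal NNReal ContDiff Gradient RealInnerProductSpace

namespace Crest.Agent.R135.QMC

variable {U : Set E2} {lam : ℝ} {u : E2 → ℝ} {K : Set E2} {x : E2} {R : ℝ} {f φ : E2 → ℝ}

theorem ball_ae_eq_closedBall (x : E2) (t : ℝ) :
    (volume.restrict (closedBall x t) : Measure E2) = volume.restrict (ball x t) := by
  apply Measure.restrict_congr_set
  have : (closedBall x t : Set E2) = ball x t ∪ sphere x t := (ball_union_sphere).symm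
  rw [this]
  exact union_ae_eq_left_of_ae_eq_empty (ae_eq_empty.2 (volume_sphere x t))

theorem tendsto_ramp_integral {g : E2 → ℝ} (hg : IntegrableOn g (ball x R)) {t : ℝ}
    (htR : t < R) {T : ℕ → ℝ} (hT : ∀ n, t < T n) (hTlim : Tendsto T atTop (𝓝 t)) :
    Tendsto (fun n => ∫ y in ball x R, ramp x t (T n) y * g y) atTop
      (𝓝 (∫ y in ball x t, g y)) := by
  have e1 : ∫ y in ball x t, g y = ∫ y in ball x R, (closedBall x t).indicator g y := by
    rw [integral_indicator measurableSet_closedBall, Measure.restrict_restrict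
      measurableSet_closedBall, inter_eq_left.2 (closedBall_subset_ball htR),
      ball_ae_eq_closedBall]
  rw [e1]
  refine tendsto_integral_of_dominated_convergence (fun y => ‖g y‖) ?_ hg.norm ?_ ?_
  · intro n
    exact (lipschitz_ramp x (hT n)).continuous.aestronglyMeasurable.mul hg.1
  · intro n
    refine Eventually.of_forall fun y => ?_
    rw [norm_mul, Real.norm_of_nonneg (ramp_nonneg x t (T n) y)]
    exact mul_le_of_le_one_left (norm_nonneg _) (ramp_le_one x t (T n) y)
  · refine Eventually.of_forall fun y => ?_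
    by_cases hy : dist y x ≤ t
    · rw [indicator_of_mem (mem_closedBall.2 hy)]
      refine tendsto_const_nhds.congr fun n => ?_
      rw [ramp_eq_one (hT n) hy, one_mul]
    · rw [indicator_of_notMem (fun h => hy (mem_closedBall.1 h))]
      push Not at hy
      refine tendsto_const_nhds.congr' ?_
      filter_upwards [hTlim.eventually_le_const hy] with n hn
      rw [ramp_eq_zero (hT n) hn, zero_mul]

/-- **Circle identity with jumping test functions.** For almost every `t < R`. -/
theorem circle_identity (h : IsQM U lam u K) (hf : IsEL U lam u K f) (hR : 0 ≤ R)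
    (hx : closedBall x R ⊆ U) (hφ : IsJump U K x R φ) :
    ∀ᵐ t : ℝ, t ∈ Ioo 0 R →
      ∫ y in ball x t, ⟪gradient u y, gradient φ y⟫
        = t * (∫ θ in (-Real.pi)..Real.pi, φ (cpt x t θ) * ⟪gradient u (cpt x t θ), dir θ⟫)
          - ∫ y in ball x t, f y * φ y := by
  have hbR : ball x R ⊆ closedBall x R := ball_subset_closedBall
  have i1 := (integrableOn_inner h hx hφ).mono_set hbR
  have i2 := (integrableOn_flux h hx hφ).mono_set hbR
  have i3 := (integrableOn_rhs h hf hx hφ).mono_set hbR
  have hd := ae_hasDerivAt_ball x hR i2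
  rw [ae_restrict_iff' measurableSet_Ioo] at hd
  filter_upwards [hd] with t ht htm
  have hd' := ht htm
  set Φ : ℝ → ℝ := fun s => ∫ y in ball x s, φ y * ⟪gradient u y, nu x y⟫ with hΦ
  have hpos : 0 < R - t := by linarith [htm.2]
  set T : ℕ → ℝ := fun n => t + (R - t) * (1 / ((n : ℝ) + 1)) with hTdef
  have hT : ∀ n, t < T n := by
    intro n
    have : 0 < (R - t) * (1 / ((n : ℝ) + 1)) := by positivity
    simp only [hTdef]; linarith
  have hTR : ∀ n, T n ≤ R := by
    intro n
    have h1 : 1 / ((n : ℝ) + 1) ≤ 1 := by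
      rw [div_le_one (by positivity)]; linarith [(Nat.cast_nonneg n : (0:ℝ) ≤ n)]
    have : (R - t) * (1 / ((n : ℝ) + 1)) ≤ (R - t) * 1 := mul_le_mul_of_nonneg_left h1 hpos.le
    simp only [hTdef]; linarith
  have hTlim : Tendsto T atTop (𝓝 t) := by
    have h1 : Tendsto (fun n : ℕ => (R - t) * (1 / ((n : ℝ) + 1))) atTop (𝓝 ((R - t) * 0)) :=
      tendsto_one_div_add_atTop_nhds_zero_nat.const_mul _
    have h2 := h1.const_add t
    simpa [hTdef] using h2
  have L1 := tendsto_ramp_integral i1 htm.2 hT hTlim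
  have L3 := tendsto_ramp_integral i3 htm.2 hT hTlim
  have L2 : Tendsto (fun n => (T n - t)⁻¹ * (Φ (T n) - Φ t)) atTop
      (𝓝 (t • circI (fun y => φ y * ⟪gradient u y, nu x y⟫) x t)) := by
    have h1 := hd'.tendsto_slope
    have h2 : Tendsto T atTop (𝓝[≠] t) :=
      tendsto_nhdsWithin_iff.2 ⟨hTlim, Eventually.of_forall fun n => (hT n).ne'⟩
    have h3 := h1.comp h2
    refine h3.congr fun n => ?_
    simp only [Function.comp, slope, vsub_eq_sub, smul_eq_mul]
  have hid : ∀ n, (∫ y in ball x R, ramp x t (T n) y * ⟪gradient u y, gradient φ y⟫)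
      = (T n - t)⁻¹ * (Φ (T n) - Φ t) - ∫ y in ball x R, ramp x t (T n) y * (f y * φ y) := by
    intro n
    have := el_ramp h hf hx hφ htm.1.le (hT n) (hTR n)
    simp only [hΦ]
    linarith
  have L4 := L2.sub L3
  have L5 := tendsto_nhds_unique L1 (L4.congr fun n => (hid n).symm)
  rw [L5]
  congr 1
  rw [smul_eq_mul, circI]
  congr 1
  refine intervalIntegral.integral_congr fun θ _ => ?_
  simp only [nu_cpt htm.1]

end Crest.Agent.R135.QMC
end

-- ▼ part R135/QMCirc4

/-!
R135 block B4, part 4 (helper980): good circles in the class `IsQM`, derivative of `Dr`,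
energy identity.
-/

set_option autoImplicit false

open MeasureTheory Set Filter Topology Metric
open scoped ENNReal NNReal ContDiff Gradient RealInnerProductSpace

namespace Crest.Agent.R135.QMC

variable {U : Set E2} {lam : ℝ} {u : E2 → ℝ} {K : Set E2} {x : E2} {R : ℝ} {f φ c : E2 → ℝ}

/-! ### good circles and `Dr` -/

theorem ae_goodCirc_qm (h : IsQM U lam u K) (hx : closedBall x R ⊆ U) :
    ∀ᵐ t : ℝ, t ∈ Ioo 0 R → GoodCirc K (fun y => gradient u y) x t := by
  have hK : Measure.hausdorffMeasure 1 (K ∩ ball x R) < ⊤ :=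
    (measure_mono (inter_subset_inter_right _ ball_subset_closedBall)).trans_lt (h.len_fin x R hx)
  refine ae_goodCirc hK (measurable_gradient u).aestronglyMeasurable ?_
  have h1 := memLp_gradient h hx
  have h2 : ∫⁻ y in ball x R, ‖gradient u y‖ₑ ^ 2 ≤ ∫⁻ y in closedBall x R, ‖gradient u y‖ₑ ^ 2 :=
    lintegral_mono_set ball_subset_closedBall
  refine h2.trans_lt ?_
  rw [Gl.lintegral_sq_eq h1]
  exact ENNReal.ofReal_lt_top

theorem integrableOn_normsq (h : IsQM U lam u K) (hx : closedBall x R ⊆ U) :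
    IntegrableOn (fun y => ‖gradient u y‖ ^ 2) (closedBall x R) :=
  Gl.integrable_normsq (memLp_gradient h hx)

theorem Dr_eq (h : IsQM U lam u K) (hx : closedBall x R ⊆ U) {t : ℝ} (ht : t ≤ R) :
    Dr u K x t = ∫ y in ball x t, ‖gradient u y‖ ^ 2 := by
  unfold Dr dirE
  have hsub : ball x t ⊆ closedBall x R := (ball_subset_ball ht).trans ball_subset_closedBall
  rw [restrict_off h hx hsub]
  have h1 : MemLp (fun y => gradient u y) 2 (volume.restrict (ball x t)) :=
    (memLp_gradient h hx).mono_measure (Measure.restrict_mono hsub le_rfl)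
  rw [Gl.lintegral_sq_eq h1, ENNReal.toReal_ofReal]
  exact integral_nonneg fun y => by positivity

theorem Dr_nonneg (u : E2 → ℝ) (K : Set E2) (x : E2) (t : ℝ) : 0 ≤ Dr u K x t :=
  ENNReal.toReal_nonneg

theorem Dr_of_nonpos (u : E2 → ℝ) (K : Set E2) (x : E2) {t : ℝ} (ht : t ≤ 0) :
    Dr u K x t = 0 := by
  unfold Dr dirE
  rw [ball_eq_empty.2 ht]
  simp

theorem Dr_mono (h : IsQM U lam u K) {s t : ℝ} (hx : closedBall x t ⊆ U) (hst : s ≤ t) :
    Dr u K x s ≤ Dr u K x t := by
  unfold Dr
  apply ENNReal.toReal_mono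
  · refine (lt_of_le_of_lt ?_ (h.dir_fin x t hx)).ne
    exact lintegral_mono_set (sdiff_subset_sdiff_left ball_subset_closedBall)
  · exact lintegral_mono_set (sdiff_subset_sdiff_left (ball_subset_ball hst))

theorem circI_normsq_nonneg (u : E2 → ℝ) (x : E2) (t : ℝ) :
    0 ≤ circI (fun y => ‖gradient u y‖ ^ 2) x t := by
  rw [circI_eq_set]
  exact integral_nonneg fun θ => by positivity

theorem cirE_nonneg (u : E2 → ℝ) (x : E2) {t : ℝ} (ht : 0 ≤ t) : 0 ≤ cirE u x t :=
  mul_nonneg ht (circI_normsq_nonneg u x t)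

/-- `Dr` is a primitive of `cirE` -/
theorem Dr_sub (h : IsQM U lam u K) (hx : closedBall x R ⊆ U) {s t : ℝ} (hs : 0 ≤ s) (hst : s ≤ t)
    (ht : t ≤ R) : Dr u K x t - Dr u K x s = ∫ r in s..t, cirE u x r := by
  rw [Dr_eq h hx ht, Dr_eq h hx (hst.trans ht)]
  exact ball_integral_sub x hs hst ht
    ((integrableOn_normsq h hx).mono_set ball_subset_closedBall)

theorem intervalIntegrable_cirE (h : IsQM U lam u K) (hx : closedBall x R ⊆ U) (hR : 0 ≤ R) :
    IntervalIntegrable (cirE u x) volume 0 R :=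
  intervalIntegrable_radial x hR ((integrableOn_normsq h hx).mono_set ball_subset_closedBall)

theorem isPrim_Dr (h : IsQM U lam u K) (hx : closedBall x R ⊆ U) {s t : ℝ} (hs : 0 ≤ s)
    (hst : s ≤ t) (ht : t ≤ R) : IsPrim s t (fun r => Dr u K x r) (cirE u x) := by
  have hR : 0 ≤ R := hs.trans (hst.trans ht)
  refine ⟨(intervalIntegrable_cirE h hx hR).mono_set ?_, fun r hr => ?_⟩
  · rw [uIcc_of_le hst, uIcc_of_le hR]
    exact Icc_subset_Icc hs ht
  · have := Dr_sub h hx hs hr.1 (hr.2.trans ht)
    linarith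

theorem ae_hasDerivAt_Dr (h : IsQM U lam u K) (hx : closedBall x R ⊆ U) (hR : 0 ≤ R) :
    ∀ᵐ t : ℝ, t ∈ Ioo 0 R → HasDerivAt (fun s => Dr u K x s) (cirE u x t) t := by
  have h1 := ae_hasDerivAt_ball x hR
    ((integrableOn_normsq h hx).mono_set ball_subset_closedBall)
  rw [ae_restrict_iff' measurableSet_Ioo] at h1
  filter_upwards [h1] with t ht htm
  refine (ht htm).congr_of_eventuallyEq ?_
  filter_upwards [Iio_mem_nhds htm.2] with s hs
  exact Dr_eq h hx (le_of_lt hs)


/-! ### truncation -/

/-- truncation at level `M` -/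
noncomputable def trunc (M v : ℝ) : ℝ := max (-M) (min M v)

theorem lipschitz_trunc (M : ℝ) : LipschitzWith 1 (trunc M) := by
  have h1 : LipschitzWith 1 (fun v : ℝ => v) := LipschitzWith.id
  exact (h1.const_min M).const_max (-M)

theorem abs_trunc_le {M : ℝ} (hM : 0 ≤ M) (v : ℝ) : |trunc M v| ≤ M := by
  unfold trunc
  rw [abs_le]
  refine ⟨le_max_left _ _, max_le (by linarith) (min_le_left _ _)⟩

theorem trunc_of_abs_le {M v : ℝ} (hv : |v| ≤ M) : trunc M v = v := by
  unfold trunc
  rw [abs_le] at hv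
  rw [min_eq_right hv.2, max_eq_right hv.1]

theorem trunc_of_ge {M v : ℝ} (hM : 0 ≤ M) (hv : M ≤ v) : trunc M v = M := by
  unfold trunc
  rw [min_eq_left hv, max_eq_right (by linarith)]

theorem trunc_of_le {M v : ℝ} (hM : 0 ≤ M) (hv : v ≤ -M) : trunc M v = -M := by
  unfold trunc
  rw [min_eq_right (by linarith), max_eq_left hv]

/-- truncated test function `T_M (u - c)` -/
noncomputable def tru (M : ℝ) (u c : E2 → ℝ) (y : E2) : ℝ := trunc M (u y - c y)

theorem gradient_sub_locConst (h : IsQM U lam u K) (hc : LocConstOn (U \ K) c) {y : E2}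
    (hy : y ∈ U \ K) : HasGradientAt (fun z => u z - c z) (gradient u y) y := by
  have h1 := hasGradientAt h hy
  have h2 : (fun z => u z - c z) =ᶠ[𝓝 y] fun z => u z - c y := by
    filter_upwards [hc y hy] with z hz
    rw [hz]
  rw [hasGradientAt_iff_hasFDerivAt] at h1 ⊢
  exact (h1.sub_const (c y)).congr_of_eventuallyEq h2

theorem gradient_tru (h : IsQM U lam u K) (hc : LocConstOn (U \ K) c) {M : ℝ} (hM : 0 ≤ M)
    {y : E2} (hy : y ∈ U \ K) :
    gradient (tru M u c) y = {z | |u z - c z| < M}.indicator (fun z => gradient u z) y := by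
  have h1 := gradient_sub_locConst h hc hy
  have hcont : ContinuousAt (fun z => u z - c z) y := h1.hasFDerivAt.continuousAt
  by_cases hlt : |u y - c y| < M
  · rw [indicator_of_mem (show y ∈ {z | |u z - c z| < M} from hlt)]
    have h2 : tru M u c =ᶠ[𝓝 y] fun z => u z - c z := by
      have h3 := hcont.abs.eventually (Iio_mem_nhds hlt)
      filter_upwards [h3] with z hz
      exact trunc_of_abs_le (le_of_lt hz)
    rw [gradient_congr h2]
    exact h1.gradient
  · rw [indicator_of_notMem (show y ∉ {z | |u z - c z| < M} from hlt)]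
    push Not at hlt
    have h4 : fderiv ℝ (tru M u c) y = 0 := by
      rcases le_abs.1 hlt with h5 | h5
      · apply IsLocalMax.fderiv_eq_zero
        refine Eventually.of_forall fun z => ?_
        have : tru M u c y = M := trunc_of_ge hM h5
        rw [this]
        exact (abs_le.1 (abs_trunc_le hM _)).2
      · apply IsLocalMin.fderiv_eq_zero
        refine Eventually.of_forall fun z => ?_
        have : tru M u c y = -M := trunc_of_le hM (by linarith)
        rw [this]
        exact (abs_le.1 (abs_trunc_le hM _)).1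
    unfold gradient
    rw [h4, map_zero]

theorem isJump_tru (h : IsQM U lam u K) (hx : closedBall x R ⊆ U) (hc : LocConstOn (U \ K) c)
    {M : ℝ} (hM : 0 ≤ M) : IsJump U K x R (tru M u c) := by
  refine ⟨?_, ⟨M, fun y _ => abs_trunc_le hM _⟩, ?_⟩
  · exact locLip_comp ((locLip h).sub (locLip_of_locConst hc)) (lipschitz_trunc M)
  · refine lt_of_le_of_lt ?_ (h.dir_fin x R hx)
    unfold dirE
    refine setLIntegral_mono' (measurableSet_closedBall.diff (measurableSet_K h)) fun y hy => ?_
    rw [gradient_tru h hc hM ⟨hx hy.1, hy.2⟩]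
    gcongr
    rw [enorm_indicator_eq_indicator_enorm]
    exact indicator_le_self _ _ _

theorem isJump_one : IsJump U K x R (fun _ => 1) := by
  refine ⟨fun y _ => ⟨0, univ, univ_mem, ?_⟩, ⟨1, fun y _ => by simp⟩, ?_⟩
  · intro a _ b _; simp
  · unfold dirE
    simp

/-- total flux through almost every circle -/
theorem total_flux (h : IsQM U lam u K) (hf : IsEL U lam u K f) (hR : 0 ≤ R)
    (hx : closedBall x R ⊆ U) :
    ∀ᵐ t : ℝ, t ∈ Ioo 0 R →
      t * (∫ θ in (-Real.pi)..Real.pi, ⟪gradient u (cpt x t θ), dir θ⟫) = ∫ y in ball x t, f y := by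
  filter_upwards [circle_identity h hf hR hx isJump_one] with t ht htm
  have := ht htm
  simp only [one_mul, mul_one] at this
  have h0 : ∀ y : E2, gradient (fun _ : E2 => (1:ℝ)) y = 0 := fun y => by simp
  simp only [h0, inner_zero_right, integral_zero] at this
  linarith

/-- `u - c` is bounded on a good circle off the crack -/
theorem exists_bound_circle (h : IsQM U lam u K) (hx : closedBall x R ⊆ U)
    (hc : LocConstOn (U \ K) c) {t : ℝ} (ht : t ≤ R)
    (hg : GoodCirc K (fun y => gradient u y) x t) :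
    ∃ M : ℝ, 0 ≤ M ∧ ∀ y ∈ sphere x t \ K, |u y - c y| ≤ M := by
  obtain ⟨M, hM⟩ := hg.exists_bound (u := fun y => u y - c y) (fun y hy =>
    gradient_sub_locConst h hc ⟨hx ((mem_sphere.1 hy.1).le.trans ht), hy.2⟩)
  exact ⟨|M|, abs_nonneg _, fun y hy => (hM y hy).trans (le_abs_self M)⟩

theorem ae_notMem_K {t : ℝ} (hg : GoodCirc K (fun y => gradient u y) x t) :
    ∀ᵐ θ ∂(volume.restrict (uIoc (-Real.pi) Real.pi)), cpt x t θ ∉ K := by
  have h1 := finite_angles_Icc (K := K) (x := x) hg.pos (-Real.pi) hg.fin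
  have h2 : ∀ᵐ θ : ℝ, θ ∉ {θ ∈ Icc (-Real.pi) (-Real.pi + 2 * Real.pi) | cpt x t θ ∈ K} :=
    measure_eq_zero_iff_ae_notMem.1 (h1.measure_zero volume)
  rw [uIoc_of_le (by linarith [Real.pi_pos]), ae_restrict_iff' measurableSet_Ioc]
  filter_upwards [h2] with θ hθ hm hK
  exact hθ ⟨⟨hm.1.le, by linarith [hm.2]⟩, hK⟩

/-- **Energy identity** at level `lam` (general form: truncations). -/
theorem energy_trunc (h : IsQM U lam u K) (hf : IsEL U lam u K f) (hR : 0 ≤ R)
    (hx : closedBall x R ⊆ U) (hc : LocConstOn (U \ K) c) :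
    ∀ᵐ t : ℝ, t ∈ Ioo 0 R →
      Tendsto (fun n : ℕ => ∫ y in ball x t, f y * tru n u c y) atTop
        (𝓝 (t * (∫ θ in (-Real.pi)..Real.pi,
          (u (cpt x t θ) - c (cpt x t θ)) * ⟪gradient u (cpt x t θ), dir θ⟫)
          - Dr u K x t)) := by
  have h1 : ∀ n : ℕ, ∀ᵐ t : ℝ, t ∈ Ioo 0 R →
      ∫ y in ball x t, ⟪gradient u y, gradient (tru n u c) y⟫
        = t * (∫ θ in (-Real.pi)..Real.pi,
            tru n u c (cpt x t θ) * ⟪gradient u (cpt x t θ), dir θ⟫)
          - ∫ y in ball x t, f y * tru n u c y := fun n =>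
    circle_identity h hf hR hx (isJump_tru h hx hc (Nat.cast_nonneg n))
  filter_upwards [ae_all_iff.2 h1, ae_goodCirc_qm h hx] with t ht hg htm
  have hsub : ball x t ⊆ closedBall x R :=
    (ball_subset_ball htm.2.le).trans ball_subset_closedBall
  obtain ⟨M, hM0, hM⟩ := exists_bound_circle h hx hc htm.2.le (hg htm)
  -- circle terms are eventually constant
  have e1 : ∀ᶠ n : ℕ in atTop,
      t * (∫ θ in (-Real.pi)..Real.pi,
          (u (cpt x t θ) - c (cpt x t θ)) * ⟪gradient u (cpt x t θ), dir θ⟫)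
        = t * (∫ θ in (-Real.pi)..Real.pi,
            tru n u c (cpt x t θ) * ⟪gradient u (cpt x t θ), dir θ⟫) := by
    obtain ⟨N, hN⟩ := exists_nat_ge M
    filter_upwards [eventually_ge_atTop N] with n hn
    congr 1
    refine intervalIntegral.integral_congr_ae_restrict ?_
    filter_upwards [ae_notMem_K (hg htm)] with θ hθ
    have h2 : |u (cpt x t θ) - c (cpt x t θ)| ≤ (n:ℝ) := by
      refine (hM _ ⟨cpt_mem_sphere htm.1.le, hθ⟩).trans (hN.trans ?_)
      exact_mod_cast hn
    rw [tru, trunc_of_abs_le h2]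
  -- interior terms converge
  have e2 : Tendsto (fun n : ℕ => ∫ y in ball x t, ⟪gradient u y, gradient (tru n u c) y⟫) atTop
      (𝓝 (Dr u K x t)) := by
    rw [Dr_eq h hx htm.2.le, ← restrict_off h hx hsub]
    refine tendsto_integral_of_dominated_convergence (fun y => ‖gradient u y‖ ^ 2) ?_ ?_ ?_ ?_
    · intro n
      exact ((measurable_gradient u).inner (measurable_gradient (tru n u c))).aestronglyMeasurable
    · rw [restrict_off h hx hsub]
      exact (integrableOn_normsq h hx).mono_set hsub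
    · intro n
      rw [ae_restrict_iff' (measurableSet_ball.diff (measurableSet_K h))]
      refine Eventually.of_forall fun y hy => ?_
      rw [gradient_tru h hc (Nat.cast_nonneg n) ⟨hx (hsub hy.1), hy.2⟩]
      refine (norm_inner_le_norm _ _).trans ?_
      have := norm_indicator_le_norm_self (s := {z | |u z - c z| < (n:ℝ)})
        (f := fun z => gradient u z) (a := y)
      nlinarith [norm_nonneg (gradient u y)]
    · rw [ae_restrict_iff' (measurableSet_ball.diff (measurableSet_K h))]
      refine Eventually.of_forall fun y hy => ?_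
      obtain ⟨N, hN⟩ := exists_nat_gt (|u y - c y|)
      refine tendsto_const_nhds.congr' ?_
      filter_upwards [eventually_ge_atTop N] with n hn
      rw [gradient_tru h hc (Nat.cast_nonneg n) ⟨hx (hsub hy.1), hy.2⟩,
        indicator_of_mem (show y ∈ {z | |u z - c z| < (n:ℝ)} from
          lt_of_lt_of_le hN (by exact_mod_cast hn)), real_inner_self_eq_norm_sq]
  have e3 := (tendsto_const_nhds (x := t * (∫ θ in (-Real.pi)..Real.pi,
          (u (cpt x t θ) - c (cpt x t θ)) * ⟪gradient u (cpt x t θ), dir θ⟫))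
          (f := (atTop : Filter ℕ))).sub e2
  refine e3.congr' ?_
  filter_upwards [e1] with n hn
  rw [hn, ht n htm]
  ring

/-- **Energy identity** for `u - c` bounded in the ball. -/
theorem energy_identity_bdd (h : IsQM U lam u K) (hf : IsEL U lam u K f) (hR : 0 ≤ R)
    (hx : closedBall x R ⊆ U) (hc : LocConstOn (U \ K) c) :
    ∀ᵐ t : ℝ, t ∈ Ioo 0 R → ∀ M : ℝ, (∀ y ∈ ball x t \ K, |u y - c y| ≤ M) →
      Dr u K x t = t * (∫ θ in (-Real.pi)..Real.pi,
          (u (cpt x t θ) - c (cpt x t θ)) * ⟪gradient u (cpt x t θ), dir θ⟫)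
        - ∫ y in ball x t, f y * (u y - c y) := by
  filter_upwards [energy_trunc h hf hR hx hc] with t ht htm M hM
  have hsub : ball x t ⊆ closedBall x R :=
    (ball_subset_ball htm.2.le).trans ball_subset_closedBall
  obtain ⟨N, hN⟩ := exists_nat_ge M
  have h1 : Tendsto (fun n : ℕ => ∫ y in ball x t, f y * tru n u c y) atTop
      (𝓝 (∫ y in ball x t, f y * (u y - c y))) := by
    refine tendsto_const_nhds.congr' ?_
    filter_upwards [eventually_ge_atTop N] with n hn
    rw [← restrict_off h hx hsub]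
    refine setIntegral_congr_fun (measurableSet_ball.diff (measurableSet_K h)) ?_
    intro y hy
    have h2 : |u y - c y| ≤ (n:ℝ) := (hM y hy).trans (hN.trans (by exact_mod_cast hn))
    simp only [tru, trunc_of_abs_le h2]
  have := tendsto_nhds_unique h1 (ht htm)
  linarith

/-- **Energy identity**, `lam = 0`. -/
theorem energy_identity_zero (h : IsQM U 0 u K) (hR : 0 ≤ R)
    (hx : closedBall x R ⊆ U) (hc : LocConstOn (U \ K) c) :
    ∀ᵐ t : ℝ, t ∈ Ioo 0 R →
      Dr u K x t = t * (∫ θ in (-Real.pi)..Real.pi,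
          (u (cpt x t θ) - c (cpt x t θ)) * ⟪gradient u (cpt x t θ), dir θ⟫) := by
  obtain ⟨f, hf⟩ := exists_EL h
  filter_upwards [energy_trunc h hf hR hx hc] with t ht htm
  have h0 : ∀ y, f y = 0 := fun y => abs_nonpos_iff.1 (hf.bdd y)
  have h1 := ht htm
  simp only [h0, zero_mul, integral_zero] at h1
  have := tendsto_nhds_unique tendsto_const_nhds h1
  linarith

/-- the error term of the energy identity -/
theorem abs_rhs_le (h : IsQM U lam u K) (hf : IsEL U lam u K f) (hx : closedBall x R ⊆ U)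
    {t M : ℝ} (ht0 : 0 ≤ t) (ht : t ≤ R) {v : E2 → ℝ} (hM : ∀ y ∈ ball x t \ K, |v y| ≤ M) :
    |∫ y in ball x t, f y * v y| ≤ lam * M * Real.pi * t ^ 2 := by
  have hsub : ball x t ⊆ closedBall x R := (ball_subset_ball ht).trans ball_subset_closedBall
  have hvol : volume (ball x t) = ENNReal.ofReal (Real.pi * t ^ 2) := by
    rw [EuclideanSpace.volume_ball_fin_two]
    rw [← ENNReal.ofReal_pow ht0, ← ENNReal.ofReal_mul (by positivity), mul_comm]
  have h1 : ∀ᵐ y ∂(volume.restrict (ball x t)), ‖f y * v y‖ ≤ lam * M := by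
    rw [← restrict_off h hx hsub, ae_restrict_iff' (measurableSet_ball.diff (measurableSet_K h))]
    refine Eventually.of_forall fun y hy => ?_
    rw [Real.norm_eq_abs, abs_mul]
    exact mul_le_mul (hf.bdd y) (hM y hy) (abs_nonneg _) h.lam_nonneg
  have h2 := norm_setIntegral_le_of_norm_le_const_ae (s := ball x t) (f := fun y => f y * v y)
    (C := lam * M) measure_ball_lt_top h1
  rw [Real.norm_eq_abs] at h2
  refine h2.trans ?_
  rw [measureReal_def, hvol, ENNReal.toReal_ofReal (by positivity)]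
  apply le_of_eq; ring

end Crest.Agent.R135.QMC
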