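import Crest.Agent.R135.EpsLoc1
import Crest.Agent.R135.GMT1
import Crest.Agent.R135.QMCirc4

-- ▼ part R135/EpsLoc2
section

/-!
# R135, block EPS (helper983): spheres meet `K` on both sides; `K ∩ closedBall z t` is connected
-/

set_option autoImplicit false

open MeasureTheory Set Filter Topology Metric
open scoped ENNReal NNReal ContDiff Gradient

namespace Crest.Agent.R135.EpsLoc

open Crest.Agent.R135

/-- in the strip, outside the ball `ball z t`, the first coordinate does not vanish -/
lemma inner_ne_zero_of_strip {z v e : E2} {t : ℝ} (he : ‖e‖ = 1) (ht : 0 < t)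
    (hJ : |(inner ℝ (v - z) (Arc.J e) : ℝ)| ≤ t / 20) (hv : t ≤ dist v z) :
    (inner ℝ (v - z) e : ℝ) ≠ 0 := by
  intro h0
  have h1 : ‖v - z‖ ^ 2 = (inner ℝ (v - z) e : ℝ) ^ 2 + (inner ℝ (v - z) (Arc.J e) : ℝ) ^ 2 := by
    conv_lhs => rw [Arc.frame_eq he (v - z)]
    exact Arc.norm_sq_frame he _ _
  rw [h0, ← dist_eq_norm] at h1
  have h2 : (inner ℝ (v - z) (Arc.J e) : ℝ) ^ 2 ≤ (t / 20) ^ 2 := sq_le_sq' (by linarith [(abs_le.1 hJ).1]) (abs_le.1 hJ).2
  nlinarith

lemma continuous_inner_sub (z e : E2) : Continuous fun v : E2 => (inner ℝ (v - z) e : ℝ) := by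
  fun_prop

/-- the sphere `sphere z t` meets `K` on the positive side -/
theorem exists_pos_side {K : Set E2} {z e : E2} {t : ℝ} (ht : 0 < t)
    (hF : Arc.Flat K z e (10 * t) (t / 20))
    (hconn : ∀ b ∈ K, dist b z ≤ 2 * t → b ∈ connectedComponentIn (K ∩ closedBall z (10 * t)) z)
    (hz : z ∈ K) : ∃ p ∈ K ∩ sphere z t, 0 < (inner ℝ (p - z) e : ℝ) := by
  obtain ⟨he, h1, h2⟩ := hF
  by_contra hcon
  push Not at hcon
  obtain ⟨w, hw, hwd⟩ := h2 (3 / 2 * t) (by rw [abs_of_pos (by positivity)]; linarith)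
  have hd1 : dist (z + (3 / 2 * t) • e) z = 3 / 2 * t := by
    rw [dist_eq_norm, add_sub_cancel_left, norm_smul, he, mul_one, Real.norm_eq_abs,
      abs_of_pos (by positivity)]
  have hwz : dist w z ≤ 2 * t := by
    have := dist_triangle w (z + (3 / 2 * t) • e) z
    linarith
  have hwz' : t ≤ dist w z := by
    have := dist_triangle_left (z + (3 / 2 * t) • e) z w
    linarith
  have hwe : 0 ≤ (inner ℝ (w - z) e : ℝ) := by
    have e1 : w - z = (w - (z + (3 / 2 * t) • e)) + (3 / 2 * t) • e := by abel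
    have e2 := abs_real_inner_le_norm (w - (z + (3 / 2 * t) • e)) e
    rw [he, mul_one, ← dist_eq_norm] at e2
    rw [e1, inner_add_left, inner_smul_left, real_inner_self_eq_norm_sq, he]
    simp only [conj_trivial]
    have := (abs_le.1 e2).1
    nlinarith
  set C := connectedComponentIn (K ∩ closedBall z (10 * t)) z with hC
  have hCp : IsPreconnected C := isPreconnected_connectedComponentIn
  have hCK : C ⊆ K ∩ closedBall z (10 * t) := connectedComponentIn_subset _ _
  have hzC : z ∈ C := mem_connectedComponentIn ⟨hz, mem_closedBall_self (by positivity)⟩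
  have hwC : w ∈ C := hconn w hw hwz
  rw [isPreconnected_closed_iff] at hCp
  obtain ⟨v, hvC, hvA, hvB⟩ := hCp
    ({v | t ≤ dist v z} ∩ {v | 0 ≤ (inner ℝ (v - z) e : ℝ)})
    (closedBall z t ∪ {v | (inner ℝ (v - z) e : ℝ) ≤ 0})
    ((isClosed_le continuous_const (continuous_id.dist continuous_const)).inter
      (isClosed_le continuous_const (continuous_inner_sub z e)))
    (isClosed_closedBall.union (isClosed_le (continuous_inner_sub z e) continuous_const))
    (by
      intro v _
      by_cases hv : dist v z ≤ t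
      · exact Or.inr (Or.inl hv)
      · rcases le_total 0 (inner ℝ (v - z) e : ℝ) with h | h
        · exact Or.inl ⟨(not_le.1 hv).le, h⟩
        · exact Or.inr (Or.inr h))
    ⟨w, hwC, hwz', hwe⟩
    ⟨z, hzC, Or.inl (mem_closedBall_self ht.le)⟩
  have hvK := hCK hvC
  have hJ := h1 v hvK.1 hvK.2
  have hne := inner_ne_zero_of_strip he ht hJ hvA.1
  have hpos : 0 < (inner ℝ (v - z) e : ℝ) := lt_of_le_of_ne hvA.2 (Ne.symm hne)
  rcases hvB with hvB | hvB
  · have hvs : v ∈ sphere z t := by
      rw [mem_sphere]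
      exact le_antisymm hvB hvA.1
    exact absurd hpos (not_lt.2 (hcon v ⟨hvK.1, hvs⟩))
  · exact absurd hpos (not_lt.2 hvB)

lemma flat_neg {K : Set E2} {z e : E2} {ρ E : ℝ} (h : Arc.Flat K z e ρ E) :
    Arc.Flat K z (-e) ρ E := by
  obtain ⟨he, h1, h2⟩ := h
  refine ⟨by rw [norm_neg, he], fun w hw hd => ?_, fun t ht => ?_⟩
  · rw [Arc.J_neg, inner_neg_right, abs_neg]
    exact h1 w hw hd
  · obtain ⟨w, hw, hd⟩ := h2 (-t) (by rwa [abs_neg])
    refine ⟨w, hw, ?_⟩
    rwa [smul_neg, ← neg_smul]

theorem exists_neg_side {K : Set E2} {z e : E2} {t : ℝ} (ht : 0 < t)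
    (hF : Arc.Flat K z e (10 * t) (t / 20))
    (hconn : ∀ b ∈ K, dist b z ≤ 2 * t → b ∈ connectedComponentIn (K ∩ closedBall z (10 * t)) z)
    (hz : z ∈ K) : ∃ q ∈ K ∩ sphere z t, (inner ℝ (q - z) e : ℝ) < 0 := by
  obtain ⟨q, hq, h⟩ := exists_pos_side ht (flat_neg hF) hconn hz
  refine ⟨q, hq, ?_⟩
  rw [inner_neg_right] at h
  linarith

/-- if the sphere meets `K` in exactly two points, `K ∩ closedBall z t` is connected -/
theorem preconnected_of_two {K : Set E2} {z e p q : E2} {t : ℝ} (ht : 0 < t)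
    (hK : IsCompact (K ∩ closedBall z (10 * t)))
    (hF : Arc.Flat K z e (10 * t) (t / 20))
    (hconn : ∀ a ∈ K, dist a z ≤ t → ∀ b ∈ K, dist b z ≤ t →
      b ∈ connectedComponentIn (K ∩ closedBall z (10 * t)) a)
    (hpq : K ∩ sphere z t = {p, q}) (hp : 0 < (inner ℝ (p - z) e : ℝ))
    (hq : (inner ℝ (q - z) e : ℝ) < 0) : IsPreconnected (K ∩ closedBall z t) := by
  obtain ⟨he, h1, h2⟩ := hF
  have hpK : p ∈ K ∩ sphere z t := by rw [hpq]; simp
  have hqK : q ∈ K ∩ sphere z t := by rw [hpq]; simp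
  have hR : t ≤ 10 * t := by linarith
  have hopen : (K ∩ closedBall z (10 * t)) \ ball z t =
      (K ∩ closedBall z (10 * t)) ∩ {v | t ≤ dist v z} := by
    ext v
    simp only [Set.mem_sdiff, mem_ball, not_lt, mem_inter_iff, mem_ofPred_eq]
  have hout : IsClosed ((K ∩ closedBall z (10 * t)) ∩ {v | t ≤ dist v z}) :=
    hK.isClosed.inter (isClosed_le continuous_const (continuous_id.dist continuous_const))
  let P : Bool → Set E2 := fun b => ((K ∩ closedBall z (10 * t)) ∩ {v | t ≤ dist v z}) ∩
    (if b then {v | 0 ≤ (inner ℝ (v - z) e : ℝ)} else {v | (inner ℝ (v - z) e : ℝ) ≤ 0})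
  let pp : Bool → E2 := fun b => if b then p else q
  refine isPreconnected_inter_closedBall hR hK (fun a ha b hb => hconn a ha.1 ha.2 b hb.1 hb.2)
    P pp ?_ ?_ ?_ ?_ ?_
  · intro b
    refine hout.inter ?_
    cases b
    · simp only [Bool.false_eq_true, ↓reduceIte]
      exact isClosed_le (continuous_inner_sub z e) continuous_const
    · simp only [↓reduceIte]
      exact isClosed_le continuous_const (continuous_inner_sub z e)
  · have key : Disjoint (P true) (P false) := by
      rw [Set.disjoint_left]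
      intro v hv hv'
      simp only [P, ↓reduceIte, Bool.false_eq_true] at hv hv'
      have h3 : (inner ℝ (v - z) e : ℝ) = 0 := le_antisymm hv'.2 hv.2
      exact inner_ne_zero_of_strip he ht (h1 v hv.1.1.1 hv.1.1.2) hv.1.2 h3
    intro i j hij
    cases i <;> cases j
    · exact absurd rfl hij
    · exact key.symm
    · exact key
    · exact absurd rfl hij
  · rw [hopen]
    intro v hv
    rcases le_total 0 (inner ℝ (v - z) e : ℝ) with h | h
    · exact mem_iUnion.2 ⟨true, hv, by simpa using h⟩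
    · exact mem_iUnion.2 ⟨false, hv, by simpa using h⟩
  · intro b v hv
    exact hv.1.1
  · intro b
    ext v
    constructor
    · rintro ⟨hv, hvt⟩
      have hvs : v ∈ K ∩ sphere z t := ⟨hv.1.1.1, le_antisymm hvt hv.1.2⟩
      rw [hpq] at hvs
      cases b
      · simp only [P, Bool.false_eq_true, ↓reduceIte, mem_inter_iff, mem_ofPred_eq] at hv
        rcases hvs with rfl | rfl
        · exact absurd hp (not_lt.2 hv.2)
        · simp [pp]
      · simp only [P, ↓reduceIte, mem_inter_iff, mem_ofPred_eq] at hv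
        rcases hvs with rfl | rfl
        · simp [pp]
        · exact absurd hq (not_lt.2 hv.2)
    · intro hv
      cases b
      · simp only [pp, Bool.false_eq_true, ↓reduceIte, mem_singleton_iff] at hv
        subst hv
        have hd : dist v z = t := hqK.2
        refine ⟨⟨⟨⟨hqK.1, ?_⟩, ?_⟩, ?_⟩, ?_⟩
        · rw [mem_closedBall]; linarith
        · simp only [mem_ofPred_eq]; linarith
        · simpa using hq.le
        · rw [mem_closedBall]; linarith
      · simp only [pp, ↓reduceIte, mem_singleton_iff] at hv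
        subst hv
        have hd : dist v z = t := hpK.2
        refine ⟨⟨⟨⟨hpK.1, ?_⟩, ?_⟩, ?_⟩, ?_⟩
        · rw [mem_closedBall]; linarith
        · simp only [mem_ofPred_eq]; linarith
        · simpa using hp.le
        · rw [mem_closedBall]; linarith

end Crest.Agent.R135.EpsLoc
end

-- ▼ part R135/EpsLoc3

/-!
# R135, block EPS (helper983): length from the number of crossings, selection of good radii
-/

set_option autoImplicit false

open MeasureTheory Set Filter Topology Metric
open scoped ENNReal NNReal ContDiff Gradient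

namespace Crest.Agent.R135.EpsLoc

open Crest.Agent.R135

lemma lipschitz_dist_right (z : E2) (K : Set E2) : LipschitzOnWith 1 (fun w : E2 => dist w z) K :=
  (LipschitzWith.dist_left z).lipschitzOnWith

/-- length of the part of `K` in the annuli `dist w z ∈ A` -/
theorem mul_volume_le_len {K : Set E2} {z : E2} {A : Set ℝ} (hA : MeasurableSet A) (m : ℕ)
    (hm : ∀ t ∈ A, (m : ℕ∞) ≤ (K ∩ sphere z t).encard) :
    (m : ℝ≥0∞) * volume A ≤ len (K ∩ (fun w => dist w z) ⁻¹' A) := by
  refine mul_volume_le_hausdorffMeasure (fun w => dist w z) K (lipschitz_dist_right z K) A hA m ?_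
  intro t ht
  exact hm t ht

/-- `m` crossings of every small sphere give length at least `m R` -/
theorem ofReal_mul_le_len {K : Set E2} {z : E2} {R : ℝ} (m : ℕ)
    (hm : ∀ t ∈ Ioo 0 R, (m : ℕ∞) ≤ (K ∩ sphere z t).encard) :
    ENNReal.ofReal (m * R) ≤ len (K ∩ ball z R) := by
  have h1 := mul_volume_le_len measurableSet_Ioo m hm
  rw [Real.volume_Ioo, sub_zero, ← ENNReal.ofReal_natCast, ← ENNReal.ofReal_mul (by positivity)]
    at h1
  refine h1.trans (measure_mono ?_)
  rintro w ⟨hw, hwt⟩
  exact ⟨hw, hwt.2⟩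


/-- the set of radii where `cirE` is large is small -/
theorem volume_cirE_gt_le {U : Set E2} {lam : ℝ} {u : E2 → ℝ} {K : Set E2} {z : E2} {R s : ℝ}
    (hq : IsQM U lam u K) (hR : closedBall z R ⊆ U) (hR0 : 0 ≤ R) (hs : 0 < s) :
    volume {t ∈ Ioo 0 R | Dr u K z R / s < cirE u z t} ≤ ENNReal.ofReal s := by
  have hint := QMC.intervalIntegrable_cirE hq hR hR0
  have hsub := QMC.Dr_sub hq hR le_rfl hR0 le_rfl
  rw [QMC.Dr_of_nonpos u K z le_rfl, sub_zero, intervalIntegral.integral_of_le hR0,
    integral_Ioc_eq_integral_Ioo] at hsub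
  rw [intervalIntegrable_iff_integrableOn_Ioo_of_le hR0] at hint
  set μ := volume.restrict (Ioo 0 R) with hμ
  have hnn : 0 ≤ᵐ[μ] fun t => cirE u z t := by
    rw [EventuallyLE, hμ, ae_restrict_iff' measurableSet_Ioo]
    exact Eventually.of_forall fun t ht => QMC.cirE_nonneg u z ht.1.le
  have hD0 : 0 ≤ Dr u K z R := QMC.Dr_nonneg u K z R
  have hset : {t ∈ Ioo 0 R | Dr u K z R / s < cirE u z t}
      = {t | Dr u K z R / s < cirE u z t} ∩ Ioo 0 R := by
    ext t; simp [and_comm]
  rcases hD0.lt_or_eq with hD | hD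
  · have h1 := mul_meas_ge_le_integral_of_nonneg hnn hint (Dr u K z R / s)
    rw [← hsub] at h1
    have h2 : μ.real {t | Dr u K z R / s ≤ cirE u z t} ≤ s := by
      have : 0 < Dr u K z R / s := by positivity
      by_contra hcon
      push Not at hcon
      have h3 : Dr u K z R / s * s < Dr u K z R / s * μ.real {t | Dr u K z R / s ≤ cirE u z t} :=
        mul_lt_mul_of_pos_left hcon this
      rw [div_mul_cancel₀ _ hs.ne'] at h3
      linarith
    have hfin : μ {t | Dr u K z R / s ≤ cirE u z t} ≠ ⊤ := by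
      apply ne_top_of_le_ne_top _ (measure_mono (subset_univ _))
      rw [hμ, Measure.restrict_apply_univ, Real.volume_Ioo]
      exact ENNReal.ofReal_ne_top
    calc volume {t ∈ Ioo 0 R | Dr u K z R / s < cirE u z t}
        ≤ μ {t | Dr u K z R / s < cirE u z t} := by
          rw [hset]
          exact Measure.le_restrict_apply _ _
      _ ≤ μ {t | Dr u K z R / s ≤ cirE u z t} := by
          refine measure_mono ?_
          intro t ht
          have ht' : Dr u K z R / s < cirE u z t := ht
          exact ht'.le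
      _ = ENNReal.ofReal (μ.real {t | Dr u K z R / s ≤ cirE u z t}) := by
          rw [measureReal_def, ENNReal.ofReal_toReal hfin]
      _ ≤ ENNReal.ofReal s := ENNReal.ofReal_le_ofReal h2
  · rw [← hD, zero_div]
    have h0 : ∫ t, cirE u z t ∂μ = 0 := by rw [← hsub, ← hD]
    rw [integral_eq_zero_iff_of_nonneg_ae hnn hint] at h0
    have h1 : μ {t | 0 < cirE u z t} = 0 := by
      have : {t | 0 < cirE u z t} ⊆ {t | ¬ (cirE u z t = (0 : ℝ → ℝ) t)} := by
        intro t (ht : 0 < cirE u z t)
        exact ht.ne'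
      exact measure_mono_null this h0
    calc volume {t ∈ Ioo 0 R | 0 < cirE u z t}
        ≤ μ {t | 0 < cirE u z t} := by
          have : {t ∈ Ioo 0 R | 0 < cirE u z t} = {t | 0 < cirE u z t} ∩ Ioo 0 R := by
            ext t; simp [and_comm]
          rw [this]
          exact Measure.le_restrict_apply _ _
      _ = 0 := h1
      _ ≤ _ := bot_le

/-- **Selection of a good radius.** If all spheres meet `K` in at least `m` points and the length is
less than `(4 m + 1) s`, then some good sphere of radius `t ∈ (2s, 4s)` meets `K` in exactly `m`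
points and carries little energy. -/
theorem exists_good_radius {U : Set E2} {lam : ℝ} {u : E2 → ℝ} {K : Set E2} {z : E2} {s : ℝ}
    (hq : IsQM U lam u K) (hs : 0 < s) (hR : closedBall z (4 * s) ⊆ U) (m : ℕ)
    (hm : ∀ t ∈ Ioo 0 (4 * s), (m : ℕ∞) ≤ (K ∩ sphere z t).encard)
    (hL : Lr K z (4 * s) < (4 * m + 1) * s) :
    ∃ t ∈ Ioo (2 * s) (4 * s), (K ∩ sphere z t).encard = m ∧
      GoodCirc K (fun y => gradient u y) z t ∧ cirE u z t ≤ Dr u K z (4 * s) / s := by
  by_contra hcon
  push Not at hcon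
  set R := 4 * s with hRdef
  have hR0 : 0 < R := by positivity
  -- the bad set
  set B : Set ℝ := {t ∈ Ioo 0 R | Dr u K z R / s < cirE u z t} with hB
  set N : Set ℝ := {t | ¬ (t ∈ Ioo 0 R → GoodCirc K (fun y => gradient u y) z t)} with hN
  have hN0 : volume N = 0 := QMC.ae_goodCirc_qm hq hR
  have hBs : volume B ≤ ENNReal.ofReal s := volume_cirE_gt_le hq hR hR0.le hs
  set T := toMeasurable volume (B ∪ N) with hT
  have hTm : MeasurableSet T := measurableSet_toMeasurable _ _
  have hTv : volume T ≤ ENNReal.ofReal s := by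
    rw [hT, measure_toMeasurable]
    refine (measure_union_le _ _).trans ?_
    rw [hN0, add_zero]
    exact hBs
  set A := Ioo (2 * s) R \ T with hA
  have hAm : MeasurableSet A := measurableSet_Ioo.diff hTm
  have hAR : A ⊆ Ioo 0 R := fun t ht => ⟨by have := ht.1.1; linarith, ht.1.2⟩
  have hAv : ENNReal.ofReal s ≤ volume A := by
    have h1 : volume (Ioo (2 * s) R) ≤ volume A + volume T := by
      refine (measure_mono ?_).trans (measure_union_le _ _)
      intro t ht
      by_cases h : t ∈ T
      · exact Or.inr h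
      · exact Or.inl ⟨ht, h⟩
    rw [Real.volume_Ioo] at h1
    have h2 : ENNReal.ofReal (R - 2 * s) = ENNReal.ofReal s + ENNReal.ofReal s := by
      rw [← ENNReal.ofReal_add hs.le hs.le]
      congr 1
      rw [hRdef]; ring
    rw [h2] at h1
    have h3 : ENNReal.ofReal s + ENNReal.ofReal s ≤ volume A + ENNReal.ofReal s :=
      h1.trans (by gcongr)
    exact (ENNReal.add_le_add_iff_right ENNReal.ofReal_ne_top).1 h3
  have hAfin : volume A ≠ ⊤ := by
    apply ne_top_of_le_ne_top _ (measure_mono hAR)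
    rw [Real.volume_Ioo]
    exact ENNReal.ofReal_ne_top
  -- more crossings on `A`
  have hAm1 : ∀ t ∈ A, ((m + 1 : ℕ) : ℕ∞) ≤ (K ∩ sphere z t).encard := by
    intro t ht
    have htT : t ∉ B ∪ N := fun h => ht.2 (subset_toMeasurable _ _ h)
    have htR := hAR ht
    have hgood : GoodCirc K (fun y => gradient u y) z t := by
      by_contra hbad
      exact htT (Or.inr (fun h => hbad (h htR)))
    have hcir : cirE u z t ≤ Dr u K z R / s := by
      by_contra hbad
      exact htT (Or.inl ⟨htR, not_le.1 hbad⟩)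
    have hne : (K ∩ sphere z t).encard ≠ m := by
      intro h
      exact absurd hcir (not_le.2 (hcon t ht.1 h hgood))
    have h1 := hm t htR
    have h2 : (m : ℕ∞) < (K ∩ sphere z t).encard := lt_of_le_of_ne h1 (Ne.symm hne)
    rw [Nat.cast_add, Nat.cast_one]
    exact Order.add_one_le_of_lt h2
  have h1 := mul_volume_le_len hAm (m + 1) hAm1
  have h2 := mul_volume_le_len (K := K) (z := z) (measurableSet_Ioo.diff hAm) m
    (fun t (ht : t ∈ Ioo 0 R \ A) => hm t ht.1)
  have hdisj : Disjoint (K ∩ (fun w => dist w z) ⁻¹' A)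
      (K ∩ (fun w => dist w z) ⁻¹' (Ioo 0 R \ A)) := by
    rw [Set.disjoint_left]
    rintro w ⟨-, hw⟩ ⟨-, hw'⟩
    exact hw'.2 hw
  have hmeas : MeasurableSet ((fun w : E2 => dist w z) ⁻¹' A) :=
    (measurable_id.dist measurable_const) hAm
  have h3 : len (K ∩ (fun w => dist w z) ⁻¹' A) + len (K ∩ (fun w => dist w z) ⁻¹' (Ioo 0 R \ A))
      ≤ len (K ∩ closedBall z R) := by
    have h4 := measure_inter_add_sdiff (μ := Measure.hausdorffMeasure 1) (K ∩ closedBall z R) hmeas
    unfold len
    rw [← h4]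
    refine add_le_add (measure_mono ?_) (measure_mono ?_)
    · rintro w ⟨hw, hwA⟩
      exact ⟨⟨hw, (hAR hwA).2.le⟩, hwA⟩
    · rintro w ⟨hw, hwA⟩
      exact ⟨⟨hw, hwA.1.2.le⟩, hwA.2⟩
  have h5 : volume (Ioo 0 R \ A) = ENNReal.ofReal R - volume A := by
    rw [measure_sdiff hAR hAm.nullMeasurableSet hAfin, Real.volume_Ioo, sub_zero]
  have h6 : ((m + 1 : ℕ) : ℝ≥0∞) * volume A + m * volume (Ioo 0 R \ A) ≤ len (K ∩ closedBall z R) :=
    (add_le_add h1 h2).trans h3
  have h7 : (m : ℝ≥0∞) * ENNReal.ofReal R + ENNReal.ofReal s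
      ≤ ((m + 1 : ℕ) : ℝ≥0∞) * volume A + m * volume (Ioo 0 R \ A) := by
    have hle : volume A ≤ ENNReal.ofReal R := by
      have := measure_mono (μ := volume) hAR
      rwa [Real.volume_Ioo, sub_zero] at this
    rw [h5]
    have : (m : ℝ≥0∞) * ENNReal.ofReal R
        = m * volume A + m * (ENNReal.ofReal R - volume A) := by
      rw [← mul_add, add_tsub_cancel_of_le hle]
    rw [this]
    push_cast
    rw [add_mul, one_mul]
    calc (m : ℝ≥0∞) * volume A + m * (ENNReal.ofReal R - volume A) + ENNReal.ofReal s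
        ≤ (m : ℝ≥0∞) * volume A + m * (ENNReal.ofReal R - volume A) + volume A := by gcongr
      _ = _ := by ring
  have h8 : ENNReal.ofReal ((4 * m + 1) * s) ≤ len (K ∩ closedBall z R) := by
    refine le_trans (le_of_eq ?_) (h7.trans h6)
    rw [← ENNReal.ofReal_natCast, ← ENNReal.ofReal_mul (by positivity),
      ← ENNReal.ofReal_add (by positivity) hs.le]
    congr 1
    rw [hRdef]; ring
  have h9 := (ENNReal.ofReal_le_iff_le_toReal (hq.len_fin z R hR).ne).1 h8
  unfold Lr at hL
  linarith

end Crest.Agent.R135.EpsLoc
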