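import Crest.Agent.R135.RegEst
import Crest.Agent.R135.FV1
import Crest.Agent.R135.PolarE
import Mathlib
import Crest.Agent.R135.QMMono
import Crest.Agent.R135.Strong
import Crest.Agent.R135.IFDefs

-- ▼ part R135/RegMin
section

/-!
# Row 135 (Mumford-Shah): the C¹ representative of an absolute minimizer (regularity toolbox, 6)
-/

set_option autoImplicit false
open MeasureTheory Metric Set Filter Topology Laplacian InnerProductSpace
open scoped RealInnerProductSpace NNReal ENNReal ContDiff Gradient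

namespace Crest.Agent.R135.Reg
open Crest.Agent.R097 Crest.AnalysisR.PDE.OnePhase Crest.AnalysisR.PDE.MumfordShah Crest.Agent.R135.Gl

/-- **An absolute minimizer has a `C¹` representative off the crack**, which solves
`Δ u = u - g` weakly there. -/
theorem minimizer_C1_rep {Ω : Set P} (hΩ : IsOpen Ω) {g u : P → ℝ} (hgm : Measurable g)
    (hgb : ∃ M : ℝ, ∀ x ∈ Ω, ‖g x‖ ≤ M) {K : Set P} {G : P → P}
    (hmin : IsAbsoluteMinimizer Ω g u K G) :
    ∃ ut : P → ℝ, ContDiffOn ℝ 1 ut (Ω \ K) ∧ (∀ᵐ x ∂(volume.restrict Ω), u x = ut x) ∧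
      (∀ᵐ x ∂(volume.restrict (Ω \ K)), G x = ∇ ut x) ∧
      WLap (Ω \ K) ut (fun x => ut x - g x) := by
  obtain ⟨M, hM⟩ := hgb
  obtain ⟨hKΩ, hKc, hKf, hu2, hwg, hG2⟩ := hmin.1
  have hU : IsOpen (Ω \ K) := isOpen_compl_of_relClosed hΩ hKc
  have hK0 : volume K = 0 := volume_eq_zero_of_hausdorff_lt_top hKf
  have hN : IsNeumann Ω K G (fun x => u x - g x) := by
    refine neumann_of_min hΩ hmin ?_
    intro C hC hCΩ
    have : IsFiniteMeasure (volume.restrict C) :=
      ⟨by rw [Measure.restrict_apply_univ]; exact hC.measure_lt_top⟩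
    refine MemLp.of_bound hgm.aestronglyMeasurable M ?_
    filter_upwards [ae_restrict_mem hC.measurableSet] with x hx
    exact hM x (hCΩ hx)
  have hres : volume.restrict (Ω \ K) = volume.restrict Ω := by
    refine Measure.restrict_congr_set ?_
    exact sdiff_null_ae_eq_self hK0
  have hloc : ∀ x ∈ Ω \ K, ∃ r > 0, ball x r ⊆ Ω \ K ∧ MemLp u 2 (volume.restrict (ball x r)) := by
    intro x hx
    obtain ⟨r, hr, hrU⟩ := Metric.isOpen_iff.mp hU x hx
    exact ⟨r, hr, hrU, hu2.mono_measure (Measure.restrict_mono (hrU.trans diff_subset) le_rfl)⟩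
  have hEL : ∀ φ : P → ℝ, ContDiff ℝ ∞ φ → HasCompactSupport φ → tsupport φ ⊆ Ω \ K →
      (∫ x in Ω \ K, ⟪G x, ∇ φ x⟫_ℝ) + 1 * ∫ x in Ω \ K, (u x - g x) * φ x = 0 := by
    intro φ hφ hc hs
    have hz : ∀ x, x ∉ tsupport φ → φ x = 0 := fun x hx => image_eq_zero_of_notMem_tsupport hx
    have hz' : ∀ x, x ∉ tsupport φ → ∇ φ x = 0 := by
      intro x hx
      have : φ =ᶠ[𝓝 x] fun _ => (0 : ℝ) := by
        filter_upwards [(isClosed_tsupport φ).isOpen_compl.mem_nhds hx] with y hy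
        exact hz y hy
      rw [this.gradient_eq]
      exact gradient_const x 0
    have hgc : Continuous (fun x => ∇ φ x) := continuous_grad hφ
    have hgcs : HasCompactSupport (fun x => ∇ φ x) :=
      HasCompactSupport.of_support_subset_isCompact hc.isCompact (fun x hx => by
        by_contra h
        exact hx (hz' x h))
    have h5 := hN φ (fun x => ∇ φ x) (tsupport φ) hc.isCompact (hs.trans diff_subset) hz hz'
      (weakGrad_smooth hU hφ) ((hφ.continuous.memLp_of_hasCompactSupport hc).restrict _)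
      ((hgc.memLp_of_hasCompactSupport hgcs).restrict _)
    rw [one_mul, hres]
    rw [hres] at h5
    exact h5
  obtain ⟨ut, h1, h2, h3, h4⟩ := exists_C1_rep (U := Ω \ K) (u := u) (g := g) (G := G) (β := 1)
    (M := M) hU hwg hloc hgm.aestronglyMeasurable (fun x hx => hM x hx.1) hEL
  refine ⟨ut, h1, ?_, h3, ?_⟩
  · rw [← hres]; exact h2
  · simpa using h4

end Crest.Agent.R135.Reg
end

-- ▼ part R135/Entry1
section

/-!
# From absolute minimizers to quasi-minimizers, part 1 (helper140)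

`Entry1`: comparison of the `C¹` representative of an absolute minimizer with competitors that are
locally Lipschitz off the new crack and bounded in the ball.
-/

set_option autoImplicit false

open MeasureTheory Set Filter Topology Metric
open scoped ENNReal NNReal ContDiff Gradient
open Crest.AnalysisR.PDE.OnePhase Crest.AnalysisR.PDE.MumfordShah

namespace Crest.Agent.R135

/-- The data of an absolute minimizer with its `C¹` representative `ut`. -/
structure MinData (Ω : Set E2) (g u : E2 → ℝ) (K : Set E2) (G : E2 → E2) (ut : E2 → ℝ)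
    (M₀ : ℝ) : Prop where
  isOpen : IsOpen Ω
  gm : Measurable g
  gb : ∀ x ∈ Ω, ‖g x‖ ≤ M₀
  min : IsAbsoluteMinimizer Ω g u K G
  red : IsReduced Ω K
  c1 : ContDiffOn ℝ 1 ut (Ω \ K)
  ae_u : ∀ᵐ x ∂(volume.restrict Ω), u x = ut x
  ae_G : ∀ᵐ x ∂(volume.restrict (Ω \ K)), G x = gradient ut x

theorem exists_minData {Ω : Set E2} (hΩo : IsOpen Ω) {g u : E2 → ℝ} {K : Set E2} {G : E2 → E2}
    (hgm : Measurable g) (hgb : ∃ M : ℝ, ∀ x ∈ Ω, ‖g x‖ ≤ M)
    (hmin : IsAbsoluteMinimizer Ω g u K G) (hred : IsReduced Ω K) :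
    ∃ (ut : E2 → ℝ) (M₀ : ℝ), MinData Ω g u K G ut M₀ := by
  obtain ⟨ut, h1, h2, h3, _⟩ := Reg.minimizer_C1_rep hΩo hgm hgb hmin
  obtain ⟨M, hM⟩ := hgb
  exact ⟨ut, M, hΩo, hgm, hM, hmin, hred, h1, h2, h3⟩

namespace MinData

variable {Ω : Set E2} {g u : E2 → ℝ} {K : Set E2} {G : E2 → E2} {ut : E2 → ℝ} {M₀ : ℝ}

lemma subK (h : MinData Ω g u K G ut M₀) : K ⊆ Ω := h.min.1.1
lemma closedK (h : MinData Ω g u K G ut M₀) : closure K ∩ Ω ⊆ K := h.min.1.2.1
lemma lenK (h : MinData Ω g u K G ut M₀) : len K < ⊤ := h.min.1.2.2.1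
lemma memLp_u (h : MinData Ω g u K G ut M₀) : MemLp u 2 (volume.restrict Ω) := h.min.1.2.2.2.1
lemma isOpen_diff (h : MinData Ω g u K G ut M₀) : IsOpen (Ω \ K) :=
  (relClosed_iff h.isOpen).1 h.closedK
lemma measurable_K (h : MinData Ω g u K G ut M₀) : MeasurableSet K :=
  relClosed_measurable h.isOpen h.subK h.closedK
lemma volume_K (h : MinData Ω g u K G ut M₀) : volume K = 0 :=
  volume_eq_zero_of_hausdorff_lt_top h.lenK

lemma memLp_ut (h : MinData Ω g u K G ut M₀) : MemLp ut 2 (volume.restrict Ω) :=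
  (memLp_congr_ae h.ae_u).1 h.memLp_u

lemma lipAt (h : MinData Ω g u K G ut M₀) {y : E2} (hy : y ∈ Ω \ K) : LipAt ut y :=
  lipAt_of_contDiffOn h.isOpen_diff h.c1 hy

lemma dir_fin (h : MinData Ω g u K G ut M₀) : ∫⁻ x in Ω \ K, ‖gradient ut x‖ₑ ^ 2 < ⊤ := by
  refine lt_of_le_of_lt (le_of_eq ?_) h.min.1.2.2.2.2.2
  refine lintegral_congr_ae ?_
  filter_upwards [h.ae_G] with x hx
  rw [hx]

lemma msEnergy_eq (h : MinData Ω g u K G ut M₀) {V : Set E2} (hV : V ⊆ Ω) :
    msEnergy g u K G V = msEnergy g ut K (gradient ut) V := by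
  unfold msEnergy
  have h1 : ∫⁻ x in V \ K, ‖G x‖ₑ ^ 2 = ∫⁻ x in V \ K, ‖gradient ut x‖ₑ ^ 2 := by
    refine lintegral_congr_ae ?_
    filter_upwards [ae_restrict_of_ae_restrict_of_subset (sdiff_subset_sdiff_left hV) h.ae_G]
      with x hx
    rw [hx]
  have h2 : ∫⁻ x in V, ‖u x - g x‖ₑ ^ 2 = ∫⁻ x in V, ‖ut x - g x‖ₑ ^ 2 := by
    refine lintegral_congr_ae ?_
    filter_upwards [ae_restrict_of_ae_restrict_of_subset hV h.ae_u] with x hx
    rw [hx]
  rw [h1, h2]

/-- Comparison with general admissible pairs that agree with the representative only in `Ω`. -/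
theorem compare (h : MinData Ω g u K G ut M₀) {V : Set E2} (hV : IsOpen V)
    (hVc : IsCompact (closure V)) (hVΩ : closure V ⊆ Ω) {w : E2 → ℝ} {L : Set E2} {H : E2 → E2}
    (hadm : IsAdmissiblePair Ω w L H) {C : Set E2} (hC : IsCompact C) (hCV : C ⊆ V)
    (hLK : symmDiff L K ⊆ C) (hw : ∀ᵐ x ∂(volume.restrict Ω), x ∉ C → w x = ut x) :
    msEnergy g ut K (gradient ut) V ≤ msEnergy g w L H V := by
  classical
  have hVΩ' : V ⊆ Ω := subset_closure.trans hVΩ
  rw [← h.msEnergy_eq hVΩ']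
  set w' : E2 → ℝ := Ω.piecewise w u with hw'
  have hww : ∀ x ∈ Ω, w' x = w x := fun x hx => by simp [hw', hx]
  have hadm' : IsAdmissiblePair Ω w' L H := by
    obtain ⟨a1, a2, a3, a4, a5, a6⟩ := hadm
    refine ⟨a1, a2, a3, ?_, ?_, a6⟩
    · refine (memLp_congr_ae ?_).1 a4
      filter_upwards [ae_restrict_mem h.isOpen.measurableSet] with x hx
      exact (hww x hx).symm
    · obtain ⟨b1, b2, b3⟩ := a5
      have hLo : IsOpen (Ω \ L) := (relClosed_iff h.isOpen).1 a2
      refine ⟨?_, b2, ?_⟩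
      · refine b1.congr ?_
        filter_upwards [ae_restrict_mem hLo.measurableSet] with x hx
        exact (hww x hx.1).symm
      · intro φ hφ hc hs i
        rw [← b3 φ hφ hc hs i]
        refine setIntegral_congr_fun hLo.measurableSet ?_
        intro x hx
        simp only [hww x hx.1]
  have hae : ∀ᵐ x ∂(volume : Measure E2), x ∉ C → w' x = u x := by
    rw [ae_restrict_iff' h.isOpen.measurableSet] at hw
    have hu := h.ae_u
    rw [ae_restrict_iff' h.isOpen.measurableSet] at hu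
    filter_upwards [hw, hu] with x h1 h2 h3
    by_cases hx : x ∈ Ω
    · rw [hww x hx, h1 hx h3, h2 hx]
    · simp [hw', hx]
  refine (h.min.2 V hV hVc hVΩ w' L H hadm' ⟨C, hC, hCV, hLK, hae⟩).trans (le_of_eq ?_)
  unfold msEnergy
  congr 1
  refine setLIntegral_congr_fun hV.measurableSet ?_
  intro x hx
  simp only [hww x (hVΩ' hx)]

end MinData

end Crest.Agent.R135
end

-- ▼ part R135/Entry2
section

/-!
# From absolute minimizers to quasi-minimizers, part 2 (helper140)

`MinData.ball_compare`: comparison on a closed ball, for competitors which are locally Lipschitz off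
the new crack and bounded in the ball (no topological condition).
-/

set_option autoImplicit false

open MeasureTheory Set Filter Topology Metric
open scoped ENNReal NNReal ContDiff Gradient
open Crest.AnalysisR.PDE.OnePhase Crest.AnalysisR.PDE.MumfordShah

namespace Crest.Agent.R135

namespace MinData

variable {Ω : Set E2} {g u : E2 → ℝ} {K : Set E2} {G : E2 → E2} {ut : E2 → ℝ} {M₀ : ℝ}

theorem ball_compare (h : MinData Ω g u K G ut M₀) {x : E2} {ρ : ℝ} (hρ : 0 < ρ)
    (hB : closedBall x ρ ⊆ Ω) {w : E2 → ℝ} {L : Set E2} (hLΩ : L ⊆ Ω)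
    (hLcl : closure L ∩ Ω ⊆ L) (hLfin : len (L ∩ closedBall x ρ) < ⊤)
    (heqL : L \ closedBall x ρ = K \ closedBall x ρ) (hlip : LocallyLipschitzOn (Ω \ L) w)
    (heqw : ∀ y ∈ Ω \ (K ∪ closedBall x ρ), w y = ut y)
    (hbd : ∃ M₁ : ℝ, ∀ y ∈ closedBall x ρ \ L, |w y| ≤ M₁) :
    enE ut K (closedBall x ρ) + ∫⁻ y in closedBall x ρ, ‖ut y - g y‖ₑ ^ 2
      ≤ enE w L (closedBall x ρ) + ∫⁻ y in closedBall x ρ, ‖w y - g y‖ₑ ^ 2 := by
  classical
  set B := closedBall x ρ with hBdef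
  have hBm : MeasurableSet B := isClosed_closedBall.measurableSet
  by_cases htop : dirE w L B = ⊤
  · have : enE w L B = ⊤ := by rw [enE, htop]; simp
    rw [this]; simp
  have hLo : IsOpen (Ω \ L) := (relClosed_iff h.isOpen).1 hLcl
  have hLm : MeasurableSet L := relClosed_measurable h.isOpen hLΩ hLcl
  have hKm := h.measurable_K
  -- length of L
  have hLlen : len L < ⊤ := by
    have h1 : L ⊆ (L ∩ B) ∪ K := by
      intro y hy
      by_cases hyB : y ∈ B
      · exact Or.inl ⟨hy, hyB⟩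
      · have : y ∈ K \ B := by rw [← heqL]; exact ⟨hy, hyB⟩
        exact Or.inr this.1
    exact (measure_mono h1).trans_lt ((measure_union_le _ _).trans_lt
      (ENNReal.add_lt_top.2 ⟨hLfin, h.lenK⟩))
  have hLvol : volume L = 0 := volume_eq_zero_of_hausdorff_lt_top hLlen
  -- equality of w and ut outside B
  have hwe : ∀ y ∈ Ω \ K, y ∉ B → w =ᶠ[𝓝 y] ut := by
    intro y hy hyB
    have h1 : (Ω \ K) ∩ Bᶜ ∈ 𝓝 y :=
      (h.isOpen_diff.inter isClosed_closedBall.isOpen_compl).mem_nhds ⟨hy, hyB⟩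
    filter_upwards [h1] with z hz
    refine heqw z ⟨hz.1.1, ?_⟩
    rintro (h2 | h2)
    · exact hz.1.2 h2
    · exact hz.2 h2
  have hgrad : ∀ y ∈ Ω \ K, y ∉ B → gradient w y = gradient ut y :=
    fun y hy hyB => gradient_congr_of_eventuallyEq (hwe y hy hyB)
  have hdiffB : ∀ S : Set E2, (S \ L) \ B = (S \ K) \ B := by
    intro S
    ext y
    constructor
    · rintro ⟨⟨h1, h2⟩, h3⟩
      refine ⟨⟨h1, fun h4 => h2 ?_⟩, h3⟩
      have : y ∈ L \ B := by rw [heqL]; exact ⟨h4, h3⟩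
      exact this.1
    · rintro ⟨⟨h1, h2⟩, h3⟩
      refine ⟨⟨h1, fun h4 => h2 ?_⟩, h3⟩
      have : y ∈ K \ B := by rw [← heqL]; exact ⟨h4, h3⟩
      exact this.1
  have houter : ∀ S : Set E2, MeasurableSet S → S ⊆ Ω →
      ∫⁻ y in (S \ L) \ B, ‖gradient w y‖ₑ ^ 2 = ∫⁻ y in (S \ K) \ B, ‖gradient ut y‖ₑ ^ 2 := by
    intro S hS hSΩ
    rw [hdiffB S]
    refine setLIntegral_congr_fun ((hS.diff hKm).diff hBm) ?_
    rintro y ⟨⟨h1, h2⟩, h3⟩
    simp only [hgrad y ⟨hSΩ h1, h2⟩ h3]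
  -- admissibility
  have hwmeas : AEStronglyMeasurable w (volume.restrict Ω) := by
    have h1 : AEStronglyMeasurable w (volume.restrict (Ω \ L)) :=
      hlip.continuousOn.aestronglyMeasurable hLo.measurableSet
    have h2 : volume.restrict (Ω \ L) = volume.restrict Ω :=
      Measure.restrict_congr_set (sdiff_null_ae_eq_self hLvol)
    rwa [h2] at h1
  have hwae : ∀ᵐ y ∂(volume.restrict Ω), y ∉ B → w y = ut y := by
    have hK0 : ∀ᵐ y ∂(volume.restrict Ω), y ∉ K :=
      ae_restrict_of_ae (measure_eq_zero_iff_ae_notMem.1 h.volume_K)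
    filter_upwards [hK0, ae_restrict_mem h.isOpen.measurableSet] with y h1 h2 h3
    refine heqw y ⟨h2, ?_⟩
    rintro (h4 | h4)
    · exact h1 h4
    · exact h3 h4
  have hwLp : MemLp w 2 (volume.restrict Ω) := by
    obtain ⟨M₁, hM₁⟩ := hbd
    have h1 : MemLp (fun y => B.indicator (fun _ => |M₁|) y + |ut y|) 2 (volume.restrict Ω) := by
      refine MemLp.add ?_ h.memLp_ut.abs
      refine memLp_indicator_const 2 hBm _ (Or.inr ?_)
      exact ne_of_lt ((Measure.restrict_apply_le _ _).trans_lt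
        (isCompact_closedBall x ρ).measure_lt_top)
    refine h1.mono hwmeas ?_
    have hL0 : ∀ᵐ y ∂(volume.restrict Ω), y ∉ L :=
      ae_restrict_of_ae (measure_eq_zero_iff_ae_notMem.1 hLvol)
    filter_upwards [hwae, hL0] with y h2 h3
    rw [Real.norm_eq_abs, Real.norm_eq_abs]
    by_cases hyB : y ∈ B
    · rw [indicator_of_mem hyB]
      refine (hM₁ y ⟨hyB, h3⟩).trans ((le_abs_self _).trans ?_)
      exact le_trans (by linarith [abs_nonneg (ut y)]) (le_abs_self _)
    · rw [h2 hyB, indicator_of_notMem hyB, zero_add, abs_abs]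
  have hadm : IsAdmissiblePair Ω w L (fun y => gradient w y) := by
    refine ⟨hLΩ, hLcl, hLlen, hwLp, isWeakGradOn_of_locallyLipschitzOn hLo hlip, ?_⟩
    rw [← lintegral_inter_add_sdiff _ (Ω \ L) hBm]
    refine ENNReal.add_lt_top.2 ⟨?_, ?_⟩
    · have h1 : (Ω \ L) ∩ B = B \ L := by
        ext y; constructor
        · rintro ⟨h2, h3⟩; exact ⟨h3, h2.2⟩
        · rintro ⟨h2, h3⟩; exact ⟨⟨hB h2, h3⟩, h2⟩
      rw [h1]
      exact lt_top_iff_ne_top.2 htop
    · rw [houter Ω h.isOpen.measurableSet le_rfl]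
      exact (lintegral_mono_set sdiff_subset).trans_lt h.dir_fin
  -- the larger ball
  obtain ⟨δ, hδ, hδΩ⟩ := (isCompact_closedBall x ρ).exists_cthickening_subset_open h.isOpen hB
  rw [cthickening_closedBall hδ.le hρ.le] at hδΩ
  set V := ball x (δ + ρ) with hV
  have hVcl : closure V = closedBall x (δ + ρ) := closure_ball x (by positivity)
  have hBV : B ⊆ V := closedBall_subset_ball (by linarith)
  have hVΩ : V ⊆ Ω := ball_subset_closedBall.trans hδΩ
  have hVm : MeasurableSet V := measurableSet_ball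
  have key := h.compare (V := V) isOpen_ball (by rw [hVcl]; exact isCompact_closedBall _ _)
    (by rw [hVcl]; exact hδΩ) hadm (isCompact_closedBall x ρ) hBV ?_ hwae
  · -- splitting
    unfold msEnergy at key
    have s1 : ∫⁻ y in V \ K, ‖gradient ut y‖ₑ ^ 2
        = dirE ut K B + ∫⁻ y in (V \ K) \ B, ‖gradient ut y‖ₑ ^ 2 := by
      rw [← lintegral_inter_add_sdiff _ (V \ K) hBm]
      have : (V \ K) ∩ B = B \ K := by
        ext y; constructor
        · rintro ⟨h2, h3⟩; exact ⟨h3, h2.2⟩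
        · rintro ⟨h2, h3⟩; exact ⟨⟨hBV h2, h3⟩, h2⟩
      rw [this]; rfl
    have s2 : ∫⁻ y in V \ L, ‖gradient w y‖ₑ ^ 2
        = dirE w L B + ∫⁻ y in (V \ K) \ B, ‖gradient ut y‖ₑ ^ 2 := by
      rw [← lintegral_inter_add_sdiff _ (V \ L) hBm, houter V hVm hVΩ]
      have : (V \ L) ∩ B = B \ L := by
        ext y; constructor
        · rintro ⟨h2, h3⟩; exact ⟨h3, h2.2⟩
        · rintro ⟨h2, h3⟩; exact ⟨⟨hBV h2, h3⟩, h2⟩
      rw [this]; rfl
    have s3 : Measure.hausdorffMeasure 1 (K ∩ V)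
        = len (K ∩ B) + len ((K ∩ V) \ B) := by
      unfold len
      rw [← measure_inter_add_sdiff (K ∩ V) hBm]
      have : K ∩ V ∩ B = K ∩ B := by
        ext y; constructor
        · rintro ⟨h2, h3⟩; exact ⟨h2.1, h3⟩
        · rintro ⟨h2, h3⟩; exact ⟨⟨h2, hBV h3⟩, h3⟩
      rw [this]
    have s4 : Measure.hausdorffMeasure 1 (L ∩ V)
        = len (L ∩ B) + len ((K ∩ V) \ B) := by
      unfold len
      rw [← measure_inter_add_sdiff (L ∩ V) hBm]
      have e1 : L ∩ V ∩ B = L ∩ B := by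
        ext y; constructor
        · rintro ⟨h2, h3⟩; exact ⟨h2.1, h3⟩
        · rintro ⟨h2, h3⟩; exact ⟨⟨h2, hBV h3⟩, h3⟩
      have e2 : (L ∩ V) \ B = (K ∩ V) \ B := by
        ext y; constructor
        · rintro ⟨⟨h2, h3⟩, h4⟩
          have : y ∈ K \ B := by rw [← heqL]; exact ⟨h2, h4⟩
          exact ⟨⟨this.1, h3⟩, h4⟩
        · rintro ⟨⟨h2, h3⟩, h4⟩
          have : y ∈ L \ B := by rw [heqL]; exact ⟨h2, h4⟩
          exact ⟨⟨this.1, h3⟩, h4⟩
      rw [e1, e2]
    have s5 : ∫⁻ y in V, ‖ut y - g y‖ₑ ^ 2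
        = (∫⁻ y in B, ‖ut y - g y‖ₑ ^ 2) + ∫⁻ y in V \ B, ‖ut y - g y‖ₑ ^ 2 := by
      rw [← lintegral_inter_add_sdiff _ V hBm, inter_eq_self_of_subset_right hBV]
    have s6 : ∫⁻ y in V, ‖w y - g y‖ₑ ^ 2
        = (∫⁻ y in B, ‖w y - g y‖ₑ ^ 2) + ∫⁻ y in V \ B, ‖ut y - g y‖ₑ ^ 2 := by
      rw [← lintegral_inter_add_sdiff _ V hBm, inter_eq_self_of_subset_right hBV]
      congr 1
      refine lintegral_congr_ae ?_
      have hVB : V \ B ⊆ Ω := sdiff_subset.trans hVΩ
      filter_upwards [ae_restrict_of_ae_restrict_of_subset hVB hwae,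
        ae_restrict_mem (hVm.diff hBm)] with y h1 h2
      rw [h1 h2.2]
    rw [s1, s2, s3, s4, s5, s6] at key
    set a := ∫⁻ y in (V \ K) \ B, ‖gradient ut y‖ₑ ^ 2
    set b := len ((K ∩ V) \ B)
    set c := ∫⁻ y in V \ B, ‖ut y - g y‖ₑ ^ 2
    have ha : a ≠ ⊤ := by
      refine ne_of_lt (lt_of_le_of_lt (lintegral_mono_set ?_) h.dir_fin)
      exact sdiff_subset.trans (sdiff_subset_sdiff_left hVΩ)
    have hb : b ≠ ⊤ := by
      refine ne_of_lt (lt_of_le_of_lt (measure_mono ?_) h.lenK)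
      exact sdiff_subset.trans inter_subset_left
    have hc : c ≠ ⊤ := by
      have h1 : MemLp (fun y => ut y - g y) 2 (volume.restrict V) := by
        refine (h.memLp_ut.mono_measure (Measure.restrict_mono hVΩ le_rfl)).sub ?_
        have hfin : IsFiniteMeasure (volume.restrict V) :=
          ⟨by rw [Measure.restrict_apply_univ]; exact measure_ball_lt_top⟩
        refine MemLp.of_bound h.gm.aestronglyMeasurable M₀ ?_
        filter_upwards [ae_restrict_mem hVm] with y hy
        exact h.gb y (hVΩ hy)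
      have h2 : ∫⁻ y in V, ‖ut y - g y‖ₑ ^ 2 < ⊤ := by
        rw [Gl.lintegral_sq_eq h1]; exact ENNReal.ofReal_lt_top
      exact ne_of_lt (lt_of_le_of_lt (lintegral_mono_set sdiff_subset) h2)
    have habc : a + b + c ≠ ⊤ := ENNReal.add_ne_top.2 ⟨ENNReal.add_ne_top.2 ⟨ha, hb⟩, hc⟩
    have e1 : dirE ut K B + a + (len (K ∩ B) + b) + ((∫⁻ y in B, ‖ut y - g y‖ₑ ^ 2) + c)
        = (enE ut K B + ∫⁻ y in B, ‖ut y - g y‖ₑ ^ 2) + (a + b + c) := by
      unfold enE; ring
    have e2 : dirE w L B + a + (len (L ∩ B) + b) + ((∫⁻ y in B, ‖w y - g y‖ₑ ^ 2) + c)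
        = (enE w L B + ∫⁻ y in B, ‖w y - g y‖ₑ ^ 2) + (a + b + c) := by
      unfold enE; ring
    rw [e1, e2] at key
    exact (ENNReal.add_le_add_iff_right habc).1 key
  · -- symmetric difference
    intro y hy
    by_contra hyB
    rcases hy with ⟨h1, h2⟩ | ⟨h1, h2⟩
    · have : y ∈ K \ B := by rw [← heqL]; exact ⟨h1, hyB⟩
      exact h2 this.1
    · have : y ∈ L \ B := by rw [heqL]; exact ⟨h1, hyB⟩
      exact h2 this.1

end MinData

end Crest.Agent.R135
end

-- ▼ part R135/Entry3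
section

/-!
# From absolute minimizers to quasi-minimizers, part 3 (helper140)

Truncation: gradient bound, local Lipschitz gluing across the sphere, local boundedness of the
representative of an absolute minimizer.
-/

set_option autoImplicit false

open MeasureTheory Set Filter Topology Metric
open scoped ENNReal NNReal ContDiff Gradient
open Crest.AnalysisR.PDE.OnePhase Crest.AnalysisR.PDE.MumfordShah

namespace Crest.Agent.R135

/-! ### truncation -/

/-- truncation at level `M` -/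
noncomputable def trunc (M : ℝ) (s : ℝ) : ℝ := max (min s M) (-M)

lemma trunc_lipschitz (M : ℝ) : LipschitzWith 1 (trunc M) := by
  unfold trunc
  exact (LipschitzWith.id.min_const M).max_const (-M)

lemma abs_trunc_sub_le (M s t : ℝ) : |trunc M s - trunc M t| ≤ |s - t| := by
  have := (trunc_lipschitz M).dist_le_mul s t
  simpa [Real.dist_eq] using this

lemma abs_trunc_le {M : ℝ} (hM : 0 ≤ M) (s : ℝ) : |trunc M s| ≤ M := by
  unfold trunc
  rw [abs_le]
  exact ⟨le_max_right _ _, max_le (min_le_right _ _) (by linarith)⟩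

lemma trunc_of_abs_le {M s : ℝ} (h : |s| ≤ M) : trunc M s = s := by
  rw [abs_le] at h
  unfold trunc
  rw [min_eq_left h.2, max_eq_left h.1]

lemma abs_trunc_sub_le' {M s γ : ℝ} (hγ : |γ| ≤ M) : |trunc M s - γ| ≤ |s - γ| := by
  have := abs_trunc_sub_le M s γ
  rwa [trunc_of_abs_le hγ] at this

/-- strict decrease of the distance to `γ`, `|γ| ≤ M`, when truncating at level `M` -/
lemma abs_trunc_sub_lt {M s γ : ℝ} (hγ : |γ| ≤ M) (hs : M < |s|) : |trunc M s - γ| < |s - γ| := by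
  rw [abs_le] at hγ
  have hM : 0 ≤ M := by linarith
  rcases lt_abs.1 hs with h | h
  · have h1 : trunc M s = M := by
      unfold trunc
      rw [min_eq_right h.le, max_eq_left (by linarith)]
    rw [h1, abs_of_nonneg (by linarith), abs_of_nonneg (by linarith)]
    linarith
  · have h1 : trunc M s = -M := by
      unfold trunc
      rw [min_eq_left (by linarith), max_eq_right (by linarith)]
    rw [h1, abs_of_nonpos (by linarith), abs_of_nonpos (by linarith)]
    linarith

/-- The gradient of a 1-Lipschitz function of `f` is not larger than the gradient of `f`. -/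
theorem norm_gradient_comp_le {T : ℝ → ℝ} (hT : ∀ s t, |T s - T t| ≤ |s - t|) {f : E2 → ℝ}
    {y : E2} (hf : DifferentiableAt ℝ f y) :
    ‖gradient (fun z => T (f z)) y‖ ≤ ‖gradient f y‖ := by
  unfold gradient
  rw [LinearIsometryEquiv.norm_map, LinearIsometryEquiv.norm_map]
  by_cases hd : DifferentiableAt ℝ (fun z => T (f z)) y
  · refine ContinuousLinearMap.opNorm_le_bound _ (norm_nonneg _) fun v => ?_
    have h1 : HasDerivAt (fun t : ℝ => T (f (y + t • v))) (fderiv ℝ (fun z => T (f z)) y v) 0 := by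
      have e : HasDerivAt (fun t : ℝ => y + t • v) v 0 := by
        simpa using ((hasDerivAt_id (0:ℝ)).smul_const v).const_add y
      have h2 : HasFDerivAt (fun z => T (f z)) (fderiv ℝ (fun z => T (f z)) y) (y + (0:ℝ) • v) := by
        simpa using hd.hasFDerivAt
      exact h2.comp_hasDerivAt (0:ℝ) e
    have h3 : HasDerivAt (fun t : ℝ => f (y + t • v)) (fderiv ℝ f y v) 0 := by
      have e : HasDerivAt (fun t : ℝ => y + t • v) v 0 := by
        simpa using ((hasDerivAt_id (0:ℝ)).smul_const v).const_add y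
      have h2 : HasFDerivAt f (fderiv ℝ f y) (y + (0:ℝ) • v) := by
        simpa using hf.hasFDerivAt
      exact h2.comp_hasDerivAt (0:ℝ) e
    rw [hasDerivAt_iff_tendsto_slope] at h1 h3
    have h4 : |fderiv ℝ (fun z => T (f z)) y v| ≤ |fderiv ℝ f y v| := by
      refine le_of_tendsto_of_tendsto h1.abs h3.abs ?_
      filter_upwards [self_mem_nhdsWithin] with t _
      rw [slope_def_field, slope_def_field, abs_div, abs_div]
      exact div_le_div_of_nonneg_right (hT _ _) (abs_nonneg _)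
    rw [Real.norm_eq_abs]
    exact h4.trans (by rw [← Real.norm_eq_abs]; exact (fderiv ℝ f y).le_opNorm v)
  · rw [fderiv_zero_of_not_differentiableAt hd, norm_zero]
    exact norm_nonneg _

/-! ### gluing across a sphere -/

/-- A function equal to `f` in the closed ball and to `f'` outside the open ball is locally
Lipschitz near `y` if `f` and `f'` are. -/
theorem lipAt_glue {w f f' : E2 → ℝ} {x y : E2} {ρ : ℝ}
    (hw1 : ∀ᶠ z in 𝓝 y, z ∈ closedBall x ρ → w z = f z)
    (hw2 : ∀ᶠ z in 𝓝 y, z ∉ ball x ρ → w z = f' z)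
    (hf : LipAt f y) (hf' : LipAt f' y) : LipAt w y := by
  obtain ⟨C, t, ht, hC⟩ := hf
  obtain ⟨D, s, hs, hD⟩ := hf'
  obtain ⟨r, hr, hball⟩ := Metric.mem_nhds_iff.1 (inter_mem (inter_mem ht hs) (inter_mem hw1 hw2))
  refine ⟨max C D, ball y r, ball_mem_nhds y hr, ?_⟩
  refine lipschitzOnWith_of_closed_cover (convex_ball y r) (A1 := closedBall x ρ)
    (A2 := (ball x ρ)ᶜ) isClosed_closedBall isOpen_ball.isClosed_compl ?_ ?_ ?_
  · intro z _
    by_cases hz : z ∈ ball x ρ
    · exact Or.inl (ball_subset_closedBall hz)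
    · exact Or.inr hz
  · have h1 : LipschitzOnWith (max C D) f (ball y r ∩ closedBall x ρ) :=
      (hC.mono (fun z hz => (hball hz.1).1.1)).weaken (le_max_left _ _)
    intro a ha b hb
    rw [(hball ha.1).2.1 ha.2, (hball hb.1).2.1 hb.2]
    exact h1 ha hb
  · have h1 : LipschitzOnWith (max C D) f' (ball y r ∩ (ball x ρ)ᶜ) :=
      (hD.mono (fun z hz => (hball hz.1).1.2)).weaken (le_max_right _ _)
    intro a ha b hb
    rw [(hball ha.1).2.2 ha.2, (hball hb.1).2.2 hb.2]
    exact h1 ha hb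

lemma measure_sphere_zero (x : E2) {ρ : ℝ} (hρ : ρ ≠ 0) : volume (sphere x ρ) = 0 :=
  Measure.addHaar_sphere_of_ne_zero volume x hρ

namespace MinData

variable {Ω : Set E2} {g u : E2 → ℝ} {K : Set E2} {G : E2 → E2} {ut : E2 → ℝ} {M₀ : ℝ}

lemma differentiableAt (h : MinData Ω g u K G ut M₀) {y : E2} (hy : y ∈ Ω \ K) :
    DifferentiableAt ℝ ut y :=
  (h.c1.contDiffAt (h.isOpen_diff.mem_nhds hy)).differentiableAt (by norm_num)

/-- fidelity term is finite on balls -/
lemma fid_lt_top (h : MinData Ω g u K G ut M₀) {B : Set E2} (hB : B ⊆ Ω) (hBm : MeasurableSet B)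
    (hBf : volume B < ⊤) : ∫⁻ y in B, ‖ut y - g y‖ₑ ^ 2 < ⊤ := by
  have h1 : MemLp (fun y => ut y - g y) 2 (volume.restrict B) := by
    refine (h.memLp_ut.mono_measure (Measure.restrict_mono hB le_rfl)).sub ?_
    have hfin : IsFiniteMeasure (volume.restrict B) :=
      ⟨by rw [Measure.restrict_apply_univ]; exact hBf⟩
    refine MemLp.of_bound h.gm.aestronglyMeasurable M₀ ?_
    filter_upwards [ae_restrict_mem hBm] with y hy
    exact h.gb y (hB hy)
  rw [Gl.lintegral_sq_eq h1]; exact ENNReal.ofReal_lt_top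

/-- **Truncation**: if `|ut| ≤ M'` on the sphere off `K` and `|g| ≤ M'`, then `|ut| ≤ M'` in the
ball off `K`. -/
theorem bound_of_sphere (h : MinData Ω g u K G ut M₀) {x : E2} {ρ : ℝ} (hρ : 0 < ρ)
    (hB : closedBall x ρ ⊆ Ω) {M' : ℝ} (hM₀ : M₀ ≤ M') (hM' : 0 ≤ M')
    (hs : ∀ y ∈ sphere x ρ \ K, |ut y| ≤ M') : ∀ y ∈ closedBall x ρ \ K, |ut y| ≤ M' := by
  classical
  set B := closedBall x ρ with hBdef
  have hBm : MeasurableSet B := isClosed_closedBall.measurableSet
  set w : E2 → ℝ := fun y => if y ∈ B then trunc M' (ut y) else ut y with hw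
  have hwB : ∀ y ∈ B, w y = trunc M' (ut y) := fun y hy => by simp only [hw, if_pos hy]
  have hwo : ∀ y ∉ B, w y = ut y := fun y hy => by simp only [hw, if_neg hy]
  have hwsph : ∀ y ∈ sphere x ρ \ K, w y = ut y := by
    intro y hy
    rw [hwB y (sphere_subset_closedBall hy.1), trunc_of_abs_le (hs y hy)]
  have hgb : ∀ y ∈ Ω, |g y| ≤ M' := fun y hy => (h.gb y hy).trans hM₀
  have hlip : LocallyLipschitzOn (Ω \ K) w := by
    rw [locallyLipschitzOn_iff_lipAt h.isOpen_diff]
    intro y hy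
    refine lipAt_glue (x := x) (ρ := ρ) (f := fun z => trunc M' (ut z)) (f' := ut)
      (Eventually.of_forall hwB) ?_ ((h.lipAt hy).comp (trunc_lipschitz M')) (h.lipAt hy)
    filter_upwards [h.isOpen_diff.mem_nhds hy] with z hz hzb
    by_cases hzB : z ∈ B
    · refine hwsph z ⟨?_, hz.2⟩
      rw [mem_ball, not_lt] at hzb
      exact mem_sphere.2 (le_antisymm (mem_closedBall.1 hzB) hzb)
    · exact hwo z hzB
  have hlenB : len (K ∩ B) < ⊤ := (measure_mono inter_subset_left).trans_lt h.lenK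
  have key := h.ball_compare hρ hB (w := w) (L := K) h.subK h.closedK hlenB rfl hlip
    (fun y hy => hwo y (fun h1 => hy.2 (Or.inr h1)))
    ⟨M', fun y hy => by rw [hwB y hy.1]; exact abs_trunc_le hM' _⟩
  -- Dirichlet energy does not increase
  have hdir : dirE w K B ≤ dirE ut K B := by
    unfold dirE
    refine lintegral_mono_ae ?_
    have hsph : ∀ᵐ y ∂(volume.restrict (B \ K)), y ∉ sphere x ρ :=
      ae_restrict_of_ae (measure_eq_zero_iff_ae_notMem.1 (measure_sphere_zero x hρ.ne'))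
    filter_upwards [hsph, ae_restrict_mem (hBm.diff h.measurable_K)] with y h1 h2
    have hyb : y ∈ ball x ρ := by
      rw [mem_ball]
      exact lt_of_le_of_ne (mem_closedBall.1 h2.1) (fun h3 => h1 (mem_sphere.2 h3))
    have he : w =ᶠ[𝓝 y] fun z => trunc M' (ut z) := by
      filter_upwards [isOpen_ball.mem_nhds hyb] with z hz
      exact hwB z (ball_subset_closedBall hz)
    rw [gradient_congr_of_eventuallyEq he]
    have h3 := norm_gradient_comp_le (abs_trunc_sub_le M') (h.differentiableAt ⟨hB h2.1, h2.2⟩)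
    have h4 : ‖gradient (fun z => trunc M' (ut z)) y‖ₑ ≤ ‖gradient ut y‖ₑ := by
      rw [← ofReal_norm, ← ofReal_norm]
      exact ENNReal.ofReal_le_ofReal h3
    gcongr
  -- pointwise comparison of the fidelity terms
  have hptle : ∀ y ∈ B, ‖w y - g y‖ₑ ^ 2 ≤ ‖ut y - g y‖ₑ ^ 2 := by
    intro y hy
    have h1 : |w y - g y| ≤ |ut y - g y| := by
      rw [hwB y hy]; exact abs_trunc_sub_le' (hgb y (hB hy))
    have h2 : ‖w y - g y‖ₑ ≤ ‖ut y - g y‖ₑ := by
      rw [Real.enorm_eq_ofReal_abs, Real.enorm_eq_ofReal_abs]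
      exact ENNReal.ofReal_le_ofReal h1
    gcongr
  have hfid : ∫⁻ y in B, ‖w y - g y‖ₑ ^ 2 ≤ ∫⁻ y in B, ‖ut y - g y‖ₑ ^ 2 := by
    refine setLIntegral_mono' hBm hptle
  have hfin : ∫⁻ y in B, ‖ut y - g y‖ₑ ^ 2 < ⊤ :=
    h.fid_lt_top hB hBm (isCompact_closedBall x ρ).measure_lt_top
  have hdfin : dirE ut K B < ⊤ :=
    (lintegral_mono_set (sdiff_subset_sdiff_left hB)).trans_lt h.dir_fin
  have hfid2 : ∫⁻ y in B, ‖ut y - g y‖ₑ ^ 2 ≤ ∫⁻ y in B, ‖w y - g y‖ₑ ^ 2 := by
    have h1 : enE ut K B + ∫⁻ y in B, ‖ut y - g y‖ₑ ^ 2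
        ≤ enE ut K B + ∫⁻ y in B, ‖w y - g y‖ₑ ^ 2 := by
      refine key.trans ?_
      unfold enE
      gcongr
    have h2 : enE ut K B ≠ ⊤ := ENNReal.add_ne_top.2 ⟨hdfin.ne, hlenB.ne⟩
    exact (ENNReal.add_le_add_iff_left h2).1 h1
  -- a.e. equality
  have hwm : AEMeasurable (fun y => ‖w y - g y‖ₑ ^ 2) (volume.restrict B) := by
    have h1 : AEStronglyMeasurable w (volume.restrict (Ω \ K)) :=
      hlip.continuousOn.aestronglyMeasurable h.isOpen_diff.measurableSet
    have h2 : volume.restrict (Ω \ K) = volume.restrict Ω :=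
      Measure.restrict_congr_set (sdiff_null_ae_eq_self h.volume_K)
    rw [h2] at h1
    have h3 := h1.mono_measure (Measure.restrict_mono hB le_rfl)
    exact ((h3.sub h.gm.aestronglyMeasurable).enorm.pow_const 2)
  have hae : ∀ᵐ y ∂(volume.restrict B), ‖w y - g y‖ₑ ^ 2 = ‖ut y - g y‖ₑ ^ 2 := by
    have hle : (fun y => ‖w y - g y‖ₑ ^ 2) ≤ᵐ[volume.restrict B] fun y => ‖ut y - g y‖ₑ ^ 2 := by
      filter_upwards [ae_restrict_mem hBm] with y hy
      exact hptle y hy
    have hutm : AEMeasurable (fun y => ‖ut y - g y‖ₑ ^ 2) (volume.restrict B) := by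
      have h3 := h.memLp_ut.1.mono_measure (Measure.restrict_mono hB le_rfl)
      exact ((h3.sub h.gm.aestronglyMeasurable).enorm.pow_const 2)
    exact ae_eq_of_ae_le_of_lintegral_le hle (ne_of_lt (hfid.trans_lt hfin)) hutm hfid2
  have haeM : ∀ᵐ y ∂(volume.restrict B), |ut y| ≤ M' := by
    filter_upwards [hae, ae_restrict_mem hBm] with y h1 h2
    by_contra hcon
    rw [not_le] at hcon
    have h3 := abs_trunc_sub_lt (hgb y (hB h2)) hcon
    rw [← hwB y h2] at h3
    have h4 : ‖w y - g y‖ₑ ^ 2 < ‖ut y - g y‖ₑ ^ 2 := by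
      have h5 : ‖w y - g y‖ₑ < ‖ut y - g y‖ₑ := by
        rw [Real.enorm_eq_ofReal_abs, Real.enorm_eq_ofReal_abs]
        exact (ENNReal.ofReal_lt_ofReal_iff_of_nonneg (abs_nonneg _)).2 h3
      exact ENNReal.pow_lt_pow_left (by norm_num) h5
    exact absurd h1 h4.ne
  -- continuity
  intro y hy
  by_cases hyb : y ∈ ball x ρ
  · by_contra hcon
    rw [not_le] at hcon
    have hcont : ContinuousAt ut y := (h.lipAt ⟨hB hy.1, hy.2⟩).continuousAt
    have hev : ∀ᶠ z in 𝓝 y, M' < |ut z| := hcont.abs.eventually_const_lt hcon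
    obtain ⟨r, hr, hrs⟩ := Metric.mem_nhds_iff.1 (inter_mem hev (isOpen_ball.mem_nhds hyb))
    rw [ae_restrict_iff' hBm] at haeM
    have h1 : volume (ball y r) = 0 := by
      refine measure_mono_null ?_ haeM
      intro z hz
      have h2 := hrs hz
      simp only [mem_compl_iff, mem_ofPred_eq, Classical.not_imp, not_le]
      exact ⟨ball_subset_closedBall h2.2, h2.1⟩
    exact absurd h1 (measure_ball_pos volume y hr).ne'
  · have : y ∈ sphere x ρ := by
      rw [mem_ball, not_lt] at hyb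
      exact mem_sphere.2 (le_antisymm (mem_closedBall.1 hy.1) hyb)
    exact hs y ⟨this, hy.2⟩

end MinData

end Crest.Agent.R135
end

-- ▼ part R135/Entry4
section

/-!
# From absolute minimizers to quasi-minimizers, part 4 (helper140)

Almost everywhere differentiability of locally Lipschitz functions; extension of competitors
(strong class); the strong minimality inequality and the theorem `exists_isSQM`.
-/

set_option autoImplicit false

open MeasureTheory Set Filter Topology Metric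
open scoped ENNReal NNReal ContDiff Gradient
open Crest.AnalysisR.PDE.OnePhase Crest.AnalysisR.PDE.MumfordShah

namespace Crest.Agent.R135

/-- Locally Lipschitz functions on an open set are differentiable almost everywhere there. -/
theorem ae_differentiableAt_of_lipAt {V : Set E2} {w : E2 → ℝ} (hw : ∀ x ∈ V, LipAt w x) :
    ∀ᵐ x : E2, x ∈ V → DifferentiableAt ℝ w x := by
  rw [ae_iff]
  apply measure_null_of_locally_null
  intro x hx
  simp only [Classical.not_imp, mem_ofPred_eq] at hx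
  obtain ⟨C, t, ht, hC⟩ := hw x hx.1
  obtain ⟨r, hr, hrt⟩ := Metric.mem_nhds_iff.1 ht
  refine ⟨{y | ¬(y ∈ V → DifferentiableAt ℝ w y)} ∩ ball x r, ?_, ?_⟩
  · exact inter_mem_nhdsWithin _ (ball_mem_nhds x hr)
  · have h1 : LipschitzOnWith C w (ball x r) := hC.mono hrt
    have h2 := h1.ae_differentiableWithinAt_of_mem (μ := (volume : Measure E2))
    rw [ae_iff] at h2
    refine measure_mono_null ?_ h2
    rintro y ⟨h3, h4⟩
    simp only [Classical.not_imp, mem_ofPred_eq] at h3 ⊢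
    exact ⟨h4, fun h5 => h3.2 (h5.differentiableAt (isOpen_ball.mem_nhds h4))⟩

namespace IsComp0

variable {U : Set E2} {u : E2 → ℝ} {K : Set E2} {x : E2} {ρ : ℝ} {w : E2 → ℝ} {L : Set E2}

lemma isOpen_diff (h : IsComp0 U u K x ρ w L) (hU : IsOpen U) : IsOpen (U \ L) :=
  (relClosed_iff hU).1 h.closed

lemma measurable_L (h : IsComp0 U u K x ρ w L) (hU : IsOpen U) : MeasurableSet L :=
  relClosed_measurable hU h.sub h.closed

/-- Replacement inside a ball: a (strong) competitor for the restriction to `V` extends to a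
competitor in `U`. -/
theorem extend {V : Set E2} (hU : IsOpen U) (hV : IsOpen V) (hVU : V ⊆ U) (hKU : K ⊆ U)
    (hKcl : closure K ∩ U ⊆ K) (hu : ∀ y ∈ U \ K, LipAt u y)
    (hB : closedBall x ρ ⊆ V) (h : IsComp0 V u (K ∩ V) x ρ w L) :
    ∃ (w' : E2 → ℝ) (L' : Set E2), IsComp0 U u K x ρ w' L' ∧ L' ∩ V = L ∧
      (∀ y ∈ V \ L, w' y = w y) ∧ (∀ y ∉ closedBall x ρ, w' y = u y) := by
  classical
  set L' : Set E2 := L ∪ (K \ V) with hL'
  set w' : E2 → ℝ := fun y => if y ∈ closedBall x ρ then w y else u y with hw'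
  have hKo : IsOpen (U \ K) := (relClosed_iff hU).1 hKcl
  have hVo : IsOpen (V \ L) := h.isOpen_diff hV
  have hL'V : L' ∩ V = L := by
    ext y
    constructor
    · rintro ⟨h1 | h1, h2⟩
      · exact h1
      · exact absurd h2 h1.2
    · intro h1
      exact ⟨Or.inl h1, h.sub h1⟩
  have hmemV : ∀ y ∈ V, (y ∈ L' ↔ y ∈ L) := by
    intro y hy
    constructor
    · rintro (h1 | h1)
      · exact h1
      · exact absurd hy h1.2
    · exact Or.inl
  have hnotL : ∀ y ∈ V, y ∉ closedBall x ρ → (y ∈ L ↔ y ∈ K) := by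
    intro y hyV hyB
    have h1 : y ∈ L \ closedBall x ρ ↔ y ∈ (K ∩ V) \ closedBall x ρ := by rw [h.eqL]
    constructor
    · intro h2; exact (h1.1 ⟨h2, hyB⟩).1.1
    · intro h2; exact (h1.2 ⟨⟨h2, hyV⟩, hyB⟩).1
  have hww : ∀ y ∈ V \ L, w' y = w y := by
    intro y hy
    by_cases hyB : y ∈ closedBall x ρ
    · simp only [hw', if_pos hyB]
    · simp only [hw', if_neg hyB]
      have hyK : y ∉ K := fun hK => hy.2 ((hnotL y hy.1 hyB).2 hK)
      symm
      refine h.eqw y ⟨hy.1, ?_⟩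
      rintro (h2 | h2)
      · exact hyK h2.1
      · exact hyB h2
  have hwu : ∀ y ∉ closedBall x ρ, w' y = u y := fun y hy => by simp only [hw', if_neg hy]
  have hcases : ∀ y ∈ U \ L', (y ∈ V \ L) ∨ (y ∉ closedBall x ρ ∧ y ∈ U \ K) := by
    intro y hy
    by_cases hyV : y ∈ V
    · left
      exact ⟨hyV, fun h1 => hy.2 ((hmemV y hyV).2 h1)⟩
    · right
      exact ⟨fun h1 => hyV (hB h1), hy.1, fun h1 => hy.2 (Or.inr ⟨h1, hyV⟩)⟩
  have hopen' : IsOpen (U \ L') := by
    have : U \ L' = (V \ L) ∪ ((closedBall x ρ)ᶜ ∩ (U \ K)) := by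
      ext y
      constructor
      · intro hy; exact hcases y hy
      · rintro (hy | hy)
        · exact ⟨hVU hy.1, fun h1 => hy.2 ((hmemV y hy.1).1 h1)⟩
        · refine ⟨hy.2.1, ?_⟩
          rintro (h1 | h1)
          · exact hy.2.2 ((hnotL y (h.sub h1) hy.1).1 h1)
          · exact hy.2.2 h1.1
    rw [this]
    exact hVo.union (isClosed_closedBall.isOpen_compl.inter hKo)
  refine ⟨w', L', ⟨?_, (relClosed_iff hU).2 hopen', ?_, ?_, ?_, ?_⟩, hL'V, hww, hwu⟩
  · exact union_subset (h.sub.trans hVU) (sdiff_subset.trans hKU)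
  · refine lt_of_le_of_lt (measure_mono ?_) h.len_fin
    rintro y ⟨h1 | h1, h2⟩
    · exact ⟨h1, h2⟩
    · exact absurd (hB h2) h1.2
  · ext y
    constructor
    · rintro ⟨h1 | h1, h2⟩
      · exact ⟨(hnotL y (h.sub h1) h2).1 h1, h2⟩
      · exact ⟨h1.1, h2⟩
    · rintro ⟨h1, h2⟩
      by_cases hyV : y ∈ V
      · exact ⟨Or.inl ((hnotL y hyV h2).2 h1), h2⟩
      · exact ⟨Or.inr ⟨h1, hyV⟩, h2⟩
  · rw [locallyLipschitzOn_iff_lipAt hopen']
    intro y hy
    rcases hcases y hy with h1 | ⟨h1, h2⟩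
    · refine ((locallyLipschitzOn_iff_lipAt hVo).1 h.lip y h1).congr ?_
      filter_upwards [hVo.mem_nhds h1] with z hz
      exact (hww z hz).symm
    · refine (hu y h2).congr ?_
      filter_upwards [isClosed_closedBall.isOpen_compl.mem_nhds h1] with z hz
      exact (hwu z hz).symm
  · intro y hy
    exact hwu y (fun h1 => hy.2 (Or.inr h1))

end IsComp0

namespace MinData

variable {Ω : Set E2} {g u : E2 → ℝ} {K : Set E2} {G : E2 → E2} {ut : E2 → ℝ} {M₀ : ℝ}

/-- **Strong minimality inequality** in an open set `U` where the representative is bounded. -/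
theorem min0 (h : MinData Ω g u K G ut M₀) {U : Set E2} (hU : IsOpen U) (hUΩ : U ⊆ Ω)
    {M' : ℝ} (hM' : 0 ≤ M') (hM₀ : 0 ≤ M₀) (hbd : ∀ y ∈ U \ K, |ut y| ≤ M')
    {x : E2} {ρ : ℝ} (hρ : 0 < ρ) (hB : closedBall x ρ ⊆ U) {w : E2 → ℝ} {L : Set E2}
    (hc : IsComp0 U ut (K ∩ U) x ρ w L) :
    enE ut (K ∩ U) (closedBall x ρ) ≤ enE w L (closedBall x ρ)
      + ENNReal.ofReal ((Real.pi * (M' + M₀) ^ 2) * ρ ^ 2) := by
  classical
  set B := closedBall x ρ with hBdef
  have hBm : MeasurableSet B := isClosed_closedBall.measurableSet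
  obtain ⟨w', L', hc', hLU, hww, hwu⟩ :=
    hc.extend h.isOpen hU hUΩ h.subK h.closedK (fun y hy => h.lipAt hy) hB
  have hLo : IsOpen (Ω \ L') := hc'.isOpen_diff h.isOpen
  have hLUo : IsOpen (U \ L) := hc.isOpen_diff hU
  have hmemU : ∀ y ∈ U, (y ∈ L' ↔ y ∈ L) := by
    intro y hy
    constructor
    · intro h1
      have : y ∈ L' ∩ U := ⟨h1, hy⟩
      rwa [hLU] at this
    · intro h1
      have : y ∈ L' ∩ U := by rw [hLU]; exact h1
      exact this.1
  set w'' : E2 → ℝ := fun y => if y ∈ B then trunc M' (w' y) else w' y with hw''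
  -- in `U \ L'` the function is the truncation of `w'`
  have htr : ∀ y ∈ U \ L', w'' y = trunc M' (w' y) := by
    intro y hy
    by_cases hyB : y ∈ B
    · simp only [hw'', if_pos hyB]
    · simp only [hw'', if_neg hyB]
      have hyK : y ∉ K := by
        intro hK
        have : y ∈ L' \ closedBall x ρ := by rw [hc'.eqL]; exact ⟨hK, hyB⟩
        exact hy.2 this.1
      rw [hwu y hyB, trunc_of_abs_le (hbd y ⟨hy.1, hyK⟩)]
  have hwo : ∀ y ∉ B, w'' y = w' y := fun y hy => by simp only [hw'', if_neg hy]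
  have hlip' := (locallyLipschitzOn_iff_lipAt hLo).1 hc'.lip
  have hULo : IsOpen (U \ L') := by
    have : U \ L' = U \ L := by
      ext y; constructor
      · rintro ⟨h1, h2⟩; exact ⟨h1, fun h3 => h2 ((hmemU y h1).2 h3)⟩
      · rintro ⟨h1, h2⟩; exact ⟨h1, fun h3 => h2 ((hmemU y h1).1 h3)⟩
    rw [this]; exact hLUo
  have hlip : LocallyLipschitzOn (Ω \ L') w'' := by
    rw [locallyLipschitzOn_iff_lipAt hLo]
    intro y hy
    by_cases hyU : y ∈ U
    · refine ((hlip' y hy).comp (trunc_lipschitz M')).congr ?_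
      filter_upwards [hULo.mem_nhds ⟨hyU, hy.2⟩] with z hz
      exact (htr z hz).symm
    · have hyB : y ∉ B := fun h1 => hyU (hB h1)
      refine (hlip' y hy).congr ?_
      filter_upwards [isClosed_closedBall.isOpen_compl.mem_nhds hyB] with z hz
      exact (hwo z hz).symm
  have key := h.ball_compare hρ (hB.trans hUΩ) (w := w'') (L := L') hc'.sub hc'.closed hc'.len_fin
    hc'.eqL hlip (fun y hy => by
      rw [hwo y (fun h1 => hy.2 (Or.inr h1)), hwu y (fun h1 => hy.2 (Or.inr h1))])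
    ⟨M', fun y hy => by simp only [hw'', hBdef, if_pos hy.1]; exact abs_trunc_le hM' _⟩
  have hBK : B \ (K ∩ U) = B \ K := by
    ext y; constructor
    · rintro ⟨h1, h2⟩; exact ⟨h1, fun h3 => h2 ⟨h3, hB h1⟩⟩
    · rintro ⟨h1, h2⟩; exact ⟨h1, fun h3 => h2 h3.1⟩
  have hBK' : (K ∩ U) ∩ B = K ∩ B := by
    ext y; constructor
    · rintro ⟨⟨h1, _⟩, h3⟩; exact ⟨h1, h3⟩
    · rintro ⟨h1, h2⟩; exact ⟨⟨h1, hB h2⟩, h2⟩
  have e1 : enE ut (K ∩ U) B = enE ut K B := by
    unfold enE dirE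
    rw [hBK, hBK']
  have e2 : enE w'' L' B ≤ enE w L B := by
    unfold enE
    have a1 : L' ∩ B = L ∩ B := by
      ext y; constructor
      · rintro ⟨h1, h2⟩; exact ⟨(hmemU y (hB h2)).1 h1, h2⟩
      · rintro ⟨h1, h2⟩; exact ⟨(hmemU y (hB h2)).2 h1, h2⟩
    have a2 : B \ L' = B \ L := by
      ext y; constructor
      · rintro ⟨h1, h2⟩; exact ⟨h1, fun h3 => h2 ((hmemU y (hB h1)).2 h3)⟩
      · rintro ⟨h1, h2⟩; exact ⟨h1, fun h3 => h2 ((hmemU y (hB h1)).1 h3)⟩
    rw [a1]
    refine add_le_add ?_ le_rfl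
    unfold dirE
    rw [a2]
    refine lintegral_mono_ae ?_
    have hd : ∀ᵐ y ∂(volume.restrict (B \ L)), y ∈ U \ L → DifferentiableAt ℝ w y :=
      ae_restrict_of_ae (ae_differentiableAt_of_lipAt
        ((locallyLipschitzOn_iff_lipAt hLUo).1 hc.lip))
    filter_upwards [hd, ae_restrict_mem (hBm.diff (hc.measurable_L hU))] with y h1 h2
    have hyU : y ∈ U \ L := ⟨hB h2.1, h2.2⟩
    have he : w'' =ᶠ[𝓝 y] fun z => trunc M' (w z) := by
      filter_upwards [hULo.mem_nhds ⟨hyU.1, fun h3 => hyU.2 ((hmemU y hyU.1).1 h3)⟩,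
        hLUo.mem_nhds hyU] with z hz hz'
      rw [htr z hz, hww z hz']
    rw [gradient_congr_of_eventuallyEq he]
    have h3 := norm_gradient_comp_le (abs_trunc_sub_le M') (h1 hyU)
    have h4 : ‖gradient (fun z => trunc M' (w z)) y‖ₑ ≤ ‖gradient w y‖ₑ := by
      rw [← ofReal_norm, ← ofReal_norm]
      exact ENNReal.ofReal_le_ofReal h3
    gcongr
  have e3 : ∫⁻ y in B, ‖w'' y - g y‖ₑ ^ 2 ≤ ENNReal.ofReal ((Real.pi * (M' + M₀) ^ 2) * ρ ^ 2) := by
    have h1 : ∀ y ∈ B, ‖w'' y - g y‖ₑ ^ 2 ≤ ENNReal.ofReal ((M' + M₀) ^ 2) := by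
      intro y hy
      have h2 : |w'' y - g y| ≤ M' + M₀ := by
        have h3 : |w'' y| ≤ M' := by
          simp only [hw'', if_pos hy]; exact abs_trunc_le hM' _
        have h4 : |g y| ≤ M₀ := h.gb y (hUΩ (hB hy))
        exact (abs_sub _ _).trans (add_le_add h3 h4)
      rw [Real.enorm_eq_ofReal_abs, ← ENNReal.ofReal_pow (abs_nonneg _)]
      apply ENNReal.ofReal_le_ofReal
      exact pow_le_pow_left₀ (abs_nonneg _) h2 2
    calc ∫⁻ y in B, ‖w'' y - g y‖ₑ ^ 2 ≤ ∫⁻ _ in B, ENNReal.ofReal ((M' + M₀) ^ 2) :=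
          setLIntegral_mono' hBm h1
      _ = ENNReal.ofReal ((M' + M₀) ^ 2) * volume B := by rw [setLIntegral_const]
      _ = ENNReal.ofReal ((Real.pi * (M' + M₀) ^ 2) * ρ ^ 2) := by
          rw [hBdef, EuclideanSpace.volume_closedBall_fin_two, ← ENNReal.ofReal_pow hρ.le,
            ← ENNReal.ofReal_mul (by positivity), ← ENNReal.ofReal_mul (by positivity)]
          congr 1
          ring
  rw [e1]
  calc enE ut K B ≤ enE ut K B + ∫⁻ y in B, ‖ut y - g y‖ₑ ^ 2 := le_self_add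
    _ ≤ _ := key
    _ ≤ _ := add_le_add e2 e3

end MinData

end Crest.Agent.R135
end

-- ▼ part R135/Entry5
section

/-!
# From absolute minimizers to quasi-minimizers, part 5 (helper140)

Euler-Lagrange equation and assembly: `exists_isSQM`.
-/

set_option autoImplicit false

open MeasureTheory Set Filter Topology Metric
open scoped ENNReal NNReal ContDiff Gradient
open Crest.AnalysisR.PDE.OnePhase Crest.AnalysisR.PDE.MumfordShah

namespace Crest.Agent.R135

/-- Test functions of a smaller open set are test functions. -/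
theorem IsTest.extend {U V K : Set E2} {φ : E2 → ℝ} (hV : IsOpen V) (hVU : V ⊆ U)
    (hKo : IsOpen (U \ K)) (hφ : IsTest V (K ∩ V) φ) : IsTest U K φ := by
  obtain ⟨C, hC, hCV, hC0⟩ := hφ.supp
  have hzero : ∀ y ∉ C, ∀ᶠ z in 𝓝 y, φ z = 0 := by
    intro y hy
    filter_upwards [hC.isClosed.isOpen_compl.mem_nhds hy] with z hz
    exact hC0 z hz
  have hgz : ∀ y ∉ C, gradient φ y = 0 := fun y hy =>
    gradient_eq_zero_of_eventually_const 0 (hzero y hy)
  have hVK : V \ (K ∩ V) = V \ K := by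
    ext y; constructor
    · rintro ⟨h1, h2⟩; exact ⟨h1, fun h3 => h2 ⟨h3, h1⟩⟩
    · rintro ⟨h1, h2⟩; exact ⟨h1, fun h3 => h2 h3.1⟩
  have hVo : IsOpen (V \ (K ∩ V)) := by
    rw [hVK]
    have : V \ K = V ∩ (U \ K) := by
      ext y; constructor
      · rintro ⟨h1, h2⟩; exact ⟨h1, hVU h1, h2⟩
      · rintro ⟨h1, h2⟩; exact ⟨h1, h2.2⟩
    rw [this]; exact hV.inter hKo
  refine ⟨?_, hφ.bdd, ⟨C, hC, hCV.trans hVU, hC0⟩, ?_⟩
  · rw [locallyLipschitzOn_iff_lipAt hKo]
    intro y hy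
    by_cases hyV : y ∈ V
    · exact (locallyLipschitzOn_iff_lipAt hVo).1 hφ.lip y ⟨hyV, fun h1 => hy.2 h1.1⟩
    · exact lipAt_of_eventually_const 0 (hzero y (fun h1 => hyV (hCV h1)))
  · have h1 := hφ.dir_fin
    unfold dirE at h1 ⊢
    refine lt_of_le_of_lt (le_of_eq ?_) h1
    rw [hVK, ← lintegral_inter_add_sdiff _ (U \ K) hV.measurableSet]
    have a1 : ∫⁻ y in (U \ K) \ V, ‖gradient φ y‖ₑ ^ 2 = 0 := by
      refine setLIntegral_eq_zero (hKo.measurableSet.diff hV.measurableSet) ?_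
      rintro y ⟨_, hyV⟩
      simp only [Pi.zero_apply]
      rw [hgz y (fun h2 => hyV (hCV h2))]
      simp
    rw [a1, add_zero]
    congr 2
    ext y; constructor
    · rintro ⟨h1, h2⟩; exact ⟨h2, h1.2⟩
    · rintro ⟨h1, h2⟩; exact ⟨⟨hVU h1, h2⟩, h1⟩

namespace MinData

variable {Ω : Set E2} {g u : E2 → ℝ} {K : Set E2} {G : E2 → E2} {ut : E2 → ℝ} {M₀ : ℝ}

lemma restrict_diff_eq (h : MinData Ω g u K G ut M₀) (S : Set E2) :
    (volume.restrict (S \ K) : Measure E2) = volume.restrict S :=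
  Measure.restrict_congr_set (sdiff_null_ae_eq_self h.volume_K)

/-- **Euler-Lagrange equation** with test functions jumping across `K`. -/
theorem el (h : MinData Ω g u K G ut M₀) {φ : E2 → ℝ} (hφ : IsTest Ω K φ) :
    ∫ y in Ω \ K, inner ℝ (gradient ut y) (gradient φ y) = - ∫ y in Ω, (ut y - g y) * φ y := by
  obtain ⟨C, hC, hCΩ, hC0⟩ := hφ.supp
  have hN : Gl.IsNeumann Ω K G (fun x => u x - g x) := by
    refine Gl.neumann_of_min h.isOpen h.min ?_
    intro C hC hCΩ
    have : IsFiniteMeasure (volume.restrict C) :=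
      ⟨by rw [Measure.restrict_apply_univ]; exact hC.measure_lt_top⟩
    refine MemLp.of_bound h.gm.aestronglyMeasurable M₀ ?_
    filter_upwards [ae_restrict_mem hC.measurableSet] with x hx
    exact h.gb x (hCΩ hx)
  have hgz : ∀ y ∉ C, gradient φ y = 0 := by
    intro y hy
    refine gradient_eq_zero_of_eventually_const 0 ?_
    filter_upwards [hC.isClosed.isOpen_compl.mem_nhds hy] with z hz
    exact hC0 z hz
  have hφm : AEStronglyMeasurable φ (volume.restrict Ω) := by
    rw [← h.restrict_diff_eq Ω]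
    exact hφ.lip.continuousOn.aestronglyMeasurable h.isOpen_diff.measurableSet
  have hφL : MemLp φ 2 (volume.restrict Ω) := by
    obtain ⟨M, hM⟩ := hφ.bdd
    have h1 : MemLp (fun y => C.indicator (fun _ => M) y) 2 (volume.restrict Ω) := by
      refine memLp_indicator_const 2 hC.measurableSet _ (Or.inr ?_)
      exact ne_of_lt ((Measure.restrict_apply_le _ _).trans_lt hC.measure_lt_top)
    refine h1.mono hφm (Eventually.of_forall fun y => ?_)
    by_cases hy : y ∈ C
    · rw [indicator_of_mem hy]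
      exact (hM y).trans (le_abs_self M)
    · rw [hC0 y hy, norm_zero]; exact norm_nonneg _
  have hgL : MemLp (fun y => gradient φ y) 2 (volume.restrict (Ω \ K)) := by
    refine Gl.memLp_two_of_lintegral (measurable_gradient φ).aestronglyMeasurable ?_
    exact hφ.dir_fin
  have key := hN φ (fun y => gradient φ y) C hC hCΩ hC0 hgz
    (isWeakGradOn_of_locallyLipschitzOn h.isOpen_diff hφ.lip) hφL hgL
  have e1 : ∫ y in Ω \ K, inner ℝ (G y) (gradient φ y)
      = ∫ y in Ω \ K, inner ℝ (gradient ut y) (gradient φ y) := by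
    refine integral_congr_ae ?_
    filter_upwards [h.ae_G] with y hy
    rw [hy]
  have e2 : ∫ y in Ω, (u y - g y) * φ y = ∫ y in Ω, (ut y - g y) * φ y := by
    refine integral_congr_ae ?_
    filter_upwards [h.ae_u] with y hy
    rw [hy]
  rw [e1, e2] at key
  linarith

/-- The representative of an absolute minimizer is a strong quasi-minimizer in every ball where it
is bounded. -/
theorem isSQM (h : MinData Ω g u K G ut M₀) {U : Set E2} (hU : IsOpen U) (hUΩ : U ⊆ Ω)
    {M' : ℝ} (hM' : 1 ≤ M') (hM₀ : 0 ≤ M₀) (hbd : ∀ y ∈ U \ K, |ut y| ≤ M') :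
    IsSQM U (Real.pi * (M' + M₀) ^ 2) ut (K ∩ U) := by
  classical
  have hUK : U \ (K ∩ U) = U \ K := by
    ext y; constructor
    · rintro ⟨h1, h2⟩; exact ⟨h1, fun h3 => h2 ⟨h3, h1⟩⟩
    · rintro ⟨h1, h2⟩; exact ⟨h1, fun h3 => h2 h3.1⟩
  have hBK : ∀ B : Set E2, B ⊆ U → B \ (K ∩ U) = B \ K := by
    intro B hB
    ext y; constructor
    · rintro ⟨h1, h2⟩; exact ⟨h1, fun h3 => h2 ⟨h3, hB h1⟩⟩
    · rintro ⟨h1, h2⟩; exact ⟨h1, fun h3 => h2 h3.1⟩
  have hUo : IsOpen (U \ K) := by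
    have : U \ K = U ∩ (Ω \ K) := by
      ext y; constructor
      · rintro ⟨h1, h2⟩; exact ⟨h1, hUΩ h1, h2⟩
      · rintro ⟨h1, h2⟩; exact ⟨h1, h2.2⟩
    rw [this]; exact hU.inter h.isOpen_diff
  have hA1 : 1 ≤ M' + M₀ := by linarith
  have hpi : (3 : ℝ) < Real.pi := Real.pi_gt_three
  have hAlam : M' + M₀ ≤ Real.pi * (M' + M₀) ^ 2 := by nlinarith
  have hmin0 : ∀ (x : E2) (ρ : ℝ), 0 < ρ → closedBall x ρ ⊆ U → ∀ (w : E2 → ℝ) (L : Set E2),
      IsComp0 U ut (K ∩ U) x ρ w L →
        enE ut (K ∩ U) (closedBall x ρ) ≤ enE w L (closedBall x ρ)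
          + ENNReal.ofReal ((Real.pi * (M' + M₀) ^ 2) * ρ ^ 2) :=
    fun x ρ hρ hB w L hc => h.min0 hU hUΩ (by linarith) hM₀ hbd hρ hB hc
  refine ⟨⟨hU, by positivity, inter_subset_right, ?_, ?_, ?_, ?_, ?_, ?_, ?_⟩, hmin0⟩
  · rintro y ⟨h1, h2⟩
    exact ⟨h.closedK ⟨closure_mono inter_subset_left h1, hUΩ h2⟩, h2⟩
  · rw [hUK]; exact h.c1.mono (sdiff_subset_sdiff_left hUΩ)
  · intro x r hr
    exact (measure_mono (inter_subset_left.trans inter_subset_left)).trans_lt h.lenK
  · intro x r hr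
    unfold dirE
    rw [hBK _ hr]
    exact (lintegral_mono_set (sdiff_subset_sdiff_left (hr.trans hUΩ))).trans_lt h.dir_fin
  · intro x hx r hr
    obtain ⟨s, hs, hsU⟩ := Metric.isOpen_iff.1 hU x hx.2
    have hmin : 0 < Min.min r s / 2 := half_pos (lt_min hr hs)
    have h1 : closedBall x (Min.min r s / 2) ⊆ U := by
      refine (closedBall_subset_ball ?_).trans hsU
      have := min_le_right r s
      have := lt_min hr hs
      linarith
    have h2 := h.red x hx.1 (Min.min r s / 2) hmin (h1.trans hUΩ)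
    refine h2.trans_le (measure_mono ?_)
    rintro y ⟨hy, hy'⟩
    refine ⟨⟨hy, h1 (ball_subset_closedBall hy')⟩, ball_subset_ball ?_ hy'⟩
    have := min_le_left r s
    have := lt_min hr hs
    linarith
  · intro x ρ hρ hB w L hc
    exact hmin0 x ρ hρ hB w L hc.toIsComp0
  · refine ⟨(U \ K).piecewise (fun y => ut y - g y) 0, ?_, ?_, ?_⟩
    · have h1 : Measurable ((U \ K).piecewise ut (fun _ => 0)) :=
        ContinuousOn.measurable_piecewise (h.c1.continuousOn.mono (sdiff_subset_sdiff_left hUΩ))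
          continuousOn_const hUo.measurableSet
      have h2 : Measurable ((U \ K).piecewise g (fun _ => 0)) :=
        h.gm.piecewise hUo.measurableSet measurable_const
      have h3 : (U \ K).piecewise (fun y => ut y - g y) 0
          = fun y => (U \ K).piecewise ut (fun _ => 0) y - (U \ K).piecewise g (fun _ => 0) y := by
        ext y
        by_cases hy : y ∈ U \ K
        · simp only [Set.piecewise_eq_of_mem _ _ _ hy]
        · simp only [Set.piecewise_eq_of_notMem _ _ _ hy, Pi.zero_apply, sub_zero]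
      rw [h3]; exact h1.sub h2
    · intro y
      by_cases hy : y ∈ U \ K
      · rw [Set.piecewise_eq_of_mem _ _ _ hy]
        refine le_trans ?_ hAlam
        exact (abs_sub _ _).trans (add_le_add (hbd y hy) (h.gb y (hUΩ hy.1)))
      · rw [Set.piecewise_eq_of_notMem _ _ _ hy]
        simp only [Pi.zero_apply, abs_zero]
        positivity
    · intro φ hφ
      have hφΩ := hφ.extend hU hUΩ h.isOpen_diff
      have key := h.el hφΩ
      obtain ⟨C, hC, hCU, hC0⟩ := hφ.supp
      have hgz : ∀ y ∉ C, gradient φ y = 0 := by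
        intro y hy
        refine gradient_eq_zero_of_eventually_const 0 ?_
        filter_upwards [hC.isClosed.isOpen_compl.mem_nhds hy] with z hz
        exact hC0 z hz
      have e1 : ∫ y in U \ (K ∩ U), inner ℝ (gradient ut y) (gradient φ y)
          = ∫ y in Ω \ K, inner ℝ (gradient ut y) (gradient φ y) := by
        rw [hUK]
        symm
        refine setIntegral_eq_of_subset_of_forall_sdiff_eq_zero h.isOpen_diff.measurableSet
          (sdiff_subset_sdiff_left hUΩ) ?_
        rintro y ⟨hy1, hy2⟩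
        have hyU : y ∉ U := fun h2 => hy2 ⟨h2, hy1.2⟩
        rw [hgz y (fun h2 => hyU (hCU h2)), inner_zero_right]
      have e2 : ∫ y in U, (U \ K).piecewise (fun y => ut y - g y) 0 y * φ y
          = ∫ y in Ω, (ut y - g y) * φ y := by
        have a1 : ∫ y in Ω, (ut y - g y) * φ y = ∫ y in U, (ut y - g y) * φ y := by
          refine setIntegral_eq_of_subset_of_forall_sdiff_eq_zero h.isOpen.measurableSet hUΩ ?_
          rintro y ⟨_, hy2⟩
          rw [hC0 y (fun h2 => hy2 (hCU h2)), mul_zero]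
        rw [a1, ← h.restrict_diff_eq U]
        refine setIntegral_congr_fun hUo.measurableSet ?_
        intro y hy
        simp only [Set.piecewise_eq_of_mem _ _ _ hy]
      rw [e1, key, e2]

end MinData

/-- **A1, strong form**: absolute minimizers are locally strong quasi-minimizers with a bounded
`C¹` representative. -/
theorem exists_isSQM {Ω : Set E2} (hΩo : IsOpen Ω) {g u : E2 → ℝ} {K : Set E2} {G : E2 → E2}
    (hgm : Measurable g) (hgb : ∃ M : ℝ, ∀ x ∈ Ω, ‖g x‖ ≤ M)
    (hmin : IsAbsoluteMinimizer Ω g u K G) (hred : IsReduced Ω K) {x0 : E2} (hx0 : x0 ∈ Ω) :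
    ∃ R : ℝ, 0 < R ∧ closedBall x0 R ⊆ Ω ∧ ∃ lam M : ℝ, 0 < M ∧ ∃ ut : E2 → ℝ,
      IsSQM (ball x0 R) lam ut (K ∩ ball x0 R) ∧ ∀ y ∈ ball x0 R \ K, |ut y| ≤ M := by
  obtain ⟨ut, M₀, h⟩ := exists_minData hΩo hgm hgb hmin hred
  have hM₀ : 0 ≤ M₀ := (norm_nonneg _).trans (h.gb x0 hx0)
  obtain ⟨R₁, hR₁, hR₁Ω⟩ := Metric.isOpen_iff.1 hΩo x0 hx0
  -- a good radius
  have hgood : ∀ᵐ t : ℝ, t ∈ Ioo 0 R₁ → GoodCirc K (gradient ut) x0 t := by
    refine ae_goodCirc' ((measure_mono inter_subset_left).trans_lt h.lenK) ?_ ?_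
    · exact (measurable_gradient ut).aestronglyMeasurable
    · exact (lintegral_mono_set (sdiff_subset_sdiff_left hR₁Ω)).trans_lt h.dir_fin
  obtain ⟨R, hR, hRg⟩ : ∃ R ∈ Ioo 0 R₁, GoodCirc K (gradient ut) x0 R := by
    by_contra hcon
    push Not at hcon
    have h1 : volume (Ioo (0:ℝ) R₁) = 0 := by
      refine measure_mono_null ?_ (ae_iff.1 hgood)
      intro t ht
      simp only [Classical.not_imp, mem_ofPred_eq]
      exact ⟨ht, hcon t ht⟩
    rw [Real.volume_Ioo] at h1
    simp only [sub_zero, ENNReal.ofReal_eq_zero] at h1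
    linarith
  have hRΩ : closedBall x0 R ⊆ Ω := (closedBall_subset_ball hR.2).trans hR₁Ω
  obtain ⟨M₁, hM₁⟩ := hRg.exists_bound (u := ut) (fun y hy =>
    (h.differentiableAt ⟨hRΩ (sphere_subset_closedBall hy.1), hy.2⟩).hasGradientAt)
  set M' := max (max M₁ M₀) 1 with hM'
  have hb := h.bound_of_sphere hR.1 hRΩ (M' := M')
    ((le_max_right M₁ M₀).trans (le_max_left _ _)) (le_trans zero_le_one (le_max_right _ _))
    (fun y hy => (hM₁ y hy).trans ((le_max_left M₁ M₀).trans (le_max_left _ _)))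
  have hbd : ∀ y ∈ ball x0 R \ K, |ut y| ≤ M' :=
    fun y hy => hb y ⟨ball_subset_closedBall hy.1, hy.2⟩
  refine ⟨R, hR.1, hRΩ, Real.pi * (M' + M₀) ^ 2, M', lt_of_lt_of_le zero_lt_one (le_max_right _ _),
    ut, h.isSQM isOpen_ball (ball_subset_closedBall.trans hRΩ) (le_max_right _ _) hM₀ hbd, hbd⟩


end Crest.Agent.R135
end

-- ▼ part R135/IF_A1

/-! INTERFACE A1: proved in Entry1-Entry5 (helper140), on top of helper370's RegMin and
helper961's FV1.

* `exists_isQM`  : absolute minimizers are locally quasi-minimizers `IsQM`, bounded representative;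
* `exists_isSQM` : the same with the strong class `IsSQM` (no topological condition). -/
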