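import Crest.Agent.R135.Core

-- ▼ part R135/Inner1
section

/-!
# R135, block INNER (helper828), part 1: push-forward competitors

For a bi-Lipschitz homeomorphism `Φ` of the plane which is the identity off `closedBall x ρ`, the
pair `(u ∘ Φ⁻¹, Φ(K))` is a competitor; formula for its Dirichlet energy.
-/

set_option autoImplicit false

open MeasureTheory Set Filter Topology Metric
open scoped ENNReal NNReal ContDiff Gradient RealInnerProductSpace

namespace Crest.Agent.R135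

namespace Inner

theorem isOpen_diff {U K : Set E2} (hU : IsOpen U) (hK : closure K ∩ U ⊆ K) : IsOpen (U \ K) := by
  have h : U \ K = U \ closure K := by
    ext y
    constructor
    · rintro ⟨hy, hyK⟩
      exact ⟨hy, fun hc => hyK (hK ⟨hc, hy⟩)⟩
    · rintro ⟨hy, hyK⟩
      exact ⟨hy, fun hc => hyK (subset_closure hc)⟩
  rw [h]
  exact hU.sdiff isClosed_closure

theorem locallyLipschitzOn_of_contDiffOn {V : Set E2} (hV : IsOpen V) {u : E2 → ℝ}
    (hu : ContDiffOn ℝ 1 u V) : LocallyLipschitzOn V u := by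
  intro x hx
  have h : ContDiffAt ℝ 1 u x := (hu x hx).contDiffAt (hV.mem_nhds hx)
  obtain ⟨C, t, ht, hC⟩ := h.exists_lipschitzOnWith
  exact ⟨C, t, mem_nhdsWithin_of_mem_nhds ht, hC⟩

section Homeo

variable {Φ : E2 ≃ₜ E2} {x : E2} {ρ : ℝ}

theorem homeo_mem_iff (hid : ∀ y, y ∉ closedBall x ρ → Φ y = y) (y : E2) :
    Φ y ∈ closedBall x ρ ↔ y ∈ closedBall x ρ := by
  constructor
  · intro h
    by_contra hc
    rw [hid y hc] at h
    exact hc h
  · intro h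
    by_contra hc
    have h1 := hid _ hc
    have h2 : Φ y = y := Φ.injective h1
    rw [h2] at hc
    exact hc h

theorem homeo_symm_id (hid : ∀ y, y ∉ closedBall x ρ → Φ y = y) (y : E2)
    (hy : y ∉ closedBall x ρ) : Φ.symm y = y := by
  rw [Homeomorph.symm_apply_eq]
  exact (hid y hy).symm

theorem homeo_mem_open_iff {U : Set E2} (hU : closedBall x ρ ⊆ U)
    (hid : ∀ y, y ∉ closedBall x ρ → Φ y = y) (y : E2) : Φ y ∈ U ↔ y ∈ U := by
  by_cases hy : y ∈ closedBall x ρ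
  · exact ⟨fun _ => hU hy, fun _ => hU ((homeo_mem_iff hid y).2 hy)⟩
  · rw [hid y hy]

/-- **push-forward competitor** -/
theorem isComp_of_homeo {U K : Set E2} {lam : ℝ} {u : E2 → ℝ} (h : IsQM U lam u K)
    (hU : closedBall x ρ ⊆ U) {C C' : ℝ≥0} (hΦ : LipschitzWith C Φ)
    (hΦ' : LipschitzWith C' Φ.symm) (hid : ∀ y, y ∉ closedBall x ρ → Φ y = y) :
    IsComp U u K x ρ (u ∘ Φ.symm) (Φ '' K) where
  sub := by
    rintro _ ⟨k, hk, rfl⟩
    exact (homeo_mem_open_iff hU hid k).2 (h.sub hk)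
  closed := by
    rintro y ⟨hy, hyU⟩
    rw [← Φ.image_closure] at hy
    obtain ⟨k, hk, rfl⟩ := hy
    exact ⟨k, h.closed ⟨hk, (homeo_mem_open_iff hU hid k).1 hyU⟩, rfl⟩
  len_fin := by
    have e : Φ '' K ∩ closedBall x ρ = Φ '' (K ∩ closedBall x ρ) := by
      ext y
      constructor
      · rintro ⟨⟨k, hk, rfl⟩, hy⟩
        exact ⟨k, ⟨hk, (homeo_mem_iff hid k).1 hy⟩, rfl⟩
      · rintro ⟨k, ⟨hk, hk2⟩, rfl⟩
        exact ⟨⟨k, hk, rfl⟩, (homeo_mem_iff hid k).2 hk2⟩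
    unfold len
    rw [e]
    have h1 := hΦ.hausdorffMeasure_image_le (d := 1) zero_le_one (K ∩ closedBall x ρ)
    refine h1.trans_lt ?_
    refine ENNReal.mul_lt_top ?_ (h.len_fin x ρ hU)
    simp
  eqL := by
    ext y
    constructor
    · rintro ⟨⟨k, hk, rfl⟩, hy⟩
      have hk2 : k ∉ closedBall x ρ := fun hc => hy ((homeo_mem_iff hid k).2 hc)
      rw [hid k hk2]
      exact ⟨hk, hk2⟩
    · rintro ⟨hk, hy⟩
      exact ⟨⟨y, hk, hid y hy⟩, hy⟩
  lip := by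
    have hV := isOpen_diff h.isOpen h.closed
    have hu := locallyLipschitzOn_of_contDiffOn hV h.c1
    have hmaps : MapsTo Φ.symm (U \ Φ '' K) (U \ K) := by
      rintro y ⟨hy, hyK⟩
      refine ⟨?_, fun hc => hyK ⟨_, hc, Φ.apply_symm_apply y⟩⟩
      rw [← homeo_mem_open_iff hU hid, Φ.apply_symm_apply]
      exact hy
    intro y hy
    obtain ⟨C1, t, ht, hC1⟩ := hu (hmaps hy)
    rw [hV.nhdsWithin_eq (hmaps hy)] at ht
    refine ⟨C1 * C', Φ.symm ⁻¹' t, mem_nhdsWithin_of_mem_nhds (Φ.symm.continuous.continuousAt ht), ?_⟩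
    exact hC1.comp hΦ'.lipschitzOnWith (mapsTo_preimage _ _)
  eqw := by
    rintro y ⟨-, hy⟩
    have : y ∉ closedBall x ρ := fun hc => hy (Or.inr hc)
    simp only [Function.comp_apply, homeo_symm_id hid y this]
  keeps := by
    intro c hc
    refine ⟨c ∘ Φ.symm, ?_, ?_⟩
    · rintro y ⟨hy, hyK⟩
      have hm : Φ.symm y ∈ U \ K := by
        refine ⟨?_, fun hc => hyK ⟨_, hc, Φ.apply_symm_apply y⟩⟩
        rw [← homeo_mem_open_iff hU hid, Φ.apply_symm_apply]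
        exact hy
      have h1 := hc _ hm
      exact Φ.symm.continuous.continuousAt.eventually h1
    · rintro y ⟨-, hy⟩
      have : y ∉ closedBall x ρ := fun hc => hy (Or.inr hc)
      simp only [Function.comp_apply, homeo_symm_id hid y this]

theorem image_closedBall_diff (hid : ∀ y, y ∉ closedBall x ρ → Φ y = y) (K : Set E2) :
    closedBall x ρ \ Φ '' K = Φ '' (closedBall x ρ \ K) := by
  ext y
  constructor
  · rintro ⟨hy, hyK⟩
    refine ⟨Φ.symm y, ⟨?_, fun hc => hyK ⟨_, hc, Φ.apply_symm_apply y⟩⟩, Φ.apply_symm_apply y⟩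
    rw [← homeo_mem_iff hid, Φ.apply_symm_apply]
    exact hy
  · rintro ⟨k, ⟨hk, hk2⟩, rfl⟩
    refine ⟨(homeo_mem_iff hid k).2 hk, ?_⟩
    rintro ⟨k', hk', e⟩
    rw [Φ.injective e] at hk'
    exact hk2 hk'

/-- Dirichlet energy of the push-forward -/
theorem dirE_homeo {u : E2 → ℝ} {K : Set E2} (hKm : MeasurableSet (closedBall x ρ \ K))
    {A : E2 → E2 →L[ℝ] E2} (hA : ∀ y, HasFDerivAt Φ (A y) y)
    (hid : ∀ y, y ∉ closedBall x ρ → Φ y = y) :
    dirE (u ∘ Φ.symm) (Φ '' K) (closedBall x ρ) =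
      ∫⁻ y in closedBall x ρ \ K,
        ENNReal.ofReal |(A y).det| * ‖gradient (u ∘ Φ.symm) (Φ y)‖ₑ ^ 2 := by
  unfold dirE
  rw [image_closedBall_diff hid K]
  exact lintegral_image_eq_lintegral_abs_det_fderiv_mul volume hKm
    (fun y _ => (hA y).hasFDerivWithinAt) Φ.injective.injOn _

end Homeo

end Inner

end Crest.Agent.R135
end

-- ▼ part R135/Inner2

/-!
# R135, block INNER (helper828), part 2: radial inner variations

`Φ y = y + t • ψ(|y - x₀|)` with `ψ' = b`, `b` continuous, `|b| ≤ 1`, supported in `(r₁,r₂)`.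
-/

set_option autoImplicit false

open MeasureTheory Set Filter Topology Metric
open scoped ENNReal NNReal ContDiff Gradient

noncomputable section

namespace Crest.Agent.R135

namespace Inner

/-- admissible radial densities -/
structure RadDens (b : ℝ → E2) (r1 r2 : ℝ) : Prop where
  cont : Continuous b
  bdd : ∀ s, ‖b s‖ ≤ 1
  supp : ∀ s, s ∉ Ioo r1 r2 → b s = 0
  pos : 0 < r1
  lt : r1 < r2

/-- primitive vanishing at `r2` -/
def psi (b : ℝ → E2) (r2 r : ℝ) : E2 := ∫ s in r2..r, b s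

variable {b : ℝ → E2} {r1 r2 : ℝ}

theorem hasDerivAt_psi (h : RadDens b r1 r2) (r : ℝ) : HasDerivAt (psi b r2) (b r) r :=
  h.cont.integral_hasStrictDerivAt r2 r |>.hasDerivAt

theorem lipschitz_psi (h : RadDens b r1 r2) : LipschitzWith 1 (psi b r2) := by
  apply lipschitzWith_of_nnnorm_deriv_le
  · exact fun r => (hasDerivAt_psi h r).differentiableAt
  · intro r
    rw [(hasDerivAt_psi h r).deriv]
    exact h.bdd r

theorem psi_eq_zero (h : RadDens b r1 r2) {r : ℝ} (hr : r2 ≤ r) : psi b r2 r = 0 := by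
  unfold psi
  rw [intervalIntegral.integral_of_le hr]
  apply setIntegral_eq_zero_of_forall_eq_zero
  intro s hs
  exact h.supp s fun hc => absurd hc.2 (not_lt.2 hs.1.le)

theorem psi_eq_const (h : RadDens b r1 r2) {r : ℝ} (hr : r ≤ r1) : psi b r2 r = psi b r2 r1 := by
  have h1 : psi b r2 r - psi b r2 r1 = ∫ s in r1..r, b s := by
    unfold psi
    rw [intervalIntegral.integral_interval_sub_left (h.cont.intervalIntegrable _ _)
      (h.cont.intervalIntegrable _ _)]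
  have h2 : ∫ s in r1..r, b s = 0 := by
    rw [intervalIntegral.integral_symm, intervalIntegral.integral_of_le hr]
    rw [setIntegral_eq_zero_of_forall_eq_zero, neg_zero]
    intro s hs
    exact h.supp s fun hc => absurd hc.1 (not_lt.2 hs.2)
  rw [h2] at h1
  exact sub_eq_zero.1 h1

/-- the radial deformation -/
def rmap (b : ℝ → E2) (r2 : ℝ) (x₀ : E2) (t : ℝ) (y : E2) : E2 := y + t • psi b r2 ‖y - x₀‖

theorem norm_psi_sub_le (h : RadDens b r1 r2) (x₀ y z : E2) :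
    ‖psi b r2 ‖y - x₀‖ - psi b r2 ‖z - x₀‖‖ ≤ ‖y - z‖ := by
  have h1 := (lipschitz_psi h).dist_le_mul ‖y - x₀‖ ‖z - x₀‖
  rw [dist_eq_norm, NNReal.coe_one, one_mul, Real.dist_eq] at h1
  refine h1.trans ?_
  have h2 := abs_norm_sub_norm_le (y - x₀) (z - x₀)
  rwa [sub_sub_sub_cancel_right] at h2

theorem approx_rmap (h : RadDens b r1 r2) (x₀ : E2) (t : ℝ) :
    ApproximatesLinearOn (rmap b r2 x₀ t)
      ((ContinuousLinearEquiv.refl ℝ E2 : E2 ≃L[ℝ] E2) : E2 →L[ℝ] E2) univ ‖t‖₊ := by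
  intro y _ z _
  have e : rmap b r2 x₀ t y - rmap b r2 x₀ t z -
      ((ContinuousLinearEquiv.refl ℝ E2 : E2 ≃L[ℝ] E2) : E2 →L[ℝ] E2) (y - z) =
      t • (psi b r2 ‖y - x₀‖ - psi b r2 ‖z - x₀‖) := by
    simp only [rmap, ContinuousLinearEquiv.coe_refl, ContinuousLinearMap.coe_id', id_eq, smul_sub]
    abel
  rw [e, norm_smul]
  exact mul_le_mul_of_nonneg_left (norm_psi_sub_le h x₀ y z) (norm_nonneg t)

theorem refl_cond {t : ℝ} (ht : |t| ≤ 1/2) :
    Subsingleton E2 ∨ ‖t‖₊ < ‖(((ContinuousLinearEquiv.refl ℝ E2 : E2 ≃L[ℝ] E2).symm : E2 ≃L[ℝ] E2) :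
      E2 →L[ℝ] E2)‖₊⁻¹ := by
  right
  have e : ‖(((ContinuousLinearEquiv.refl ℝ E2 : E2 ≃L[ℝ] E2).symm : E2 ≃L[ℝ] E2) :
      E2 →L[ℝ] E2)‖₊ = 1 := by
    rw [ContinuousLinearEquiv.refl_symm, ContinuousLinearEquiv.coe_refl]
    rw [← NNReal.coe_inj, coe_nnnorm]
    exact ContinuousLinearMap.norm_id
  rw [e, inv_one, ← NNReal.coe_lt_coe, coe_nnnorm, Real.norm_eq_abs]
  norm_num
  linarith

/-- the deformation as a homeomorphism -/
def rhomeo (h : RadDens b r1 r2) (x₀ : E2) {t : ℝ} (ht : |t| ≤ 1/2) : E2 ≃ₜ E2 :=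
  (approx_rmap h x₀ t).toHomeomorph _ (refl_cond ht)

@[simp] theorem rhomeo_apply (h : RadDens b r1 r2) (x₀ : E2) {t : ℝ} (ht : |t| ≤ 1/2) (y : E2) :
    rhomeo h x₀ ht y = y + t • psi b r2 ‖y - x₀‖ := rfl

theorem rhomeo_lip (h : RadDens b r1 r2) (x₀ : E2) {t : ℝ} (ht : |t| ≤ 1/2) :
    LipschitzWith 2 (rhomeo h x₀ ht) := by
  apply LipschitzWith.of_dist_le_mul
  intro y z
  rw [dist_eq_norm, dist_eq_norm, rhomeo_apply, rhomeo_apply]
  have e : y + t • psi b r2 ‖y - x₀‖ - (z + t • psi b r2 ‖z - x₀‖) =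
    (y - z) + t • (psi b r2 ‖y - x₀‖ - psi b r2 ‖z - x₀‖) := by rw [smul_sub]; abel
  rw [e]
  have h1 := norm_psi_sub_le h x₀ y z
  calc ‖(y - z) + t • (psi b r2 ‖y - x₀‖ - psi b r2 ‖z - x₀‖)‖
      ≤ ‖y - z‖ + |t| * ‖psi b r2 ‖y - x₀‖ - psi b r2 ‖z - x₀‖‖ := by
        refine (norm_add_le _ _).trans ?_
        rw [norm_smul, Real.norm_eq_abs]
    _ ≤ ‖y - z‖ + (1/2) * ‖y - z‖ := by gcongr
    _ ≤ ((2:ℝ≥0):ℝ) * ‖y - z‖ := by
        have := norm_nonneg (y - z)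
        push_cast
        linarith

theorem rhomeo_symm_lip (h : RadDens b r1 r2) (x₀ : E2) {t : ℝ} (ht : |t| ≤ 1/2) :
    LipschitzWith 2 (rhomeo h x₀ ht).symm := by
  apply LipschitzWith.of_dist_le_mul
  intro y' z'
  obtain ⟨y, rfl⟩ := (rhomeo h x₀ ht).surjective y'
  obtain ⟨z, rfl⟩ := (rhomeo h x₀ ht).surjective z'
  rw [Homeomorph.symm_apply_apply, Homeomorph.symm_apply_apply, dist_eq_norm, dist_eq_norm,
    rhomeo_apply, rhomeo_apply]
  have e : y + t • psi b r2 ‖y - x₀‖ - (z + t • psi b r2 ‖z - x₀‖) =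
    (y - z) + t • (psi b r2 ‖y - x₀‖ - psi b r2 ‖z - x₀‖) := by rw [smul_sub]; abel
  rw [e]
  have h1 := norm_psi_sub_le h x₀ y z
  have h2 : ‖t • (psi b r2 ‖y - x₀‖ - psi b r2 ‖z - x₀‖)‖ ≤ (1/2) * ‖y - z‖ := by
    rw [norm_smul, Real.norm_eq_abs]
    gcongr
  have h3 := norm_sub_le_norm_add (y - z) (t • (psi b r2 ‖y - x₀‖ - psi b r2 ‖z - x₀‖))
  push_cast
  linarith

theorem rhomeo_id (h : RadDens b r1 r2) (x₀ : E2) {t : ℝ} (ht : |t| ≤ 1/2) {ρ : ℝ}
    (hρ : r2 ≤ ρ) (y : E2) (hy : y ∉ closedBall x₀ ρ) : rhomeo h x₀ ht y = y := by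
  rw [rhomeo_apply, psi_eq_zero h, smul_zero, add_zero]
  rw [mem_closedBall, not_le, dist_eq_norm] at hy
  linarith

/-- the unit radial direction (zero at the centre) -/
def nu (x₀ y : E2) : E2 := ‖y - x₀‖⁻¹ • (y - x₀)

theorem norm_nu_le (x₀ y : E2) : ‖nu x₀ y‖ ≤ 1 := by
  unfold nu
  rw [norm_smul, norm_inv, norm_norm]
  exact inv_mul_le_one

theorem nu_cpt (x₀ : E2) {t : ℝ} (ht : 0 < t) (θ : ℝ) : nu x₀ (cpt x₀ t θ) = dir θ := by
  unfold nu cpt
  rw [add_sub_cancel_left, norm_smul, norm_dir, mul_one, Real.norm_eq_abs, abs_of_pos ht, smul_smul,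
    inv_mul_cancel₀ ht.ne', one_smul]

/-- derivative of the deformation -/
def rder (b : ℝ → E2) (x₀ : E2) (t : ℝ) (y : E2) : E2 →L[ℝ] E2 :=
  ContinuousLinearMap.id ℝ E2 + (t • innerSL ℝ (nu x₀ y)).smulRight (b ‖y - x₀‖)

@[simp] theorem rder_apply (x₀ : E2) (t : ℝ) (y v : E2) :
    rder b x₀ t y v = v + (t * inner ℝ (nu x₀ y) v) • b ‖y - x₀‖ := by
  simp [rder]

theorem hasFDerivAt_norm_sub {x₀ y : E2} (hy : y ≠ x₀) :
    HasFDerivAt (fun z => ‖z - x₀‖) (innerSL ℝ (nu x₀ y)) y := by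
  have hne : y - x₀ ≠ 0 := sub_ne_zero.2 hy
  have h1 : HasFDerivAt (fun z : E2 => ‖z - x₀‖ ^ 2) (2 • innerSL ℝ (y - x₀)) y := by
    have := (hasStrictFDerivAt_norm_sq (y - x₀)).hasFDerivAt.comp y
      ((hasFDerivAt_id y).sub_const x₀)
    exact this
  have hpos : 0 < ‖y - x₀‖ := norm_pos_iff.2 hne
  have h2 := h1.sqrt (by positivity)
  have e : (fun z : E2 => Real.sqrt (‖z - x₀‖ ^ 2)) = fun z => ‖z - x₀‖ := by
    funext z
    exact Real.sqrt_sq (norm_nonneg _)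
  rw [e, Real.sqrt_sq (norm_nonneg _)] at h2
  refine h2.congr_fderiv ?_
  ext v
  simp only [nu, map_smul]
  simp
  field_simp

theorem hasFDerivAt_rhomeo (h : RadDens b r1 r2) (x₀ : E2) {t : ℝ} (ht : |t| ≤ 1/2) (y : E2) :
    HasFDerivAt (rhomeo h x₀ ht) (rder b x₀ t y) y := by
  by_cases hy : y = x₀
  · -- locally a translation
    subst hy
    have hev : (rhomeo h y ht : E2 → E2) =ᶠ[𝓝 y] fun z => z + t • psi b r2 r1 := by
      filter_upwards [ball_mem_nhds y h.pos] with z hz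
      rw [rhomeo_apply, psi_eq_const h]
      rw [mem_ball, dist_eq_norm] at hz
      exact hz.le
    have h1 : HasFDerivAt (fun z : E2 => z + t • psi b r2 r1) (ContinuousLinearMap.id ℝ E2) y :=
      (hasFDerivAt_id y).add_const _
    have h2 := h1.congr_of_eventuallyEq hev
    refine h2.congr_fderiv ?_
    ext v
    rw [rder_apply]
    simp [nu]
  · have h1 := hasFDerivAt_norm_sub hy
    have h2 := (hasDerivAt_psi h ‖y - x₀‖).hasFDerivAt.comp y h1
    have h3 := (h2.const_smul t)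
    have h4 := (hasFDerivAt_id y).add h3
    have e : (rhomeo h x₀ ht : E2 → E2) = fun z => id z + t • (psi b r2 ∘ fun z => ‖z - x₀‖) z := by
      funext z
      rfl
    rw [e]
    refine h4.congr_fderiv ?_
    ext v
    rw [rder_apply]
    simp [mul_smul]

theorem det_rder (x₀ : E2) (t : ℝ) (y : E2) :
    (rder b x₀ t y).det = 1 + t * inner ℝ (nu x₀ y) (b ‖y - x₀‖) := by
  have e : ((rder b x₀ t y : E2 →L[ℝ] E2) : E2 →ₗ[ℝ] E2) =
      LinearMap.transvection ((t • innerSL ℝ (nu x₀ y) : E2 →L[ℝ] ℝ) : E2 →ₗ[ℝ] ℝ) (b ‖y - x₀‖) := by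
    ext v
    simp [LinearMap.transvection.apply, rder]
  unfold ContinuousLinearMap.det
  rw [e, LinearMap.transvection.det]
  simp

end Inner

end Crest.Agent.R135
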