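import Crest.Agent.R135.Conc2
import Crest.Agent.R135.Strong
import Crest.Agent.R135.Inner2
import Crest.Agent.R135.IFDefs
import Crest.Agent.R135.IFDefs2

-- ▼ part R135/StarComp1
section

/-!
# R135: star competitor (helper560), part 1: arcs of the circle, sector constants
-/

set_option autoImplicit false

open MeasureTheory Set Filter Topology Metric
open scoped ENNReal NNReal ContDiff Gradient

namespace Crest.Agent.R135

namespace StarC

variable {U K : Set E2} {lam : ℝ} {u : E2 → ℝ} {y : E2} {s : ℝ}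

theorem continuous_cpt_angle (y : E2) (s : ℝ) : Continuous (cpt y s) :=
  (continuous_cpt y).comp (by fun_prop : Continuous fun θ : ℝ => (s, θ))

/-- the arc around a point of the circle off `K` -/
theorem exists_arc_around (hs : 0 < s) (hKc : IsClosed (K ∩ sphere y s))
    (hne : (K ∩ sphere y s).Nonempty) {θ : ℝ} (hθ : cpt y s θ ∉ K) :
    ∃ α β, α < θ ∧ θ < β ∧ β ≤ α + 2 * Real.pi ∧ cpt y s α ∈ K ∧ cpt y s β ∈ K ∧
      ∀ φ ∈ Ioo α β, cpt y s φ ∉ K := by
  set T : Set ℝ := {φ | cpt y s φ ∈ K} with hT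
  have hTeq : T = cpt y s ⁻¹' (K ∩ sphere y s) := by
    ext φ
    exact ⟨fun h => ⟨h, cpt_mem_sphere hs.le⟩, fun h => h.1⟩
  have hTc : IsClosed T := by
    rw [hTeq]; exact hKc.preimage (continuous_cpt_angle y s)
  have hpi := Real.two_pi_pos
  obtain ⟨p, hp⟩ := hne
  obtain ⟨a, ha, hap⟩ := exists_cpt_eq hs hp.2 (θ - 2 * Real.pi)
  obtain ⟨b, hb, hbp⟩ := exists_cpt_eq hs hp.2 θ
  have haT : a ∈ T := by rw [hT, mem_ofPred_eq, hap]; exact hp.1
  have hbT : b ∈ T := by rw [hT, mem_ofPred_eq, hbp]; exact hp.1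
  have hA : IsCompact (T ∩ Icc (θ - 2 * Real.pi) θ) := isCompact_Icc.inter_left hTc
  have hB : IsCompact (T ∩ Icc θ (θ + 2 * Real.pi)) := isCompact_Icc.inter_left hTc
  obtain ⟨α, hα, hαmax⟩ := hA.exists_isGreatest ⟨a, haT, ha.1, by linarith [ha.2]⟩
  obtain ⟨β, hβ, hβmin⟩ := hB.exists_isLeast ⟨b, hbT, hb.1, hb.2.le⟩
  have hαθ : α < θ := by
    refine lt_of_le_of_ne hα.2.2 ?_
    rintro rfl
    exact hθ hα.1
  have hβθ : θ < β := by
    refine lt_of_le_of_ne hβ.2.1 ?_
    rintro rfl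
    exact hθ hβ.1
  refine ⟨α, β, hαθ, hβθ, ?_, hα.1, hβ.1, ?_⟩
  · apply hβmin
    refine ⟨?_, by linarith [hα.2.1], by linarith⟩
    rw [hT, mem_ofPred_eq, cpt_periodic]
    exact hα.1
  · intro φ hφ hφK
    rcases le_total φ θ with h | h
    · have := hαmax ⟨hφK, by linarith [hφ.1, hα.2.1], h⟩
      linarith [hφ.1]
    · have := hβmin ⟨hφK, h, by linarith [hφ.2, hβ.2.2]⟩
      linarith [hφ.2]

/-- the component of a point of the circle minus `K` is contained in the open arc -/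
theorem component_subset_arc (hs : 0 < s) {α β : ℝ} (hαβ : α < β) (hβ : β ≤ α + 2 * Real.pi)
    (hαK : cpt y s α ∈ K) (hβK : cpt y s β ∈ K) (hfree : ∀ φ ∈ Ioo α β, cpt y s φ ∉ K)
    {θ : ℝ} (hθ : θ ∈ Ioo α β) :
    connectedComponentIn (sphere y s \ K) (cpt y s θ) ⊆ cpt y s '' Ioo α β := by
  set S := connectedComponentIn (sphere y s \ K) (cpt y s θ) with hS
  have hSsub : S ⊆ sphere y s \ K := connectedComponentIn_subset _ _
  have hpre : IsPreconnected S := isPreconnected_connectedComponentIn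
  have hc := continuous_cpt_angle y s
  have h1 : IsClosed (cpt y s '' Icc α β) := (isCompact_Icc.image hc).isClosed
  have h2 : IsClosed (cpt y s '' Icc β (α + 2 * Real.pi)) := (isCompact_Icc.image hc).isClosed
  have hcov : S ⊆ cpt y s '' Icc α β ∪ cpt y s '' Icc β (α + 2 * Real.pi) := by
    intro x hx
    obtain ⟨φ, hφ, rfl⟩ := exists_cpt_eq hs (hSsub hx).1 α
    rcases le_total φ β with h | h
    · exact Or.inl ⟨φ, ⟨hφ.1, h⟩, rfl⟩
    · exact Or.inr ⟨φ, ⟨h, hφ.2.le⟩, rfl⟩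
  have hθS : cpt y s θ ∈ S :=
    mem_connectedComponentIn ⟨cpt_mem_sphere hs.le, hfree θ hθ⟩
  have hno : ¬ (S ∩ cpt y s '' Icc β (α + 2 * Real.pi)).Nonempty := by
    intro hne
    obtain ⟨x, hxS, ⟨φ, hφ, rfl⟩, ⟨ψ, hψ, hψφ⟩⟩ := isPreconnected_closed_iff.1 hpre _ _ h1 h2 hcov
      ⟨_, hθS, ⟨θ, ⟨hθ.1.le, hθ.2.le⟩, rfl⟩⟩ hne
    have hxK : cpt y s φ ∉ K := (hSsub hxS).2
    have hdir : dir ψ = dir φ := by
      have h3 : s • dir ψ = s • dir φ := by simpa [cpt] using hψφ
      exact smul_right_injective E2 hs.ne' h3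
    obtain ⟨n, hn⟩ := dir_eq_dir_iff.1 hdir
    have hpi := Real.two_pi_pos
    have hφβ : φ ≤ β := hφ.2
    have h0 : 0 ≤ ψ - φ := by linarith [hψ.1]
    have h4 : ψ - φ ≤ 2 * Real.pi := by linarith [hψ.2, hφ.1]
    rw [hn] at h0 h4
    have hn0 : (0:ℝ) ≤ n := by
      by_contra hcon
      push Not at hcon
      nlinarith
    have hn1 : (n:ℝ) ≤ 1 := by
      by_contra hcon
      push Not at hcon
      nlinarith
    have hn0' : 0 ≤ n := by exact_mod_cast hn0
    have hn1' : n ≤ 1 := by exact_mod_cast hn1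
    have hcase : n = 0 ∨ n = 1 := by omega
    rcases hcase with rfl | rfl
    · have : φ = β := by
        simp at hn
        linarith [hψ.1]
      rw [this] at hxK
      exact hxK hβK
    · have : φ = α := by
        simp at hn
        linarith [hψ.2, hφ.1]
      rw [this] at hxK
      exact hxK hαK
  intro x hx
  rcases hcov hx with h | h
  · obtain ⟨φ, hφ, rfl⟩ := h
    refine ⟨φ, ⟨lt_of_le_of_ne hφ.1 ?_, lt_of_le_of_ne hφ.2 ?_⟩, rfl⟩
    · rintro rfl; exact (hSsub hx).2 hαK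
    · rintro rfl; exact (hSsub hx).2 hβK
  · exact absurd ⟨x, hx, h⟩ hno

open Classical in
/-- the base point of the component of `x` in the circle minus `K` -/
noncomputable def base (K : Set E2) (y : E2) (s : ℝ) (x : E2) : E2 :=
  if h : (connectedComponentIn (sphere y s \ K) x).Nonempty then h.some else x

/-- sector constants -/
noncomputable def cs (u : E2 → ℝ) (K : Set E2) (y : E2) (s : ℝ) (x : E2) : ℝ := u (base K y s x)

theorem base_mem {x : E2} (hx : x ∈ sphere y s \ K) :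
    base K y s x ∈ connectedComponentIn (sphere y s \ K) x := by
  have h : (connectedComponentIn (sphere y s \ K) x).Nonempty := ⟨x, mem_connectedComponentIn hx⟩
  rw [base, dif_pos h]
  exact h.some_mem

theorem base_eq {x x' : E2} (hx : x ∈ sphere y s \ K)
    (hx' : x' ∈ connectedComponentIn (sphere y s \ K) x) : base K y s x' = base K y s x := by
  have h := connectedComponentIn_eq hx'
  have hne : (connectedComponentIn (sphere y s \ K) x).Nonempty := ⟨x, mem_connectedComponentIn hx⟩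
  have hne' : (connectedComponentIn (sphere y s \ K) x').Nonempty := by rw [← h]; exact hne
  rw [base, base, dif_pos hne, dif_pos hne']
  simp only [h]

theorem sq_lintegral_le_real (a b : ℝ) (hab : a ≤ b) (F : ℝ → ℝ≥0∞)
    (hF : AEMeasurable F (volume.restrict (Ioo a b))) :
    (∫⁻ θ in Ioo a b, F θ) ^ 2 ≤ ENNReal.ofReal (b - a) * ∫⁻ θ in Ioo a b, F θ ^ 2 := by
  have h := ENNReal.lintegral_mul_le_Lp_mul_Lq (volume.restrict (Ioo a b))
    Real.HolderConjugate.two_two hF (aemeasurable_const (b := (1:ℝ≥0∞)))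
  simp only [Pi.mul_apply, mul_one, ENNReal.one_rpow, lintegral_const, Measure.restrict_apply_univ,
    Real.volume_Ioo, one_mul] at h
  calc (∫⁻ θ in Ioo a b, F θ) ^ 2 ≤ ((∫⁻ θ in Ioo a b, F θ ^ (2:ℝ)) ^ (1 / (2:ℝ)) *
        ENNReal.ofReal (b - a) ^ (1 / (2:ℝ))) ^ 2 := by gcongr
    _ = ENNReal.ofReal (b - a) * ∫⁻ θ in Ioo a b, F θ ^ 2 := by
        rw [mul_pow, ← ENNReal.rpow_natCast, ← ENNReal.rpow_natCast, ← ENNReal.rpow_mul,
          ← ENNReal.rpow_mul]
        norm_num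
        rw [mul_comm]

/-- oscillation bound on an arc -/
theorem osc_arc (hq : IsQM U lam u K) (hs : 0 < s) (hball : closedBall y s ⊆ U) {α β : ℝ}
    (hαβ : β ≤ α + 2 * Real.pi) (hfree : ∀ φ ∈ Ioo α β, cpt y s φ ∉ K) {a b : ℝ}
    (ha : a ∈ Ioo α β) (hb : b ∈ Ioo α β) :
    ‖u (cpt y s a) - u (cpt y s b)‖ₑ ^ 2 ≤ ENNReal.ofReal (2 * Real.pi * s ^ 2) *
      ∫⁻ θ in Ioo (-Real.pi) Real.pi, ‖∇ u (cpt y s θ)‖ₑ ^ 2 := by
  wlog hab : b ≤ a generalizing a b
  · have := this hb ha (not_le.1 hab).le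
    rwa [← neg_sub, enorm_neg] at this
  have hcont := continuous_cpt_angle y s
  have hU : ∀ θ ∈ Ioo α β, cpt y s θ ∈ U \ K := fun θ hθ =>
    ⟨hball (sphere_subset_closedBall (cpt_mem_sphere hs.le)), hfree θ hθ⟩
  have hsub : Icc b a ⊆ Ioo α β := fun θ hθ =>
    ⟨lt_of_lt_of_le hb.1 hθ.1, lt_of_le_of_lt hθ.2 ha.2⟩
  have hder : ∀ θ ∈ Ioo α β, HasDerivAt (fun θ => u (cpt y s θ))
      (s * inner ℝ (∇ u (cpt y s θ)) (tau θ)) θ := fun θ hθ =>
    hasDerivAt_circle ((hq.contDiffAt (hU θ hθ)).differentiableAt (by norm_num)).hasGradientAt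
  have hgc : ContinuousOn (fun θ => s * inner ℝ (∇ u (cpt y s θ)) (tau θ)) (Icc b a) := by
    apply ContinuousOn.mul continuousOn_const
    apply ContinuousOn.inner
    · intro θ hθ
      have h1 : ContinuousAt (∇ u) (cpt y s θ) := by
        have h2 := (hq.contDiffAt (hU θ (hsub hθ))).continuousAt_fderiv (by norm_num)
        unfold gradient
        exact (InnerProductSpace.toDual ℝ E2).symm.continuous.continuousAt.comp h2
      exact (h1.comp hcont.continuousAt).continuousWithinAt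
    · exact continuous_tau.continuousOn
  have hftc : ∫ θ in b..a, s * inner ℝ (∇ u (cpt y s θ)) (tau θ) = u (cpt y s a) - u (cpt y s b) := by
    apply intervalIntegral.integral_eq_sub_of_hasDerivAt
    · intro θ hθ
      rw [uIcc_of_le hab] at hθ
      exact hder θ (hsub hθ)
    · apply ContinuousOn.intervalIntegrable
      rwa [uIcc_of_le hab]
  have hmeas : Measurable (fun θ => ‖∇ u (cpt y s θ)‖ₑ) :=
    ((measurable_gradient u).comp hcont.measurable).enorm
  have hL1 : ‖u (cpt y s a) - u (cpt y s b)‖ₑ ≤ ENNReal.ofReal s * ∫⁻ θ in Ioo α β,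
      ‖∇ u (cpt y s θ)‖ₑ := by
    rw [← hftc, intervalIntegral.integral_of_le hab]
    refine (enorm_integral_le_lintegral_enorm _).trans ?_
    calc ∫⁻ θ in Ioc b a, ‖s * inner ℝ (∇ u (cpt y s θ)) (tau θ)‖ₑ
        ≤ ∫⁻ θ in Ioc b a, ENNReal.ofReal s * ‖∇ u (cpt y s θ)‖ₑ := by
          apply lintegral_mono
          intro θ
          dsimp only
          rw [enorm_mul, Real.enorm_of_nonneg hs.le]
          gcongr
          rw [enorm_le_iff_norm_le, Real.norm_eq_abs]
          exact abs_inner_tau_le _ _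
      _ ≤ ∫⁻ θ in Ioo α β, ENNReal.ofReal s * ‖∇ u (cpt y s θ)‖ₑ := by
          apply lintegral_mono_set
          intro θ hθ
          exact hsub ⟨hθ.1.le, hθ.2⟩
      _ = ENNReal.ofReal s * ∫⁻ θ in Ioo α β, ‖∇ u (cpt y s θ)‖ₑ := by
          rw [lintegral_const_mul' _ _ ENNReal.ofReal_ne_top]
  have hαβ' : α ≤ β := by linarith [ha.1, ha.2]
  calc ‖u (cpt y s a) - u (cpt y s b)‖ₑ ^ 2
      ≤ (ENNReal.ofReal s * ∫⁻ θ in Ioo α β, ‖∇ u (cpt y s θ)‖ₑ) ^ 2 := by gcongr
    _ = ENNReal.ofReal (s ^ 2) * (∫⁻ θ in Ioo α β, ‖∇ u (cpt y s θ)‖ₑ) ^ 2 := by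
        rw [mul_pow, ENNReal.ofReal_pow hs.le]
    _ ≤ ENNReal.ofReal (s ^ 2) * (ENNReal.ofReal (β - α) *
          ∫⁻ θ in Ioo α β, ‖∇ u (cpt y s θ)‖ₑ ^ 2) := by
        gcongr
        exact sq_lintegral_le_real α β hαβ' _ hmeas.aemeasurable
    _ ≤ ENNReal.ofReal (s ^ 2) * (ENNReal.ofReal (2 * Real.pi) *
          ∫⁻ θ in Ioo α (α + 2 * Real.pi), ‖∇ u (cpt y s θ)‖ₑ ^ 2) := by
        gcongr
        linarith
    _ = ENNReal.ofReal (2 * Real.pi * s ^ 2) *
          ∫⁻ θ in Ioo (-Real.pi) Real.pi, ‖∇ u (cpt y s θ)‖ₑ ^ 2 := by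
        rw [lintegral_cpt_shift (fun z => ‖∇ u z‖ₑ ^ 2) y s α, ← mul_assoc,
          ← ENNReal.ofReal_mul (by positivity), mul_comm (s ^ 2)]

/-- the sector constant is close to `u` -/
theorem sub_cs_le (hq : IsQM U lam u K) (hs : 0 < s) (hball : closedBall y s ⊆ U)
    (hKc : IsClosed (K ∩ sphere y s)) (hne : (K ∩ sphere y s).Nonempty) {θ : ℝ}
    (hθ : cpt y s θ ∉ K) :
    ‖u (cpt y s θ) - cs u K y s (cpt y s θ)‖ₑ ^ 2 ≤ ENNReal.ofReal (2 * Real.pi * s ^ 2) *
      ∫⁻ θ in Ioo (-Real.pi) Real.pi, ‖∇ u (cpt y s θ)‖ₑ ^ 2 := by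
  obtain ⟨α, β, h1, h2, h3, h4, h5, h6⟩ := exists_arc_around hs hKc hne hθ
  have hm := base_mem (K := K) (y := y) (s := s) (x := cpt y s θ) ⟨cpt_mem_sphere hs.le, hθ⟩
  obtain ⟨φ, hφ, hφe⟩ := component_subset_arc hs (h1.trans h2) h3 h4 h5 h6 ⟨h1, h2⟩ hm
  rw [cs, ← hφe]
  exact osc_arc hq hs hball h3 h6 ⟨h1, h2⟩ hφ

/-- the sector constant, composed with the radial projection, is locally constant -/
theorem eventually_cs_eq (hs : 0 < s) (hKo : ∀ x ∈ sphere y s \ K, ∀ᶠ z in 𝓝 x, z ∉ K) {x : E2}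
    (hx : x ≠ y) (hxK : radProj y s x ∉ K) :
    ∀ᶠ z in 𝓝 x, z ≠ y ∧ radProj y s z ∉ K ∧
      cs u K y s (radProj y s z) = cs u K y s (radProj y s x) := by
  have hc : ContinuousAt (radProj y s) x := (contDiffAt_radProj hx).continuousAt
  have hxm : radProj y s x ∈ sphere y s \ K := ⟨radProj_mem_sphere hs.le hx, hxK⟩
  have h1 : ∀ᶠ z in 𝓝 x, radProj y s z ∉ K := hc.eventually (hKo _ hxm)
  have h2 : ∀ᶠ z in 𝓝 x, z ≠ y := isOpen_ne.mem_nhds hx
  obtain ⟨r, hr, hrb⟩ := Metric.eventually_nhds_iff_ball.1 (h1.and h2)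
  filter_upwards [ball_mem_nhds x hr] with z hz
  refine ⟨(hrb z hz).2, (hrb z hz).1, ?_⟩
  have hpre : IsPreconnected (radProj y s '' ball x r) := by
    refine (convex_ball x r).isPreconnected.image _ ?_
    intro w hw
    exact (contDiffAt_radProj (hrb w hw).2).continuousAt.continuousWithinAt
  have hsub : radProj y s '' ball x r ⊆ sphere y s \ K := by
    rintro _ ⟨w, hw, rfl⟩
    exact ⟨radProj_mem_sphere hs.le (hrb w hw).2, (hrb w hw).1⟩
  have hmem : radProj y s z ∈ connectedComponentIn (sphere y s \ K) (radProj y s x) :=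
    hpre.subset_connectedComponentIn ⟨x, mem_ball_self hr, rfl⟩ hsub ⟨z, hz, rfl⟩
  rw [cs, cs, base_eq hxm hmem]

end StarC

end Crest.Agent.R135
end

-- ▼ part R135/StarComp2
section

/-!
# R135: star competitor (helper560), part 2: the centred star function and its energy
-/

set_option autoImplicit false

open MeasureTheory Set Filter Topology Metric
open scoped ENNReal NNReal ContDiff Gradient

namespace Crest.Agent.R135

namespace StarC

variable {U K : Set E2} {lam : ℝ} {u : E2 → ℝ} {y : E2} {s : ℝ}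

/-- the centred star function -/
noncomputable def w0 (u : E2 → ℝ) (K : Set E2) (y : E2) (s : ℝ) (x : E2) : ℝ :=
  radIn u y s (1 / 2) (cs u K y s (radProj y s x)) x

theorem w0_of_dist_eq (hs : 0 < s) {x : E2} (hx : dist x y = s) : w0 u K y s x = u x :=
  radIn_of_dist_eq hs (by norm_num) hx

theorem w0_eventually (hs : 0 < s) (hKo : ∀ x ∈ sphere y s \ K, ∀ᶠ z in 𝓝 x, z ∉ K) {x : E2}
    (hx : x ≠ y) (hxK : radProj y s x ∉ K) :
    w0 u K y s =ᶠ[𝓝 x] radIn u y s (1 / 2) (cs u K y s (radProj y s x)) := by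
  filter_upwards [eventually_cs_eq (u := u) hs hKo hx hxK] with z hz
  rw [w0, hz.2.2]

/-- `w0` is Lipschitz near the points of the closed disc off the radii over `K` -/
theorem lipAt_w0 (hs : 0 < s) (hKo : ∀ x ∈ sphere y s \ K, ∀ᶠ z in 𝓝 x, z ∉ K)
    (hu : ∀ x ∈ sphere y s \ K, ContDiffAt ℝ 1 u x) {x : E2} (hx : x ≠ y)
    (hxK : radProj y s x ∉ K) : ∃ Kc : ℝ≥0, ∃ t ∈ 𝓝 x, LipschitzOnWith Kc (w0 u K y s) t := by
  have hev := w0_eventually (u := u) hs hKo hx hxK
  have key : ∃ Kc : ℝ≥0, ∃ t ∈ 𝓝 x,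
      LipschitzOnWith Kc (radIn u y s (1 / 2) (cs u K y s (radProj y s x))) t := by
    rcases lt_or_ge (dist x y) ((1 - 1 / 2) * s) with hlt | hge
    · refine ⟨0, ball y ((1 - 1 / 2) * s), isOpen_ball.mem_nhds hlt, ?_⟩
      intro p hp q hq
      rw [radIn_of_dist_le hs (by norm_num) (le_of_lt hp), radIn_of_dist_le hs (by norm_num)
        (le_of_lt hq)]
      simp
    · exact exists_lipschitz_radIn hs (by norm_num) (by norm_num) hge
        (hu _ ⟨radProj_mem_sphere hs.le hx, hxK⟩)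
  obtain ⟨Kc, t, ht, hL⟩ := key
  refine ⟨Kc, t ∩ {z | w0 u K y s z = radIn u y s (1 / 2) (cs u K y s (radProj y s x)) z},
    Filter.inter_mem ht hev, ?_⟩
  intro p hp q hq
  rw [show w0 u K y s p = _ from hp.2, show w0 u K y s q = _ from hq.2]
  exact hL hp.1 hq.1

theorem w0_eventually_radW (hs : 0 < s) (hKo : ∀ x ∈ sphere y s \ K, ∀ᶠ z in 𝓝 x, z ∉ K) {x : E2}
    (hx : x ≠ y) (hxK : radProj y s x ∉ K) (hxs : dist x y < s) :
    w0 u K y s =ᶠ[𝓝 x] radW u y s (1 / 2) (cs u K y s (radProj y s x)) := by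
  have h1 : ∀ᶠ z in 𝓝 x, dist z y < s :=
    (continuous_id.dist continuous_const).continuousAt.eventually
      (eventually_lt_nhds (by simpa using hxs))
  filter_upwards [w0_eventually (u := u) hs hKo hx hxK, h1] with z hz hz2
  rw [hz, radW, if_pos hz2]

/-- gradient bound in the outer half -/
theorem gradient_w0_le (hs : 0 < s) (hKo : ∀ x ∈ sphere y s \ K, ∀ᶠ z in 𝓝 x, z ∉ K)
    (hu : ∀ x ∈ sphere y s \ K, ContDiffAt ℝ 1 u x) {t θ : ℝ} (ht1 : s / 2 < t) (ht2 : t < s)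
    (hθ : cpt y s θ ∉ K) :
    ‖∇ (w0 u K y s) (cpt y t θ)‖ₑ ^ 2 ≤
      ENNReal.ofReal (4 / s ^ 2) * ‖u (cpt y s θ) - cs u K y s (cpt y s θ)‖ₑ ^ 2 +
        4 * ‖∇ u (cpt y s θ)‖ₑ ^ 2 := by
  have ht0 : 0 < t := by linarith
  have hproj : radProj y s (cpt y t θ) = cpt y s θ := radProj_cpt y s ht0 θ
  have hdx : dist (cpt y t θ) y = t := by rw [dist_cpt, abs_of_pos ht0]
  have hxy : cpt y t θ ≠ y := by
    intro he
    rw [he, dist_self] at hdx
    linarith
  have hev := w0_eventually_radW (u := u) hs hKo hxy (by rw [hproj]; exact hθ) (by rw [hdx]; exact ht2)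
  rw [gradient_congr_of_eventuallyEq hev, hproj]
  have hcd : ContDiffAt ℝ 1 u (cpt y s θ) := hu _ ⟨cpt_mem_sphere hs.le, hθ⟩
  have h := norm_sq_gradient_radW_le (c := cs u K y s (cpt y s θ)) hs (h := 1 / 2) (by norm_num)
    (by norm_num) (t := t) (θ := θ) (by linarith) ht2 hcd
  have e1 : ‖∇ (radW u y s (1 / 2) (cs u K y s (cpt y s θ))) (cpt y t θ)‖ₑ ^ 2 =
      ENNReal.ofReal (‖∇ (radW u y s (1 / 2) (cs u K y s (cpt y s θ))) (cpt y t θ)‖ ^ 2) := by
    rw [← ofReal_norm, ENNReal.ofReal_pow (norm_nonneg _)]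
  have e2 : ‖∇ u (cpt y s θ)‖ₑ ^ 2 = ENNReal.ofReal (‖∇ u (cpt y s θ)‖ ^ 2) := by
    rw [← ofReal_norm, ENNReal.ofReal_pow (norm_nonneg _)]
  have e3 : ‖u (cpt y s θ) - cs u K y s (cpt y s θ)‖ₑ ^ 2 =
      ENNReal.ofReal ((u (cpt y s θ) - cs u K y s (cpt y s θ)) ^ 2) := by
    rw [← ofReal_norm, ← ENNReal.ofReal_pow (norm_nonneg _), Real.norm_eq_abs, sq_abs]
  have e4 : (4 : ℝ≥0∞) = ENNReal.ofReal 4 := by simp
  rw [e1, e2, e3, e4, ← ENNReal.ofReal_mul (by positivity), ← ENNReal.ofReal_mul (by norm_num),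
    ← ENNReal.ofReal_add (by positivity) (by positivity)]
  apply ENNReal.ofReal_le_ofReal
  refine h.trans ?_
  have h2 : (s / t) ^ 2 ≤ 4 := by
    have h3 : s / t ≤ 2 := by rw [div_le_iff₀ ht0]; linarith
    have h4 : 0 ≤ s / t := by positivity
    nlinarith
  have h5 : (u (cpt y s θ) - cs u K y s (cpt y s θ)) ^ 2 / (1 / 2 * s) ^ 2 =
      4 / s ^ 2 * (u (cpt y s θ) - cs u K y s (cpt y s θ)) ^ 2 := by
    field_simp; norm_num
  rw [h5]
  have h6 : (s / t) ^ 2 * ‖∇ u (cpt y s θ)‖ ^ 2 ≤ 4 * ‖∇ u (cpt y s θ)‖ ^ 2 := by gcongr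
  linarith

/-- gradient zero in the inner half -/
theorem gradient_w0_inner (hs : 0 < s) (hKo : ∀ x ∈ sphere y s \ K, ∀ᶠ z in 𝓝 x, z ∉ K)
    {t θ : ℝ} (ht0 : 0 < t) (ht2 : t < s / 2) (hθ : cpt y s θ ∉ K) :
    ∇ (w0 u K y s) (cpt y t θ) = 0 := by
  have hproj : radProj y s (cpt y t θ) = cpt y s θ := radProj_cpt y s ht0 θ
  have hdx : dist (cpt y t θ) y = t := by rw [dist_cpt, abs_of_pos ht0]
  have hxy : cpt y t θ ≠ y := by
    intro he
    rw [he, dist_self] at hdx
    linarith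
  have hev := w0_eventually_radW (u := u) hs hKo hxy (by rw [hproj]; exact hθ)
    (by rw [hdx]; linarith)
  rw [gradient_congr_of_eventuallyEq hev]
  exact gradient_radW_inner_eq_zero hs (by norm_num) (by rw [hdx]; linarith)

/-- energy of the centred star function -/
theorem lintegral_w0_le (hq : IsQM U lam u K) (hs : 0 < s) (hball : closedBall y s ⊆ U)
    (hfin : (K ∩ sphere y s).Finite) (hne : (K ∩ sphere y s).Nonempty) :
    ∫⁻ x in ball y s, ‖∇ (w0 u K y s) x‖ₑ ^ 2 ≤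
      ENNReal.ofReal (82 * s ^ 2) * ∫⁻ θ in Ioo (-Real.pi) Real.pi, ‖∇ u (cpt y s θ)‖ₑ ^ 2 := by
  have hKc : IsClosed (K ∩ sphere y s) := hfin.isClosed
  have hsph : ∀ x ∈ sphere y s \ K, x ∈ U \ K := fun x hx =>
    ⟨hball (sphere_subset_closedBall hx.1), hx.2⟩
  have hKo : ∀ x ∈ sphere y s \ K, ∀ᶠ z in 𝓝 x, z ∉ K := by
    intro x hx
    filter_upwards [hq.isOpen_diff.mem_nhds (hsph x hx)] with z hz using hz.2
  have hu : ∀ x ∈ sphere y s \ K, ContDiffAt ℝ 1 u x := fun x hx => hq.contDiffAt (hsph x hx)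
  set I := ∫⁻ θ in Ioo (-Real.pi) Real.pi, ‖∇ u (cpt y s θ)‖ₑ ^ 2 with hI
  have hmeas : Measurable (fun x => ‖∇ (w0 u K y s) x‖ₑ ^ 2) :=
    (measurable_gradient _).enorm.pow_const 2
  rw [lintegral_ball_polar y s hmeas.aemeasurable]
  -- almost every angle is good
  have haeθ : ∀ᵐ θ ∂(volume.restrict (Ioo (-Real.pi) Real.pi)), cpt y s θ ∉ K := by
    have h1 : {θ ∈ Icc (-Real.pi) (-Real.pi + 2 * Real.pi) | cpt y s θ ∈ K}.Finite :=
      finite_angles_Icc hs (-Real.pi) hfin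
    have h2 : ∀ᵐ θ : ℝ, θ ∉ {θ ∈ Icc (-Real.pi) (-Real.pi + 2 * Real.pi) | cpt y s θ ∈ K} :=
      measure_eq_zero_iff_ae_notMem.1 (h1.measure_zero volume)
    filter_upwards [ae_restrict_of_ae h2, ae_restrict_mem measurableSet_Ioo] with θ hθ1 hθ2 hθK
    exact hθ1 ⟨⟨hθ2.1.le, by linarith [hθ2.2]⟩, hθK⟩
  have hin : ∀ t ∈ Ioo (0 : ℝ) s, t ≠ s / 2 →
      ENNReal.ofReal t * ∫⁻ θ in Ioo (-Real.pi) Real.pi, ‖∇ (w0 u K y s) (cpt y t θ)‖ₑ ^ 2 ≤
        (Ioo (s / 2) s).indicator (fun _ => ENNReal.ofReal (164 * s) * I) t := by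
    intro t ht hne2
    rcases lt_or_gt_of_ne hne2 with hlt | hgt
    · have h0 : ∫⁻ θ in Ioo (-Real.pi) Real.pi, ‖∇ (w0 u K y s) (cpt y t θ)‖ₑ ^ 2 = 0 := by
        have h3 : ∫⁻ θ in Ioo (-Real.pi) Real.pi, ‖∇ (w0 u K y s) (cpt y t θ)‖ₑ ^ 2 =
            ∫⁻ θ in Ioo (-Real.pi) Real.pi, (0:ℝ≥0∞) := by
          apply lintegral_congr_ae
          filter_upwards [haeθ] with θ hθ
          rw [gradient_w0_inner hs hKo ht.1 hlt hθ]
          simp
        rw [h3, lintegral_zero]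
      rw [h0, mul_zero]
      exact zero_le
    · rw [indicator_of_mem (show t ∈ Ioo (s / 2) s from ⟨hgt, ht.2⟩)]
      have h1 : ∫⁻ θ in Ioo (-Real.pi) Real.pi, ‖∇ (w0 u K y s) (cpt y t θ)‖ₑ ^ 2 ≤
          ∫⁻ θ in Ioo (-Real.pi) Real.pi, (ENNReal.ofReal (4 / s ^ 2) *
            (ENNReal.ofReal (2 * Real.pi * s ^ 2) * I) + 4 * ‖∇ u (cpt y s θ)‖ₑ ^ 2) := by
        apply lintegral_mono_ae
        filter_upwards [haeθ] with θ hθ
        refine (gradient_w0_le hs hKo hu hgt ht.2 hθ).trans ?_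
        gcongr
        exact sub_cs_le hq hs hball hKc hne hθ
      have h2 : ∫⁻ θ in Ioo (-Real.pi) Real.pi, (ENNReal.ofReal (4 / s ^ 2) *
            (ENNReal.ofReal (2 * Real.pi * s ^ 2) * I) + 4 * ‖∇ u (cpt y s θ)‖ₑ ^ 2) =
          ENNReal.ofReal (16 * Real.pi ^ 2) * I + 4 * I := by
        rw [lintegral_add_left measurable_const, lintegral_const, Measure.restrict_apply_univ,
          Real.volume_Ioo, lintegral_const_mul' _ _ (by norm_num), ← mul_assoc,
          ← ENNReal.ofReal_mul (by positivity), mul_right_comm,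
          ← ENNReal.ofReal_mul (by positivity)]
        congr 3
        field_simp
        ring
      have hpi : Real.pi ^ 2 < 10 := by
        have h3 := Real.pi_lt_d2
        have h4 := Real.pi_pos
        nlinarith
      have h3 : ENNReal.ofReal (16 * Real.pi ^ 2) * I + 4 * I ≤ ENNReal.ofReal 164 * I := by
        have e4 : (4 : ℝ≥0∞) = ENNReal.ofReal 4 := by simp
        rw [e4, ← add_mul, ← ENNReal.ofReal_add (by positivity) (by norm_num)]
        gcongr
        linarith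
      calc ENNReal.ofReal t * ∫⁻ θ in Ioo (-Real.pi) Real.pi, ‖∇ (w0 u K y s) (cpt y t θ)‖ₑ ^ 2
          ≤ ENNReal.ofReal s * (ENNReal.ofReal 164 * I) := by
            gcongr
            · exact ht.2.le
            · exact h1.trans (h2.le.trans h3)
        _ = ENNReal.ofReal (164 * s) * I := by
            rw [← mul_assoc, ← ENNReal.ofReal_mul hs.le]
            congr 2; ring
  have hmain : ∫⁻ t in Ioo (0 : ℝ) s, ENNReal.ofReal t *
      ∫⁻ θ in Ioo (-Real.pi) Real.pi, ‖∇ (w0 u K y s) (cpt y t θ)‖ₑ ^ 2 ≤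
      ∫⁻ t in Ioo (0 : ℝ) s, (Ioo (s / 2) s).indicator
        (fun _ => ENNReal.ofReal (164 * s) * I) t := by
    apply lintegral_mono_ae
    have hne3 : ∀ᵐ t ∂(volume.restrict (Ioo (0 : ℝ) s)), t ≠ s / 2 := by
      apply ae_restrict_of_ae
      rw [ae_iff]
      simp
    filter_upwards [hne3, ae_restrict_mem measurableSet_Ioo] with t ht1 ht2
    exact hin t ht2 ht1
  refine hmain.trans ?_
  rw [lintegral_indicator measurableSet_Ioo, Measure.restrict_restrict measurableSet_Ioo]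
  have hsub : Ioo (s / 2) s ∩ Ioo 0 s = Ioo (s / 2) s := by
    apply inter_eq_left.2
    intro t ht
    exact ⟨by linarith [ht.1], ht.2⟩
  rw [hsub, lintegral_const, Measure.restrict_apply_univ, Real.volume_Ioo, mul_right_comm,
    ← ENNReal.ofReal_mul (by positivity)]
  have e5 : 164 * s * (s - s / 2) = 82 * s ^ 2 := by ring
  rw [e5]

end StarC

end Crest.Agent.R135
end

-- ▼ part R135/StarComp3
section

/-!
# R135: star competitor (helper560), part 3: moving the centre, the competitor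
-/

set_option autoImplicit false

open MeasureTheory Set Filter Topology Metric
open scoped ENNReal NNReal ContDiff Gradient

namespace Crest.Agent.R135

namespace StarC

variable {U K : Set E2} {lam : ℝ} {u : E2 → ℝ} {y a : E2} {s : ℝ}

/-- the deformation of the disc moving the centre `y` to `y + a` -/
noncomputable def phi (y a : E2) (s : ℝ) (x : E2) : E2 := x + max 0 (1 - ‖x - y‖ / s) • a

theorem abs_cut_sub_le (hs : 0 < s) (y x z : E2) :
    |max 0 (1 - ‖x - y‖ / s) - max 0 (1 - ‖z - y‖ / s)| ≤ ‖x - z‖ / s := by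
  calc |max 0 (1 - ‖x - y‖ / s) - max 0 (1 - ‖z - y‖ / s)|
      ≤ |(1 - ‖x - y‖ / s) - (1 - ‖z - y‖ / s)| := by
        rw [max_comm, max_comm (0 : ℝ)]
        exact abs_max_sub_max_le_abs _ _ _
    _ = |‖z - y‖ - ‖x - y‖| / s := by
        have e : (1 - ‖x - y‖ / s) - (1 - ‖z - y‖ / s) = (‖z - y‖ - ‖x - y‖) / s := by ring
        rw [e, abs_div, abs_of_pos hs]
    _ ≤ ‖x - z‖ / s := by
        have h2 := abs_norm_sub_norm_le (z - y) (x - y)
        rw [sub_sub_sub_cancel_right, norm_sub_rev z x] at h2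
        gcongr

theorem norm_cut_smul_le (hs : 0 < s) (ha : ‖a‖ ≤ s / 2) (y x z : E2) :
    ‖max 0 (1 - ‖x - y‖ / s) • a - max 0 (1 - ‖z - y‖ / s) • a‖ ≤ 1 / 2 * ‖x - z‖ := by
  rw [← sub_smul, norm_smul, Real.norm_eq_abs]
  calc |max 0 (1 - ‖x - y‖ / s) - max 0 (1 - ‖z - y‖ / s)| * ‖a‖ ≤ (‖x - z‖ / s) * (s / 2) := by
        gcongr
        exact abs_cut_sub_le hs y x z
    _ = 1 / 2 * ‖x - z‖ := by field_simp

theorem approx_phi (hs : 0 < s) (ha : ‖a‖ ≤ s / 2) (y : E2) :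
    ApproximatesLinearOn (phi y a s)
      ((ContinuousLinearEquiv.refl ℝ E2 : E2 ≃L[ℝ] E2) : E2 →L[ℝ] E2) univ ‖(1 / 2 : ℝ)‖₊ := by
  intro x _ z _
  have e : phi y a s x - phi y a s z -
      ((ContinuousLinearEquiv.refl ℝ E2 : E2 ≃L[ℝ] E2) : E2 →L[ℝ] E2) (x - z) =
      max 0 (1 - ‖x - y‖ / s) • a - max 0 (1 - ‖z - y‖ / s) • a := by
    simp only [phi, ContinuousLinearEquiv.coe_refl, ContinuousLinearMap.coe_id', id_eq]
    abel
  rw [e]
  have := norm_cut_smul_le hs ha y x z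
  simpa using this

/-- the deformation as a homeomorphism -/
noncomputable def phiH (hs : 0 < s) (ha : ‖a‖ ≤ s / 2) (y : E2) : E2 ≃ₜ E2 :=
  (approx_phi hs ha y).toHomeomorph _ (Inner.refl_cond (t := 1 / 2) (by norm_num))

theorem phiH_apply (hs : 0 < s) (ha : ‖a‖ ≤ s / 2) (y x : E2) :
    phiH hs ha y x = x + max 0 (1 - ‖x - y‖ / s) • a := rfl

theorem phiH_symm_lip (hs : 0 < s) (ha : ‖a‖ ≤ s / 2) (y : E2) :
    LipschitzWith 2 (phiH hs ha y).symm := by
  apply LipschitzWith.of_dist_le_mul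
  intro x' z'
  obtain ⟨x, rfl⟩ := (phiH hs ha y).surjective x'
  obtain ⟨z, rfl⟩ := (phiH hs ha y).surjective z'
  rw [Homeomorph.symm_apply_apply, Homeomorph.symm_apply_apply, dist_eq_norm, dist_eq_norm,
    phiH_apply, phiH_apply]
  have e : x + max 0 (1 - ‖x - y‖ / s) • a - (z + max 0 (1 - ‖z - y‖ / s) • a) =
    (x - z) + (max 0 (1 - ‖x - y‖ / s) • a - max 0 (1 - ‖z - y‖ / s) • a) := by abel
  rw [e]
  have h2 := norm_cut_smul_le hs ha y x z
  have h3 := norm_sub_le_norm_add (x - z)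
    (max 0 (1 - ‖x - y‖ / s) • a - max 0 (1 - ‖z - y‖ / s) • a)
  push_cast
  linarith

theorem phiH_of_le (hs : 0 < s) (ha : ‖a‖ ≤ s / 2) {x : E2} (hx : s ≤ dist x y) :
    phiH hs ha y x = x := by
  rw [phiH_apply, max_eq_left, zero_smul, add_zero]
  rw [dist_eq_norm] at hx
  have : 1 ≤ ‖x - y‖ / s := by rw [le_div_iff₀ hs]; linarith
  linarith

theorem phiH_of_dist_le (hs : 0 < s) (ha : ‖a‖ ≤ s / 2) {x : E2} (hx : dist x y ≤ s) :
    phiH hs ha y x = x + (1 - ‖x - y‖ / s) • a := by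
  rw [phiH_apply, max_eq_right]
  rw [dist_eq_norm] at hx
  have : ‖x - y‖ / s ≤ 1 := by rw [div_le_one hs]; exact hx
  linarith

theorem phiH_mem_ball (hs : 0 < s) (ha : ‖a‖ ≤ s / 2) {x : E2} (hx : dist x y < s) :
    dist (phiH hs ha y x) y < s := by
  rw [phiH_of_dist_le hs ha hx.le, dist_eq_norm]
  rw [dist_eq_norm] at hx
  have e : x + (1 - ‖x - y‖ / s) • a - y = (x - y) + (1 - ‖x - y‖ / s) • a := by abel
  rw [e]
  have h1 : 0 ≤ 1 - ‖x - y‖ / s := by
    have : ‖x - y‖ / s ≤ 1 := by rw [div_le_one hs]; exact hx.le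
    linarith
  calc ‖(x - y) + (1 - ‖x - y‖ / s) • a‖ ≤ ‖x - y‖ + (1 - ‖x - y‖ / s) * (s / 2) := by
        refine (norm_add_le _ _).trans ?_
        rw [norm_smul, Real.norm_eq_abs, abs_of_nonneg h1]
        gcongr
    _ = ‖x - y‖ + (s - ‖x - y‖) / 2 := by field_simp
    _ < s := by linarith

theorem phiH_mem_ball_iff (hs : 0 < s) (ha : ‖a‖ ≤ s / 2) (x : E2) :
    phiH hs ha y x ∈ ball y s ↔ x ∈ ball y s := by
  constructor
  · intro h
    by_contra hc
    rw [mem_ball, not_lt] at hc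
    rw [phiH_of_le hs ha hc, mem_ball] at h
    linarith
  · intro h
    exact phiH_mem_ball hs ha h

theorem phiH_symm_of_le (hs : 0 < s) (ha : ‖a‖ ≤ s / 2) {x : E2} (hx : s ≤ dist x y) :
    (phiH hs ha y).symm x = x := by
  rw [Homeomorph.symm_apply_eq]
  exact (phiH_of_le hs ha hx).symm

theorem phiH_symm_mem_ball (hs : 0 < s) (ha : ‖a‖ ≤ s / 2) {x : E2} (hx : dist x y < s) :
    dist ((phiH hs ha y).symm x) y < s := by
  rw [← mem_ball, ← phiH_mem_ball_iff hs ha, Homeomorph.apply_symm_apply]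
  exact hx

/-- derivative of the deformation -/
noncomputable def phiD (y a : E2) (s : ℝ) (x : E2) : E2 →L[ℝ] E2 :=
  ContinuousLinearMap.id ℝ E2 + ((-s⁻¹) • innerSL ℝ (Inner.nu y x)).smulRight a

theorem phiD_apply (y a : E2) (s : ℝ) (x v : E2) :
    phiD y a s x v = v + ((-s⁻¹) * inner ℝ (Inner.nu y x) v) • a := by
  simp [phiD]

theorem hasFDerivAt_phiH (hs : 0 < s) (ha : ‖a‖ ≤ s / 2) {x : E2} (hx : x ≠ y)
    (hxs : dist x y < s) : HasFDerivAt (phiH hs ha y) (phiD y a s x) x := by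
  have hev : (phiH hs ha y : E2 → E2) =ᶠ[𝓝 x] fun z => z + (1 - ‖z - y‖ / s) • a := by
    have h1 : ∀ᶠ z in 𝓝 x, dist z y < s :=
      (continuous_id.dist continuous_const).continuousAt.eventually
        (eventually_lt_nhds (by simpa using hxs))
    filter_upwards [h1] with z hz
    exact phiH_of_dist_le hs ha hz.le
  have h1 := Inner.hasFDerivAt_norm_sub hx
  have h2 : HasFDerivAt (fun z => 1 - ‖z - y‖ / s) ((-s⁻¹) • innerSL ℝ (Inner.nu y x)) x := by
    have := (h1.mul_const s⁻¹).const_sub 1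
    simp only [← div_eq_mul_inv] at this
    refine this.congr_fderiv ?_
    ext v
    simp
  have h3 := (hasFDerivAt_id x).add (h2.smul_const a)
  exact h3.congr_of_eventuallyEq hev

theorem det_phiD (y a : E2) (s : ℝ) (x : E2) :
    (phiD y a s x).det = 1 + (-s⁻¹) * inner ℝ (Inner.nu y x) a := by
  have e : ((phiD y a s x : E2 →L[ℝ] E2) : E2 →ₗ[ℝ] E2) =
      LinearMap.transvection (((-s⁻¹) • innerSL ℝ (Inner.nu y x) : E2 →L[ℝ] ℝ) : E2 →ₗ[ℝ] ℝ) a := by
    ext v
    simp [LinearMap.transvection.apply, phiD]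
  unfold ContinuousLinearMap.det
  rw [e, LinearMap.transvection.det]
  simp

theorem abs_inner_nu_le (y x v : E2) : |inner ℝ (Inner.nu y x) v| ≤ ‖v‖ := by
  have h1 := abs_real_inner_le_norm (Inner.nu y x) v
  have h2 := Inner.norm_nu_le y x
  nlinarith [norm_nonneg v]

theorem abs_det_phiD_le (hs : 0 < s) (ha : ‖a‖ ≤ s / 2) (y x : E2) :
    |(phiD y a s x).det| ≤ 3 / 2 := by
  rw [det_phiD]
  have h1 := abs_inner_nu_le y x a
  have h2 : |(-s⁻¹) * inner ℝ (Inner.nu y x) a| ≤ 1 / 2 := by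
    rw [abs_mul, abs_neg, abs_of_pos (inv_pos.2 hs)]
    calc s⁻¹ * |inner ℝ (Inner.nu y x) a| ≤ s⁻¹ * (s / 2) := by
          gcongr
          linarith
      _ = 1 / 2 := by field_simp
  have h3 := abs_add_le 1 ((-s⁻¹) * inner ℝ (Inner.nu y x) a)
  rw [abs_one] at h3
  linarith

theorem norm_le_phiD (hs : 0 < s) (ha : ‖a‖ ≤ s / 2) (y x v : E2) :
    ‖v‖ ≤ 2 * ‖phiD y a s x v‖ := by
  rw [phiD_apply]
  have h1 := abs_inner_nu_le y x v
  have h2 : ‖((-s⁻¹) * inner ℝ (Inner.nu y x) v) • a‖ ≤ 1 / 2 * ‖v‖ := by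
    rw [norm_smul, Real.norm_eq_abs, abs_mul, abs_neg, abs_of_pos (inv_pos.2 hs)]
    calc s⁻¹ * |inner ℝ (Inner.nu y x) v| * ‖a‖ ≤ s⁻¹ * ‖v‖ * (s / 2) := by gcongr
      _ = 1 / 2 * ‖v‖ := by field_simp
  have h3 := norm_sub_le_norm_add v (((-s⁻¹) * inner ℝ (Inner.nu y x) v) • a)
  linarith

/-- gradient of a composition with a bi-Lipschitz change of variables -/
theorem norm_gradient_le_of_comp {w g : E2 → ℝ} {Φ : E2 → E2} {A : E2 →L[ℝ] E2} {x : E2}
    (hΦ : HasFDerivAt Φ A x) (hA : ∀ v, ‖v‖ ≤ 2 * ‖A v‖) (heq : (w ∘ Φ) =ᶠ[𝓝 x] g) :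
    ‖∇ w (Φ x)‖ ≤ 2 * ‖∇ g x‖ := by
  by_cases hw : DifferentiableAt ℝ w (Φ x)
  · have h1 : HasFDerivAt (w ∘ Φ) ((fderiv ℝ w (Φ x)).comp A) x := hw.hasFDerivAt.comp x hΦ
    have h2 : fderiv ℝ g x = (fderiv ℝ w (Φ x)).comp A := by
      rw [← heq.fderiv_eq]; exact h1.fderiv
    have hinj : Function.Injective (A : E2 →ₗ[ℝ] E2) := by
      rw [← LinearMap.ker_eq_bot, LinearMap.ker_eq_bot']
      intro v hv
      have h3 := hA v
      have h4 : A v = 0 := hv
      rw [h4, norm_zero, mul_zero] at h3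
      exact norm_le_zero_iff.1 h3
    have hsurj : Function.Surjective (A : E2 →ₗ[ℝ] E2) := LinearMap.injective_iff_surjective.1 hinj
    have e1 : ‖∇ w (Φ x)‖ = ‖fderiv ℝ w (Φ x)‖ := by
      unfold gradient; exact LinearIsometryEquiv.norm_map _ _
    have e2 : ‖∇ g x‖ = ‖fderiv ℝ g x‖ := by
      unfold gradient; exact LinearIsometryEquiv.norm_map _ _
    rw [e1, e2]
    refine ContinuousLinearMap.opNorm_le_bound _ (by positivity) ?_
    intro v
    obtain ⟨v', hv'⟩ := hsurj v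
    have h3 : A v' = v := hv'
    have h4 : fderiv ℝ g x v' = fderiv ℝ w (Φ x) v := by
      rw [h2, ContinuousLinearMap.comp_apply, h3]
    rw [← h4]
    refine ((fderiv ℝ g x).le_opNorm v').trans ?_
    have h5 := hA v'
    rw [h3] at h5
    calc ‖fderiv ℝ g x‖ * ‖v'‖ ≤ ‖fderiv ℝ g x‖ * (2 * ‖v‖) := by gcongr
      _ = 2 * ‖fderiv ℝ g x‖ * ‖v‖ := by ring
  · have h1 : ∇ w (Φ x) = 0 := by
      unfold gradient; rw [fderiv_zero_of_not_differentiableAt hw]; simp
    rw [h1, norm_zero]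
    positivity

end StarC

end Crest.Agent.R135
end

-- ▼ part R135/StarComp4
section

/-!
# R135: star competitor (helper560), part 4: final statement
-/

set_option autoImplicit false

open MeasureTheory Set Filter Topology Metric
open scoped ENNReal NNReal ContDiff Gradient

namespace Crest.Agent.R135

namespace StarC

variable {U K : Set E2} {lam : ℝ} {u : E2 → ℝ} {y a : E2} {s : ℝ}

/-- the star over the crack points of the circle, centre `z` -/
def star (K : Set E2) (y : E2) (s : ℝ) (z : E2) : Set E2 := ⋃ p ∈ K ∩ sphere y s, segment ℝ z p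

/-- crack of the competitor -/
def starL (K : Set E2) (y : E2) (s : ℝ) (z : E2) : Set E2 := (K \ ball y s) ∪ star K y s z

open Classical in
/-- function of the competitor -/
noncomputable def starW (u : E2 → ℝ) (K : Set E2) (hs : 0 < s) (ha : ‖a‖ ≤ s / 2) (y : E2)
    (x : E2) : ℝ :=
  if dist x y < s then w0 u K y s ((phiH hs ha y).symm x) else u x

theorem isClosed_segment (p q : E2) : IsClosed (segment ℝ p q) := by
  rw [segment_eq_image_lineMap]
  exact (isCompact_Icc.image (by fun_prop)).isClosed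

theorem isClosed_star (hfin : (K ∩ sphere y s).Finite) (z : E2) : IsClosed (star K y s z) :=
  hfin.isClosed_biUnion fun _ _ => isClosed_segment _ _

theorem star_subset_closedBall {z : E2} (hz : z ∈ closedBall y s) :
    star K y s z ⊆ closedBall y s := by
  intro x hx
  simp only [star, mem_iUnion] at hx
  obtain ⟨p, hp, hx⟩ := hx
  exact (convex_closedBall y s).segment_subset hz (sphere_subset_closedBall hp.2) hx

/-- the radii over `K` are mapped into the star -/
theorem phiH_mem_star (hs : 0 < s) (ha : ‖a‖ ≤ s / 2) (hne : (K ∩ sphere y s).Nonempty) {x : E2}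
    (hx : dist x y ≤ s) (h : x = y ∨ radProj y s x ∈ K) : phiH hs ha y x ∈ star K y s (y + a) := by
  by_cases hxy : x = y
  · subst hxy
    obtain ⟨p, hp⟩ := hne
    simp only [star, mem_iUnion]
    refine ⟨p, hp, ?_⟩
    have : phiH hs ha x x = x + a := by
      rw [phiH_apply, sub_self, norm_zero, zero_div, sub_zero, max_eq_right zero_le_one, one_smul]
    rw [this]
    exact left_mem_segment _ _ _
  · have hK : radProj y s x ∈ K := by
      rcases h with h | h
      · exact absurd h hxy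
      · exact h
    simp only [star, mem_iUnion]
    refine ⟨radProj y s x, ⟨hK, radProj_mem_sphere hs.le hxy⟩, ?_⟩
    have hd : 0 < ‖x - y‖ := norm_pos_iff.2 (sub_ne_zero.2 hxy)
    rw [dist_eq_norm] at hx
    rw [phiH_of_dist_le hs ha (by rw [dist_eq_norm]; exact hx)]
    refine ⟨1 - ‖x - y‖ / s, ‖x - y‖ / s, ?_, by positivity, by ring, ?_⟩
    · have : ‖x - y‖ / s ≤ 1 := by rw [div_le_one hs]; exact hx
      linarith
    · rw [radProj]
      have e : (‖x - y‖ / s) • (s / ‖x - y‖) • (x - y) = x - y := by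
        rw [smul_smul]
        have : ‖x - y‖ / s * (s / ‖x - y‖) = 1 := by field_simp
        rw [this, one_smul]
      rw [smul_add (‖x - y‖ / s), e]
      module

theorem mem_starL_of_symm (hs : 0 < s) (ha : ‖a‖ ≤ s / 2) (hne : (K ∩ sphere y s).Nonempty)
    {x : E2} (hx : dist x y ≤ s) (hxL : x ∉ starL K y s (y + a)) :
    dist ((phiH hs ha y).symm x) y ≤ s ∧ (phiH hs ha y).symm x ≠ y ∧
      radProj y s ((phiH hs ha y).symm x) ∉ K := by
  have h1 : dist ((phiH hs ha y).symm x) y ≤ s := by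
    rcases hx.lt_or_eq with h | h
    · exact (phiH_symm_mem_ball hs ha h).le
    · rw [phiH_symm_of_le hs ha h.ge]; exact hx
  refine ⟨h1, fun h => hxL (Or.inr ?_), fun h => hxL (Or.inr ?_)⟩
  · have := phiH_mem_star hs ha hne h1 (Or.inl h)
    rwa [Homeomorph.apply_symm_apply] at this
  · have := phiH_mem_star hs ha hne h1 (Or.inr h)
    rwa [Homeomorph.apply_symm_apply] at this

theorem starW_of_le {hs : 0 < s} {ha : ‖a‖ ≤ s / 2} {x : E2} (hx : s ≤ dist x y) :
    starW u K hs ha y x = u x := by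
  rw [starW, if_neg (not_lt.2 hx)]

theorem starW_of_dist_le {hs : 0 < s} {ha : ‖a‖ ≤ s / 2} {x : E2} (hx : dist x y ≤ s) :
    starW u K hs ha y x = w0 u K y s ((phiH hs ha y).symm x) := by
  rcases hx.lt_or_eq with hlt | heq
  · rw [starW, if_pos hlt]
  · rw [starW_of_le heq.ge, phiH_symm_of_le hs ha heq.ge, w0_of_dist_eq hs heq]

theorem norm_add_sub_le (ha : ‖a‖ ≤ s / 2) (hs : 0 < s) : y + a ∈ closedBall y s := by
  rw [mem_closedBall, dist_eq_norm, add_sub_cancel_left]; linarith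

theorem closure_starL (hq : IsQM U lam u K)
    (hfin : (K ∩ sphere y s).Finite) (z : E2) :
    closure (starL K y s z) ∩ U ⊆ starL K y s z := by
  rintro x ⟨hx, hxU⟩
  rw [starL, closure_union] at hx
  rcases hx with hx | hx
  · left
    have h1 : closure (K \ ball y s) ⊆ closure K := closure_mono sdiff_subset
    have h2 : closure (K \ ball y s) ⊆ (ball y s)ᶜ :=
      closure_minimal (fun z hz => hz.2) isOpen_ball.isClosed_compl
    exact ⟨hq.closed ⟨h1 hx, hxU⟩, h2 hx⟩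
  · right
    rwa [(isClosed_star hfin z).closure_eq] at hx

theorem len_starL_le (hfin : (K ∩ sphere y s).Finite) {z : E2} :
    len (starL K y s z ∩ closedBall y s) ≤ ∑ p ∈ hfin.toFinset, ENNReal.ofReal (dist z p) := by
  have hsub : starL K y s z ∩ closedBall y s ⊆ (K ∩ sphere y s) ∪ star K y s z := by
    rintro x ⟨hx | hx, hxb⟩
    · left
      refine ⟨hx.1, le_antisymm hxb ?_⟩
      have := hx.2
      rwa [mem_ball, not_lt] at this
    · right; exact hx
  have hns : NullSingletonClass (Measure.hausdorffMeasure 1 : Measure E2) :=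
    Measure.nullSingletonClass_hausdorff E2 one_pos
  have h0 : len (K ∩ sphere y s) = 0 := hfin.measure_zero _
  have h1 : len (star K y s z) ≤ ∑ p ∈ hfin.toFinset, ENNReal.ofReal (dist z p) := by
    have hcov : star K y s z ⊆ ⋃ p ∈ hfin.toFinset, segment ℝ z p := by
      intro x hx
      simp only [star, mem_iUnion] at hx
      obtain ⟨p, hp, hx⟩ := hx
      simp only [mem_iUnion]
      exact ⟨p, hfin.mem_toFinset.2 hp, hx⟩
    calc len (star K y s z) ≤ len (⋃ p ∈ hfin.toFinset, segment ℝ z p) := measure_mono hcov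
      _ ≤ ∑ p ∈ hfin.toFinset, len (segment ℝ z p) := measure_biUnion_finset_le _ _
      _ = ∑ p ∈ hfin.toFinset, ENNReal.ofReal (dist z p) := by
          apply Finset.sum_congr rfl
          intro p _
          unfold len
          rw [hausdorffMeasure_segment, edist_dist]
  calc len (starL K y s z ∩ closedBall y s) ≤ len ((K ∩ sphere y s) ∪ star K y s z) :=
        measure_mono hsub
    _ ≤ len (K ∩ sphere y s) + len (star K y s z) := measure_union_le _ _
    _ ≤ _ := by rw [h0, zero_add]; exact h1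

/-- the star competitor is admissible -/
theorem isComp0_star (hq : IsQM U lam u K) (hs : 0 < s) (hball : closedBall y s ⊆ U)
    (hfin : (K ∩ sphere y s).Finite) (hne : (K ∩ sphere y s).Nonempty) (ha : ‖a‖ ≤ s / 2) :
    IsComp0 U u K y s (starW u K hs ha y) (starL K y s (y + a)) := by
  have hcl := closure_starL hq hfin (y + a)
  have hop : IsOpen (U \ starL K y s (y + a)) := by
    have : U \ starL K y s (y + a) = U \ closure (starL K y s (y + a)) := by
      ext x
      constructor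
      · rintro ⟨hx, hxL⟩
        exact ⟨hx, fun hc => hxL (hcl ⟨hc, hx⟩)⟩
      · rintro ⟨hx, hxL⟩
        exact ⟨hx, fun hc => hxL (subset_closure hc)⟩
    rw [this]
    exact hq.isOpen.sdiff isClosed_closure
  have hsph : ∀ x ∈ sphere y s \ K, x ∈ U \ K := fun x hx =>
    ⟨hball (sphere_subset_closedBall hx.1), hx.2⟩
  have hKo : ∀ x ∈ sphere y s \ K, ∀ᶠ z in 𝓝 x, z ∉ K := by
    intro x hx
    filter_upwards [hq.isOpen_diff.mem_nhds (hsph x hx)] with z hz using hz.2
  have hu : ∀ x ∈ sphere y s \ K, ContDiffAt ℝ 1 u x := fun x hx => hq.contDiffAt (hsph x hx)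
  refine ⟨?_, hcl, ?_, ?_, ?_, ?_⟩
  · rintro x (hx | hx)
    · exact hq.sub hx.1
    · exact hball (star_subset_closedBall (norm_add_sub_le ha hs) hx)
  · refine (len_starL_le hfin).trans_lt ?_
    exact ENNReal.sum_lt_top.2 fun _ _ => ENNReal.ofReal_lt_top
  · ext x
    constructor
    · rintro ⟨hx | hx, hxb⟩
      · exact ⟨hx.1, hxb⟩
      · exact absurd (star_subset_closedBall (norm_add_sub_le ha hs) hx) hxb
    · rintro ⟨hx, hxb⟩
      exact ⟨Or.inl ⟨hx, fun h => hxb (ball_subset_closedBall h)⟩, hxb⟩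
  · have hA1 : IsClosed {x : E2 | s ≤ dist x y} :=
      isClosed_le continuous_const (continuous_id.dist continuous_const)
    have hA2 : IsClosed {x : E2 | dist x y ≤ s} :=
      isClosed_le (continuous_id.dist continuous_const) continuous_const
    apply locallyLipschitzOn_of_closed_cover (u := u)
      (w := fun x => w0 u K y s ((phiH hs ha y).symm x)) hop hA1 hA2
    · intro x _
      rcases le_total s (dist x y) with hle | hle
      · exact Or.inl hle
      · exact Or.inr hle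
    · intro x hx
      exact starW_of_le hx.2
    · intro x hx
      exact starW_of_dist_le hx.2
    · intro x hx
      have hxK : x ∉ K := by
        intro hxK
        apply hx.1.2
        left
        refine ⟨hxK, ?_⟩
        rw [mem_ball, not_lt]
        exact hx.2
      obtain ⟨Kc, t, ht, hKt⟩ := (hq.contDiffAt ⟨hx.1.1, hxK⟩).exists_lipschitzOnWith
      exact ⟨Kc, t, ht, hKt.mono inter_subset_left⟩
    · intro x hx
      obtain ⟨h1, h2, h3⟩ := mem_starL_of_symm hs ha hne hx.2 hx.1.2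
      obtain ⟨Kc, t, ht, hKt⟩ := lipAt_w0 hs hKo hu h2 h3
      refine ⟨Kc * 2, (phiH hs ha y).symm ⁻¹' t,
        (phiH hs ha y).symm.continuous.continuousAt ht, ?_⟩
      exact (hKt.comp (phiH_symm_lip hs ha y).lipschitzOnWith (mapsTo_preimage _ _)).mono
        inter_subset_left
  · rintro x ⟨-, hx⟩
    have : s ≤ dist x y := by
      by_contra hc
      push Not at hc
      exact hx (Or.inr (ball_subset_closedBall hc))
    exact starW_of_le this

/-- Dirichlet energy of the star competitor -/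
theorem dirE_star_le (hq : IsQM U lam u K) (hs : 0 < s) (hball : closedBall y s ⊆ U)
    (hfin : (K ∩ sphere y s).Finite) (hne : (K ∩ sphere y s).Nonempty) (ha : ‖a‖ ≤ s / 2) :
    dirE (starW u K hs ha y) (starL K y s (y + a)) (closedBall y s) ≤
      ENNReal.ofReal (500 * s ^ 2) *
        ∫⁻ θ in Ioo (-Real.pi) Real.pi, ‖∇ u (cpt y s θ)‖ₑ ^ 2 := by
  set Φ := phiH hs ha y with hΦ
  set w := starW u K hs ha y with hw
  set I := ∫⁻ θ in Ioo (-Real.pi) Real.pi, ‖∇ u (cpt y s θ)‖ₑ ^ 2 with hI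
  have hKo : ∀ x ∈ sphere y s \ K, ∀ᶠ z in 𝓝 x, z ∉ K := by
    intro x hx
    filter_upwards [hq.isOpen_diff.mem_nhds
      (⟨hball (sphere_subset_closedBall hx.1), hx.2⟩ : x ∈ U \ K)] with z hz using hz.2
  -- the radii over `K`
  set R : Set E2 := star K y s y with hR
  have hRc : IsClosed R := isClosed_star hfin y
  have hRm : ∀ x, dist x y ≤ s → (x = y ∨ radProj y s x ∈ K) → x ∈ R := by
    intro x hx h
    have h0 : ‖(0 : E2)‖ ≤ s / 2 := by rw [norm_zero]; linarith
    have := phiH_mem_star hs h0 hne hx h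
    rwa [phiH_apply, smul_zero, add_zero, add_zero] at this
  have hRΦ : ∀ x ∈ R, Φ x ∈ star K y s (y + a) := by
    intro x hx
    simp only [hR, star, mem_iUnion] at hx
    obtain ⟨p, hp, hx⟩ := hx
    obtain ⟨c, d, hc, hd, hcd, rfl⟩ := hx
    simp only [star, mem_iUnion]
    refine ⟨p, hp, ?_⟩
    have hps : ‖p - y‖ = s := by rw [← dist_eq_norm]; exact hp.2
    have e1 : c • y + d • p - y = d • (p - y) := by
      have : c = 1 - d := by linarith
      rw [this]; module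
    have e2 : ‖c • y + d • p - y‖ = d * s := by
      rw [e1, norm_smul, Real.norm_eq_abs, abs_of_nonneg hd, hps]
    have hdle : d ≤ 1 := by linarith
    have e3 : Φ (c • y + d • p) = c • y + d • p + (1 - d) • a := by
      rw [hΦ, phiH_of_dist_le hs ha (by rw [dist_eq_norm, e2]; nlinarith), e2,
        mul_div_assoc, div_self hs.ne', mul_one]
    rw [e3]
    refine ⟨c, d, hc, hd, hcd, ?_⟩
    have : 1 - d = c := by linarith
    rw [this, smul_add]
    abel
  -- the domain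
  have hdom : closedBall y s \ starL K y s (y + a) ⊆ Φ '' (ball y s \ R) ∪ sphere y s := by
    rintro x ⟨hx, hxL⟩
    rcases (mem_closedBall.1 hx).lt_or_eq with hlt | heq
    · left
      refine ⟨Φ.symm x, ⟨phiH_symm_mem_ball hs ha hlt, fun hc => hxL (Or.inr ?_)⟩,
        Φ.apply_symm_apply x⟩
      have := hRΦ _ hc
      rwa [Homeomorph.apply_symm_apply] at this
    · right; exact heq
  have hsph0 : volume (sphere y s) = 0 := Measure.addHaar_sphere _ _ _
  have hmS : MeasurableSet (ball y s \ R) := measurableSet_ball.diff hRc.measurableSet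
  have hpt : ∀ x ∈ ball y s \ R, x ≠ y ∧ dist x y < s ∧ radProj y s x ∉ K := by
    rintro x ⟨hx, hxR⟩
    have hx' : dist x y < s := hx
    refine ⟨fun h => hxR (hRm x hx'.le (Or.inl h)), hx', fun h => hxR (hRm x hx'.le (Or.inr h))⟩
  have hgrad : ∀ x ∈ ball y s \ R, ‖∇ w (Φ x)‖ₑ ^ 2 ≤ 4 * ‖∇ (w0 u K y s) x‖ₑ ^ 2 := by
    intro x hx
    obtain ⟨h1, h2, h3⟩ := hpt x hx
    have heq : (w ∘ Φ) =ᶠ[𝓝 x] w0 u K y s := by
      have h4 : ∀ᶠ z in 𝓝 x, dist z y < s :=
        (continuous_id.dist continuous_const).continuousAt.eventually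
          (eventually_lt_nhds (by simpa using h2))
      filter_upwards [h4] with z hz
      have hz2 : dist (Φ z) y < s := phiH_mem_ball hs ha hz
      simp only [Function.comp_apply, hw, starW]
      rw [if_pos hz2, ← hΦ, Homeomorph.symm_apply_apply]
    have h5 := norm_gradient_le_of_comp (hasFDerivAt_phiH hs ha h1 h2) (norm_le_phiD hs ha y x) heq
    have h6 : ‖∇ w (Φ x)‖ₑ ≤ 2 * ‖∇ (w0 u K y s) x‖ₑ := by
      have e2 : ENNReal.ofReal (2 * ‖∇ (w0 u K y s) x‖) = 2 * ‖∇ (w0 u K y s) x‖ₑ := by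
        rw [ENNReal.ofReal_mul (by norm_num), ofReal_norm]
        simp
      rw [← e2, ← ofReal_norm]
      exact ENNReal.ofReal_le_ofReal h5
    calc ‖∇ w (Φ x)‖ₑ ^ 2 ≤ (2 * ‖∇ (w0 u K y s) x‖ₑ) ^ 2 := by gcongr
      _ = 4 * ‖∇ (w0 u K y s) x‖ₑ ^ 2 := by rw [mul_pow]; norm_num
  unfold dirE
  calc ∫⁻ x in closedBall y s \ starL K y s (y + a), ‖∇ w x‖ₑ ^ 2
      ≤ ∫⁻ x in Φ '' (ball y s \ R) ∪ sphere y s, ‖∇ w x‖ₑ ^ 2 := lintegral_mono_set hdom
    _ ≤ (∫⁻ x in Φ '' (ball y s \ R), ‖∇ w x‖ₑ ^ 2) + ∫⁻ x in sphere y s, ‖∇ w x‖ₑ ^ 2 :=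
        lintegral_union_le _ _ _
    _ = ∫⁻ x in Φ '' (ball y s \ R), ‖∇ w x‖ₑ ^ 2 := by
        rw [setLIntegral_measure_zero _ _ hsph0, add_zero]
    _ = ∫⁻ x in ball y s \ R, ENNReal.ofReal |(phiD y a s x).det| * ‖∇ w (Φ x)‖ₑ ^ 2 := by
        apply lintegral_image_eq_lintegral_abs_det_fderiv_mul volume hmS
          (f := Φ) (f' := phiD y a s) _ Φ.injective.injOn
        intro x hx
        obtain ⟨h1, h2, -⟩ := hpt x hx
        exact (hasFDerivAt_phiH hs ha h1 h2).hasFDerivWithinAt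
    _ ≤ ∫⁻ x in ball y s \ R, 6 * ‖∇ (w0 u K y s) x‖ₑ ^ 2 := by
        apply setLIntegral_mono_ae' hmS
        filter_upwards with x hx
        calc ENNReal.ofReal |(phiD y a s x).det| * ‖∇ w (Φ x)‖ₑ ^ 2
            ≤ ENNReal.ofReal (3 / 2) * (4 * ‖∇ (w0 u K y s) x‖ₑ ^ 2) := by
              gcongr
              · exact abs_det_phiD_le hs ha y x
              · exact hgrad x hx
          _ = 6 * ‖∇ (w0 u K y s) x‖ₑ ^ 2 := by
              rw [← mul_assoc]
              congr 1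
              have e4 : (4 : ℝ≥0∞) = ENNReal.ofReal 4 := by simp
              have e6 : (6 : ℝ≥0∞) = ENNReal.ofReal 6 := by simp
              rw [e4, e6, ← ENNReal.ofReal_mul (by norm_num)]
              norm_num
    _ ≤ ∫⁻ x in ball y s, 6 * ‖∇ (w0 u K y s) x‖ₑ ^ 2 := lintegral_mono_set sdiff_subset
    _ = 6 * ∫⁻ x in ball y s, ‖∇ (w0 u K y s) x‖ₑ ^ 2 := by
        rw [lintegral_const_mul' _ _ (by norm_num)]
    _ ≤ 6 * (ENNReal.ofReal (82 * s ^ 2) * I) := by
        gcongr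
        exact lintegral_w0_le hq hs hball hfin hne
    _ ≤ ENNReal.ofReal (500 * s ^ 2) * I := by
        have e6 : (6 : ℝ≥0∞) = ENNReal.ofReal 6 := by simp
        rw [← mul_assoc, e6, ← ENNReal.ofReal_mul (by norm_num)]
        have e7 : (6:ℝ) * (82 * s ^ 2) ≤ 500 * s ^ 2 := by nlinarith [sq_nonneg s]
        exact mul_le_mul_left (ENNReal.ofReal_le_ofReal e7) _

end StarC

/-- **Star competitor (S).** -/
theorem IsSQM.star_comp {U K : Set E2} {lam : ℝ} {u : E2 → ℝ} {y z : E2} {s : ℝ}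
    (h : IsSQM U lam u K) (hs : 0 < s) (hball : closedBall y s ⊆ U)
    (hfin : (K ∩ sphere y s).Finite) (hne : (K ∩ sphere y s).Nonempty) (hz : dist z y ≤ s / 2) :
    enE u K (closedBall y s) ≤ (∑ p ∈ hfin.toFinset, ENNReal.ofReal (dist z p)) +
      ENNReal.ofReal (500 * s ^ 2) *
        (∫⁻ θ in Ioo (-Real.pi) Real.pi, ‖∇ u (cpt y s θ)‖ₑ ^ 2) +
      ENNReal.ofReal (lam * s ^ 2) := by
  have ha : ‖z - y‖ ≤ s / 2 := by rw [← dist_eq_norm]; exact hz
  have hzy : y + (z - y) = z := by abel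
  have hcomp := StarC.isComp0_star h.toIsQM hs hball hfin hne ha
  refine (h.min0 y s hs hball _ _ hcomp).trans ?_
  gcongr
  unfold enE
  rw [add_comm]
  gcongr
  · have := StarC.len_starL_le (z := y + (z - y)) hfin
    rwa [hzy] at this ⊢
  · exact StarC.dirE_star_le h.toIsQM hs hball hfin hne ha

end Crest.Agent.R135
end

-- ▼ part R135/StarComp5
section

/-!
# R135: star competitor (helper560), part 5: the inequality with real numbers
-/

set_option autoImplicit false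

open MeasureTheory Set Filter Topology Metric
open scoped ENNReal NNReal ContDiff Gradient

namespace Crest.Agent.R135

theorem ofReal_circI_norm_sq {u : E2 → ℝ} {y : E2} {s : ℝ}
    (hint : IntegrableOn (fun θ => ‖gradient u (cpt y s θ)‖ ^ 2) (Ioo (-Real.pi) Real.pi)) :
    ∫⁻ θ in Ioo (-Real.pi) Real.pi, ‖gradient u (cpt y s θ)‖ₑ ^ 2 =
      ENNReal.ofReal (circI (fun z => ‖gradient u z‖ ^ 2) y s) := by
  have h1 : circI (fun z => ‖gradient u z‖ ^ 2) y s =
      ∫ θ in Ioo (-Real.pi) Real.pi, ‖gradient u (cpt y s θ)‖ ^ 2 := by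
    rw [circI, intervalIntegral.integral_of_le (by linarith [Real.pi_pos]),
      ← integral_Ioc_eq_integral_Ioo]
  rw [h1, ofReal_integral_eq_lintegral_ofReal hint
    (ae_of_all _ fun θ => by positivity)]
  apply lintegral_congr
  intro θ
  rw [← ofReal_norm, ENNReal.ofReal_pow (norm_nonneg _)]

/-- **Star competitor (S)**, real-valued version. -/
theorem IsSQM.star_comp_real {U K : Set E2} {lam : ℝ} {u : E2 → ℝ} {y z : E2} {s : ℝ}
    (h : IsSQM U lam u K) (hs : 0 < s) (hball : closedBall y s ⊆ U)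
    (hfin : (K ∩ sphere y s).Finite) (hne : (K ∩ sphere y s).Nonempty) (hz : dist z y ≤ s / 2)
    (hint : IntegrableOn (fun θ => ‖gradient u (cpt y s θ)‖ ^ 2) (Ioo (-Real.pi) Real.pi)) :
    Dr u K y s + Lr K y s ≤ (∑ p ∈ hfin.toFinset, dist z p) + 500 * s * cirE u y s +
      lam * s ^ 2 := by
  have h1 := h.star_comp hs hball hfin hne hz
  rw [ofReal_circI_norm_sq hint] at h1
  have hc0 : 0 ≤ circI (fun z => ‖gradient u z‖ ^ 2) y s := by
    rw [circI]
    exact intervalIntegral.integral_nonneg (by linarith [Real.pi_pos]) fun _ _ => by positivity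
  have hlam := h.toIsQM.lam_nonneg
  have hsum0 : 0 ≤ ∑ p ∈ hfin.toFinset, dist z p := Finset.sum_nonneg fun _ _ => dist_nonneg
  rw [← ENNReal.ofReal_sum_of_nonneg fun _ _ => dist_nonneg,
    ← ENNReal.ofReal_mul (by positivity), ← ENNReal.ofReal_add hsum0 (by positivity),
    ← ENNReal.ofReal_add (by positivity) (by positivity)] at h1
  have hD : dirE u K (ball y s) ≤ dirE u K (closedBall y s) := by
    unfold dirE
    exact lintegral_mono_set (sdiff_subset_sdiff_left ball_subset_closedBall)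
  have hDfin : dirE u K (closedBall y s) ≠ ⊤ := (h.toIsQM.dir_fin y s hball).ne
  have hLfin : len (K ∩ closedBall y s) ≠ ⊤ := (h.toIsQM.len_fin y s hball).ne
  have h2 : ENNReal.ofReal (Dr u K y s + Lr K y s) ≤ enE u K (closedBall y s) := by
    rw [Dr, Lr, ENNReal.ofReal_add ENNReal.toReal_nonneg ENNReal.toReal_nonneg,
      ENNReal.ofReal_toReal (ne_top_of_le_ne_top hDfin hD), ENNReal.ofReal_toReal hLfin]
    unfold enE
    gcongr
  have h3 := (ENNReal.ofReal_le_ofReal_iff (by positivity)).1 (h2.trans h1)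
  refine h3.trans (le_of_eq ?_)
  rw [cirE]; ring

end Crest.Agent.R135
end

-- ▼ part R135/StarComp6
section

/-!
# R135: star competitor (helper560), part 6: circles without crack points, final interface form
-/

set_option autoImplicit false

open MeasureTheory Set Filter Topology Metric
open scoped ENNReal NNReal ContDiff Gradient

namespace Crest.Agent.R135

/-- circle without crack points -/
theorem IsQM.enE_le_radial_empty {U K : Set E2} {lam : ℝ} {u : E2 → ℝ} (hq : IsQM U lam u K)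
    {y : E2} {ρ : ℝ} (hρ : 0 < ρ) (hball : closedBall y ρ ⊆ U) (hemp : K ∩ sphere y ρ = ∅) :
    enE u K (closedBall y ρ) ≤
      ENNReal.ofReal (500 * ρ ^ 2) *
        (∫⁻ θ in Ioo (-Real.pi) Real.pi, ‖∇ u (cpt y ρ θ)‖ₑ ^ 2) +
      ENNReal.ofReal (lam * ρ ^ 2) := by
  have hsub : (K ∩ sphere y ρ).Subsingleton := by rw [hemp]; exact subsingleton_empty
  set c : ℝ := u (cpt y ρ 0) with hc
  set h : ℝ := 1 / 2 with hhdef
  have hh : 0 < h := by norm_num
  have hh1 : h < 1 := by norm_num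
  set I := ∫⁻ θ in Ioo (-Real.pi) Real.pi, ‖∇ u (cpt y ρ θ)‖ₑ ^ 2 with hI
  have hfree : ∀ θ : ℝ, cpt y ρ θ ∉ K := by
    intro θ hθ
    have : cpt y ρ θ ∈ K ∩ sphere y ρ := ⟨hθ, cpt_mem_sphere hρ.le⟩
    rw [hemp] at this
    exact this
  have hseg0 : {x : E2 | (1 - h) * ρ ≤ dist x y ∧ dist x y ≤ ρ ∧ radProj y ρ x ∈ K} = ∅ := by
    rw [eq_empty_iff_forall_notMem]
    rintro x ⟨h1, h2, h3⟩
    have hxy : x ≠ y := by
      rintro rfl
      rw [dist_self] at h1
      have : 0 < (1 - h) * ρ := by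
        apply mul_pos _ hρ; linarith
      linarith
    have : radProj y ρ x ∈ K ∩ sphere y ρ := ⟨h3, radProj_mem_sphere hρ.le hxy⟩
    rw [hemp] at this
    exact this
  have hlenL : len (radL K y ρ h ∩ closedBall y ρ) = 0 := by
    have h1 : radL K y ρ h ∩ closedBall y ρ = ∅ := by
      rw [eq_empty_iff_forall_notMem]
      rintro x ⟨hx | hx, hxb⟩
      · have h2 := hx.2
        rw [mem_ball, not_lt] at h2
        have : x ∈ K ∩ sphere y ρ := ⟨hx.1, le_antisymm hxb h2⟩
        rw [hemp] at this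
        exact this
      · rw [hseg0] at hx; exact hx
    rw [h1]
    exact measure_empty
  have hLopen : IsOpen (U \ radL K y ρ h) := isOpen_diff_radL hq.isOpen hq.closed hρ hh1 hball
  have hcomp : IsComp U u K y ρ (radW u y ρ h c) (radL K y ρ h) := by
    refine ⟨?_, closure_radL_inter hq.closed hρ hh1 hball, ?_, ?_, ?_, ?_, keeps_radL hρ hball hsub⟩
    · rintro x (hx | hx)
      · exact hq.sub hx.1
      · exact hball (mem_closedBall.2 hx.2.1)
    · rw [hlenL]; simp
    · ext x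
      constructor
      · rintro ⟨hx | hx, hxb⟩
        · exact ⟨hx.1, hxb⟩
        · exact absurd (mem_closedBall.2 hx.2.1) hxb
      · rintro ⟨hx, hxb⟩
        exact ⟨Or.inl ⟨hx, fun hc => hxb (ball_subset_closedBall hc)⟩, hxb⟩
    · exact locallyLipschitzOn_radW hρ hh hh1 hball (fun x hx => hq.contDiffAt hx) hLopen
    · rintro z ⟨_, hz⟩
      apply radW_of_le
      by_contra hlt
      exact hz (Or.inr (mem_closedBall.2 (not_le.1 hlt).le))
  refine (hq.min y ρ hρ hball _ _ hcomp).trans ?_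
  gcongr
  unfold enE
  rw [hlenL, add_zero]
  unfold dirE
  refine (lintegral_mono_set sdiff_subset).trans ?_
  have hsph : (closedBall y ρ : Set E2) =ᵐ[volume] ball y ρ := by
    have h1 : volume (sphere y ρ) = 0 := Measure.addHaar_sphere volume y ρ
    rw [← ball_union_sphere]
    exact union_ae_eq_left_of_ae_eq_empty (ae_eq_empty.2 h1)
  rw [setLIntegral_congr hsph]
  refine (lintegral_radW_le hρ hh hh1 (ae_of_all _ fun θ =>
    hq.contDiffAt ⟨hball (sphere_subset_closedBall (cpt_mem_sphere hρ.le)), hfree θ⟩)).trans ?_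
  have hpi := Real.pi_pos
  have hosc : ∫⁻ θ in Ioo (-Real.pi) Real.pi, ‖u (cpt y ρ θ) - c‖ₑ ^ 2 ≤
      ENNReal.ofReal (4 * Real.pi ^ 2 * ρ ^ 2) * I := by
    calc ∫⁻ θ in Ioo (-Real.pi) Real.pi, ‖u (cpt y ρ θ) - c‖ₑ ^ 2
        ≤ ∫⁻ θ in Ioo (-Real.pi) Real.pi, ENNReal.ofReal (2 * Real.pi * ρ ^ 2) * I := by
          apply lintegral_mono_ae
          filter_upwards [ae_restrict_mem measurableSet_Ioo] with θ hθ
          exact StarC.osc_arc hq hρ hball (α := -Real.pi) (β := Real.pi) (by linarith)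
            (fun φ _ => hfree φ) hθ ⟨by linarith, by linarith⟩
      _ = ENNReal.ofReal (4 * Real.pi ^ 2 * ρ ^ 2) * I := by
          rw [lintegral_const, Measure.restrict_apply_univ, Real.volume_Ioo, mul_right_comm,
            ← ENNReal.ofReal_mul (by positivity)]
          congr 2; ring
  have hpi2 : Real.pi ^ 2 < 10 := by
    have h3 := Real.pi_lt_d2
    nlinarith
  calc ENNReal.ofReal (1 / h) * (∫⁻ θ in Ioo (-Real.pi) Real.pi, ‖u (cpt y ρ θ) - c‖ₑ ^ 2) +
        ENNReal.ofReal (h * ρ ^ 2 / (1 - h)) * I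
      ≤ ENNReal.ofReal (1 / h) * (ENNReal.ofReal (4 * Real.pi ^ 2 * ρ ^ 2) * I) +
        ENNReal.ofReal (h * ρ ^ 2 / (1 - h)) * I := by gcongr
    _ = ENNReal.ofReal (1 / h * (4 * Real.pi ^ 2 * ρ ^ 2) + h * ρ ^ 2 / (1 - h)) * I := by
        rw [← mul_assoc, ← ENNReal.ofReal_mul (by positivity), ← add_mul,
          ← ENNReal.ofReal_add (by positivity) (by
            rw [hhdef]; norm_num; positivity)]
    _ ≤ ENNReal.ofReal (500 * ρ ^ 2) * I := by
        have e : 1 / h * (4 * Real.pi ^ 2 * ρ ^ 2) + h * ρ ^ 2 / (1 - h) ≤ 500 * ρ ^ 2 := by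
          rw [hhdef]; norm_num; nlinarith [sq_nonneg ρ]
        exact mul_le_mul_left (ENNReal.ofReal_le_ofReal e) _

/-- cone competitor with free vertex, interface form -/
theorem cone_competitor_proof : ∃ C : ℝ, 0 < C ∧
    ∀ {U : Set E2} {lam : ℝ} {u : E2 → ℝ} {K : Set E2}, IsSQM U lam u K →
      ∀ (y : E2) (s : ℝ), 0 < s → closedBall y s ⊆ U →
        ∀ F : Finset E2, K ∩ sphere y s = F →
        IntegrableOn (fun θ => ‖gradient u (cpt y s θ)‖ ^ 2) (Ioo (-Real.pi) Real.pi) →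
        ∀ p₀ ∈ closedBall y (s / 2),
          Dr u K y s + Lr K y s ≤
            ∑ p ∈ F, dist p p₀ + C * (s * cirE u y s) + lam * s ^ 2 := by
  refine ⟨500, by norm_num, ?_⟩
  intro U lam u K h y s hs hball F hF hint p₀ hp₀
  rcases (K ∩ sphere y s).eq_empty_or_nonempty with hemp | hne
  · have hF0 : F = ∅ := by
      rw [hemp] at hF
      exact Finset.coe_eq_empty.1 hF.symm
    rw [hF0, Finset.sum_empty, zero_add]
    have h1 := h.toIsQM.enE_le_radial_empty hs hball hemp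
    rw [ofReal_circI_norm_sq hint] at h1
    have hc0 : 0 ≤ circI (fun z => ‖gradient u z‖ ^ 2) y s := by
      rw [circI]
      exact intervalIntegral.integral_nonneg (by linarith [Real.pi_pos]) fun _ _ => by positivity
    have hlam := h.toIsQM.lam_nonneg
    rw [← ENNReal.ofReal_mul (by positivity), ← ENNReal.ofReal_add (by positivity) (by positivity)]
      at h1
    have hD : dirE u K (ball y s) ≤ dirE u K (closedBall y s) := by
      unfold dirE
      exact lintegral_mono_set (sdiff_subset_sdiff_left ball_subset_closedBall)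
    have hDfin : dirE u K (closedBall y s) ≠ ⊤ := (h.toIsQM.dir_fin y s hball).ne
    have hLfin : len (K ∩ closedBall y s) ≠ ⊤ := (h.toIsQM.len_fin y s hball).ne
    have h2 : ENNReal.ofReal (Dr u K y s + Lr K y s) ≤ enE u K (closedBall y s) := by
      rw [Dr, Lr, ENNReal.ofReal_add ENNReal.toReal_nonneg ENNReal.toReal_nonneg,
        ENNReal.ofReal_toReal (ne_top_of_le_ne_top hDfin hD), ENNReal.ofReal_toReal hLfin]
      unfold enE
      gcongr
    have h3 := (ENNReal.ofReal_le_ofReal_iff (by positivity)).1 (h2.trans h1)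
    refine h3.trans (le_of_eq ?_)
    rw [cirE]; ring
  · have hfin : (K ∩ sphere y s).Finite := by rw [hF]; exact F.finite_toSet
    have h1 := h.star_comp_real hs hball hfin hne (z := p₀) (mem_closedBall.1 hp₀) hint
    have hFe : hfin.toFinset = F := by
      ext p
      rw [Finite.mem_toFinset, hF, Finset.mem_coe]
    rw [hFe] at h1
    have h2 : ∑ p ∈ F, dist p₀ p = ∑ p ∈ F, dist p p₀ :=
      Finset.sum_congr rfl fun p _ => dist_comm _ _
    rw [h2] at h1
    linarith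

end Crest.Agent.R135
end

-- ▼ part R135/IF_cone_competitor

/-! INTERFACE cone_competitor: proved in StarComp6.lean (helper560). -/

set_option autoImplicit false

open MeasureTheory Set Filter Topology Metric
open scoped ENNReal NNReal ContDiff Gradient
open Crest.AnalysisR.PDE.OnePhase Crest.AnalysisR.PDE.MumfordShah

namespace Crest.Agent.R135

/-- cone competitor with free vertex: `K ∩ ∂B_s(y)` finite, any `p₀ ∈ closedBall y (s/2)` -/
theorem cone_competitor : ∃ C : ℝ, 0 < C ∧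
    ∀ {U : Set E2} {lam : ℝ} {u : E2 → ℝ} {K : Set E2}, IsSQM U lam u K →
      ∀ (y : E2) (s : ℝ), 0 < s → closedBall y s ⊆ U →
        ∀ F : Finset E2, K ∩ sphere y s = F →
        IntegrableOn (fun θ => ‖gradient u (cpt y s θ)‖ ^ 2) (Ioo (-Real.pi) Real.pi) →
        ∀ p₀ ∈ closedBall y (s / 2),
          Dr u K y s + Lr K y s ≤
            ∑ p ∈ F, dist p p₀ + C * (s * cirE u y s) + lam * s ^ 2 :=
  cone_competitor_proof

end Crest.Agent.R135
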