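import Crest.Agent.R135.EarnAff
import Crest.Agent.R135.BonCone5
import Crest.Agent.R135.IFDefs2
import Crest.Agent.R135.TopConn

-- ▼ part R135/EarnTrans
section

/-!
# R135, Earnshaw block (helper391), part 8: averaging over translations, amplitude variation
-/

set_option autoImplicit false
open MeasureTheory Metric Set Filter Topology Laplacian InnerProductSpace
open scoped RealInnerProductSpace NNReal ENNReal ContDiff Gradient Convolution

namespace Crest.Agent.R135.Earn

open Crest.Agent.R097 (bv Harm laplacian_eq_sum gradient_coord inner_gradient norm_gradient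
  exists_cutoff green1)
open Crest.Agent.R135.Reg

/-- cut-off near `K1` -/
structure Cut (K1 : Set E2) (ρ : ℝ) (η : E2 → ℝ) : Prop where
  sm : ContDiff ℝ ∞ η
  cs : HasCompactSupport η
  supp : tsupport η ⊆ thickening (3 * ρ) K1
  one : ∀ x ∈ cthickening ρ K1, ∀ᶠ y in 𝓝 x, η y = 1

theorem exists_cut {K1 : Set E2} (h : IsCompact K1) {ρ : ℝ} (hρ : 0 < ρ) : ∃ η, Cut K1 ρ η := by
  obtain ⟨η, h1, h2, h3, -, h5⟩ := exists_cutoff (d := 2) (h.cthickening (r := ρ))
    (isOpen_thickening (δ := 3 * ρ) (E := K1))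
    ((cthickening_subset_thickening' (by linarith) (by linarith) K1))
  exact ⟨η, h1, h2, h3, h5⟩

variable {u : E2 → ℝ} {K K1 K2 : Set E2} {ρ : ℝ} {ζ ue p η : E2 → ℝ}

/-- the weight -/
noncomputable def bet (η p : E2 → ℝ) : E2 → ℝ := Δ (fun y => η y * p y)

theorem contDiff_lap {w : E2 → ℝ} (hw : ContDiff ℝ ∞ w) : ContDiff ℝ ∞ (Δ w) := by
  have : (Δ w) = fun x => fderiv ℝ (fun y => fderiv ℝ w y (bv 0)) x (bv 0) +
      fderiv ℝ (fun y => fderiv ℝ w y (bv 1)) x (bv 1) := by
    funext x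
    exact lap_two ((contDiff_infty.mp hw 2).contDiffAt)
  rw [this]
  exact (contDiff_fd (contDiff_fd hw _) _).add (contDiff_fd (contDiff_fd hw _) _)

theorem loc_const_off {η : E2 → ℝ} (hη : ContDiff ℝ ∞ η) {x : E2}
    (hx : x ∉ tsupport (fderiv ℝ η)) : ∀ᶠ y in 𝓝 x, η y = η x := by
  rw [notMem_tsupport_iff_eventuallyEq] at hx
  exact eventually_const_of_fderiv
    (Eventually.of_forall fun y => (hη.differentiable (by simp)).differentiableAt) hx

theorem bet_zero (D : Dat u K1 K2 ρ ζ ue p) (hc : Cut K1 ρ η) {x : E2}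
    (hx : x ∉ tsupport (fderiv ℝ η)) : bet η p x = 0 := by
  have h1 := loc_const_off hc.sm hx
  have h2 : (fun y => η y * p y) =ᶠ[𝓝 x] fun y => η x * p y := by
    filter_upwards [h1] with y hy
    rw [hy]
  unfold bet
  rw [Crest.Agent.R097.Hm.lap_congr_at h2,
    Crest.Agent.R097.Hm.lap_const_mul_at _ ((contDiff_infty.mp D.psm 2).contDiffAt)]
  by_cases hxs : x ∈ tsupport η
  · rw [D.pharm x (hc.supp hxs), mul_zero]
  · rw [image_eq_zero_of_notMem_tsupport hxs, zero_mul]

theorem contDiff_bet (D : Dat u K1 K2 ρ ζ ue p) (hc : Cut K1 ρ η) : ContDiff ℝ ∞ (bet η p) :=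
  contDiff_lap (hc.sm.mul D.psm)

theorem gradη_off {η : E2 → ℝ} {x : E2} (hx : x ∉ tsupport (fderiv ℝ η)) : ∇ η x = 0 := by
  unfold gradient
  rw [image_eq_zero_of_notMem_tsupport hx, map_zero]

/-- `Mg` as an integral against the weight. -/
theorem Mg_eq_bet (D : Dat u K1 K2 ρ ζ ue p) (hc : Cut K1 ρ η) {ζ₀ : E2 → ℝ} {S : Set E2}
    (hS : Sing ζ₀ S) (hSη : ∀ x ∈ S, ∀ᶠ y in 𝓝 x, η y = 1) :
    Mg η p ζ₀ = ∫ x, ζ₀ x * bet η p x := by
  set N := tsupport (fderiv ℝ η) with hN
  have hNc : IsCompact N := hc.cs.fderiv (𝕜 := ℝ)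
  have hNS : N ⊆ Sᶜ := by
    intro x hx hxS
    rw [hN] at hx
    refine (notMem_tsupport_iff_eventuallyEq.2 ?_) hx
    filter_upwards [(hSη x hxS).eventually_nhds] with y hy
    have : η =ᶠ[𝓝 y] fun _ => (1 : ℝ) := hy
    rw [this.fderiv_eq]; simp
  obtain ⟨g, hg, hgc, hgu⟩ := Crest.Agent.R097.Hm.exists_ext (m := (⊤ : ℕ∞))
    hS.cpt.isClosed.isOpen_compl hS.smooth hNc hNS
  have hgs : ContDiff ℝ ∞ g := hg
  have dsm : ∀ {f : E2 → ℝ}, ContDiff ℝ ∞ f → ∀ x, DifferentiableAt ℝ f x := fun hf x =>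
    (hf.differentiable (by simp)).differentiableAt
  have e1 : Mg η p ζ₀ = ∫ x, (g x * ⟪∇ η x, ∇ p x⟫_ℝ - p x * ⟪∇ η x, ∇ g x⟫_ℝ) := by
    unfold Mg
    refine integral_congr_ae (Eventually.of_forall fun x => ?_)
    simp only
    by_cases hx : x ∈ N
    · rw [(hgu x hx).eq_of_nhds, gradient_congr_of_eventuallyEq (hgu x hx)]
    · rw [gradη_off hx]; simp
  have e2 : ∫ x, ζ₀ x * bet η p x = ∫ x, g x * bet η p x := by
    refine integral_congr_ae (Eventually.of_forall fun x => ?_)
    simp only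
    by_cases hx : x ∈ N
    · rw [(hgu x hx).eq_of_nhds]
    · rw [bet_zero D hc hx, mul_zero, mul_zero]
  have hηp : ContDiff ℝ ∞ (fun y => η y * p y) := hc.sm.mul D.psm
  have hηg : ContDiff ℝ ∞ (fun y => η y * g y) := hc.sm.mul hgs
  have hηgc : HasCompactSupport (fun y => η y * g y) := hc.cs.mul_right
  have g1 := green_s hηp hgs hgc
  have g2 := green_s D.psm hηg hηgc
  have cη := (contDiff_grad hc.sm).continuous
  have cp := (contDiff_grad D.psm).continuous
  have cg := (contDiff_grad hgs).continuous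
  have i1 : Integrable (fun x => g x * ⟪∇ η x, ∇ p x⟫_ℝ) :=
    int_cc (hgs.continuous.mul (cη.inner cp)) hgc fun x hx => by
      rw [image_eq_zero_of_notMem_tsupport hx, zero_mul]
  have i2 : Integrable (fun x => p x * ⟪∇ η x, ∇ g x⟫_ℝ) :=
    int_cc (D.psm.continuous.mul (cη.inner cg)) hgc fun x hx => by
      rw [grad_notMem_tsupport hx, inner_zero_right, mul_zero]
  have i3 : Integrable (fun x => η x * ⟪∇ p x, ∇ g x⟫_ℝ) :=
    int_cc (hc.sm.continuous.mul (cp.inner cg)) hgc fun x hx => by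
      rw [grad_notMem_tsupport hx, inner_zero_right, mul_zero]
  have h1 : (∫ x, η x * ⟪∇ p x, ∇ g x⟫_ℝ) + ∫ x, p x * ⟪∇ η x, ∇ g x⟫_ℝ =
      - ∫ x, g x * bet η p x := by
    rw [← integral_add i3 i2]
    refine Eq.trans ?_ g1
    refine integral_congr_ae (Eventually.of_forall fun x => ?_)
    simp only
    rw [grad_mul (dsm hc.sm x) (dsm D.psm x), inner_add_left, inner_smul_left, inner_smul_left]
    simp
  have h2 : (∫ x, η x * ⟪∇ p x, ∇ g x⟫_ℝ) + ∫ x, g x * ⟪∇ η x, ∇ p x⟫_ℝ = 0 := by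
    rw [← integral_add i3 i1]
    have h3 : ∫ x, η x * g x * (Δ p) x = 0 := by
      rw [← integral_zero E2 ℝ]
      refine integral_congr_ae (Eventually.of_forall fun x => ?_)
      simp only
      by_cases hx : x ∈ tsupport η
      · rw [D.pharm x (hc.supp hx), mul_zero]
      · rw [image_eq_zero_of_notMem_tsupport hx]; simp
    rw [h3, neg_zero] at g2
    rw [← g2]
    refine integral_congr_ae (Eventually.of_forall fun x => ?_)
    simp only
    rw [grad_mul (dsm hc.sm x) (dsm hgs x), inner_add_right, inner_smul_right, inner_smul_right,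
      real_inner_comm (∇ p x) (∇ η x)]
  rw [e1, e2, integral_sub i1 i2]
  linarith

/-- amplitude variation: `Mg ζ = - ∫ |∇ζ|²` -/
theorem Mg_self (h : IsQM univ 0 u K) (D : Dat u K1 (K \ K1) ρ ζ ue p) (hsub : K1 ⊆ K)
    (hc : Cut K1 ρ η) : Mg η p ζ = - ∫ x, ‖∇ ζ x‖ ^ 2 := by
  have hη1 : ∀ x ∈ K1, ∀ᶠ y in 𝓝 x, η y = 1 := fun x hx =>
    hc.one x (self_subset_cthickening _ hx)
  have hlenK1 : len K1 < ⊤ := by
    obtain ⟨Rb, hRb⟩ := D.sing.cpt.isBounded.subset_closedBall 0
    exact lt_of_le_of_lt (measure_mono (subset_inter hsub hRb)) (h.len_fin 0 Rb (subset_univ _))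
  have key : ∀ s : ℝ, 0 ≤ (s ^ 2 - 1) * (∫ x, ‖∇ ζ x‖ ^ 2) + 2 * (s - 1) * Mg η p ζ := by
    intro s
    have hgs : ∀ x, ∇ (fun x => s * ζ x) x = s • ∇ ζ x := fun x => gradient_const_mul s ζ x
    have hSs : Sing (fun x => s * ζ x) K1 := by
      obtain ⟨C, R, hC, hR, hd⟩ := D.sing.decay
      refine ⟨D.sing.cpt, D.sing.null, contDiffOn_const.mul D.sing.smooth, ?_, ?_,
        ⟨|s| * C, R, by positivity, hR, fun x hx => ?_⟩⟩
      · simp only [hgs]
        exact D.sing.l2.const_smul s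
      · intro φ hφ hφc
        simp only [hgs, inner_smul_left]
        rw [integral_const_mul, D.sing.divfree φ hφ hφc, mul_zero]
      · obtain ⟨b1, b2⟩ := hd x hx
        constructor
        · rw [abs_mul, mul_div_assoc]; gcongr
        · rw [hgs, norm_smul, Real.norm_eq_abs, mul_div_assoc]; gcongr
    have hkeep : ∃ R0 : ℝ, ∀ R : ℝ, R0 ≤ R → Keeps univ K ((K \ K1) ∪ K1) (closedBall 0 R) := by
      refine ⟨0, fun R _ c hcc => ⟨c, ?_, fun y _ => rfl⟩⟩
      rw [sdiff_union_of_subset hsub]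
      exact hcc
    have h0 : ContDiffOn ℝ 1 (fun _ : E2 => (0 : ℝ)) K1ᶜ := contDiffOn_const
    have h1 : MemLp (fun x : E2 => ∇ (fun _ : E2 => (0 : ℝ)) x) 2 volume := by
      have : (fun x : E2 => ∇ (fun _ : E2 => (0 : ℝ)) x) = fun _ => 0 := by
        funext x; simp [gradient]
      rw [this]; exact MemLp.zero
    have m := master h D hsub hc.sm hc.cs hc.supp hη1 hSs hη1 hkeep hlenK1 h0
      (HasCompactSupport.intro isCompact_empty fun x _ => rfl) h1 0
    have e1 : ∫ x, ‖∇ (fun x => s * ζ x) x‖ ^ 2 = s ^ 2 * ∫ x, ‖∇ ζ x‖ ^ 2 := by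
      rw [← integral_const_mul]
      refine integral_congr_ae (Eventually.of_forall fun x => ?_)
      simp only
      rw [hgs, norm_smul, mul_pow, Real.norm_eq_abs, sq_abs]
    have e2 : Mg η p (fun x => s * ζ x) = s * Mg η p ζ := by
      unfold Mg
      rw [← integral_const_mul]
      refine integral_congr_ae (Eventually.of_forall fun x => ?_)
      simp only
      rw [hgs, inner_smul_right]; ring
    rw [e1, e2] at m
    linarith
  set S := ∫ x, ‖∇ ζ x‖ ^ 2 with hS
  have hS0 : 0 ≤ S := integral_nonneg fun x => by positivity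
  -- take `s = 1 + ε`, `s = 1 - ε`
  have k1 : ∀ ε : ℝ, 0 < ε → 0 ≤ (2 + ε) * S + 2 * Mg η p ζ := by
    intro ε hε
    have := key (1 + ε)
    have e : ((1 + ε) ^ 2 - 1) * S + 2 * (1 + ε - 1) * Mg η p ζ =
        ε * ((2 + ε) * S + 2 * Mg η p ζ) := by ring
    rw [e] at this
    exact nonneg_of_mul_nonneg_right this hε
  have k2 : ∀ ε : ℝ, 0 < ε → (2 - ε) * S + 2 * Mg η p ζ ≤ 0 := by
    intro ε hε
    have := key (1 - ε)
    have e : ((1 - ε) ^ 2 - 1) * S + 2 * (1 - ε - 1) * Mg η p ζ =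
        ε * -((2 - ε) * S + 2 * Mg η p ζ) := by ring
    rw [e] at this
    have := nonneg_of_mul_nonneg_right this hε
    linarith
  have l1 : 0 ≤ 2 * S + 2 * Mg η p ζ := by
    refine le_of_forall_pos_le_add fun δ hδ => ?_
    have := k1 (δ / (S + 1)) (by positivity)
    have h2 : δ / (S + 1) * S ≤ δ := by
      rw [div_mul_eq_mul_div, div_le_iff₀ (by positivity)]; nlinarith
    linarith
  have l2 : 2 * S + 2 * Mg η p ζ ≤ 0 := by
    refine le_of_forall_pos_le_add fun δ hδ => ?_
    have := k2 (δ / (S + 1)) (by positivity)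
    have h2 : δ / (S + 1) * S ≤ δ := by
      rw [div_mul_eq_mul_div, div_le_iff₀ (by positivity)]; nlinarith
    linarith
  linarith

end Crest.Agent.R135.Earn
end

-- ▼ part R135/EarnNeu
section

/-! # R135, Earnshaw block: difference of Neumann conditions under translations -/

set_option autoImplicit false
open MeasureTheory Metric Set Filter Topology Laplacian InnerProductSpace
open scoped RealInnerProductSpace NNReal ENNReal ContDiff Gradient Convolution

namespace Crest.Agent.R135.Earn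

open Crest.Agent.R097 (bv Harm laplacian_eq_sum gradient_coord inner_gradient norm_gradient
  exists_cutoff green1)
open Crest.Agent.R135.Reg

variable {u : E2 → ℝ} {K K1 K2 : Set E2} {ρ : ℝ} {ζ ue p η : E2 → ℝ}

theorem int_cont_l2 {V W : E2 → E2} (hV : Continuous V) (hW : MemLp W 2 volume) {C : Set E2}
    (hC : IsCompact C) (h0 : ∀ x, x ∉ C → W x = 0) : Integrable (fun x => ⟪V x, W x⟫_ℝ) := by
  haveI : IsFiniteMeasure (volume.restrict C) := ⟨by
    rw [Measure.restrict_apply_univ]; exact hC.measure_lt_top⟩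
  obtain ⟨M, hM⟩ := hC.exists_bound_of_continuousOn hV.continuousOn
  have h1 : MemLp V 2 (volume.restrict C) := by
    refine MemLp.of_bound hV.aestronglyMeasurable M ?_
    exact (ae_restrict_iff' hC.measurableSet).2 (Eventually.of_forall fun x hx => hM x hx)
  have h2 : IntegrableOn (fun x => ⟪V x, W x⟫_ℝ) C :=
    memLp_integrable_inner h1 (hW.restrict _)
  rw [← integrableOn_univ]
  refine h2.of_forall_sdiff_eq_zero MeasurableSet.univ fun x hx => ?_
  rw [h0 x hx.2, inner_zero_right]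

theorem lin_zero {a b : ℝ} (h : ∀ t : ℝ, 0 ≤ 2 * t * a + t ^ 2 * b) : a = 0 := by
  have hb : 0 ≤ b := by have h1 := h 1; have h2 := h (-1); nlinarith
  have h1 := h (a / (b + 1))
  have h2 := h (-(a / (b + 1)))
  have e1 : 2 * -(a / (b + 1)) * a + (-(a / (b + 1))) ^ 2 * b =
      - (a ^ 2 * (b + 2) / (b + 1) ^ 2) := by
    field_simp; ring
  rw [e1] at h2
  have h3 : 0 ≤ a ^ 2 * (b + 2) / (b + 1) ^ 2 := by positivity
  have h4 : a ^ 2 * (b + 2) / (b + 1) ^ 2 = 0 := le_antisymm (by linarith) h3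
  rw [div_eq_zero_iff] at h4
  rcases h4 with h4 | h4
  · rcases mul_eq_zero.1 h4 with h5 | h5
    · exact pow_eq_zero_iff (two_ne_zero) |>.1 h5
    · linarith
  · have := pow_eq_zero_iff (two_ne_zero) |>.1 h4
    linarith

/-- Neumann condition for the translated crack -/
theorem neumann_shift (h : IsQM univ 0 u K) (D : Dat u K1 (K \ K1) ρ ζ ue p) (hsub : K1 ⊆ K)
    (hc : Cut K1 ρ η) {a : E2} (ha : ‖a‖ < ρ)
    (htr : Mg η p (mv ζ (-a) 1) = Mg η p ζ)
    {φ : E2 → ℝ} (hφ : ContDiffOn ℝ 1 φ K1ᶜ) (hφc : HasCompactSupport φ)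
    (hφ2 : MemLp (fun x => ∇ φ x) 2 volume) :
    ∫ x, ⟪∇ ue (a + x) + ∇ ζ x, ∇ φ x⟫_ℝ = 0 := by
  have hrK : rescK K1 (-a) 1 ⊆ cthickening ρ K1 := by
    intro y hy
    have hy' : -a + (1 : ℝ) • y ∈ K1 := hy
    refine thickening_subset_cthickening _ _ (mem_thickening_iff.2 ⟨_, hy', ?_⟩)
    rw [dist_eq_norm]
    have e : y - (-a + (1 : ℝ) • y) = a := by rw [one_smul]; abel
    rw [e]; exact ha
  set ψ : E2 → ℝ := fun y => φ (-a + (1 : ℝ) • y) with hψ
  have hgψ : ∀ y, ∇ ψ y = ∇ φ (-a + (1 : ℝ) • y) := by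
    intro y
    rw [hψ, grad_comp_aff φ (-a) y 1, one_smul]
  have s1 : ContDiffOn ℝ 1 ψ (rescK K1 (-a) 1)ᶜ := by
    refine hφ.comp (by fun_prop) ?_
    intro y hy
    exact hy
  have s2 : HasCompactSupport ψ := by
    have : ψ = φ ∘ (scH (-a) 1 one_ne_zero) := rfl
    rw [this]
    exact hφc.comp_homeomorph _
  have s3 : MemLp (fun x => ∇ ψ x) 2 volume := by
    simp only [hgψ]
    exact memLp_aff hφ2 (-a) one_pos
  have key : ∫ x, ⟪∇ ue x + ∇ (mv ζ (-a) 1) x, ∇ ψ x⟫_ℝ = 0 := by
    refine lin_zero (b := ∫ x, ‖∇ ψ x‖ ^ 2) fun t => ?_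
    have m := master_aff h D hsub hc.sm hc.cs hc.supp hc.one (a := -a) (r := 1) one_pos hrK s1 s2
      s3 t
    rw [htr, one_pow, inv_one, sub_self, sub_self, zero_mul, zero_mul, mul_zero] at m
    linarith
  have e1 : ∫ x, ⟪∇ ue x + ∇ (mv ζ (-a) 1) x, ∇ ψ x⟫_ℝ =
      ∫ x, (fun y => ⟪∇ ue (a + y) + ∇ ζ y, ∇ φ y⟫_ℝ) (-a + (1 : ℝ) • x) := by
    refine integral_congr_ae (Eventually.of_forall fun x => ?_)
    simp only
    rw [hgψ, grad_mv ζ (-a) one_pos]
    have e : a + (-a + (1 : ℝ) • x) = x := by rw [one_smul]; abel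
    rw [e]
  rw [e1, integral_aff0 (fun y => ⟪∇ ue (a + y) + ∇ ζ y, ∇ φ y⟫_ℝ) (-a) one_pos] at key
  simpa using key

theorem memLp_of_dirE {φ : E2 → ℝ} {K : Set E2} (hK : volume K = 0) (hfin : dirE φ K univ < ⊤) :
    MemLp (fun x => ∇ φ x) 2 volume := by
  refine ⟨(measurable_gradient φ).aestronglyMeasurable, ?_⟩
  rw [eLpNorm_lt_top_iff_lintegral_rpow_enorm_lt_top (by norm_num) (by norm_num)]
  unfold dirE at hfin
  have h2 : ∫⁻ x, ‖∇ φ x‖ₑ ^ 2 = ∫⁻ x in univ \ K, ‖∇ φ x‖ₑ ^ 2 := by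
    conv_lhs => rw [← setLIntegral_univ]
    exact (setLIntegral_congr (sdiff_null_ae_eq_self hK)).symm
  rw [← h2] at hfin
  simpa using hfin

/-- **difference of Neumann conditions** -/
theorem neumann_diff (h : IsQM univ 0 u K) (D : Dat u K1 (K \ K1) ρ ζ ue p) (hsub : K1 ⊆ K)
    (hc : Cut K1 ρ η)
    (htr : ∀ a : E2, ‖a‖ < ρ → Mg η p (mv ζ (-a) 1) = Mg η p ζ)
    {x : E2} (hx : x ∈ K1) {a : E2} (ha : ‖a‖ < ρ) {φ : E2 → ℝ} (hφ : ContDiffOn ℝ 1 φ Kᶜ)
    (hs : ∃ C, IsCompact C ∧ C ⊆ ball x ρ ∧ ∀ y, y ∉ C → φ y = 0) (hfin : dirE φ K univ < ⊤) :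
    ∫ y in Kᶜ, ⟪∇ (fun y => p (a + y) - p y) y, ∇ φ y⟫_ℝ = 0 := by
  obtain ⟨C, hC, hCx, hC0⟩ := hs
  have hO := isOpen_compl_K h
  have hKnull : volume K = 0 := h.volume_K
  have hρ := D.ρpos
  have hdiff : ∀ y, y ∉ C → ∀ᶠ z in 𝓝 y, φ z = 0 := fun y hy => by
    filter_upwards [hC.isClosed.isOpen_compl.mem_nhds hy] with z hz using hC0 z hz
  have hφ1 : ContDiffOn ℝ 1 φ K1ᶜ := by
    intro y hy
    apply ContDiffAt.contDiffWithinAt
    by_cases hyC : y ∈ C
    · refine hφ.contDiffAt (hO.mem_nhds fun hyK => ?_)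
      refine D.sep (mem_thickening_iff.2 ⟨x, hx, ?_⟩) ⟨hyK, hy⟩
      have := mem_ball.1 (hCx hyC)
      linarith
    · refine (contDiffAt_const (c := (0 : ℝ))).congr_of_eventuallyEq (hdiff y hyC)
  have hφc : HasCompactSupport φ := HasCompactSupport.intro hC hC0
  have hφ2 := memLp_of_dirE hKnull hfin
  have hg0 : ∀ y, y ∉ C → ∇ φ y = 0 := fun y hy =>
    (grad_near_zero (c := 0) (hdiff y hy)).self_of_nhds
  have n1 := neumann_shift h D hsub hc ha (htr a ha) hφ1 hφc hφ2
  have h0 : ‖(0 : E2)‖ < ρ := by rw [norm_zero]; exact hρ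
  have n0 := neumann_shift h D hsub hc h0 (htr 0 h0) hφ1 hφc hφ2
  have hth : IsOpen (thickening (3 * ρ) K1) := isOpen_thickening
  have hue : ∀ y ∈ C, ∀ b : E2, ‖b‖ < ρ → ∇ ue (b + y) = ∇ p (b + y) := by
    intro y hy b hb
    refine gradient_congr_of_eventuallyEq ?_
    have hm : b + y ∈ thickening (3 * ρ) K1 := by
      refine mem_thickening_iff.2 ⟨x, hx, ?_⟩
      have h1 := mem_ball.1 (hCx hy)
      have h2 : dist (b + y) x ≤ ‖b‖ + dist y x := by
        rw [dist_eq_norm, dist_eq_norm]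
        have : b + y - x = b + (y - x) := by abel
        rw [this]; exact norm_add_le _ _
      linarith
    filter_upwards [hth.mem_nhds hm] with z hz using D.near z hz
  have cp : Continuous (fun y => ∇ p y) := (contDiff_grad D.psm).continuous
  have hζ : Integrable (fun y => ⟪∇ ζ y, ∇ φ y⟫_ℝ) := memLp_integrable_inner D.sing.l2 hφ2
  have hval : ∀ b : E2, ‖b‖ < ρ → ∫ y, ⟪∇ ue (b + y) + ∇ ζ y, ∇ φ y⟫_ℝ =
      (∫ y, ⟪∇ p (b + y), ∇ φ y⟫_ℝ) + ∫ y, ⟪∇ ζ y, ∇ φ y⟫_ℝ := by
    intro b hb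
    have hi : Integrable (fun y => ⟪∇ p (b + y), ∇ φ y⟫_ℝ) :=
      int_cont_l2 (cp.comp (continuous_const.add continuous_id)) hφ2 hC hg0
    rw [← integral_add hi hζ]
    refine integral_congr_ae (Eventually.of_forall fun y => ?_)
    simp only
    by_cases hy : y ∈ C
    · rw [hue y hy b hb, inner_add_left]
    · rw [hg0 y hy]; simp
  rw [hval a ha] at n1
  rw [hval 0 h0] at n0
  have hi1 : Integrable (fun y => ⟪∇ p (a + y), ∇ φ y⟫_ℝ) :=
    int_cont_l2 (cp.comp (continuous_const.add continuous_id)) hφ2 hC hg0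
  have hi0 : Integrable (fun y => ⟪∇ p (0 + y), ∇ φ y⟫_ℝ) :=
    int_cont_l2 (cp.comp (continuous_const.add continuous_id)) hφ2 hC hg0
  have e2 : ∫ y in Kᶜ, ⟪∇ (fun y => p (a + y) - p y) y, ∇ φ y⟫_ℝ =
      ∫ y, ⟪∇ (fun y => p (a + y) - p y) y, ∇ φ y⟫_ℝ := by
    refine setIntegral_eq_integral_of_ae_compl_eq_zero ?_
    filter_upwards [ae_notMem_K h] with y hy hy2
    exact absurd hy hy2
  have e3 : ∀ y, ∇ (fun y => p (a + y) - p y) y = ∇ p (a + y) - ∇ p (0 + y) := by
    intro y
    have d1 : DifferentiableAt ℝ p (a + y) := (D.psm.differentiable (by simp)).differentiableAt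
    have d2 : DifferentiableAt ℝ p y := (D.psm.differentiable (by simp)).differentiableAt
    have d3 : DifferentiableAt ℝ (fun y => p (a + y)) y := d1.comp y (by fun_prop)
    have h1 := grad_comp_aff p a y 1
    simp only [one_smul] at h1
    rw [grad_sub d3 d2, h1, zero_add]
  rw [e2]
  simp only [e3, inner_sub_left]
  rw [integral_sub hi1 hi0]
  linarith

end Crest.Agent.R135.Earn
end

-- ▼ part R135/EarnRem2
section

/-! # R135, Earnshaw block: removal lemma, analytic part -/

set_option autoImplicit false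
open MeasureTheory Metric Set Filter Topology Laplacian InnerProductSpace
open scoped RealInnerProductSpace NNReal ENNReal ContDiff Gradient Convolution

namespace Crest.Agent.R135.Earn

open Crest.Agent.R097 (bv Harm laplacian_eq_sum gradient_coord inner_gradient norm_gradient
  exists_cutoff green1)
open Crest.Agent.R135.Reg

/-- no jump test function supported in `ball x s` feels `K` -/
def NoJump (K : Set E2) (x : E2) (s : ℝ) : Prop :=
  ∀ φ : E2 → ℝ, ContDiffOn ℝ 1 φ Kᶜ → (∃ M, ∀ y, |φ y| ≤ M) →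
      (∃ C, IsCompact C ∧ C ⊆ ball x s ∧ ∀ y, y ∉ C → φ y = 0) → dirE φ K univ < ⊤ →
      ∀ e : E2, ∫ y in Kᶜ, inner ℝ e (gradient φ y) = 0

theorem fd_symm {η : E2 → ℝ} (hη : ContDiff ℝ ∞ η) (y v w : E2) :
    fderiv ℝ (fun y => fderiv ℝ η y v) y w = fderiv ℝ (fun y => fderiv ℝ η y w) y v := by
  have hs : IsSymmSndFDerivAt ℝ η y :=
    (contDiff_infty.mp hη 2).contDiffAt.isSymmSndFDerivAt (by simp)
  have hd : DifferentiableAt ℝ (fderiv ℝ η) y :=
    ((hη.fderiv_right (m := ∞) (by simp)).differentiable (by simp)).differentiableAt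
  have e : ∀ v : E2, ∀ w : E2, fderiv ℝ (fun y => fderiv ℝ η y v) y w =
      fderiv ℝ (fderiv ℝ η) y w v := by
    intro v w
    rw [fderiv_clm_apply hd (differentiableAt_const v)]
    simp
  rw [e, e]
  exact hs _ _

theorem tsupport_fd_subset (η : E2 → ℝ) (v : E2) :
    tsupport (fun y => fderiv ℝ η y v) ⊆ tsupport η := by
  refine (closure_mono ?_).trans (tsupport_fderiv_subset ℝ)
  intro y hy
  rw [Function.mem_support] at hy ⊢
  intro h; apply hy; rw [h]; rfl

/-- locally constant functions off `K` are constant on the ball -/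
theorem const_of_nojump {K : Set E2} (hK : IsClosed K) (hK0 : volume K = 0) {x : E2} {s : ℝ}
    (hs : 0 < s) (hd : NoJump K x s) {c : E2 → ℝ} (hc : LocConstOn (ball x s \ K) c) :
    ∃ k, ∀ y ∈ ball x s \ K, c y = k := by
  have hO : IsOpen (ball x s \ K) := isOpen_ball.sdiff hK
  have haeK : ∀ᵐ y : E2, y ∉ K := by rw [ae_iff]; simpa using hK0
  set a : E2 → ℝ := fun y => (ball x s \ K).indicator (fun y => Real.arctan (c y)) y with ha
  have hacont : ContinuousOn (fun y => Real.arctan (c y)) (ball x s \ K) := by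
    intro y hy
    apply ContinuousAt.continuousWithinAt
    have h1 : (fun z => Real.arctan (c z)) =ᶠ[𝓝 y] fun _ => Real.arctan (c y) := by
      filter_upwards [hc y hy] with z hz
      rw [hz]
    exact continuousAt_const.congr h1.symm
  have habd : ∀ y, |a y| ≤ Real.pi / 2 := by
    intro y
    rw [ha]
    simp only
    by_cases hy : y ∈ ball x s \ K
    · rw [indicator_of_mem hy]
      exact (abs_lt.2 ⟨Real.neg_pi_div_two_lt_arctan _, Real.arctan_lt_pi_div_two _⟩).le
    · rw [indicator_of_notMem hy, abs_zero]; positivity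
  have ham : AEStronglyMeasurable a volume := by
    rw [ha]
    refine (aestronglyMeasurable_indicator_iff hO.measurableSet).2 ?_
    exact hacont.aestronglyMeasurable hO.measurableSet
  -- first order equation
  have first : ∀ χ : E2 → ℝ, ContDiff ℝ ∞ χ → HasCompactSupport χ → tsupport χ ⊆ ball x s →
      ∀ e : E2, ∫ y, a y * fderiv ℝ χ y e = 0 := by
    intro χ hχ hχc hχs e
    obtain ⟨Cχ, hCχ⟩ := hχc.exists_bound_of_continuous hχ.continuous
    set φ : E2 → ℝ := fun y => χ y * a y with hφ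
    have hnear : ∀ y ∈ ball x s \ K, φ =ᶠ[𝓝 y] fun z => χ z * Real.arctan (c y) := by
      intro y hy
      filter_upwards [hc y hy, hO.mem_nhds hy] with z hz hz2
      rw [hφ, ha]; simp only
      rw [indicator_of_mem hz2, hz]
    have hoff : ∀ y, y ∉ tsupport χ → φ =ᶠ[𝓝 y] fun _ => 0 := by
      intro y hy
      rw [notMem_tsupport_iff_eventuallyEq] at hy
      filter_upwards [hy] with z hz
      rw [hφ]; simp only; rw [hz]; simp
    have hgr : ∀ y ∈ Kᶜ, ∇ φ y = a y • ∇ χ y := by
      intro y hy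
      by_cases hyB : y ∈ ball x s
      · rw [gradient_congr_of_eventuallyEq (hnear y ⟨hyB, hy⟩)]
        have h1 : (fun z => χ z * Real.arctan (c y)) = fun z => Real.arctan (c y) * χ z := by
          funext z; ring
        rw [h1, gradient_const_mul]
        congr 1
        rw [ha]; simp only
        rw [indicator_of_mem (show y ∈ ball x s \ K from ⟨hyB, hy⟩)]
      · have hy1 : y ∉ tsupport χ := fun h => hyB (hχs h)
        rw [gradient_congr_of_eventuallyEq (hoff y hy1), grad_notMem_tsupport hy1, smul_zero]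
        exact grad_eq_zero_of_near (c := 0) (Eventually.of_forall fun _ => rfl)
    have h1 := hd φ (by
        intro y hy
        apply ContDiffAt.contDiffWithinAt
        by_cases hyB : y ∈ ball x s
        · exact ((((contDiff_infty.mp hχ 1).contDiffAt).mul contDiffAt_const)).congr_of_eventuallyEq
            (hnear y ⟨hyB, hy⟩)
        · have hy1 : y ∉ tsupport χ := fun h => hyB (hχs h)
          exact (contDiffAt_const (c := (0 : ℝ))).congr_of_eventuallyEq (hoff y hy1))
      ⟨Cχ * (Real.pi / 2), fun y => by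
        rw [hφ]; simp only
        rw [abs_mul]
        exact mul_le_mul (by simpa using hCχ y) (habd y) (abs_nonneg _)
          ((norm_nonneg _).trans (hCχ y))⟩
      ⟨tsupport χ, hχc, hχs, fun y hy => by
        rw [hφ]; simp only
        rw [image_eq_zero_of_notMem_tsupport hy, zero_mul]⟩
      (by
        have h2 := (isTest_of_smooth hχ hχc K).dir_fin
        unfold dirE at h2 ⊢
        refine lt_of_le_of_lt (setLIntegral_mono' (MeasurableSet.univ.diff hK.measurableSet)
          (g := fun y => ENNReal.ofReal ((Real.pi / 2) ^ 2) * ‖∇ χ y‖ₑ ^ 2) fun y hy => ?_) ?_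
        · rw [hgr y hy.2, enorm_smul, mul_pow, ENNReal.ofReal_pow (by positivity)]
          gcongr
          rw [← ofReal_norm_eq_enorm]
          exact ENNReal.ofReal_le_ofReal (by simpa using habd y)
        · rw [lintegral_const_mul' _ _ ENNReal.ofReal_ne_top]
          exact ENNReal.mul_lt_top ENNReal.ofReal_lt_top h2)
      e
    rw [← h1]
    symm
    have h2 : ∫ y in Kᶜ, inner ℝ e (gradient φ y) = ∫ y in Kᶜ, a y * fderiv ℝ χ y e := by
      refine setIntegral_congr_fun hK.isOpen_compl.measurableSet fun y hy => ?_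
      show inner ℝ e (gradient φ y) = a y * fderiv ℝ χ y e
      rw [hgr y hy, inner_smul_right, real_inner_comm, inner_gradient]
    rw [h2]
    refine setIntegral_eq_integral_of_ae_compl_eq_zero ?_
    filter_upwards [haeK] with y hy hy2
    exact absurd hy hy2
  -- integrability against smooth compactly supported functions
  have hint : ∀ χ : E2 → ℝ, ContDiff ℝ ∞ χ → HasCompactSupport χ → Integrable (fun y => a y * χ y) :=
    fun χ hχ hχc => (hχ.continuous.integrable_of_hasCompactSupport hχc).bdd_mul ham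
      (Eventually.of_forall fun y => by simpa using habd y)
  -- Weyl
  have hloc : LocallyIntegrableOn a (ball x s) := by
    have h1 : LocallyIntegrable a volume := by
      refine (locallyIntegrable_const (Real.pi / 2)).mono ham (Eventually.of_forall fun y => ?_)
      rw [Real.norm_eq_abs, Real.norm_eq_abs]
      exact (habd y).trans (le_abs_self _)
    exact h1.locallyIntegrableOn _
  obtain ⟨g, hg, -, hae, -⟩ := Crest.Agent.R097.Hm.weyl' (f := a) isOpen_ball hloc (by
    intro φ hφ hφc hφs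
    have e1 : ∀ y, a y * (Δ φ) y =
        a y * fderiv ℝ (fun y => fderiv ℝ φ y (bv 0)) y (bv 0) +
        a y * fderiv ℝ (fun y => fderiv ℝ φ y (bv 1)) y (bv 1) := by
      intro y
      rw [lap_two ((contDiff_infty.mp hφ 2).contDiffAt)]; ring
    simp only [e1]
    rw [integral_add (hint _ (contDiff_fd (contDiff_fd hφ _) _)
        (hasCompactSupport_fd (hasCompactSupport_fd hφc _) _))
      (hint _ (contDiff_fd (contDiff_fd hφ _) _)
        (hasCompactSupport_fd (hasCompactSupport_fd hφc _) _)),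
      first _ (contDiff_fd hφ _) (hasCompactSupport_fd hφc _)
        ((tsupport_fd_subset φ _).trans hφs) _,
      first _ (contDiff_fd hφ _) (hasCompactSupport_fd hφc _)
        ((tsupport_fd_subset φ _).trans hφs) _, add_zero])
  -- `a = g` off `K`
  have hsub : ball x s \ K ⊆ ball x s := sdiff_subset
  have heq : EqOn a g (ball x s \ K) := by
    refine Measure.eqOn_open_of_ae_eq (μ := (volume : Measure E2)) ?_ hO ?_
      (hg.continuousOn.mono hsub)
    · exact ae_mono (Measure.restrict_mono hsub le_rfl) hae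
    · refine hacont.congr fun y hy => ?_
      rw [ha]; simp only; rw [indicator_of_mem hy]
  have hfd0 : ∀ y ∈ ball x s \ K, fderiv ℝ g y = 0 := by
    intro y hy
    have h1 : g =ᶠ[𝓝 y] fun _ => Real.arctan (c y) := by
      filter_upwards [hc y hy, hO.mem_nhds hy] with z hz hz2
      rw [← heq hz2, ha]; simp only
      rw [indicator_of_mem hz2, hz]
    rw [h1.fderiv_eq]; simp
  have hfd1 : EqOn (fderiv ℝ g) (fun _ => 0) (ball x s) := by
    refine Measure.eqOn_open_of_ae_eq (μ := (volume : Measure E2)) ?_ isOpen_ball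
      (hg.continuousOn_fderiv_of_isOpen isOpen_ball (by simp)) continuousOn_const
    rw [EventuallyEq, ae_restrict_iff' measurableSet_ball]
    filter_upwards [haeK] with y hy hyB
    exact hfd0 y ⟨hyB, hy⟩
  refine ⟨Real.tan (g x), fun y hy => ?_⟩
  have h1 : g y = g x := by
    refine (convex_ball x s).is_const_of_fderivWithin_eq_zero (𝕜 := ℝ)
      (hg.differentiableOn (by simp)) (fun z hz => ?_) hy.1 (mem_ball_self hs)
    rw [fderivWithin_of_isOpen isOpen_ball hz]; exact hfd1 hz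
  rw [← h1, ← heq hy, ha]
  simp only
  rw [indicator_of_mem hy, Real.tan_arctan]

/-! ### the gradient of `u` is curl-free across `K` -/

section Curl
variable {u : E2 → ℝ} {K : Set E2}

theorem hasFDerivAt_trunc {u : E2 → ℝ} {y : E2} (hd : DifferentiableAt ℝ u y) {M : ℝ}
    (hM : 0 < M) : HasFDerivAt (fun y => M * Real.arctan (u y / M))
      ((1 + (u y / M) ^ 2)⁻¹ • fderiv ℝ u y) y := by
  have h1 : HasFDerivAt (fun y => u y / M) (M⁻¹ • fderiv ℝ u y) y := by
    have := hd.hasFDerivAt.const_mul M⁻¹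
    refine this.congr_of_eventuallyEq (Eventually.of_forall fun z => ?_)
    simp only; rw [div_eq_inv_mul]
  have h2 := ((Real.hasDerivAt_arctan (u y / M)).comp_hasFDerivAt y h1).const_mul M
  refine h2.congr_fderiv ?_
  rw [smul_smul, smul_smul]
  congr 1
  rw [one_div]
  field_simp

/-- first order equation for the truncations -/
theorem trunc_eq (h : IsQM univ 0 u K) {x : E2} {s : ℝ} (hd : NoJump K x s) {M : ℝ} (hM : 0 < M)
    {χ : E2 → ℝ} (hχ : ContDiff ℝ ∞ χ) (hχc : HasCompactSupport χ) (hχs : tsupport χ ⊆ ball x s)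
    (e : E2) : ∫ y in Kᶜ, (χ y * ((1 + (u y / M) ^ 2)⁻¹ * fderiv ℝ u y e) +
      M * Real.arctan (u y / M) * fderiv ℝ χ y e) = 0 := by
  have hO := isOpen_compl_K h
  have hK : IsClosed K := isClosed_K h
  have hu := harm_u h
  obtain ⟨Cχ, hCχ⟩ := hχc.exists_bound_of_continuous hχ.continuous
  have hCχ0 : 0 ≤ Cχ := (norm_nonneg _).trans (hCχ 0)
  have hgc := hasCompactSupport_grad hχc
  obtain ⟨Dχ, hDχ⟩ := hgc.exists_bound_of_continuous (contDiff_grad hχ).continuous
  have hDχ0 : 0 ≤ Dχ := (norm_nonneg _).trans (hDχ 0)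
  obtain ⟨R, hR⟩ := hχc.isBounded.subset_closedBall (0 : E2)
  have hbd : ∀ y, |M * Real.arctan (u y / M)| ≤ M * (Real.pi / 2) := by
    intro y
    rw [abs_mul, abs_of_pos hM]
    gcongr
    exact (abs_lt.2 ⟨Real.neg_pi_div_two_lt_arctan _, Real.arctan_lt_pi_div_two _⟩).le
  set φ : E2 → ℝ := fun y => χ y * (M * Real.arctan (u y / M)) with hφ
  have hud : ∀ y ∈ Kᶜ, DifferentiableAt ℝ u y := fun y hy =>
    (hu.1.contDiffAt (hO.mem_nhds hy)).differentiableAt (by simp)
  have hfd : ∀ y ∈ Kᶜ, fderiv ℝ φ y = χ y • ((1 + (u y / M) ^ 2)⁻¹ • fderiv ℝ u y) +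
      (M * Real.arctan (u y / M)) • fderiv ℝ χ y := by
    intro y hy
    have h1 := hasFDerivAt_trunc (hud y hy) hM
    have h2 : HasFDerivAt χ (fderiv ℝ χ y) y :=
      (hχ.differentiable (by simp)).differentiableAt.hasFDerivAt
    exact (h2.mul h1).fderiv
  have hA : ∀ y, |(1 + (u y / M) ^ 2)⁻¹| ≤ 1 := by
    intro y
    rw [abs_of_pos (by positivity)]
    exact inv_le_one_of_one_le₀ (by nlinarith [sq_nonneg (u y / M)])
  have h1 := hd φ (by
      intro y hy
      apply ContDiffAt.contDiffWithinAt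
      have h2 : ContDiffAt ℝ 1 u y := (hu.1.contDiffAt (hO.mem_nhds hy)).of_le (by simp)
      exact ((contDiff_infty.mp hχ 1).contDiffAt).mul (contDiffAt_const.mul
        ((Real.contDiff_arctan.contDiffAt).comp y (h2.div_const M))))
    ⟨Cχ * (M * (Real.pi / 2)), fun y => by
      rw [hφ]; simp only
      rw [abs_mul]
      exact mul_le_mul (by simpa using hCχ y) (hbd y) (abs_nonneg _) hCχ0⟩
    ⟨tsupport χ, hχc, hχs, fun y hy => by
      rw [hφ]; simp only
      rw [image_eq_zero_of_notMem_tsupport hy, zero_mul]⟩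
    (by
      set C : ℝ := Cχ + Dχ * (M * (Real.pi / 2)) with hC
      have hC0 : 0 ≤ C := by positivity
      have hdf := h.dir_fin 0 R (subset_univ _)
      unfold dirE at hdf ⊢
      have hle : ∀ y ∈ univ \ K, ‖∇ φ y‖ₑ ^ 2 ≤ (closedBall (0 : E2) R).indicator
          (fun y => ENNReal.ofReal (2 * C ^ 2) * (‖∇ u y‖ₑ ^ 2 + 1)) y := by
        intro y hy
        by_cases hyR : y ∈ closedBall (0 : E2) R
        · rw [indicator_of_mem hyR]
          have hn : ‖∇ φ y‖ ≤ C * (‖∇ u y‖ + 1) := by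
            rw [norm_gradient, norm_gradient, hfd y hy.2]
            refine (norm_add_le _ _).trans ?_
            rw [norm_smul, norm_smul, norm_smul, Real.norm_eq_abs (1 + (u y / M) ^ 2)⁻¹,
              Real.norm_eq_abs (M * _)]
            have a1 : ‖χ y‖ * (|(1 + (u y / M) ^ 2)⁻¹| * ‖fderiv ℝ u y‖) ≤
                Cχ * (1 * ‖fderiv ℝ u y‖) := by
              gcongr
              · exact hCχ y
              · exact hA y
            have a2 : |M * Real.arctan (u y / M)| * ‖fderiv ℝ χ y‖ ≤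
                (M * (Real.pi / 2)) * Dχ := by
              gcongr
              · exact hbd y
              · rw [← norm_gradient]; exact hDχ y
            have a3 : 0 ≤ ‖fderiv ℝ u y‖ := norm_nonneg _
            have a4 : 0 ≤ Dχ * (M * (Real.pi / 2)) := by positivity
            nlinarith
          have hn2 : ‖∇ φ y‖ ^ 2 ≤ 2 * C ^ 2 * (‖∇ u y‖ ^ 2 + 1) := by
            have b1 : ‖∇ φ y‖ ^ 2 ≤ (C * (‖∇ u y‖ + 1)) ^ 2 :=
              pow_le_pow_left₀ (norm_nonneg _) hn 2
            have b2 : (‖∇ u y‖ + 1) ^ 2 ≤ 2 * (‖∇ u y‖ ^ 2 + 1) := by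
              nlinarith [sq_nonneg (‖∇ u y‖ - 1)]
            calc ‖∇ φ y‖ ^ 2 ≤ C ^ 2 * (‖∇ u y‖ + 1) ^ 2 := by rw [← mul_pow]; exact b1
              _ ≤ C ^ 2 * (2 * (‖∇ u y‖ ^ 2 + 1)) := by gcongr
              _ = _ := by ring
          have e1 : ‖∇ φ y‖ₑ ^ 2 = ENNReal.ofReal (‖∇ φ y‖ ^ 2) := by
            rw [← ofReal_norm_eq_enorm, ENNReal.ofReal_pow (norm_nonneg _)]
          have e2 : ‖∇ u y‖ₑ ^ 2 + 1 = ENNReal.ofReal (‖∇ u y‖ ^ 2 + 1) := by
            rw [← ofReal_norm_eq_enorm, ← ENNReal.ofReal_pow (norm_nonneg _),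
              ENNReal.ofReal_add (by positivity) zero_le_one, ENNReal.ofReal_one]
          rw [e1, e2, ← ENNReal.ofReal_mul (by positivity)]
          exact ENNReal.ofReal_le_ofReal hn2
        · rw [indicator_of_notMem hyR]
          have hyt : y ∉ tsupport χ := fun h => hyR (hR h)
          have h2 : ∀ᶠ z in 𝓝 y, φ z = 0 := by
            rw [notMem_tsupport_iff_eventuallyEq] at hyt
            filter_upwards [hyt] with z hz
            rw [hφ]; simp only; rw [hz]; simp
          rw [grad_eq_zero_of_near h2]; simp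
      refine lt_of_le_of_lt (setLIntegral_mono' (MeasurableSet.univ.diff hK.measurableSet) hle) ?_
      rw [lintegral_indicator measurableSet_closedBall, Measure.restrict_restrict
        measurableSet_closedBall]
      have hset : closedBall (0 : E2) R ∩ (univ \ K) = closedBall (0 : E2) R \ K := by
        ext z; simp
      rw [hset, lintegral_const_mul' _ _ ENNReal.ofReal_ne_top]
      refine ENNReal.mul_lt_top ENNReal.ofReal_lt_top ?_
      rw [lintegral_add_right _ measurable_const]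
      refine ENNReal.add_lt_top.2 ⟨hdf, ?_⟩
      rw [lintegral_const, one_mul, Measure.restrict_apply_univ]
      exact lt_of_le_of_lt (measure_mono sdiff_subset) measure_closedBall_lt_top)
    e
  rw [← h1]
  refine setIntegral_congr_fun hO.measurableSet fun y hy => ?_
  show _ = inner ℝ e (gradient φ y)
  rw [real_inner_comm, inner_gradient, hfd y hy]
  simp [smul_eq_mul]

/-- the gradient is curl-free across `K` -/
theorem curl_eq (h : IsQM univ 0 u K) {x : E2} {s : ℝ} (hd : NoJump K x s)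
    {η : E2 → ℝ} (hη : ContDiff ℝ ∞ η) (hηc : HasCompactSupport η) (hηs : tsupport η ⊆ ball x s) :
    ∫ y, (fderiv ℝ u y (bv 1) * fderiv ℝ η y (bv 0) - fderiv ℝ u y (bv 0) * fderiv ℝ η y (bv 1))
      = 0 := by
  have hO := isOpen_compl_K h
  have hu := harm_u h
  have haeK := ae_notMem_K h
  set A : ℝ → E2 → ℝ := fun M y => (1 + (u y / M) ^ 2)⁻¹ with hA
  have hAb : ∀ M y, ‖A M y‖ ≤ 1 := by
    intro M y
    rw [hA]; simp only
    rw [Real.norm_eq_abs, abs_of_pos (by positivity)]
    exact inv_le_one_of_one_le₀ (by nlinarith [sq_nonneg (u y / M)])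
  have hAm : ∀ M, AEStronglyMeasurable (A M) (volume.restrict Kᶜ) := by
    intro M
    refine ContinuousOn.aestronglyMeasurable ?_ hO.measurableSet
    refine ContinuousOn.inv₀ ?_ fun y _ => by positivity
    exact continuousOn_const.add ((hu.1.continuousOn.div_const M).pow 2)
  have hvm : ∀ M, AEStronglyMeasurable (fun y => M * Real.arctan (u y / M))
      (volume.restrict Kᶜ) := by
    intro M
    refine ContinuousOn.aestronglyMeasurable ?_ hO.measurableSet
    exact continuousOn_const.mul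
      (Real.continuous_arctan.comp_continuousOn (hu.1.continuousOn.div_const M))
  have hI : ∀ (χ : E2 → ℝ) (e : E2), ContDiff ℝ ∞ χ → HasCompactSupport χ →
      Integrable (fun y => fderiv ℝ u y e * χ y) := by
    intro χ e hχ hχc
    have h1 := integrable_inner_loc (memLp_grad_u h) (hχ.continuous.smul (continuous_const (y := e)))
      (hχc.smul_right)
    refine h1.congr (Eventually.of_forall fun y => ?_)
    show ⟪∇ u y, χ y • e⟫_ℝ = fderiv ℝ u y e * χ y
    rw [inner_smul_right, inner_gradient, mul_comm]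
  set η0 : E2 → ℝ := fun y => fderiv ℝ η y (bv 0) with hη0
  set η1 : E2 → ℝ := fun y => fderiv ℝ η y (bv 1) with hη1
  have s0 : ContDiff ℝ ∞ η0 := contDiff_fd hη _
  have s1 : ContDiff ℝ ∞ η1 := contDiff_fd hη _
  have c0 : HasCompactSupport η0 := hasCompactSupport_fd hηc _
  have c1 : HasCompactSupport η1 := hasCompactSupport_fd hηc _
  set F : E2 → ℝ := fun y => fderiv ℝ u y (bv 1) * η0 y - fderiv ℝ u y (bv 0) * η1 y with hF
  have hFi : IntegrableOn F Kᶜ := ((hI η0 _ s0 c0).sub (hI η1 _ s1 c1)).integrableOn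
  have key : ∀ M : ℝ, 0 < M → ∫ y in Kᶜ, A M y * F y = 0 := by
    intro M hM
    have t1 := trunc_eq h hd hM s0 c0 ((tsupport_fd_subset η _).trans hηs) (bv 1)
    have t2 := trunc_eq h hd hM s1 c1 ((tsupport_fd_subset η _).trans hηs) (bv 0)
    have hint : ∀ (χ : E2 → ℝ) (e : E2), ContDiff ℝ ∞ χ → HasCompactSupport χ →
        IntegrableOn (fun y => χ y * ((1 + (u y / M) ^ 2)⁻¹ * fderiv ℝ u y e) +
          M * Real.arctan (u y / M) * fderiv ℝ χ y e) Kᶜ := by
      intro χ e hχ hχc
      have i1 : IntegrableOn (fun y => A M y * (fderiv ℝ u y e * χ y)) Kᶜ :=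
        (hI χ e hχ hχc).integrableOn.bdd_mul (hAm M) (Eventually.of_forall (hAb M))
      have i2 : IntegrableOn (fun y => M * Real.arctan (u y / M) * fderiv ℝ χ y e) Kᶜ := by
        have h3 : IntegrableOn (fun y => fderiv ℝ χ y e) Kᶜ :=
          ((contDiff_fd hχ e).continuous.integrable_of_hasCompactSupport
            (hasCompactSupport_fd hχc e)).integrableOn
        refine h3.bdd_mul (c := |M| * (Real.pi / 2)) (hvm M) (Eventually.of_forall fun y => ?_)
        rw [norm_mul, Real.norm_eq_abs, Real.norm_eq_abs]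
        gcongr
        exact (abs_lt.2 ⟨Real.neg_pi_div_two_lt_arctan _, Real.arctan_lt_pi_div_two _⟩).le
      refine (i1.add i2).congr (Eventually.of_forall fun y => ?_)
      simp only [hA, Pi.add_apply]
      ring
    have t3 := integral_sub (hint η0 (bv 1) s0 c0) (hint η1 (bv 0) s1 c1)
    rw [t1, t2, sub_zero] at t3
    rw [← t3]
    refine integral_congr_ae (Eventually.of_forall fun y => ?_)
    simp only [hA, hF]
    have hsy : fderiv ℝ η0 y (bv 1) = fderiv ℝ η1 y (bv 0) := fd_symm hη y _ _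
    rw [hsy]
    ring
  have hlim : Tendsto (fun n : ℕ => ∫ y in Kᶜ, A ((n : ℝ) + 1) y * F y) atTop
      (𝓝 (∫ y in Kᶜ, F y)) := by
    refine tendsto_integral_of_dominated_convergence (fun y => ‖F y‖) (fun n => ?_) hFi.norm
      (fun n => Eventually.of_forall fun y => ?_) (Eventually.of_forall fun y => ?_)
    · exact (hAm _).mul hFi.1
    · rw [norm_mul]
      exact mul_le_of_le_one_left (norm_nonneg _) (hAb _ _)
    · have h1 : Tendsto (fun n : ℕ => u y / ((n : ℝ) + 1)) atTop (𝓝 0) :=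
        tendsto_const_nhds.div_atTop (tendsto_natCast_atTop_atTop.atTop_add tendsto_const_nhds)
      have h2 : Tendsto (fun n : ℕ => A ((n : ℝ) + 1) y) atTop (𝓝 1) := by
        have h3 := ((tendsto_const_nhds (x := (1 : ℝ))).add (h1.pow 2)).inv₀ (by norm_num)
        simpa [hA] using h3
      simpa using h2.mul_const (F y)
  have hz : (fun n : ℕ => ∫ y in Kᶜ, A ((n : ℝ) + 1) y * F y) = fun _ => 0 := by
    funext n; exact key _ (by positivity)
  rw [hz] at hlim
  have h0 : ∫ y in Kᶜ, F y = 0 := (tendsto_nhds_unique hlim tendsto_const_nhds)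
  rw [← h0]
  symm
  refine setIntegral_eq_integral_of_ae_compl_eq_zero ?_
  filter_upwards [haeK] with y hy hy2
  exact absurd hy hy2

/-- `∇u` extends smoothly across `K`, and `u` agrees with a `C¹` function off `K` -/
theorem exists_ext_u (h : IsQM univ 0 u K) {x : E2} {s : ℝ} (hs : 0 < s) (hd : NoJump K x s) :
    ∃ w : E2 → ℝ, ContDiffOn ℝ 1 w (ball x s) ∧ ∀ y ∈ ball x s \ K, u y = w y := by
  have hO := isOpen_compl_K h
  have hK := isClosed_K h
  have hu := harm_u h
  have haeK := ae_notMem_K h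
  have hOB : IsOpen (ball x s \ K) := isOpen_ball.sdiff hK
  have hsub : ball x s \ K ⊆ ball x s := sdiff_subset
  have hsub' : ball x s \ K ⊆ Kᶜ := fun y hy => hy.2
  have hI : ∀ (χ : E2 → ℝ) (e : E2), ContDiff ℝ ∞ χ → HasCompactSupport χ →
      Integrable (fun y => fderiv ℝ u y e * χ y) := by
    intro χ e hχ hχc
    have h1 := integrable_inner_loc (memLp_grad_u h) (hχ.continuous.smul (continuous_const (y := e)))
      (hχc.smul_right)
    refine h1.congr (Eventually.of_forall fun y => ?_)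
    show ⟪∇ u y, χ y • e⟫_ℝ = fderiv ℝ u y e * χ y
    rw [inner_smul_right, inner_gradient, mul_comm]
  -- divergence equation in coordinates
  have hdiv : ∀ η : E2 → ℝ, ContDiff ℝ ∞ η → HasCompactSupport η →
      ∫ y, (fderiv ℝ u y (bv 0) * fderiv ℝ η y (bv 0) +
        fderiv ℝ u y (bv 1) * fderiv ℝ η y (bv 1)) = 0 := by
    intro η hη hηc
    rw [← el_smooth h hη hηc]
    refine integral_congr_ae (Eventually.of_forall fun y => ?_)
    simp only
    rw [PiLp.inner_apply]
    simp only [Fin.sum_univ_two, gradient_coord]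
    simp [mul_comm]
  have hloc : ∀ e : E2, LocallyIntegrableOn (fun y => fderiv ℝ u y e) (ball x s) := by
    intro e
    have h1 : LocallyIntegrable (fun y => fderiv ℝ u y e) volume := by
      rw [locallyIntegrable_iff]
      intro C hC
      obtain ⟨R, hR⟩ := hC.isBounded.subset_closedBall (0 : E2)
      haveI : IsFiniteMeasure (volume.restrict (closedBall (0 : E2) R)) := ⟨by
        rw [Measure.restrict_apply_univ]; exact measure_closedBall_lt_top⟩
      have h2 : MemLp (fun _ : E2 => e) 2 (volume.restrict (closedBall (0 : E2) R)) :=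
        memLp_const e
      have h3 := memLp_integrable_inner (memLp_grad_u h R) h2
      simp only [inner_gradient] at h3
      exact IntegrableOn.mono_set h3 hR
    exact h1.locallyIntegrableOn _
  -- weak harmonicity
  obtain ⟨G0, hG0, -, hae0, -⟩ := Crest.Agent.R097.Hm.weyl' isOpen_ball (hloc (bv 0)) (by
    intro φ hφ hφc hφs
    have e1 := hdiv _ (contDiff_fd hφ (bv 0)) (hasCompactSupport_fd hφc _)
    have e2 := curl_eq h hd (contDiff_fd hφ (bv 1)) (hasCompactSupport_fd hφc _)
      ((tsupport_fd_subset φ _).trans hφs)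
    have i1 : ∀ i j k : Fin 2, Integrable (fun y => fderiv ℝ u y (bv i) *
        fderiv ℝ (fun y => fderiv ℝ φ y (bv j)) y (bv k)) := fun i j k =>
      hI _ _ (contDiff_fd (contDiff_fd hφ _) _) (hasCompactSupport_fd (hasCompactSupport_fd hφc _) _)
    have e3 := integral_sub ((i1 0 0 0).add (i1 1 0 1)) ((i1 1 1 0).sub (i1 0 1 1))
    simp only [Pi.add_apply, Pi.sub_apply] at e3
    rw [e1, e2, sub_zero] at e3
    rw [← e3]
    refine integral_congr_ae (Eventually.of_forall fun y => ?_)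
    simp only
    rw [lap_two ((contDiff_infty.mp hφ 2).contDiffAt), fd_symm hφ y (bv 0) (bv 1)]
    ring)
  obtain ⟨G1, hG1, -, hae1, -⟩ := Crest.Agent.R097.Hm.weyl' isOpen_ball (hloc (bv 1)) (by
    intro φ hφ hφc hφs
    have e1 := hdiv _ (contDiff_fd hφ (bv 1)) (hasCompactSupport_fd hφc _)
    have e2 := curl_eq h hd (contDiff_fd hφ (bv 0)) (hasCompactSupport_fd hφc _)
      ((tsupport_fd_subset φ _).trans hφs)
    have i1 : ∀ i j k : Fin 2, Integrable (fun y => fderiv ℝ u y (bv i) *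
        fderiv ℝ (fun y => fderiv ℝ φ y (bv j)) y (bv k)) := fun i j k =>
      hI _ _ (contDiff_fd (contDiff_fd hφ _) _) (hasCompactSupport_fd (hasCompactSupport_fd hφc _) _)
    have e3 := integral_add ((i1 0 1 0).add (i1 1 1 1)) ((i1 1 0 0).sub (i1 0 0 1))
    simp only [Pi.add_apply, Pi.sub_apply] at e3
    rw [e1, e2, add_zero] at e3
    rw [← e3]
    refine integral_congr_ae (Eventually.of_forall fun y => ?_)
    simp only
    rw [lap_two ((contDiff_infty.mp hφ 2).contDiffAt), fd_symm hφ y (bv 0) (bv 1)]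
    ring)
  -- pointwise equality off `K`
  have hfdc : ∀ e : E2, ContinuousOn (fun y => fderiv ℝ u y e) (ball x s \ K) := fun e =>
    ((hu.1.continuousOn_fderiv_of_isOpen hO (by simp)).clm_apply continuousOn_const).mono hsub'
  have heq0 : EqOn (fun y => fderiv ℝ u y (bv 0)) G0 (ball x s \ K) :=
    Measure.eqOn_open_of_ae_eq (μ := (volume : Measure E2))
      (ae_mono (Measure.restrict_mono hsub le_rfl) hae0) hOB (hfdc _) (hG0.continuousOn.mono hsub)
  have heq1 : EqOn (fun y => fderiv ℝ u y (bv 1)) G1 (ball x s \ K) :=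
    Measure.eqOn_open_of_ae_eq (μ := (volume : Measure E2))
      (ae_mono (Measure.restrict_mono hsub le_rfl) hae1) hOB (hfdc _) (hG1.continuousOn.mono hsub)
  -- the closed form
  set W : E2 → (E2 →L[ℝ] ℝ) := fun y => G0 y • innerSL ℝ (bv 0) + G1 y • innerSL ℝ (bv 1) with hW
  have hb : ∀ i j : Fin 2, (innerSL ℝ (bv i : E2)) (bv j) = if i = j then 1 else 0 := by
    intro i j
    rw [innerSL_apply_apply, Crest.Agent.R097.inner_bv']
    by_cases hij : i = j
    · subst hij; simp [bv]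
    · simp [bv, hij]
  have hWs : ContDiffOn ℝ ∞ W (ball x s) :=
    (hG0.smul contDiffOn_const).add (hG1.smul contDiffOn_const)
  have hWeq : ∀ y ∈ ball x s \ K, W y = fderiv ℝ u y := by
    intro y hy
    have a0 : fderiv ℝ u y (bv 0) = G0 y := heq0 hy
    have a1 : fderiv ℝ u y (bv 1) = G1 y := heq1 hy
    refine clm_ext2 ?_ ?_
    · rw [a0, hW]
      simp only [ContinuousLinearMap.add_apply, ContinuousLinearMap.smul_apply, hb]
      simp
    · rw [a1, hW]
      simp only [ContinuousLinearMap.add_apply, ContinuousLinearMap.smul_apply, hb]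
      simp
  have hWd : ContinuousOn (fderiv ℝ W) (ball x s) :=
    hWs.continuousOn_fderiv_of_isOpen isOpen_ball (by simp)
  have hsym : ∀ a ∈ ball x s, ∀ v w : E2, fderiv ℝ W a v w = fderiv ℝ W a w v := by
    intro a ha v w
    have h1 : EqOn (fun a => fderiv ℝ W a v w) (fun a => fderiv ℝ W a w v) (ball x s) := by
      refine Measure.eqOn_open_of_ae_eq (μ := (volume : Measure E2)) ?_ isOpen_ball
        ((hWd.clm_apply continuousOn_const).clm_apply continuousOn_const)
        ((hWd.clm_apply continuousOn_const).clm_apply continuousOn_const)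
      rw [EventuallyEq, ae_restrict_iff' measurableSet_ball]
      filter_upwards [haeK] with y hy hyB
      have h2 : W =ᶠ[𝓝 y] fderiv ℝ u := by
        filter_upwards [hOB.mem_nhds ⟨hyB, hy⟩] with z hz using hWeq z hz
      rw [h2.fderiv_eq]
      have h3 : ContDiffAt ℝ 2 u y :=
        (contDiffOn_infty.mp hu.1 2).contDiffAt (hO.mem_nhds hy)
      exact h3.isSymmSndFDerivAt (by simp) v w
    exact h1 ha
  obtain ⟨w, hw⟩ := (convex_ball x s).exists_forall_hasFDerivAt_of_fderiv_symmetric isOpen_ball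
    (hWs.differentiableOn (by simp)) hsym
  have hwc : ContDiffOn ℝ 1 w (ball x s) := by
    have h1 : ContDiffOn ℝ (0 + 1) w (ball x s) := by
      rw [contDiffOn_succ_iff_fderiv_of_isOpen isOpen_ball]
      refine ⟨fun y hy => (hw y hy).differentiableAt.differentiableWithinAt, by simp, ?_⟩
      rw [contDiffOn_zero]
      exact hWs.continuousOn.congr fun y hy => (hw y hy).fderiv
    simpa using h1
  -- `u - w` is locally constant off `K`
  have hlc : LocConstOn (ball x s \ K) (fun y => u y - w y) := by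
    intro y hy
    refine eventually_const_of_fderiv ?_ ?_
    · filter_upwards [hOB.mem_nhds hy] with z hz
      exact ((hu.1.contDiffAt (hO.mem_nhds hz.2)).differentiableAt (by simp)).sub
        (hw z hz.1).differentiableAt
    · filter_upwards [hOB.mem_nhds hy] with z hz
      rw [fderiv_fun_sub ((hu.1.contDiffAt (hO.mem_nhds hz.2)).differentiableAt (by simp))
        (hw z hz.1).differentiableAt, (hw z hz.1).fderiv, hWeq z hz, sub_self]
  obtain ⟨k, hk⟩ := const_of_nojump hK h.volume_K hs hd hlc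
  refine ⟨fun y => w y + k, hwc.add contDiffOn_const, fun y hy => ?_⟩
  have h1 : u y - w y = k := hk y hy
  linarith

end Curl

end Crest.Agent.R135.Earn
end

-- ▼ part R135/EarnRem1
section

/-! # R135, Earnshaw block: removal lemma, part (iii): the competitor `K \ ball x t` (helper898) -/

set_option autoImplicit false

open MeasureTheory Set Filter Topology Metric
open scoped Real ENNReal NNReal ContDiff Gradient

noncomputable section

namespace Crest.Agent.R135.Earn

open Crest.Agent.R135.Bon (volume_K_zero lip_of_eventuallyEq isOpen_compl_of_isQM)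

theorem rem_comp {u : E2 → ℝ} {K : Set E2} (h : IsQM univ 0 u K) {x : E2} (hx : x ∈ K) {s : ℝ}
    (hs : 0 < s) {w : E2 → ℝ} (hw : ContDiffOn ℝ 1 w (ball x s))
    (hu : ∀ y ∈ ball x s \ K, u y = w y)
    (hc : ∀ c, LocConstOn (univ \ K) c → ∃ k, ∀ y ∈ ball x s \ K, c y = k) : False := by
  classical
  have hKc : IsClosed K := isOpen_compl_of_isQM h
  set t : ℝ := s / 2 with ht
  have ht0 : 0 < t := by positivity
  have hts : t < s := by linarith
  have hcb : closedBall x t ⊆ ball x s := closedBall_subset_ball hts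
  set L : Set E2 := K \ ball x t with hL
  set w' : E2 → ℝ := fun y => if y ∈ ball x s then w y else u y with hw'
  have hLK : L ⊆ K := fun y hy => hy.1
  have hLclosed : IsClosed L := by
    rw [hL, Set.sdiff_eq]
    exact hKc.inter isOpen_ball.isClosed_compl
  have hoff : ∀ y, y ∉ K → w' y = u y := by
    intro y hy
    simp only [hw']
    split_ifs with hb
    · exact (hu y ⟨hb, hy⟩).symm
    · rfl
  have hin : ∀ y ∈ ball x s, w' =ᶠ[𝓝 y] w := by
    intro y hy
    filter_upwards [isOpen_ball.mem_nhds hy] with z hz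
    exact if_pos hz
  have hout : ∀ y, y ∉ K → w' =ᶠ[𝓝 y] u := by
    intro y hy
    filter_upwards [hKc.isOpen_compl.mem_nhds hy] with z hz
    exact hoff z hz
  have hcomp : IsComp univ u K x t w' L := by
    refine ⟨subset_univ _, ?_, ?_, ?_, ?_, ?_, ?_⟩
    · rw [hLclosed.closure_eq, inter_univ]
    · exact (measure_mono (inter_subset_inter_left _ hLK)).trans_lt
        (h.len_fin x t (subset_univ _))
    · ext y
      constructor
      · rintro ⟨hy, hb⟩
        exact ⟨hLK hy, hb⟩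
      · rintro ⟨hy, hb⟩
        exact ⟨⟨hy, fun hc => hb (ball_subset_closedBall hc)⟩, hb⟩
    · intro y hy
      have hyL : y ∉ L := hy.2
      by_cases hb : y ∈ ball x s
      · exact lip_of_eventuallyEq (hin y hb) (hw.contDiffAt (isOpen_ball.mem_nhds hb)) _
      · have hyK : y ∉ K := fun hK => hyL ⟨hK, fun hbt => hb (ball_subset_ball hts.le hbt)⟩
        have hd : ContDiffAt ℝ 1 u y := h.c1.contDiffAt (by
          rw [← compl_eq_univ_sdiff]; exact hKc.isOpen_compl.mem_nhds hyK)
        exact lip_of_eventuallyEq (hout y hyK) hd _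
    · intro y hy
      exact hoff y fun hK => hy.2 (Or.inl hK)
    · intro c hcc
      obtain ⟨k, hk⟩ := hc c hcc
      refine ⟨fun y => if y ∈ ball x s then k else c y, ?_, ?_⟩
      · intro y hy
        have hyL : y ∉ L := hy.2
        by_cases hb : y ∈ ball x s
        · filter_upwards [isOpen_ball.mem_nhds hb] with z hz
          rw [if_pos hz, if_pos hb]
        · have hyK : y ∉ K := fun hK => hyL ⟨hK, fun hbt => hb (ball_subset_ball hts.le hbt)⟩
          filter_upwards [hcc y ⟨mem_univ _, hyK⟩, hKc.isOpen_compl.mem_nhds hyK] with z hz hzK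
          rw [if_neg hb]
          split_ifs with hzb
          · rw [← hz, hk z ⟨hzb, hzK⟩]
          · exact hz
      · intro y hy
        have hyK : y ∉ K := fun hK => hy.2 (Or.inl hK)
        show (if y ∈ ball x s then k else c y) = c y
        split_ifs with hb
        · rw [hk y ⟨hb, hyK⟩]
        · rfl
  have hmin := h.min x t ht0 (subset_univ _) w' L hcomp
  rw [zero_mul, ENNReal.ofReal_zero, add_zero, enE, enE] at hmin
  have hdir : dirE w' L (closedBall x t) ≤ dirE u K (closedBall x t) := by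
    have hae : (closedBall x t \ L : Set E2) =ᵐ[volume] (closedBall x t \ K : Set E2) := by
      have h2 := volume_K_zero h
      have h3 : ∀ᵐ z ∂(volume : Measure E2), z ∉ K := by
        rw [ae_iff]
        simpa using h2
      filter_upwards [h3] with z hz
      apply propext
      exact ⟨fun h4 => ⟨h4.1, hz⟩, fun h4 => ⟨h4.1, fun h5 => hz (hLK h5)⟩⟩
    rw [dirE, dirE, setLIntegral_congr hae]
    refine le_of_eq (setLIntegral_congr_fun (measurableSet_closedBall.diff hKc.measurableSet)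
      fun z hz => ?_)
    have hg : gradient w' z = gradient u z := by
      rw [gradient, gradient, (hout z hz.2).fderiv_eq]
    rw [hg]
  have hfin := h.dir_fin x t (subset_univ _)
  have hlen : len (K ∩ closedBall x t) ≤ len (L ∩ closedBall x t) := by
    have h1 : dirE u K (closedBall x t) + len (K ∩ closedBall x t)
        ≤ dirE u K (closedBall x t) + len (L ∩ closedBall x t) :=
      hmin.trans (add_le_add hdir le_rfl)
    exact (ENNReal.add_le_add_iff_left hfin.ne).1 h1
  have hfl : len (K ∩ closedBall x t) < ⊤ := h.len_fin x t (subset_univ _)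
  have hsplit := measure_inter_add_sdiff (μ := (Measure.hausdorffMeasure 1 : Measure E2))
    (K ∩ closedBall x t) (measurableSet_ball (x := x) (ε := t))
  change len ((K ∩ closedBall x t) ∩ ball x t) + len ((K ∩ closedBall x t) \ ball x t)
    = len (K ∩ closedBall x t) at hsplit
  have hpos : 0 < len ((K ∩ closedBall x t) ∩ ball x t) := by
    refine (h.red x hx t ht0).trans_le (measure_mono ?_)
    rintro y ⟨h1, h2⟩
    exact ⟨⟨h1, ball_subset_closedBall h2⟩, h2⟩
  have hLsub : L ∩ closedBall x t ⊆ (K ∩ closedBall x t) \ ball x t := by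
    rintro y ⟨⟨h1, h2⟩, h3⟩
    exact ⟨⟨h1, h3⟩, h2⟩
  have hf2 : len ((K ∩ closedBall x t) \ ball x t) < ⊤ :=
    (measure_mono sdiff_subset).trans_lt hfl
  have h2 : len (K ∩ closedBall x t) ≤ len ((K ∩ closedBall x t) \ ball x t) :=
    hlen.trans (measure_mono hLsub)
  have : len ((K ∩ closedBall x t) \ ball x t) < len (K ∩ closedBall x t) := by
    rw [← hsplit, add_comm]
    exact ENNReal.lt_add_right hf2.ne hpos.ne'
  exact absurd h2 (not_le.2 this)

end Crest.Agent.R135.Earn
end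
end

-- ▼ part R135/EarnRem
section

/-! # R135, Earnshaw block: removal lemma -/

set_option autoImplicit false
open MeasureTheory Metric Set Filter Topology Laplacian InnerProductSpace
open scoped RealInnerProductSpace NNReal ENNReal ContDiff Gradient Convolution

namespace Crest.Agent.R135.Earn

/-- if no jump test function near `x` feels `K`, then `x` cannot be in `K` -/
theorem rem_false {u : E2 → ℝ} {K : Set E2} (h : IsQM univ 0 u K) {x : E2} (hx : x ∈ K) {s : ℝ}
    (hs : 0 < s)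
    (hd : ∀ φ : E2 → ℝ, ContDiffOn ℝ 1 φ Kᶜ → (∃ M, ∀ y, |φ y| ≤ M) →
      (∃ C, IsCompact C ∧ C ⊆ ball x s ∧ ∀ y, y ∉ C → φ y = 0) → dirE φ K univ < ⊤ →
      ∀ e : E2, ∫ y in Kᶜ, inner ℝ e (gradient φ y) = 0) : False := by
  obtain ⟨w, hw, hwu⟩ := exists_ext_u h hs hd
  refine rem_comp h hx hs hw hwu fun c hc => ?_
  exact const_of_nojump (isClosed_K h) h.volume_K hs hd fun y hy => hc y ⟨mem_univ _, hy.2⟩

end Crest.Agent.R135.Earn
end

-- ▼ part R135/EarnFrame
section

/-! # R135, Earnshaw block: frame lemma -/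

set_option autoImplicit false
open MeasureTheory Metric Set Filter Topology Laplacian InnerProductSpace
open scoped RealInnerProductSpace NNReal ENNReal ContDiff Gradient Convolution

namespace Crest.Agent.R135.Earn

open Crest.Agent.R097 (bv Harm laplacian_eq_sum gradient_coord inner_gradient norm_gradient
  exists_cutoff green1)
open Crest.Agent.R135.Reg

namespace Frame

theorem inner2 (a b : E2) : ⟪a, b⟫_ℝ = a 0 * b 0 + a 1 * b 1 := by
  simp [PiLp.inner_apply, Fin.sum_univ_two, mul_comm]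

theorem dsm {f : E2 → ℝ} (hf : ContDiff ℝ ∞ f) (x : E2) : DifferentiableAt ℝ f x :=
  (hf.differentiable (by simp)).differentiableAt

/-- a product of a smooth compactly supported function and a jump test function is a jump test
function -/
theorem jump_mul {K : Set E2} (hK : IsClosed K) {r : E2 → ℝ} (hr : ContDiff ℝ ∞ r)
    {φ : E2 → ℝ} (h1 : ContDiffOn ℝ 1 φ Kᶜ) (h2 : ∃ M, ∀ y, |φ y| ≤ M) {C : Set E2}
    (hC : IsCompact C) (h3 : ∀ y, y ∉ C → φ y = 0) (h4 : dirE φ K univ < ⊤) :
    ContDiffOn ℝ 1 (fun y => r y * φ y) Kᶜ ∧ (∃ M, ∀ y, |r y * φ y| ≤ M) ∧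
      (∀ y, y ∉ C → r y * φ y = 0) ∧ dirE (fun y => r y * φ y) K univ < ⊤ := by
  obtain ⟨M, hM⟩ := h2
  obtain ⟨A, hA⟩ := hC.exists_bound_of_continuousOn hr.continuous.continuousOn
  obtain ⟨B, hB⟩ := hC.exists_bound_of_continuousOn (contDiff_grad hr).continuous.continuousOn
  have hM0 : 0 ≤ M := (abs_nonneg _).trans (hM 0)
  have h0 : ∀ y, y ∉ C → r y * φ y = 0 := fun y hy => by rw [h3 y hy, mul_zero]
  refine ⟨(contDiff_infty.mp hr 1).contDiffOn.mul h1, ?_, h0, ?_⟩
  · refine ⟨|A| * M, fun y => ?_⟩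
    by_cases hy : y ∈ C
    · rw [abs_mul]
      exact mul_le_mul ((hA y hy).trans (le_abs_self _)) (hM y) (abs_nonneg _) (abs_nonneg _)
    · rw [h0 y hy, abs_zero]; positivity
  · have key : ∀ y ∈ univ \ K, ‖∇ (fun y => r y * φ y) y‖ₑ ^ 2 ≤
        ENNReal.ofReal (2 * A ^ 2) * ‖∇ φ y‖ₑ ^ 2 +
          C.indicator (fun _ => ENNReal.ofReal (2 * (M * B) ^ 2)) y := by
      intro y hy
      by_cases hyC : y ∈ C
      · have hd : DifferentiableAt ℝ φ y :=
          (h1.contDiffAt (hK.isOpen_compl.mem_nhds hy.2)).differentiableAt (by simp)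
        rw [grad_mul (dsm hr y) hd, indicator_of_mem hyC, ← ofReal_norm, ← ofReal_norm,
          ← ENNReal.ofReal_pow (norm_nonneg _), ← ENNReal.ofReal_pow (norm_nonneg _),
          ← ENNReal.ofReal_mul (by positivity), ← ENNReal.ofReal_add (by positivity)
          (by positivity)]
        apply ENNReal.ofReal_le_ofReal
        have n1 : ‖r y • ∇ φ y + φ y • ∇ r y‖ ≤ A * ‖∇ φ y‖ + M * B := by
          refine (norm_add_le _ _).trans ?_
          rw [norm_smul, norm_smul]
          have := hA y hyC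
          have := hB y hyC
          have := hM y
          gcongr
          exact hM y
        have n2 : 0 ≤ A * ‖∇ φ y‖ + M * B := (norm_nonneg _).trans n1
        calc ‖r y • ∇ φ y + φ y • ∇ r y‖ ^ 2 ≤ (A * ‖∇ φ y‖ + M * B) ^ 2 := by gcongr
          _ ≤ _ := by nlinarith [sq_nonneg (A * ‖∇ φ y‖ - M * B)]
      · have : ∇ (fun y => r y * φ y) y = 0 := by
          refine grad_eq_zero_of_near (c := 0) ?_
          filter_upwards [hC.isClosed.isOpen_compl.mem_nhds hyC] with z hz
          exact h0 z hz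
        rw [this]; simp
    unfold dirE at h4 ⊢
    have hms : MeasurableSet (univ \ K : Set E2) := MeasurableSet.univ.diff hK.measurableSet
    refine (setLIntegral_mono' hms key).trans_lt ?_
    rw [lintegral_add_right _ (measurable_const.indicator hC.measurableSet),
      lintegral_const_mul' _ _ ENNReal.ofReal_ne_top, lintegral_indicator_const hC.measurableSet]
    refine ENNReal.add_lt_top.2 ⟨ENNReal.mul_lt_top ENNReal.ofReal_lt_top h4,
      ENNReal.mul_lt_top ENNReal.ofReal_lt_top ?_⟩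
    exact (Measure.restrict_apply_le _ _).trans_lt hC.measure_lt_top

/-- the divergence identity -/
theorem div_zero {q₀ q₁ r₀ r₁ : E2 → ℝ} (hq₀ : ContDiff ℝ ∞ q₀) (hq₁ : ContDiff ℝ ∞ q₁)
    (hr₀ : ContDiff ℝ ∞ r₀) (hr₁ : ContDiff ℝ ∞ r₁) {y e : E2} (h0 : (Δ q₀) y = 0)
    (h1 : (Δ q₁) y = 0) (h : ∀ᶠ z in 𝓝 y, r₀ z • (∇ q₀ z) + r₁ z • (∇ q₁ z) = e) :
    ⟪∇ q₀ y, ∇ r₀ y⟫_ℝ + ⟪∇ q₁ y, ∇ r₁ y⟫_ℝ = 0 := by
  have hi : ∀ i : Fin 2, fderiv ℝ r₀ y (bv i) * fderiv ℝ q₀ y (bv i) +
      r₀ y * fderiv ℝ (fun z => fderiv ℝ q₀ z (bv i)) y (bv i) +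
      (fderiv ℝ r₁ y (bv i) * fderiv ℝ q₁ y (bv i) +
      r₁ y * fderiv ℝ (fun z => fderiv ℝ q₁ z (bv i)) y (bv i)) = 0 := by
    intro i
    have e1 : (fun z => r₀ z * fderiv ℝ q₀ z (bv i) + r₁ z * fderiv ℝ q₁ z (bv i)) =ᶠ[𝓝 y]
        fun _ => e i := by
      filter_upwards [h] with z hz
      rw [← hz]
      simp only [PiLp.add_apply, PiLp.smul_apply, smul_eq_mul, gradient_coord]
    have e2 := e1.fderiv_eq (𝕜 := ℝ)
    have d0 := dsm (contDiff_fd hq₀ (bv i)) y
    have d1 := dsm (contDiff_fd hq₁ (bv i)) y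
    rw [fderiv_fun_add ((dsm hr₀ y).fun_mul d0) ((dsm hr₁ y).fun_mul d1),
      fderiv_fun_mul (dsm hr₀ y) d0, fderiv_fun_mul (dsm hr₁ y) d1] at e2
    have e3 := congrArg (fun L : E2 →L[ℝ] ℝ => L (bv i)) e2
    simp only [add_apply, smul_apply, smul_eq_mul,
      fderiv_fun_const, Pi.zero_apply, zero_apply] at e3
    linarith
  rw [lap_two ((contDiff_infty.mp hq₀ 2).contDiffAt)] at h0
  rw [lap_two ((contDiff_infty.mp hq₁ 2).contDiffAt)] at h1
  rw [inner2, inner2, gradient_coord, gradient_coord, gradient_coord, gradient_coord,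
    gradient_coord, gradient_coord, gradient_coord, gradient_coord]
  have a0 := hi 0
  have a1 := hi 1
  linear_combination a0 + a1 - r₀ y * h0 - r₁ y * h1

end Frame

/-- two independent divergence-free fields tangent to `K` ⇒ no jump test function feels `K` -/
theorem frame {K : Set E2} (hK : IsClosed K) (hK0 : volume K = 0) {x : E2} {s : ℝ} (hs : 0 < s)
    {q₀ q₁ : E2 → ℝ} (hq₀ : ContDiff ℝ ∞ q₀) (hq₁ : ContDiff ℝ ∞ q₁)
    (hh₀ : ∀ y ∈ ball x s, (Δ q₀) y = 0) (hh₁ : ∀ y ∈ ball x s, (Δ q₁) y = 0)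
    (hind : (∇ q₀ x) 0 * (∇ q₁ x) 1 - (∇ q₀ x) 1 * (∇ q₁ x) 0 ≠ 0)
    (hN : ∀ φ : E2 → ℝ, ContDiffOn ℝ 1 φ Kᶜ → (∃ M, ∀ y, |φ y| ≤ M) →
      (∃ C, IsCompact C ∧ C ⊆ ball x s ∧ ∀ y, y ∉ C → φ y = 0) → dirE φ K univ < ⊤ →
      (∫ y in Kᶜ, ⟪∇ q₀ y, ∇ φ y⟫_ℝ = 0) ∧ ∫ y in Kᶜ, ⟪∇ q₁ y, ∇ φ y⟫_ℝ = 0) :
    ∃ s' : ℝ, 0 < s' ∧ s' ≤ s ∧ ∀ φ : E2 → ℝ, ContDiffOn ℝ 1 φ Kᶜ → (∃ M, ∀ y, |φ y| ≤ M) →
      (∃ C, IsCompact C ∧ C ⊆ ball x s' ∧ ∀ y, y ∉ C → φ y = 0) → dirE φ K univ < ⊤ →
      ∀ e : E2, ∫ y in Kᶜ, inner ℝ e (gradient φ y) = 0 := by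
  set D : E2 → ℝ := fun y => fderiv ℝ q₀ y (bv 0) * fderiv ℝ q₁ y (bv 1) -
    fderiv ℝ q₀ y (bv 1) * fderiv ℝ q₁ y (bv 0) with hD
  have hDs : ContDiff ℝ ∞ D := ((contDiff_fd hq₀ _).mul (contDiff_fd hq₁ _)).sub
    ((contDiff_fd hq₀ _).mul (contDiff_fd hq₁ _))
  have hDx : D x ≠ 0 := by
    simp only [gradient_coord] at hind
    exact hind
  have hV : IsOpen {y | D y ≠ 0} := isOpen_ne_fun hDs.continuous continuous_const
  obtain ⟨t, ht, htV⟩ := Metric.isOpen_iff.1 hV x hDx
  set s' : ℝ := min s (t / 2) with hs'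
  have hs'0 : 0 < s' := lt_min hs (by linarith)
  have hcV : closedBall x s' ⊆ {y | D y ≠ 0} := by
    refine (closedBall_subset_ball ?_).trans htV
    exact (min_le_right _ _).trans_lt (by linarith)
  obtain ⟨χ, hχ, hχc, hχU, -, hχ1⟩ := exists_cutoff (d := 2) (isCompact_closedBall x s') hV hcV
  refine ⟨s', hs'0, min_le_left _ _, ?_⟩
  intro φ h1 h2 ⟨C, hC, hCb, h3⟩ h4 e
  -- the coefficients
  have hsm : ∀ a : E2 → ℝ, ContDiff ℝ ∞ a → ContDiff ℝ ∞ (fun y => χ y * (a y / D y)) := by
    intro a ha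
    rw [contDiff_iff_contDiffAt]
    intro y
    by_cases hy : y ∈ tsupport χ
    · exact hχ.contDiffAt.mul (ha.contDiffAt.div hDs.contDiffAt (hχU hy))
    · refine (contDiffAt_const (c := (0:ℝ))).congr_of_eventuallyEq ?_
      filter_upwards [(isClosed_tsupport χ).isOpen_compl.mem_nhds hy] with z hz
      rw [image_eq_zero_of_notMem_tsupport hz, zero_mul]
  set a₀ : E2 → ℝ := fun y => e 0 * fderiv ℝ q₁ y (bv 1) - e 1 * fderiv ℝ q₁ y (bv 0) with ha₀
  set a₁ : E2 → ℝ := fun y => e 1 * fderiv ℝ q₀ y (bv 0) - e 0 * fderiv ℝ q₀ y (bv 1) with ha₁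
  have ha₀s : ContDiff ℝ ∞ a₀ := (contDiff_const.mul (contDiff_fd hq₁ _)).sub
    (contDiff_const.mul (contDiff_fd hq₁ _))
  have ha₁s : ContDiff ℝ ∞ a₁ := (contDiff_const.mul (contDiff_fd hq₀ _)).sub
    (contDiff_const.mul (contDiff_fd hq₀ _))
  set r₀ : E2 → ℝ := fun y => χ y * (a₀ y / D y) with hr₀
  set r₁ : E2 → ℝ := fun y => χ y * (a₁ y / D y) with hr₁
  have hr₀s : ContDiff ℝ ∞ r₀ := hsm a₀ ha₀s
  have hr₁s : ContDiff ℝ ∞ r₁ := hsm a₁ ha₁s
  have hcomb : ∀ y, D y ≠ 0 → χ y = 1 → r₀ y • ∇ q₀ y + r₁ y • ∇ q₁ y = e := by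
    intro y hy hχy
    have hy' : D y = fderiv ℝ q₀ y (bv 0) * fderiv ℝ q₁ y (bv 1) -
      fderiv ℝ q₀ y (bv 1) * fderiv ℝ q₁ y (bv 0) := rfl
    ext i
    simp only [PiLp.add_apply, PiLp.smul_apply, smul_eq_mul, gradient_coord, hr₀, hr₁, hχy,
      one_mul, ha₀, ha₁]
    fin_cases i
    · simp only [Fin.zero_eta]
      rw [div_mul_eq_mul_div, div_mul_eq_mul_div, ← add_div, div_eq_iff hy, hy']
      ring
    · simp only [Fin.mk_one]
      rw [div_mul_eq_mul_div, div_mul_eq_mul_div, ← add_div, div_eq_iff hy, hy']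
      ring
  have hcomb' : ∀ y ∈ ball x s', ∀ᶠ z in 𝓝 y, r₀ z • ∇ q₀ z + r₁ z • ∇ q₁ z = e := by
    intro y hy
    filter_upwards [isOpen_ball.mem_nhds hy] with z hz
    exact hcomb z (hcV (ball_subset_closedBall hz))
      (hχ1 z (ball_subset_closedBall hz)).self_of_nhds
  -- test functions
  have hCs : C ⊆ ball x s := hCb.trans (ball_subset_ball (min_le_left _ _))
  obtain ⟨t1, t2, t3, t4⟩ := Frame.jump_mul hK hr₀s h1 h2 hC h3 h4
  obtain ⟨v1, v2, v3, v4⟩ := Frame.jump_mul hK hr₁s h1 h2 hC h3 h4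
  have I0 := (hN _ t1 t2 ⟨C, hC, hCs, t3⟩ t4).1
  have I1 := (hN _ v1 v2 ⟨C, hC, hCs, v3⟩ v4).2
  have z0 : ∀ {f : E2 → ℝ}, (∀ y, y ∉ C → f y = 0) → ∀ y, y ∉ C → ∇ f y = 0 := by
    intro f hf y hy
    refine grad_eq_zero_of_near (c := 0) ?_
    filter_upwards [hC.isClosed.isOpen_compl.mem_nhds hy] with z hz
    exact hf z hz
  have J0 := (int_cont_l2 (contDiff_grad hq₀).continuous (memLp_of_dirE hK0 t4) hC (z0 t3))
  have J1 := (int_cont_l2 (contDiff_grad hq₁).continuous (memLp_of_dirE hK0 v4) hC (z0 v3))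
  have I2 : ∫ y in Kᶜ, (⟪∇ q₀ y, ∇ (fun y => r₀ y * φ y) y⟫_ℝ +
      ⟪∇ q₁ y, ∇ (fun y => r₁ y * φ y) y⟫_ℝ) = 0 := by
    rw [integral_add J0.integrableOn J1.integrableOn, I0, I1, add_zero]
  rw [← I2]
  refine setIntegral_congr_fun hK.isOpen_compl.measurableSet fun y hy => ?_
  by_cases hyC : y ∈ C
  · have hd : DifferentiableAt ℝ φ y :=
      (h1.contDiffAt (hK.isOpen_compl.mem_nhds hy)).differentiableAt (by simp)
    rw [grad_mul (Frame.dsm hr₀s y) hd, grad_mul (Frame.dsm hr₁s y) hd]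
    have hdiv := Frame.div_zero hq₀ hq₁ hr₀s hr₁s (hh₀ y (hCs hyC)) (hh₁ y (hCs hyC))
      (hcomb' y (hCb hyC))
    rw [← (hcomb' y (hCb hyC)).self_of_nhds, inner_add_left, inner_smul_left, inner_smul_left,
      inner_add_right, inner_add_right, inner_smul_right, inner_smul_right, inner_smul_right,
      inner_smul_right]
    simp only [conj_trivial]
    linear_combination - φ y * hdiv
  · rw [z0 h3 y hyC, z0 t3 y hyC, z0 v3 y hyC]
    simp

end Crest.Agent.R135.Earn
end

-- ▼ part R135/EarnLine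
section

/-! # R135, Earnshaw block: harmonic gradient with values in a line -/

set_option autoImplicit false
open MeasureTheory Metric Set Filter Topology Laplacian InnerProductSpace
open scoped RealInnerProductSpace NNReal ENNReal ContDiff Gradient Convolution

namespace Crest.Agent.R135.Earn

open Crest.Agent.R097 (bv Harm laplacian_eq_sum gradient_coord inner_gradient norm_gradient
  exists_cutoff green1)
open Crest.Agent.R135.Reg

theorem grad_const_of_dep {p : E2 → ℝ} {x : E2} {ρ : ℝ} (hρ : 0 < ρ) (hp : ContDiff ℝ ∞ p)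
    (hh : ∀ y ∈ ball x ρ, (Δ p) y = 0)
    (hdep : ∀ y ∈ ball x ρ, ∀ z ∈ ball x ρ, (∇ p y - ∇ p x) 0 * (∇ p z - ∇ p x) 1 -
      (∇ p y - ∇ p x) 1 * (∇ p z - ∇ p x) 0 = 0) :
    ∀ y ∈ ball x ρ, ∇ p y = ∇ p x := by
  by_contra hcon
  push Not at hcon
  obtain ⟨y0, hy0, hne⟩ := hcon
  set w := ∇ p y0 - ∇ p x with hw
  have hw0 : w ≠ 0 := sub_ne_zero.2 hne
  have hxb : x ∈ ball x ρ := mem_ball_self hρ
  set g0 : E2 → ℝ := fun y => fderiv ℝ p y (bv 0) with hg0
  set g1 : E2 → ℝ := fun y => fderiv ℝ p y (bv 1) with hg1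
  have s0 : ContDiff ℝ ∞ g0 := contDiff_fd hp _
  have s1 : ContDiff ℝ ∞ g1 := contDiff_fd hp _
  have d : ∀ {f : E2 → ℝ}, ContDiff ℝ ∞ f → ∀ x, DifferentiableAt ℝ f x := fun hf x =>
    (hf.differentiable (by simp)).differentiableAt
  have c0 : ∀ y, (∇ p y) 0 = g0 y := fun y => gradient_coord p y 0
  have c1 : ∀ y, (∇ p y) 1 = g1 y := fun y => gradient_coord p y 1
  have hcst : ∀ z ∈ ball x ρ, w 0 * g1 z - w 1 * g0 z = w 0 * g1 x - w 1 * g0 x := by
    intro z hz
    have h1 := hdep y0 hy0 z hz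
    rw [← hw] at h1
    have h2 : (∇ p z - ∇ p x) 1 = g1 z - g1 x := by rw [PiLp.sub_apply, c1, c1]
    have h3 : (∇ p z - ∇ p x) 0 = g0 z - g0 x := by rw [PiLp.sub_apply, c0, c0]
    rw [h2, h3] at h1
    linarith
  have hder : ∀ z ∈ ball x ρ, ∀ v : E2, w 0 * fderiv ℝ g1 z v - w 1 * fderiv ℝ g0 z v = 0 := by
    intro z hz v
    have h1 : (fun z => w 0 * g1 z - w 1 * g0 z) =ᶠ[𝓝 z] fun _ => w 0 * g1 x - w 1 * g0 x := by
      filter_upwards [isOpen_ball.mem_nhds hz] with y hy using hcst y hy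
    have h2 := h1.fderiv_eq (𝕜 := ℝ)
    rw [fderiv_fun_sub ((d s1 z).const_mul _) ((d s0 z).const_mul _),
      fderiv_const_mul (d s1 z), fderiv_const_mul (d s0 z)] at h2
    have h3 := congrArg (fun L : E2 →L[ℝ] ℝ => L v) h2
    simpa using h3
  have hsym : ∀ z, fderiv ℝ g1 z (bv 0) = fderiv ℝ g0 z (bv 1) := by
    intro z
    have hs : IsSymmSndFDerivAt ℝ p z :=
      (contDiff_infty.mp hp 2).contDiffAt.isSymmSndFDerivAt (by simp)
    have hd : DifferentiableAt ℝ (fderiv ℝ p) z :=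
      ((hp.fderiv_right (m := ∞) (by simp)).differentiable (by simp)).differentiableAt
    have e : ∀ v : E2, ∀ w : E2, fderiv ℝ (fun y => fderiv ℝ p y v) z w =
        fderiv ℝ (fderiv ℝ p) z w v := by
      intro v w
      rw [fderiv_clm_apply hd (differentiableAt_const v)]
      simp
    rw [hg1, hg0, e, e]
    exact hs _ _
  have hzero : ∀ z ∈ ball x ρ, fderiv ℝ g0 z = 0 ∧ fderiv ℝ g1 z = 0 := by
    intro z hz
    have a1 := hder z hz (bv 0)
    have a2 := hder z hz (bv 1)
    have a3 := hh z hz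
    rw [lap_two ((contDiff_infty.mp hp 2).contDiffAt)] at a3
    rw [hsym z] at a1
    have hN : 0 < w 0 ^ 2 + w 1 ^ 2 := by
      by_contra hcon
      apply hw0
      have h0 : w 0 = 0 := by nlinarith [sq_nonneg (w 0), sq_nonneg (w 1)]
      have h1 : w 1 = 0 := by nlinarith [sq_nonneg (w 0), sq_nonneg (w 1)]
      ext i; fin_cases i <;> simp [h0, h1]
    set A := fderiv ℝ g0 z (bv 0)
    set B := fderiv ℝ g0 z (bv 1)
    set C := fderiv ℝ g1 z (bv 1)
    have a3' : A + C = 0 := a3
    have hB : (w 0 ^ 2 + w 1 ^ 2) * B = 0 := by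
      linear_combination (w 0) * a1 - (w 1) * a2 + (w 0 * w 1) * a3'
    have hA : (w 0 ^ 2 + w 1 ^ 2) * A = 0 := by
      linear_combination (-(w 1)) * a1 - (w 0) * a2 + (w 0 ^ 2) * a3'
    have hB0 : B = 0 := (mul_eq_zero.1 hB).resolve_left hN.ne'
    have hA0 : A = 0 := (mul_eq_zero.1 hA).resolve_left hN.ne'
    have hC0 : C = 0 := by linarith
    constructor
    · refine clm_ext2 ?_ ?_
      · simpa using hA0
      · simpa using hB0
    · refine clm_ext2 ?_ ?_
      · rw [hsym z]; simpa using hB0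
      · simpa using hC0
  have hconst : ∀ {g : E2 → ℝ}, ContDiff ℝ ∞ g → (∀ z ∈ ball x ρ, fderiv ℝ g z = 0) →
      g y0 = g x := by
    intro g hg h0
    exact (convex_ball x ρ).is_const_of_fderivWithin_eq_zero (𝕜 := ℝ)
      (hg.differentiable (by simp)).differentiableOn (fun z hz => by
        rw [fderivWithin_of_isOpen isOpen_ball hz]; exact h0 z hz) hy0 hxb
  apply hne
  have h0 := hconst s0 fun z hz => (hzero z hz).1
  have h1 := hconst s1 fun z hz => (hzero z hz).2
  ext i; fin_cases i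
  · simp only [Fin.zero_eta, Fin.isValue]; rw [c0, c0, h0]
  · simp only [Fin.mk_one, Fin.isValue]; rw [c1, c1, h1]

end Crest.Agent.R135.Earn
end

-- ▼ part R135/EarnDil
section

/-! # R135, Earnshaw block: dilations (statement helper391, proof helper823) -/

set_option autoImplicit false
open MeasureTheory Metric Set Filter Topology Laplacian InnerProductSpace
open scoped RealInnerProductSpace NNReal ENNReal ContDiff Gradient Convolution

namespace Crest.Agent.R135.Earn

open Crest.Agent.R097 (bv Harm laplacian_eq_sum gradient_coord inner_gradient norm_gradient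
  exists_cutoff green1)
open Crest.Agent.R135.Reg

variable {u : E2 → ℝ} {K K1 K2 : Set E2} {ρ : ℝ} {ζ ue p η : E2 → ℝ}

theorem Mg_dil (D : Dat u K1 K2 ρ ζ ue p) (hc : Cut K1 ρ η)
    (hconst : ∀ x ∈ K1, ∀ y ∈ ball x ρ, ∇ p y = ∇ p x) (a : E2) {r : ℝ} (hr : 0 < r)
    (hclose : ∀ x ∈ K1, dist (r⁻¹ • (x - a)) x < ρ) :
    Mg η p (mv ζ a r) = (r ^ 2)⁻¹ * Mg η p ζ := by
  have dsm : ∀ {f : E2 → ℝ}, ContDiff ℝ ∞ f → ∀ x, DifferentiableAt ℝ f x := fun hf x =>
    (hf.differentiable (by simp)).differentiableAt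
  set f : E2 → ℝ := fun y => η y * p y with hf
  have hfs : ContDiff ℝ ∞ f := hc.sm.mul D.psm
  have hfc : HasCompactSupport f := hc.cs.mul_right
  set s : E2 → E2 := fun y => -(r⁻¹ • a) + r⁻¹ • y with hs
  have hs' : ∀ y, s y = r⁻¹ • (y - a) := fun y => by
    simp only [hs, smul_sub]; abel
  have hsa : ∀ x, s (a + r • x) = x := fun x => by
    rw [hs', add_sub_cancel_left, smul_smul, inv_mul_cancel₀ hr.ne', one_smul]
  have hssm : ContDiff ℝ ∞ s := by fun_prop
  have hsc : Continuous s := hssm.continuous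
  set W : E2 → ℝ := fun y => r * f (s y) - f y with hW
  have hfss : ContDiff ℝ ∞ (fun y => f (s y)) := hfs.comp hssm
  have hfsc : HasCompactSupport (fun y => f (s y)) := by
    have : (fun y => f (s y)) = f ∘ (scH (-(r⁻¹ • a)) r⁻¹ (inv_ne_zero hr.ne')) := rfl
    rw [this]
    exact hfc.comp_homeomorph _
  have hWs : ContDiff ℝ ∞ W := (contDiff_const.mul hfss).sub hfs
  have hWc : HasCompactSupport W := (hfsc.mul_left (f := fun _ => r)).sub hfc
  have hgfs : ∀ y, ∇ (fun y => f (s y)) y = r⁻¹ • ∇ f (s y) := fun y =>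
    grad_comp_aff f (-(r⁻¹ • a)) y r⁻¹
  have hWg : ∀ y, ∇ W y = ∇ f (s y) - ∇ f y := by
    intro y
    rw [hW, grad_sub (f := fun y => r * f (s y)) ((dsm hfss y).const_mul r) (dsm hfs y),
      gradient_const_mul, hgfs, smul_smul, mul_inv_cancel₀ hr.ne', one_smul]
  -- `∇ W = 0` near `K1`
  have hfp : ∀ x ∈ K1, ∀ y ∈ ball x ρ, ∇ f y = ∇ p x := by
    intro x hx y hy
    have h1 : y ∈ cthickening ρ K1 :=
      thickening_subset_cthickening _ _ (mem_thickening_iff.2 ⟨x, hx, mem_ball.1 hy⟩)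
    have h2 : f =ᶠ[𝓝 y] p := by
      filter_upwards [hc.one y h1] with z hz
      rw [hf]; simp only; rw [hz, one_mul]
    rw [gradient_congr_of_eventuallyEq h2, hconst x hx y hy]
  have hW0 : ∀ y ∈ K1, ∀ᶠ z in 𝓝 y, ∇ W z = 0 := by
    intro y hy
    have h1 : ∀ᶠ z in 𝓝 y, z ∈ ball y ρ := ball_mem_nhds y D.ρpos
    have h2 : ∀ᶠ z in 𝓝 y, s z ∈ ball y ρ := by
      refine hsc.continuousAt.eventually (isOpen_ball.mem_nhds ?_)
      rw [hs', mem_ball]; exact hclose y hy
    filter_upwards [h1, h2] with z hz1 hz2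
    rw [hWg, hfp y hy _ hz2, hfp y hy _ hz1, sub_self]
  -- the compact set
  set N1 := tsupport (fderiv ℝ η) with hN1
  have hN1c : IsCompact N1 := hc.cs.fderiv (𝕜 := ℝ)
  have hN1out : ∀ x ∈ N1, x ∉ cthickening ρ K1 := by
    intro x hx hxS
    rw [hN1] at hx
    refine (notMem_tsupport_iff_eventuallyEq.2 ?_) hx
    filter_upwards [(hc.one x hxS).eventually_nhds] with y hy
    have : η =ᶠ[𝓝 y] fun _ => (1 : ℝ) := hy
    rw [this.fderiv_eq]; simp
  set N2 : Set E2 := (fun x => a + r • x) '' N1 with hN2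
  have hN2c : IsCompact N2 := hN1c.image (by fun_prop)
  set N3 := tsupport (fun x => ∇ W x) with hN3
  have hN3c : IsCompact N3 := hasCompactSupport_grad hWc
  have hNK : N1 ∪ N2 ∪ N3 ⊆ K1ᶜ := by
    rintro x ((hx | hx) | hx) hxK
    · exact hN1out x hx (self_subset_cthickening _ hxK)
    · obtain ⟨z, hz, rfl⟩ := hx
      refine hN1out z hz (thickening_subset_cthickening _ _ (mem_thickening_iff.2 ⟨_, hxK, ?_⟩))
      have h := hclose _ hxK
      simp only at h
      rwa [← hs', hsa] at h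
    · exact (notMem_tsupport_iff_eventuallyEq.2 (hW0 x hxK)) hx
  obtain ⟨g, hg, hgc, hgu⟩ := Crest.Agent.R097.Hm.exists_ext (m := (⊤ : ℕ∞))
    D.sing.cpt.isClosed.isOpen_compl D.sing.smooth ((hN1c.union hN2c).union hN3c) hNK
  have hgs : ContDiff ℝ ∞ g := hg
  -- first side
  have hgr : ContDiff ℝ ∞ (fun x => r⁻¹ * g (a + r • x)) := by
    have : ContDiff ℝ ∞ (fun x : E2 => a + r • x) := by fun_prop
    exact contDiff_const.mul (hgs.comp this)
  have hgrc : HasCompactSupport (fun x => r⁻¹ * g (a + r • x)) := by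
    have h1 : HasCompactSupport (fun x => g (a + r • x)) := by
      have : (fun x => g (a + r • x)) = g ∘ (scH a r hr.ne') := rfl
      rw [this]
      exact hgc.comp_homeomorph _
    exact h1.mul_left
  have hgrg : ∀ x, ∇ (fun x => r⁻¹ * g (a + r • x)) x = ∇ g (a + r • x) := fun x =>
    grad_mv g a hr x
  have e1 : Mg η p (mv ζ a r) = - ((r ^ 2)⁻¹ * ∫ y, ⟪∇ f (s y), ∇ g y⟫_ℝ) := by
    have hSη : ∀ x ∈ rescK K1 a r, ∀ᶠ y in 𝓝 x, η y = 1 := by
      intro x hx
      have hx' : a + r • x ∈ K1 := hx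
      refine hc.one x (thickening_subset_cthickening _ _ (mem_thickening_iff.2 ⟨_, hx', ?_⟩))
      have h := hclose _ hx'
      rwa [← hs', hsa] at h
    rw [Mg_eq_bet D hc (sing_mv D.sing a hr) hSη]
    have h1 : ∫ x, mv ζ a r x * bet η p x = ∫ x, (r⁻¹ * g (a + r • x)) * (Δ f) x := by
      refine integral_congr_ae (Eventually.of_forall fun x => ?_)
      simp only
      by_cases hx : x ∈ N1
      · have h2 := (hgu (a + r • x) (Or.inl (Or.inr ⟨x, hx, rfl⟩))).eq_of_nhds
        unfold mv bet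
        rw [h2]
      · have h3 : bet η p x = 0 := bet_zero D hc hx
        rw [h3]
        unfold bet at h3
        rw [h3, mul_zero, mul_zero]
    rw [h1]
    have h2 := green_s hfs hgr hgrc
    have h3 : ∫ x, ⟪∇ f x, ∇ (fun x => r⁻¹ * g (a + r • x)) x⟫_ℝ =
        (r ^ 2)⁻¹ * ∫ y, ⟪∇ f (s y), ∇ g y⟫_ℝ := by
      rw [← smul_eq_mul, ← integral_aff0 (fun y => ⟪∇ f (s y), ∇ g y⟫_ℝ) a hr]
      refine integral_congr_ae (Eventually.of_forall fun x => ?_)
      simp only
      rw [hgrg, hsa]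
    linarith
  have e2 : Mg η p ζ = - ∫ y, ⟪∇ f y, ∇ g y⟫_ℝ := by
    rw [Mg_eq_bet D hc D.sing (fun x hx => hc.one x (self_subset_cthickening _ hx))]
    have h1 : ∫ x, ζ x * bet η p x = ∫ x, g x * (Δ f) x := by
      refine integral_congr_ae (Eventually.of_forall fun x => ?_)
      simp only
      by_cases hx : x ∈ N1
      · rw [(hgu x (Or.inl (Or.inl hx))).eq_of_nhds]; rfl
      · have h3 : bet η p x = 0 := bet_zero D hc hx
        rw [h3]
        unfold bet at h3
        rw [h3, mul_zero, mul_zero]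
    rw [h1]
    have h2 := green_s hfs hgs hgc
    linarith
  -- equality of the two
  have i1 : Integrable (fun y => ⟪∇ f (s y), ∇ g y⟫_ℝ) :=
    integrable_inner_of_cs ((contDiff_grad hfs).continuous.comp hsc)
      (contDiff_grad hgs).continuous (hasCompactSupport_grad hgc)
  have i2 : Integrable (fun y => ⟪∇ f y, ∇ g y⟫_ℝ) :=
    integrable_inner_of_cs (contDiff_grad hfs).continuous
      (contDiff_grad hgs).continuous (hasCompactSupport_grad hgc)
  have e3 : (∫ y, ⟪∇ f (s y), ∇ g y⟫_ℝ) - ∫ y, ⟪∇ f y, ∇ g y⟫_ℝ = 0 := by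
    rw [← integral_sub i1 i2, ← D.sing.divfree W hWs hWc]
    refine integral_congr_ae (Eventually.of_forall fun y => ?_)
    simp only
    rw [← inner_sub_left, ← hWg, real_inner_comm]
    by_cases hy : y ∈ N3
    · rw [gradient_congr_of_eventuallyEq (hgu y (Or.inr hy))]
    · have : ∇ W y = 0 := image_eq_zero_of_notMem_tsupport hy
      rw [this, inner_zero_right, inner_zero_right]
  rw [e1, e2, sub_eq_zero.1 e3]
  ring

end Crest.Agent.R135.Earn
end

-- ▼ part R135/EarnAvg
section

/-! # R135, Earnshaw block: averaging over translations -/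

set_option autoImplicit false
open MeasureTheory Metric Set Filter Topology Laplacian InnerProductSpace
open scoped RealInnerProductSpace NNReal ENNReal ContDiff Gradient Convolution

namespace Crest.Agent.R135.Earn

open Crest.Agent.R097 (bv Harm laplacian_eq_sum gradient_coord inner_gradient norm_gradient
  exists_cutoff green1)
open Crest.Agent.R135.Reg

variable {u : E2 → ℝ} {K K1 K2 : Set E2} {ρ : ℝ} {ζ ue p η : E2 → ℝ}

theorem Mg_trans_aux (D : Dat u K1 K2 ρ ζ ue p) (hc : Cut K1 ρ η)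
    (hpos : ∀ h : E2, ‖h‖ < ρ → 0 ≤ Mg η p (mv ζ (-h) 1) - Mg η p ζ) {t : ℝ} (ht : 0 < t)
    (htρ : t < ρ) :
    ∀ h : E2, ‖h‖ < t → Mg η p (mv ζ (-h) 1) = Mg η p ζ := by
  set N := tsupport (fderiv ℝ η) with hN
  have hNc : IsCompact N := hc.cs.fderiv (𝕜 := ℝ)
  have hNout : ∀ x ∈ N, x ∉ cthickening ρ K1 := by
    intro x hx hxS
    rw [hN] at hx
    refine (notMem_tsupport_iff_eventuallyEq.2 ?_) hx
    filter_upwards [(hc.one x hxS).eventually_nhds] with y hy
    have : η =ᶠ[𝓝 y] fun _ => (1 : ℝ) := hy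
    rw [this.fderiv_eq]; simp
  have hsub : ∀ x ∈ N, ∀ h : E2, ‖h‖ < ρ → x - h ∉ K1 := by
    intro x hx h hh hK
    refine hNout x hx (thickening_subset_cthickening _ _ (mem_thickening_iff.2 ⟨_, hK, ?_⟩))
    rw [dist_eq_norm, sub_sub_cancel]; exact hh
  -- the compact set of translates
  set A : Set E2 := (fun q : E2 × E2 => q.1 - q.2) '' (N ×ˢ closedBall (0 : E2) t) with hA
  have hAc : IsCompact A := (hNc.prod (isCompact_closedBall _ _)).image (by fun_prop)
  have hAm : ∀ x ∈ N, ∀ h : E2, ‖h‖ ≤ t → x - h ∈ A := fun x hx h hh =>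
    ⟨(x, h), ⟨hx, by simpa using hh⟩, rfl⟩
  have hAK : A ⊆ K1ᶜ := by
    rintro _ ⟨⟨x, h⟩, ⟨hx, hh⟩, rfl⟩
    exact hsub x hx h (lt_of_le_of_lt (by simpa using hh) htρ)
  obtain ⟨g, hg, hgc, hgu⟩ := Crest.Agent.R097.Hm.exists_ext (m := (⊤ : ℕ∞))
    D.sing.cpt.isClosed.isOpen_compl D.sing.smooth hAc hAK
  have hgs : ContDiff ℝ ∞ g := hg
  set b := bet η p with hb
  have hbc : Continuous b := (contDiff_bet D hc).continuous
  have hb0 : ∀ x, x ∉ N → b x = 0 := fun x hx => bet_zero D hc hx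
  -- the function of the translation
  set M : E2 → ℝ := fun h => ∫ x in N, g (x - h) * b x with hM
  have hMc : Continuous M := by
    have hf : Continuous (Function.uncurry fun (h x : E2) => g (x - h) * b x) := by
      have h1 : Continuous fun q : E2 × E2 => g (q.2 - q.1) :=
        hgs.continuous.comp (continuous_snd.sub continuous_fst)
      exact h1.mul (hbc.comp continuous_snd)
    exact continuous_parametric_integral_of_continuous hf hNc
  have hMeq : ∀ h : E2, ‖h‖ ≤ t → Mg η p (mv ζ (-h) 1) = M h := by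
    intro h hh
    rw [Mg_eq_bet D hc (sing_mv D.sing (-h) one_pos) (fun x hx => hc.one x ?_)]
    · rw [hM]
      simp only
      rw [setIntegral_eq_integral_of_forall_compl_eq_zero (fun x hx => by
        rw [hb0 x hx, mul_zero])]
      refine integral_congr_ae (Eventually.of_forall fun x => ?_)
      simp only
      by_cases hx : x ∈ N
      · have h1 := (hgu _ (hAm x hx h hh)).eq_of_nhds
        unfold mv
        have e : -h + (1 : ℝ) • x = x - h := by rw [one_smul]; abel
        rw [e, h1, inv_one, one_mul]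
      · have := hb0 x hx
        rw [hb] at this
        rw [this, mul_zero, hb, this, mul_zero]
    · have hx' : -h + (1 : ℝ) • x ∈ K1 := hx
      refine thickening_subset_cthickening _ _ (mem_thickening_iff.2 ⟨_, hx', ?_⟩)
      rw [dist_eq_norm]
      have e : x - (-h + (1 : ℝ) • x) = h := by rw [one_smul]; abel
      rw [e]; linarith
  have hM0 : Mg η p ζ = M 0 := by
    rw [Mg_eq_bet D hc D.sing (fun x hx => hc.one x (self_subset_cthickening _ hx)), hM]
    simp only
    rw [setIntegral_eq_integral_of_forall_compl_eq_zero (fun x hx => by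
        rw [hb0 x hx, mul_zero])]
    refine integral_congr_ae (Eventually.of_forall fun x => ?_)
    simp only
    by_cases hx : x ∈ N
    · have h1 := (hgu _ (hAm x hx 0 (by simpa using ht.le))).eq_of_nhds
      rw [h1, sub_zero]
    · have := hb0 x hx
      rw [hb] at this
      rw [this, mul_zero, hb, this, mul_zero]
  -- mean value property
  have hmean : ∀ x ∈ N, ∫ h in ball (0 : E2) t, g (x - h) = (volume (ball (0 : E2) t)).toReal * g x := by
    intro x hx
    have h1 := Crest.Agent.R097.Hm.mean_ball (h := g) (x := x) ht (lt_add_one t)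
      ((contDiff_infty.mp hgs 2).contDiffOn) (fun y hy => by
        have hyA : y ∈ A := by
          have := hAm x hx (x - y) (by
            have := mem_ball.1 hy
            rw [dist_comm, dist_eq_norm] at this
            exact this.le)
          rwa [sub_sub_cancel] at this
        rw [Crest.Agent.R097.Hm.lap_congr_at (hgu y hyA)]
        exact D.zharm.2 y (hAK hyA))
    have h2 : ∫ h in ball (0 : E2) t, g (x - h) = ∫ y in ball x t, g y := by
      rw [← integral_indicator measurableSet_ball, ← integral_indicator measurableSet_ball,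
        ← integral_sub_left_eq_self (fun y => (ball x t).indicator g y) volume x]
      refine integral_congr_ae (Eventually.of_forall fun h => ?_)
      have : h ∈ ball (0 : E2) t ↔ x - h ∈ ball x t := by
        rw [mem_ball, mem_ball, dist_eq_norm, dist_eq_norm, sub_zero]
        rw [show x - h - x = -h by abel, norm_neg]
      show (ball (0 : E2) t).indicator (fun h => g (x - h)) h = (ball x t).indicator g (x - h)
      by_cases hb : h ∈ ball (0 : E2) t
      · rw [indicator_of_mem hb, indicator_of_mem (this.1 hb)]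
      · rw [indicator_of_notMem hb, indicator_of_notMem (fun h1 => hb (this.2 h1))]
    have hv : (volume (ball (0 : E2) t)).toReal = (volume (ball x t)).toReal := by
      rw [EuclideanSpace.volume_ball, EuclideanSpace.volume_ball]
    have hv0 : (volume (ball x t)).toReal ≠ 0 :=
      (ENNReal.toReal_pos (measure_ball_pos volume x ht).ne' measure_ball_lt_top.ne).ne'
    rw [h2, h1, setAverage_eq, hv, smul_eq_mul]
    rw [measureReal_def, ← mul_assoc, mul_inv_cancel₀ hv0, one_mul]
  -- Fubini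
  have hfub : ∫ h in ball (0 : E2) t, M h = (volume (ball (0 : E2) t)).toReal * M 0 := by
    have hf : Continuous (Function.uncurry fun (h x : E2) => g (x - h) * b x) := by
      have h1 : Continuous fun q : E2 × E2 => g (q.2 - q.1) :=
        hgs.continuous.comp (continuous_snd.sub continuous_fst)
      exact h1.mul (hbc.comp continuous_snd)
    have hint : Integrable (Function.uncurry fun (h x : E2) => g (x - h) * b x)
        ((volume.restrict (ball (0 : E2) t)).prod (volume.restrict N)) := by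
      rw [Measure.prod_restrict]
      have h1 : IntegrableOn (Function.uncurry fun (h x : E2) => g (x - h) * b x)
          (closedBall (0 : E2) t ×ˢ N) (volume.prod volume) :=
        hf.continuousOn.integrableOn_compact ((isCompact_closedBall _ _).prod hNc)
      exact h1.mono_set (prod_mono ball_subset_closedBall Subset.rfl)
    rw [hM]
    simp only
    rw [integral_integral_swap hint, ← integral_const_mul]
    refine setIntegral_congr_fun hNc.measurableSet fun x hx => ?_
    show ∫ h in ball (0 : E2) t, g (x - h) * b x = _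
    rw [integral_mul_const, hmean x hx, sub_zero]
    ring
  -- conclusion
  have hzero : ∫ h in ball (0 : E2) t, (M h - M 0) = 0 := by
    rw [integral_sub, hfub, setIntegral_const, smul_eq_mul, measureReal_def, sub_self]
    · exact (hMc.continuousOn.integrableOn_compact (isCompact_closedBall (0 : E2) t)).mono_set
        ball_subset_closedBall
    · exact integrableOn_const measure_ball_lt_top.ne
  have hnn : ∀ h ∈ ball (0 : E2) t, 0 ≤ M h - M 0 := by
    intro h hh
    have hh' : ‖h‖ < t := by simpa using hh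
    rw [← hMeq h hh'.le, ← hM0]
    exact hpos h (hh'.trans htρ)
  have hae : (fun h => M h - M 0) =ᵐ[volume.restrict (ball (0 : E2) t)] fun _ => 0 := by
    refine (setIntegral_eq_zero_iff_of_nonneg_ae ?_ ?_).1 hzero
    · exact (ae_restrict_iff' measurableSet_ball).2 (Eventually.of_forall fun h hh => hnn h hh)
    · exact ((hMc.sub continuous_const).continuousOn.integrableOn_compact
        (isCompact_closedBall (0 : E2) t)).mono_set ball_subset_closedBall
  have heq := Measure.eqOn_open_of_ae_eq hae isOpen_ball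
    (hMc.sub continuous_const).continuousOn continuousOn_const
  intro h hh
  have h1 := heq (show h ∈ ball (0 : E2) t by simpa using hh)
  simp only at h1
  rw [hMeq h hh.le, hM0]
  linarith

theorem Mg_trans (D : Dat u K1 K2 ρ ζ ue p) (hc : Cut K1 ρ η)
    (hpos : ∀ h : E2, ‖h‖ < ρ → 0 ≤ Mg η p (mv ζ (-h) 1) - Mg η p ζ) :
    ∀ h : E2, ‖h‖ < ρ → Mg η p (mv ζ (-h) 1) = Mg η p ζ := by
  intro h hh
  have h0 := norm_nonneg h
  exact Mg_trans_aux D hc hpos (t := (‖h‖ + ρ) / 2) (by linarith) (by linarith) h (by linarith)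

end Crest.Agent.R135.Earn
end

-- ▼ part R135/EarnMain
section

/-! # R135, Earnshaw block (helper391): assembly of `no_cluster` -/

set_option autoImplicit false
open MeasureTheory Metric Set Filter Topology Laplacian InnerProductSpace
open scoped RealInnerProductSpace NNReal ENNReal ContDiff Gradient Convolution

namespace Crest.Agent.R135.Earn

open Crest.Agent.R097 (bv Harm laplacian_eq_sum gradient_coord inner_gradient norm_gradient
  exists_cutoff green1)
open Crest.Agent.R135.Reg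

variable {u : E2 → ℝ} {K K1 K2 : Set E2} {ρ : ℝ} {ζ ue p η : E2 → ℝ}

/-- the translation inequality -/
theorem trans_ineq (h : IsQM univ 0 u K) (D : Dat u K1 (K \ K1) ρ ζ ue p) (hsub : K1 ⊆ K)
    (hc : Cut K1 ρ η) {a : E2} {r : ℝ} (hr : 0 < r)
    (hrK : ∀ y, a + r • y ∈ K1 → dist y (a + r • y) < ρ) :
    0 ≤ ((r ^ 2)⁻¹ - 1) * (∫ x, ‖∇ ζ x‖ ^ 2) + 2 * (Mg η p (mv ζ a r) - Mg η p ζ) +
      (r⁻¹ - 1) * (len K1).toReal := by
  have hrK' : rescK K1 a r ⊆ cthickening ρ K1 := by
    intro y hy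
    exact thickening_subset_cthickening _ _ (mem_thickening_iff.2 ⟨_, hy, hrK y hy⟩)
  have h0 : ContDiffOn ℝ 1 (fun _ : E2 => (0 : ℝ)) (rescK K1 a r)ᶜ := contDiffOn_const
  have h1 : MemLp (fun x : E2 => ∇ (fun _ : E2 => (0 : ℝ)) x) 2 volume := by
    have : (fun x : E2 => ∇ (fun _ : E2 => (0 : ℝ)) x) = fun _ => 0 := by
      funext x; simp [gradient]
    rw [this]; exact MemLp.zero
  have m := master_aff h D hsub hc.sm hc.cs hc.supp hc.one hr hrK' h0
    (HasCompactSupport.intro isCompact_empty fun x _ => rfl) h1 0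
  rw [mul_zero, zero_mul, zero_pow two_ne_zero, zero_mul] at m
  linarith

theorem lap_diff {p : E2 → ℝ} (hp : ContDiff ℝ ∞ p) (a y : E2) :
    (Δ (fun y => p (a + y) - p y)) y = (Δ p) (a + y) - (Δ p) y := by
  have hpa : ContDiff ℝ ∞ (fun y => p (a + y)) := hp.comp (by fun_prop)
  have d : ∀ {f : E2 → ℝ}, ContDiff ℝ ∞ f → ∀ x, DifferentiableAt ℝ f x := fun hf x =>
    (hf.differentiable (by simp)).differentiableAt
  have e1 : ∀ v : E2, (fun y => fderiv ℝ (fun y => p (a + y) - p y) y v) =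
      fun y => fderiv ℝ p (a + y) v - fderiv ℝ p y v := by
    intro v; funext y
    rw [fderiv_fun_sub (d hpa y) (d hp y), fderiv_comp_add_left]
    rfl
  have e2 : ∀ v : E2, fderiv ℝ (fun y => fderiv ℝ p (a + y) v - fderiv ℝ p y v) y v =
      fderiv ℝ (fun y => fderiv ℝ p y v) (a + y) v - fderiv ℝ (fun y => fderiv ℝ p y v) y v := by
    intro v
    have h1 := contDiff_fd hp v
    have h2 : ContDiff ℝ ∞ (fun y => fderiv ℝ p (a + y) v) := h1.comp (g := fun y => fderiv ℝ p y v) (by fun_prop)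
    rw [fderiv_fun_sub (d h2 y) (d h1 y), fderiv_comp_add_left (f := fun y => fderiv ℝ p y v)]
    rfl
  rw [lap_two ((contDiff_infty.mp (hpa.sub hp) 2).contDiffAt),
    lap_two ((contDiff_infty.mp hp 2).contDiffAt), lap_two ((contDiff_infty.mp hp 2).contDiffAt)]
  simp only [e1, e2]
  ring

/-- Earnshaw's theorem for cracks: there is no compact relatively open part. -/
theorem no_cluster_aux {u : E2 → ℝ} {K K1 : Set E2} (h : IsQM univ 0 u K) (h1 : IsCompact K1)
    (hsub : K1 ⊆ K) (h2 : IsClosed (K \ K1)) : K1 = ∅ := by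
  obtain ⟨ρ, ζ, ue, p, D⟩ := exists_dat h h1 hsub h2
  have hρ := D.ρpos
  obtain ⟨η, hc⟩ := exists_cut h1 hρ
  -- translations
  have hpos : ∀ a : E2, ‖a‖ < ρ → 0 ≤ Mg η p (mv ζ (-a) 1) - Mg η p ζ := by
    intro a ha
    have m := trans_ineq h D hsub hc (a := -a) (r := 1) one_pos (fun y _ => by
      rw [dist_eq_norm]
      have e : y - (-a + (1 : ℝ) • y) = a := by rw [one_smul]; abel
      rw [e]; exact ha)
    rw [one_pow, inv_one, sub_self, zero_mul, zero_mul] at m
    linarith
  have htr := Mg_trans D hc hpos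
  -- dichotomy
  have hconst : ∀ x ∈ K1, ∀ y ∈ ball x ρ, ∇ p y = ∇ p x := by
    intro x hx
    have hharm : ∀ y ∈ ball x ρ, ∀ a : E2, ‖a‖ < ρ → (Δ p) (a + y) = 0 := by
      intro y hy a ha
      refine D.pharm _ (mem_thickening_iff.2 ⟨x, hx, ?_⟩)
      have h1 := mem_ball.1 hy
      have h2 : dist (a + y) x ≤ ‖a‖ + dist y x := by
        rw [dist_eq_norm, dist_eq_norm]
        have : a + y - x = a + (y - x) := by abel
        rw [this]; exact norm_add_le _ _
      linarith
    have hharm0 : ∀ y ∈ ball x ρ, (Δ p) y = 0 := by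
      intro y hy
      have := hharm y hy 0 (by rw [norm_zero]; exact hρ)
      rwa [zero_add] at this
    refine grad_const_of_dep hρ D.psm hharm0 ?_
    intro y hy z hz
    by_contra hne
    set a := y - x with ha
    set b := z - x with hb
    have ha' : ‖a‖ < ρ := by rw [ha, ← dist_eq_norm]; exact mem_ball.1 hy
    have hb' : ‖b‖ < ρ := by rw [hb, ← dist_eq_norm]; exact mem_ball.1 hz
    have hq : ∀ a : E2, ContDiff ℝ ∞ (fun y => p (a + y) - p y) := fun a =>
      (D.psm.comp (by fun_prop)).sub D.psm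
    have hg : ∀ a : E2, ∇ (fun y => p (a + y) - p y) x = ∇ p (a + x) - ∇ p x := by
      intro a
      have d1 : DifferentiableAt ℝ p (a + x) := (D.psm.differentiable (by simp)).differentiableAt
      have d2 : DifferentiableAt ℝ p x := (D.psm.differentiable (by simp)).differentiableAt
      have d3 : DifferentiableAt ℝ (fun y => p (a + y)) x := d1.comp x (by fun_prop)
      have h1 := grad_comp_aff p a x 1
      simp only [one_smul] at h1
      rw [grad_sub d3 d2, h1]
    have hK : IsClosed K := isOpen_compl_iff.1 (isOpen_compl_K h)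
    obtain ⟨s', hs', hs'', hfr⟩ := frame hK h.volume_K (x := x) hρ (hq a) (hq b)
      (fun y hy => by rw [lap_diff D.psm, hharm y hy a ha', hharm0 y hy, sub_zero])
      (fun y hy => by rw [lap_diff D.psm, hharm y hy b hb', hharm0 y hy, sub_zero])
      (by
        rw [hg, hg]
        have e1 : a + x = y := by rw [ha]; abel
        have e2 : b + x = z := by rw [hb]; abel
        rw [e1, e2]; exact hne)
      (fun φ hφ _ hs hfin => ⟨neumann_diff h D hsub hc htr hx ha' hφ hs hfin,
        neumann_diff h D hsub hc htr hx hb' hφ hs hfin⟩)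
    exact rem_false h (hsub hx) hs' hfr
  -- dilations
  set S := ∫ x, ‖∇ ζ x‖ ^ 2 with hS
  set ℓ := (len K1).toReal with hℓ
  have hMg := Mg_self h D hsub hc
  obtain ⟨Rb, hRb0, hRb⟩ : ∃ Rb : ℝ, 0 < Rb ∧ K1 ⊆ closedBall (0 : E2) Rb := by
    obtain ⟨R, hR⟩ := h1.isBounded.subset_closedBall (0 : E2)
    exact ⟨max R 1, by positivity, hR.trans (closedBall_subset_closedBall (le_max_left _ _))⟩
  have key : ∀ τ : ℝ, 0 < τ → |τ - 1| * Rb < ρ → 0 ≤ -((τ ^ 2 - 1) * S) + (τ - 1) * ℓ := by
    intro τ hτ hτ'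
    have hr : 0 < τ⁻¹ := inv_pos.2 hτ
    have hcl : ∀ x ∈ K1, dist ((τ⁻¹)⁻¹ • (x - 0)) x < ρ := by
      intro x hx
      rw [sub_zero, inv_inv, dist_eq_norm]
      have e : τ • x - x = (τ - 1) • x := by rw [sub_smul, one_smul]
      rw [e, norm_smul, Real.norm_eq_abs]
      refine lt_of_le_of_lt ?_ hτ'
      gcongr
      simpa using hRb hx
    have hD := Mg_dil D hc hconst 0 hr hcl
    have m := trans_ineq h D hsub hc (a := 0) (r := τ⁻¹) hr (fun y hy => by
      have h3 := hcl _ hy
      have e : (τ⁻¹)⁻¹ • (0 + τ⁻¹ • y - 0) = y := by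
        rw [zero_add, sub_zero, smul_smul, inv_inv, mul_inv_cancel₀ hτ.ne', one_smul]
      rw [e] at h3
      exact h3)
    rw [hD, hMg, inv_pow, inv_inv, inv_inv] at m
    nlinarith [m]
  have hS0 : 0 ≤ S := integral_nonneg fun x => by positivity
  have hℓ0 : 0 ≤ ℓ := ENNReal.toReal_nonneg
  obtain ⟨ε, hε0, hε1, hερ⟩ : ∃ ε : ℝ, 0 < ε ∧ ε < 1 ∧ ε * Rb < ρ := by
    refine ⟨min (1 / 2) (ρ / (2 * Rb)), by positivity, ?_, ?_⟩
    · exact lt_of_le_of_lt (min_le_left _ _) (by norm_num)
    · calc min (1 / 2) (ρ / (2 * Rb)) * Rb ≤ ρ / (2 * Rb) * Rb := by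
            gcongr; exact min_le_right _ _
        _ = ρ / 2 := by field_simp
        _ < ρ := by linarith
  have k1 := key (1 + ε) (by linarith) (by
    rw [show (1 + ε - 1 : ℝ) = ε by ring, abs_of_pos hε0]; exact hερ)
  have k2 := key (1 - ε) (by linarith) (by
    rw [show (1 - ε - 1 : ℝ) = -ε by ring, abs_neg, abs_of_pos hε0]; exact hερ)
  have hS1 : S = 0 := by
    have : 0 ≤ -(2 * ε ^ 2 * S) := by nlinarith
    have h3 : 0 < ε ^ 2 := by positivity
    nlinarith
  have hℓ1 : ℓ = 0 := by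
    rw [hS1] at k2
    nlinarith
  -- conclusion
  by_contra hne
  obtain ⟨x, hx⟩ := nonempty_iff_ne_empty.2 hne
  have hlenK1 : len K1 < ⊤ :=
    lt_of_le_of_lt (measure_mono (subset_inter hsub hRb)) (h.len_fin 0 Rb (subset_univ _))
  have hr := h.red x (hsub hx) ρ hρ
  have h3 : len (K ∩ ball x ρ) ≤ len K1 := by
    refine measure_mono fun y hy => ?_
    by_contra hy1
    refine D.sep (mem_thickening_iff.2 ⟨x, hx, ?_⟩) ⟨hy.1, hy1⟩
    have := mem_ball.1 hy.2
    linarith
  have h4 : len K1 = 0 := by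
    rcases (ENNReal.toReal_eq_zero_iff _).1 hℓ1 with h5 | h5
    · exact h5
    · exact absurd h5 hlenK1.ne
  rw [h4] at h3
  exact absurd hr (not_lt.2 h3)

end Crest.Agent.R135.Earn
end

-- ▼ part R135/IF_no_cluster
section

/-! INTERFACE no_cluster: proved in `EarnMain` (helper391). -/

set_option autoImplicit false

open MeasureTheory Set Filter Topology Metric
open scoped ENNReal NNReal ContDiff Gradient
open Crest.AnalysisR.PDE.OnePhase Crest.AnalysisR.PDE.MumfordShah

namespace Crest.Agent.R135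

/-- C1 (EARN): no compact relatively open part -/
theorem no_cluster {u : E2 → ℝ} {K K1 : Set E2} (h : IsQM univ 0 u K) (h1 : IsCompact K1)
    (h1K : K1 ⊆ K) (h2 : IsClosed (K \ K1)) : K1 = ∅ :=
  Earn.no_cluster_aux h h1 h1K h2

end Crest.Agent.R135
end

-- ▼ part R135/IF_component_unbounded_gm

/-! INTERFACE component_unbounded_gm: proved from `no_cluster`. -/

set_option autoImplicit false

open MeasureTheory Set Filter Topology Metric
open scoped ENNReal NNReal ContDiff Gradient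
open Crest.AnalysisR.PDE.OnePhase Crest.AnalysisR.PDE.MumfordShah

namespace Crest.Agent.R135

theorem component_unbounded_gm {u : E2 → ℝ} {K : Set E2} (h : IsQM univ 0 u K) {p : E2}
    (hp : p ∈ K) : ¬ Bornology.IsBounded (connectedComponentIn K p) := by
  have hK : IsClosed K := by
    have h1 := h.closed
    rw [inter_univ] at h1
    exact isClosed_of_closure_subset h1
  refine component_unbounded hK (fun K1 h1 h2 h3 h4 => ?_) hp
  have h5 : IsClosed (K \ K1) := by
    refine isClosed_of_closure_subset fun x hx => ?_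
    refine ⟨?_, fun hx1 => disjoint_left.1 h4 hx1 hx⟩
    exact hK.closure_subset_iff.2 sdiff_subset hx
  exact h2.ne_empty (no_cluster h h1 h3 h5)

end Crest.Agent.R135
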