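import Mathlib
import Crest.Agent.R135.ZFlux1
import Crest.Agent.R135.QMOps
import Crest.Agent.R135.IFDefs
import Crest.Agent.R135.FV0
import Crest.Agent.R135.PolarG
import Crest.Agent.R135.PolarB
import Crest.Agent.R135.LocLip
import Crest.Agent.R135.QMCirc4
import Crest.Agent.R135.IFDefs2
import Crest.Agent.R135.IF_component_unbounded_gm

-- ▼ part R135/ZFlux2
section

/-!
# R135, block ZFlux (helper638), part 2: the side set `W` of an arc and test functions `1_W ζ`
-/

set_option autoImplicit false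

noncomputable section

open MeasureTheory Set Real Topology Filter Metric
open scoped ENNReal NNReal

namespace Crest.Agent.R135.ZF

/-- an open arc of circle off `K` whose two end points are points of `K` with unbounded components -/
structure ArcData (K : Set E2) (x : E2) (r α β : ℝ) : Prop where
  closed : IsClosed K
  hr : 0 < r
  hαβ : α < β
  hβ : β < α + 2 * π
  haK : cpt x r α ∈ K
  ha : ¬ Bornology.IsBounded (connectedComponentIn K (cpt x r α))
  hbK : cpt x r β ∈ K
  hb : ¬ Bornology.IsBounded (connectedComponentIn K (cpt x r β))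
  hI : ∀ θ ∈ Ioo α β, cpt x r θ ∉ K

/-- the closed arc -/
def arcS (x : E2) (r α β : ℝ) : Set E2 := cpt x r '' Icc α β

lemma continuous_cptθ (x : E2) (t : ℝ) : Continuous (fun θ : ℝ => cpt x t θ) :=
  (continuous_cpt x).comp (by fun_prop : Continuous (fun θ : ℝ => (t, θ)))

lemma isCompact_arcS (x : E2) (r α β : ℝ) : IsCompact (arcS x r α β) :=
  isCompact_Icc.image (continuous_cptθ x r)

lemma arcS_subset_sphere {x : E2} {r α β : ℝ} (hr : 0 < r) : arcS x r α β ⊆ sphere x r := by
  rintro _ ⟨θ, _, rfl⟩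
  exact cpt_mem_sphere hr.le

lemma volume_arcS {x : E2} {r α β : ℝ} (hr : 0 < r) : volume (arcS x r α β) = 0 :=
  measure_mono_null (arcS_subset_sphere hr) (Measure.addHaar_sphere volume x r)

lemma dist_cpt_cpt_rad (x : E2) (s t θ : ℝ) : dist (cpt x s θ) (cpt x t θ) = |s - t| := by
  rw [cpt, cpt, dist_eq_norm, add_sub_add_left_eq_sub, ← sub_smul, norm_smul, norm_dir, mul_one,
    Real.norm_eq_abs]

lemma cpt_notMem_arcS {x : E2} {r α β : ℝ} (hr : 0 < r) {s θ : ℝ} (hs : 0 ≤ s) (hsr : s ≠ r) :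
    cpt x s θ ∉ arcS x r α β := by
  intro h
  have h1 := mem_sphere.1 (arcS_subset_sphere hr h)
  rw [dist_cpt, abs_of_nonneg hs] at h1
  exact hsr h1

namespace ArcData

variable {K : Set E2} {x : E2} {r α β : ℝ}

/-- `K`-free thin polar box around a compact part of the open arc -/
lemma exists_box (d : ArcData K x r α β) {α' β' : ℝ} (h1 : α < α') (h2 : β' < β) :
    ∃ ε > 0, ε < r ∧ ∀ φ ∈ Icc α' β', ∀ s, |s - r| ≤ ε → cpt x s φ ∉ K := by
  have hc : IsCompact (cpt x r '' Icc α' β') := isCompact_Icc.image (continuous_cptθ x r)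
  have hsub : cpt x r '' Icc α' β' ⊆ Kᶜ := by
    rintro _ ⟨θ, hθ, rfl⟩
    exact d.hI θ ⟨by linarith [hθ.1], by linarith [hθ.2]⟩
  obtain ⟨ε, hε, hεs⟩ := hc.exists_cthickening_subset_open d.closed.isOpen_compl hsub
  have hr := d.hr
  refine ⟨min ε (r / 2), lt_min hε (by linarith), lt_of_le_of_lt (min_le_right _ _) (by linarith),
    ?_⟩
  intro φ hφ s hs
  apply hεs
  have hmem : cpt x r φ ∈ cpt x r '' Icc α' β' := mem_image_of_mem _ hφ
  refine mem_cthickening_of_dist_le (cpt x s φ) (cpt x r φ) ε _ hmem ?_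
  rw [dist_cpt_cpt_rad]
  exact hs.trans (min_le_left _ _)

lemma isOpen_V (d : ArcData K x r α β) : IsOpen (K ∪ arcS x r α β)ᶜ :=
  (d.closed.union (isCompact_arcS x r α β).isClosed).isOpen_compl

/-- the outer half boxes are preconnected -/
lemma preconn_box (x : E2) {α' β' a b : ℝ} :
    IsPreconnected ((fun p : ℝ × ℝ => cpt x p.1 p.2) '' (Ioc a b ×ˢ Icc α' β')) :=
  ((isPreconnected_Ioc).prod isPreconnected_Icc).image _ (continuous_cpt x).continuousOn

/-- **The side set.** -/
theorem exists_side (d : ArcData K x r α β) :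
    ∃ W : Set E2, IsOpen W ∧ IsOpen ((K ∪ arcS x r α β)ᶜ \ W) ∧ W ⊆ (K ∪ arcS x r α β)ᶜ ∧
      ∀ α' β', α < α' → β' < β → ∃ ε > 0, ε < r ∧ ∀ φ ∈ Icc α' β',
        (∀ s, |s - r| ≤ ε → cpt x s φ ∉ K) ∧ (∀ s ∈ Ioc r (r + ε), cpt x s φ ∈ W) ∧
        (∀ s ∈ Ico (r - ε) r, cpt x s φ ∉ W) := by
  have hr := d.hr
  set V : Set E2 := (K ∪ arcS x r α β)ᶜ with hV
  have hVo : IsOpen V := d.isOpen_V
  set θ0 : ℝ := (α + β) / 2 with hθ0
  have hαβ := d.hαβ
  have hθ0m : θ0 ∈ Ioo α β := ⟨by rw [hθ0]; linarith, by rw [hθ0]; linarith⟩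
  obtain ⟨ε0, hε0, hε0r, hbox0⟩ := d.exists_box (α' := θ0) (β' := θ0) hθ0m.1 hθ0m.2
  set p0 : E2 := cpt x (r + ε0) θ0 with hp0
  have hVmem : ∀ s φ, 0 ≤ s → s ≠ r → cpt x s φ ∉ K → cpt x s φ ∈ V := by
    intro s φ hs hsr hK h
    rcases h with h | h
    · exact hK h
    · exact cpt_notMem_arcS hr hs hsr h
  have hp0V : p0 ∈ V := hVmem _ _ (by linarith) (by linarith [hε0]) (hbox0 θ0 ⟨le_rfl, le_rfl⟩ _
    (by rw [add_sub_cancel_left, abs_of_pos hε0]))
  set W : Set E2 := connectedComponentIn V p0 with hW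
  have hWo : IsOpen W := hVo.connectedComponentIn
  have hWV : W ⊆ V := connectedComponentIn_subset _ _
  refine ⟨W, hWo, ?_, hWV, ?_⟩
  · -- complement in V is open
    rw [isOpen_iff_mem_nhds]
    rintro y ⟨hyV, hyW⟩
    have h1 : connectedComponentIn V y ∈ 𝓝 y :=
      hVo.connectedComponentIn.mem_nhds (mem_connectedComponentIn hyV)
    filter_upwards [h1] with z hz
    refine ⟨connectedComponentIn_subset _ _ hz, fun hzW => hyW ?_⟩
    have e1 := connectedComponentIn_eq hz
    have e2 := connectedComponentIn_eq hzW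
    rw [hW, e2, ← e1]
    exact mem_connectedComponentIn hyV
  · intro α' β' h1 h2
    -- enlarge the interval so that it contains θ0
    have h1' : α < min α' θ0 := lt_min h1 hθ0m.1
    have h2' : max β' θ0 < β := max_lt h2 hθ0m.2
    obtain ⟨ε, hε, hεr, hbox⟩ := d.exists_box h1' h2'
    have hout : ∀ φ ∈ Icc (min α' θ0) (max β' θ0), ∀ s ∈ Ioc r (r + ε), cpt x s φ ∈ W := by
      -- union of the segment above θ0 and the outer box
      have hpc1 : IsPreconnected ((fun p : ℝ × ℝ => cpt x p.1 p.2) '' (Ioc r (r + ε0) ×ˢ Icc θ0 θ0)) :=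
        preconn_box x
      have hpc2 : IsPreconnected ((fun p : ℝ × ℝ => cpt x p.1 p.2) ''
          (Ioc r (r + ε) ×ˢ Icc (min α' θ0) (max β' θ0))) := preconn_box x
      have hθ0' : θ0 ∈ Icc (min α' θ0) (max β' θ0) := ⟨min_le_right _ _, le_max_right _ _⟩
      have hm : r < min (r + ε0) (r + ε) := lt_min (by linarith) (by linarith)
      have hcom1 : cpt x (min (r + ε0) (r + ε)) θ0 ∈
          ((fun p : ℝ × ℝ => cpt x p.1 p.2) '' (Ioc r (r + ε0) ×ˢ Icc θ0 θ0)) :=
        ⟨(_, θ0), ⟨⟨hm, min_le_left _ _⟩, ⟨le_rfl, le_rfl⟩⟩, rfl⟩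
      have hcom2 : cpt x (min (r + ε0) (r + ε)) θ0 ∈ ((fun p : ℝ × ℝ => cpt x p.1 p.2) ''
          (Ioc r (r + ε) ×ˢ Icc (min α' θ0) (max β' θ0))) :=
        ⟨(_, θ0), ⟨⟨hm, min_le_right _ _⟩, hθ0'⟩, rfl⟩
      have hU := hpc1.union _ hcom1 hcom2 hpc2
      have hsub : ((fun p : ℝ × ℝ => cpt x p.1 p.2) '' (Ioc r (r + ε0) ×ˢ Icc θ0 θ0)) ∪
          ((fun p : ℝ × ℝ => cpt x p.1 p.2) '' (Ioc r (r + ε) ×ˢ Icc (min α' θ0) (max β' θ0))) ⊆ V := by
        rintro _ (⟨⟨s, φ⟩, ⟨hs, hφ⟩, rfl⟩ | ⟨⟨s, φ⟩, ⟨hs, hφ⟩, rfl⟩)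
        · simp only at hs hφ
          refine hVmem _ _ (by linarith [hs.1]) (ne_of_gt hs.1) (hbox0 φ hφ s ?_)
          rw [abs_of_pos (by linarith [hs.1])]
          linarith [hs.2]
        · simp only at hs hφ
          refine hVmem _ _ (by linarith [hs.1]) (ne_of_gt hs.1) (hbox φ hφ s ?_)
          rw [abs_of_pos (by linarith [hs.1])]
          linarith [hs.2]
      have hp0m : p0 ∈ ((fun p : ℝ × ℝ => cpt x p.1 p.2) '' (Ioc r (r + ε0) ×ˢ Icc θ0 θ0)) ∪
          ((fun p : ℝ × ℝ => cpt x p.1 p.2) '' (Ioc r (r + ε) ×ˢ Icc (min α' θ0) (max β' θ0))) :=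
        Or.inl ⟨(r + ε0, θ0), ⟨⟨by simp only; linarith, le_rfl⟩, ⟨le_rfl, le_rfl⟩⟩, rfl⟩
      have hkey := hU.subset_connectedComponentIn hp0m hsub
      intro φ hφ s hs
      exact hkey (Or.inr ⟨(s, φ), ⟨hs, hφ⟩, rfl⟩)
    refine ⟨ε, hε, hεr, fun φ hφ => ?_⟩
    have hφ' : φ ∈ Icc (min α' θ0) (max β' θ0) :=
      ⟨(min_le_left _ _).trans hφ.1, hφ.2.trans (le_max_left _ _)⟩
    refine ⟨hbox φ hφ', hout φ hφ', ?_⟩
    intro s hs hsW
    have hpW : cpt x (r + ε) φ ∈ W := hout φ hφ' _ ⟨by linarith, le_rfl⟩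
    have hWc : IsConnected W := ⟨⟨p0, mem_connectedComponentIn hp0V⟩,
      isPreconnected_connectedComponentIn⟩
    have hWpc : IsPathConnected W := (hWo.isConnected_iff_isPathConnected).1 hWc
    have hJ : JoinedIn V (cpt x (r + ε) φ) (cpt x s φ) := (hWpc.joinedIn _ hpW _ hsW).mono hWV
    have hφα : φ ∈ Ioo α β := ⟨h1.trans_le hφ.1, hφ.2.trans_lt h2⟩
    refine sep_arc (K := K) hr d.hαβ d.hβ d.haK d.ha d.hbK d.hb hφα (s1 := r + ε) (s2 := s)
      (by linarith) hs.2 (by linarith [hs.1]) ?_ hJ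
    intro t ht
    apply hbox φ hφ'
    rw [abs_le]
    constructor
    · linarith [hs.1, ht.1]
    · linarith [ht.2]

end ArcData

/-! ### test functions `1_W ζ` -/

/-- `1_W ζ` -/
def cutF (W : Set E2) (ζ : E2 → ℝ) : E2 → ℝ := fun y => W.indicator ζ y

lemma cutF_eventuallyEq_in {W : Set E2} (hW : IsOpen W) (ζ : E2 → ℝ) {y : E2} (hy : y ∈ W) :
    cutF W ζ =ᶠ[𝓝 y] ζ := by
  filter_upwards [hW.mem_nhds hy] with z hz
  simp [cutF, hz]

lemma cutF_eventually_zero {W V : Set E2} (hVW : IsOpen (V \ W)) (ζ : E2 → ℝ) {y : E2}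
    (hyV : y ∈ V) (hy : y ∉ W) : ∀ᶠ z in 𝓝 y, cutF W ζ z = 0 := by
  filter_upwards [hVW.mem_nhds ⟨hyV, hy⟩] with z hz
  simp [cutF, hz.2]

lemma gradient_cutF_in {W : Set E2} (hW : IsOpen W) (ζ : E2 → ℝ) {y : E2} (hy : y ∈ W) :
    gradient (cutF W ζ) y = gradient ζ y :=
  gradient_congr_of_eventuallyEq (cutF_eventuallyEq_in hW ζ hy)

lemma gradient_cutF_out {W V : Set E2} (hVW : IsOpen (V \ W)) (ζ : E2 → ℝ) {y : E2}
    (hyV : y ∈ V) (hy : y ∉ W) : gradient (cutF W ζ) y = 0 :=
  gradient_eq_zero_of_eventually_const 0 (cutF_eventually_zero hVW ζ hyV hy)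

/-- off `K ∪ S` the function `1_W ζ` is locally Lipschitz -/
lemma lipAt_cutF {W V : Set E2} (hW : IsOpen W) (hVW : IsOpen (V \ W)) {ζ : E2 → ℝ}
    (hζ : ∀ y, LipAt ζ y) {y : E2} (hyV : y ∈ V) : LipAt (cutF W ζ) y := by
  by_cases hy : y ∈ W
  · exact (hζ y).congr (cutF_eventuallyEq_in hW ζ hy).symm
  · exact lipAt_of_eventually_const 0 (cutF_eventually_zero hVW ζ hyV hy)

/-- if `ζ = 0` on `S`, then `1_W ζ` is Lipschitz near each point of `S \ K` -/
lemma lipAt_cutF_of_zero {K S W : Set E2} (hK : IsClosed K) (hW : IsOpen W)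
    (hVW : IsOpen ((K ∪ S)ᶜ \ W)) {ζ : E2 → ℝ} {C : ℝ≥0}
    (hζ : LipschitzWith C ζ) (hζ0 : ∀ y ∈ S, ζ y = 0) {y : E2} (hy : y ∉ K) :
    LipAt (cutF W ζ) y := by
  obtain ⟨ε, hε, hεK⟩ := Metric.isOpen_iff.1 hK.isOpen_compl y hy
  refine ⟨C, ball y ε, ball_mem_nhds y hε, ?_⟩
  -- key : from W to the outside within the ball one crosses S
  have key : ∀ p ∈ ball y ε, ∀ q ∈ ball y ε, p ∈ W → q ∉ W → |ζ p| ≤ C * dist p q := by
    intro p hp q hq hpW hqW
    have hseg : segment ℝ p q ⊆ ball y ε := (convex_ball y ε).segment_subset hp hq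
    have hex : ∃ z ∈ segment ℝ p q, z ∈ S := by
      by_contra hcon
      push Not at hcon
      have hsegV : segment ℝ p q ⊆ (K ∪ S)ᶜ := by
        rintro z hz (h | h)
        · exact hεK (hseg hz) h
        · exact hcon z hz h
      have hpc : IsPreconnected (segment ℝ p q) := (convex_segment p q).isPreconnected
      have h1 := hpc W ((K ∪ S)ᶜ \ W) hW hVW (by
        intro z hz
        by_cases h : z ∈ W
        · exact Or.inl h
        · exact Or.inr ⟨hsegV hz, h⟩) ⟨p, left_mem_segment ℝ p q, hpW⟩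
        ⟨q, right_mem_segment ℝ p q, hsegV (right_mem_segment ℝ p q), hqW⟩
      obtain ⟨z, _, hz1, hz2⟩ := h1
      exact hz2.2 hz1
    obtain ⟨z, hz, hzS⟩ := hex
    have h1 : |ζ p| ≤ C * dist p z := by
      have := hζ.dist_le_mul p z
      rw [hζ0 z hzS, Real.dist_eq, sub_zero] at this
      exact this
    have h2 : dist p z ≤ dist p q := by
      rw [dist_comm p z, dist_comm p q]
      have := segment_subset_closedBall_left p q hz
      rw [mem_closedBall, dist_comm q p, dist_comm z p] at *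
      exact this
    exact h1.trans (mul_le_mul_of_nonneg_left h2 C.coe_nonneg)
  apply LipschitzOnWith.of_dist_le_mul
  intro p hp q hq
  by_cases h1 : p ∈ W <;> by_cases h2 : q ∈ W
  · simp only [cutF, indicator_of_mem h1, indicator_of_mem h2]
    exact hζ.dist_le_mul p q
  · simp only [cutF, indicator_of_mem h1, indicator_of_notMem h2]
    rw [Real.dist_eq, sub_zero]
    exact key p hp q hq h1 h2
  · simp only [cutF, indicator_of_notMem h1, indicator_of_mem h2]
    rw [Real.dist_eq, zero_sub, abs_neg, dist_comm]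
    exact key q hq p hp h2 h1
  · simp only [cutF, indicator_of_notMem h1, indicator_of_notMem h2, dist_self]
    positivity


lemma norm_gradient_le {f : E2 → ℝ} {C : ℝ≥0} (hf : LipschitzWith C f) (y : E2) :
    ‖gradient f y‖ ≤ C := by
  rw [gradient, LinearIsometryEquiv.norm_map]
  exact norm_fderiv_le_of_lipschitz ℝ hf

lemma gradient_zero_off_tsupport {f : E2 → ℝ} {y : E2} (hy : y ∉ tsupport f) :
    gradient f y = 0 := by
  apply gradient_eq_zero_of_eventually_const 0
  filter_upwards [(isClosed_tsupport f).isOpen_compl.mem_nhds hy] with z hz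
  exact image_eq_zero_of_notMem_tsupport hz

/-- the standing data: an open set `W`, relatively clopen in the complement of `K ∪ S` -/
structure Side (K S W : Set E2) : Prop where
  closedK : IsClosed K
  compS : IsCompact S
  volS : volume S = 0
  isOpen : IsOpen W
  isOpen_diff : IsOpen ((K ∪ S)ᶜ \ W)
  sub : W ⊆ (K ∪ S)ᶜ

theorem isTest_cutF {K S W : Set E2} (hs : Side K S W) {ζ : E2 → ℝ} {C : ℝ≥0}
    (hζ : LipschitzWith C ζ) (hc : HasCompactSupport ζ) (hζ0 : ∀ y ∈ S, ζ y = 0) :
    IsTest univ K (cutF W ζ) := by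
  refine ⟨?_, ?_, ?_, ?_⟩
  · rw [← compl_eq_univ_sdiff, locallyLipschitzOn_iff_lipAt hs.closedK.isOpen_compl]
    intro y hy
    exact lipAt_cutF_of_zero hs.closedK hs.isOpen hs.isOpen_diff hζ hζ0 hy
  · obtain ⟨M, hM⟩ := hζ.continuous.bounded_above_of_compact_support hc
    refine ⟨M, fun y => ?_⟩
    by_cases hy : y ∈ W
    · simp only [cutF, indicator_of_mem hy]
      exact hM y
    · simp only [cutF, indicator_of_notMem hy, abs_zero]
      exact (norm_nonneg _).trans (hM y)
  · refine ⟨tsupport ζ, hc, subset_univ _, fun y hy => ?_⟩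
    have h0 : ζ y = 0 := image_eq_zero_of_notMem_tsupport hy
    by_cases hyW : y ∈ W
    · simp only [cutF, indicator_of_mem hyW, h0]
    · simp only [cutF, indicator_of_notMem hyW]
  · have hS : ∀ᵐ y : E2, y ∉ S := measure_eq_zero_iff_ae_notMem.1 hs.volS
    have hle : dirE (cutF W ζ) K univ ≤
        ∫⁻ y, (tsupport ζ).indicator (fun _ => (C : ℝ≥0∞) ^ 2) y := by
      unfold dirE
      rw [← lintegral_indicator (MeasurableSet.univ.diff hs.closedK.measurableSet)]
      apply lintegral_mono_ae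
      filter_upwards [hS] with y hyS
      by_cases hyK : y ∈ K
      · rw [indicator_of_notMem (fun h => h.2 hyK)]
        exact zero_le'
      · rw [indicator_of_mem (show y ∈ univ \ K from ⟨mem_univ _, hyK⟩)]
        have hyV : y ∈ (K ∪ S)ᶜ := fun h => h.elim hyK hyS
        by_cases hyW : y ∈ W
        · rw [gradient_cutF_in hs.isOpen ζ hyW]
          by_cases hyt : y ∈ tsupport ζ
          · rw [indicator_of_mem hyt]
            gcongr
            rw [← ofReal_norm_eq_enorm, ← ENNReal.ofReal_coe_nnreal]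
            exact ENNReal.ofReal_le_ofReal (norm_gradient_le hζ y)
          · rw [gradient_zero_off_tsupport hyt]
            simp
        · rw [gradient_cutF_out hs.isOpen_diff ζ hyV hyW]
          simp
    refine hle.trans_lt ?_
    rw [lintegral_indicator (isClosed_tsupport ζ).measurableSet, setLIntegral_const]
    exact ENNReal.mul_lt_top (by simp) hc.measure_lt_top

/-- **Euler-Lagrange equation for the side set.** -/
theorem el_cutF {u : E2 → ℝ} {K S W : Set E2} (h : IsQM univ 0 u K) (hs : Side K S W)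
    {ζ : E2 → ℝ} {C : ℝ≥0} (hζ : LipschitzWith C ζ) (hc : HasCompactSupport ζ)
    (hζ0 : ∀ y ∈ S, ζ y = 0) :
    ∫ y in W, inner ℝ (gradient u y) (gradient ζ y) = 0 := by
  obtain ⟨f, _, hf, hel⟩ := h.el
  have h1 := hel _ (isTest_cutF hs hζ hc hζ0)
  have hf0 : ∀ y, f y = 0 := fun y => abs_eq_zero.1 (le_antisymm (hf y) (abs_nonneg _))
  have h2 : ∫ y in univ, f y * cutF W ζ y = 0 := by simp [hf0]
  rw [h2, neg_zero] at h1
  rw [← h1, ← integral_indicator hs.isOpen.measurableSet,
    ← integral_indicator (MeasurableSet.univ.diff hs.closedK.measurableSet)]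
  have hS : ∀ᵐ y : E2, y ∉ S := measure_eq_zero_iff_ae_notMem.1 hs.volS
  apply integral_congr_ae
  filter_upwards [hS] with y hyS
  by_cases hyK : y ∈ K
  · rw [indicator_of_notMem (s := univ \ K) (fun h => h.2 hyK),
      indicator_of_notMem (fun h => hs.sub h (Or.inl hyK))]
  · rw [indicator_of_mem (show y ∈ univ \ K from ⟨mem_univ _, hyK⟩)]
    have hyV : y ∈ (K ∪ S)ᶜ := fun h => h.elim hyK hyS
    by_cases hyW : y ∈ W
    · rw [indicator_of_mem hyW, gradient_cutF_in hs.isOpen ζ hyW]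
    · rw [indicator_of_notMem hyW, gradient_cutF_out hs.isOpen_diff ζ hyV hyW, inner_zero_right]

end Crest.Agent.R135.ZF
end
end

-- ▼ part R135/ZFlux3
section

/-!
# R135, block ZFlux (helper638), part 3: the competitor `(u + t 1_W η, K ∪ S)`
-/

set_option autoImplicit false

noncomputable section

open MeasureTheory Set Real Topology Filter Metric
open scoped ENNReal NNReal

namespace Crest.Agent.R135.ZF

lemma measurable_gradient' (f : E2 → ℝ) : Measurable (gradient f) := by
  unfold gradient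
  exact (InnerProductSpace.toDual ℝ E2).symm.continuous.measurable.comp (measurable_fderiv ℝ f)

lemma sdiff_ae_eq {B N : Set E2} (hN : volume N = 0) : (B \ N : Set E2) =ᵐ[volume] B := by
  refine (ae_eq_set).2 ⟨?_, ?_⟩
  · have : (B \ N) \ B = ∅ := by ext y; constructor
                                 · rintro ⟨h1, h2⟩; exact h2 h1.1
                                 · rintro ⟨⟩
    rw [this]; exact measure_empty
  · refine measure_mono_null ?_ hN
    rintro y ⟨h1, h2⟩
    by_contra h3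
    exact h2 ⟨h1, h3⟩

/-- bilinear expansion -/
lemma integral_norm_add_smul_sq {μ : Measure E2} {G H : E2 → E2} (hG : MemLp G 2 μ)
    (hH : MemLp H 2 μ) (t : ℝ) :
    ∫ y, ‖G y + t • H y‖ ^ 2 ∂μ = ∫ y, ‖G y‖ ^ 2 ∂μ + 2 * t * ∫ y, inner ℝ (G y) (H y) ∂μ +
      t ^ 2 * ∫ y, ‖H y‖ ^ 2 ∂μ := by
  have e : ∀ y, ‖G y + t • H y‖ ^ 2 = ‖G y‖ ^ 2 + (2 * t) * inner ℝ (G y) (H y) +
      t ^ 2 * ‖H y‖ ^ 2 := by
    intro y
    rw [norm_add_sq_real, inner_smul_right, norm_smul, mul_pow, Real.norm_eq_abs, sq_abs]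
    ring
  simp_rw [e]
  have i1 := Gl.integrable_normsq hG
  have i2 := (Gl.integrable_inner2 hG hH).const_mul (2 * t)
  have i3 := (Gl.integrable_normsq hH).const_mul (t ^ 2)
  have i12 : Integrable (fun y => ‖G y‖ ^ 2 + (2 * t) * inner ℝ (G y) (H y)) μ := i1.add i2
  rw [integral_add i12 i3, integral_add i1 i2, integral_const_mul, integral_const_mul]

/-- **The competitor inequality.** -/
theorem comp_ineq {u : E2 → ℝ} {K S W : Set E2} (h : IsQM univ 0 u K) (hs : Side K S W)
    {x : E2} {R : ℝ} (hR : 0 < R) (hSR : S ⊆ closedBall x R) (hSl : len S < ⊤)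
    {η : E2 → ℝ} {C : ℝ≥0} (hη : LipschitzWith C η) (hη0 : ∀ y, y ∉ closedBall x R → η y = 0)
    (t : ℝ) :
    0 ≤ (len S).toReal + 2 * t * (∫ y in W, inner ℝ (gradient u y) (gradient η y)) +
      t ^ 2 * (∫ y in W, ‖gradient η y‖ ^ 2) := by
  set L : Set E2 := K ∪ S with hL
  set B : Set E2 := closedBall x R with hB
  set w : E2 → ℝ := fun y => u y + t * cutF W η y with hw
  have hLo : IsOpen Lᶜ := (hs.closedK.union hs.compS.isClosed).isOpen_compl
  have hKfin : len (K ∩ B) < ⊤ := h.len_fin x R (subset_univ _)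
  have hlenL : len (L ∩ B) ≤ len (K ∩ B) + len S := by
    unfold len
    refine (measure_mono ?_).trans (measure_union_le _ _)
    rintro y ⟨h1 | h1, h2⟩
    · exact Or.inl ⟨h1, h2⟩
    · exact Or.inr h1
  have hηLip : ∀ y, LipAt η y := fun y => ⟨C, univ, univ_mem, hη.lipschitzOnWith⟩
  have hcomp : IsComp univ u K x R w L := by
    refine ⟨subset_univ _, ?_, ?_, ?_, ?_, ?_, ?_⟩
    · rw [(hs.closedK.union hs.compS.isClosed).closure_eq]
      exact inter_subset_left
    · exact hlenL.trans_lt (ENNReal.add_lt_top.2 ⟨hKfin, hSl⟩)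
    · ext y
      constructor
      · rintro ⟨h1 | h1, h2⟩
        · exact ⟨h1, h2⟩
        · exact absurd (hSR h1) h2
      · rintro ⟨h1, h2⟩
        exact ⟨Or.inl h1, h2⟩
    · rw [← compl_eq_univ_sdiff, locallyLipschitzOn_iff_lipAt hLo]
      intro y hy
      have hyK : y ∈ univ \ K := ⟨mem_univ _, fun h => hy (Or.inl h)⟩
      exact (h.lipAt hyK).add ((lipAt_const t y).mul
        (lipAt_cutF hs.isOpen hs.isOpen_diff hηLip hy))
    · rintro y ⟨_, h2⟩
      have h3 : y ∉ closedBall x R := fun h => h2 (Or.inr h)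
      have h4 : cutF W η y = 0 := by
        by_cases hyW : y ∈ W
        · simp only [cutF, indicator_of_mem hyW, hη0 y h3]
        · simp only [cutF, indicator_of_notMem hyW]
      simp only [hw, h4]
      ring
    · intro c hc
      exact ⟨c, fun y hy => hc y ⟨hy.1, fun h => hy.2 (Or.inl h)⟩, fun y _ => rfl⟩
  have hmin := h.min x R hR (subset_univ _) w L hcomp
  -- cancel the length
  have hmin2 : dirE u K B ≤ dirE w L B + len S := by
    have h1 : dirE u K B + len (K ∩ B) ≤ dirE w L B + len S + len (K ∩ B) := by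
      have h2 : enE u K B ≤ enE w L B := by simpa using hmin
      unfold enE at h2
      refine h2.trans ?_
      rw [add_assoc, add_comm (len S)]
      gcongr
    exact (ENNReal.add_le_add_iff_right hKfin.ne).1 h1
  -- real form
  set μ : Measure E2 := volume.restrict B with hμ
  set H : E2 → E2 := W.indicator (gradient η) with hH
  have hK0 : volume K = 0 := h.volume_K
  have hL0 : volume L = 0 := measure_union_null hK0 hs.volS
  have hBm : MeasurableSet B := isClosed_closedBall.measurableSet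
  have hG2 : MemLp (gradient u) 2 μ := by
    refine Gl.memLp_two_of_lintegral (measurable_gradient' u).aestronglyMeasurable ?_
    have h1 : dirE u K B < ⊤ := h.dir_fin x R (subset_univ _)
    unfold dirE at h1
    rwa [Measure.restrict_congr_set (sdiff_ae_eq hK0)] at h1
  have hHm : Measurable H := (measurable_gradient' η).indicator hs.isOpen.measurableSet
  have hHb : ∀ y, ‖H y‖ ≤ C := by
    intro y
    by_cases hy : y ∈ W
    · rw [hH, indicator_of_mem hy]; exact norm_gradient_le hη y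
    · rw [hH, indicator_of_notMem hy, norm_zero]; exact C.coe_nonneg
  have hfin : IsFiniteMeasure μ :=
    ⟨by rw [hμ, Measure.restrict_apply_univ]; exact measure_closedBall_lt_top⟩
  have hH2 : MemLp H 2 μ := MemLp.of_bound hHm.aestronglyMeasurable C (ae_of_all _ hHb)
  have hGH : MemLp (fun y => gradient u y + t • H y) 2 μ := hG2.add (hH2.const_smul t)
  have e1 : dirE u K B = ENNReal.ofReal (∫ y, ‖gradient u y‖ ^ 2 ∂μ) := by
    rw [← Gl.lintegral_sq_eq hG2]
    unfold dirE
    rw [Measure.restrict_congr_set (sdiff_ae_eq hK0)]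
  have hηd : ∀ᵐ y : E2, DifferentiableAt ℝ η y := hη.ae_differentiableAt
  have hLm : MeasurableSet L := (hs.closedK.union hs.compS.isClosed).measurableSet
  have e2 : dirE w L B = ENNReal.ofReal (∫ y, ‖gradient u y + t • H y‖ ^ 2 ∂μ) := by
    rw [← Gl.lintegral_sq_eq hGH]
    unfold dirE
    rw [hμ, ← Measure.restrict_congr_set (sdiff_ae_eq (B := B) hL0)]
    apply lintegral_congr_ae
    filter_upwards [ae_restrict_mem (hBm.diff hLm), ae_restrict_of_ae hηd] with y hy hyd
    have hyV : y ∈ (K ∪ S)ᶜ := hy.2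
    have hyK : y ∈ univ \ K := ⟨mem_univ _, fun h => hyV (Or.inl h)⟩
    have hdu : HasGradientAt u (gradient u y) y := h.hasGradientAt hyK
    have : gradient w y = gradient u y + t • H y := by
      by_cases hyW : y ∈ W
      · have h1 : w =ᶠ[𝓝 y] fun z => u z + t * η z := by
          filter_upwards [cutF_eventuallyEq_in hs.isOpen η hyW] with z hz
          simp only [hw, hz]
        rw [gradient_congr_of_eventuallyEq h1, hH, indicator_of_mem hyW]
        have h2 : HasFDerivAt (fun z => u z + t * η z) (fderiv ℝ u y + t • fderiv ℝ η y) y :=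
          hdu.hasFDerivAt.differentiableAt.hasFDerivAt.add (hyd.hasFDerivAt.const_mul t)
        simp only [gradient]
        rw [h2.fderiv, map_add, map_smul]
      · have h1 : w =ᶠ[𝓝 y] u := by
          filter_upwards [cutF_eventually_zero hs.isOpen_diff η hyV hyW] with z hz
          simp only [hw, hz]
          ring
        rw [gradient_congr_of_eventuallyEq h1, hH, indicator_of_notMem hyW, smul_zero, add_zero]
    simp only [this]
  rw [e1, e2, integral_norm_add_smul_sq hG2 hH2 t] at hmin2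
  -- identify the integrals over W
  have hgr0 : ∀ y, y ∉ B → gradient η y = 0 := by
    intro y hy
    apply gradient_eq_zero_of_eventually_const 0
    filter_upwards [isClosed_closedBall.isOpen_compl.mem_nhds hy] with z hz
    exact hη0 z hz
  have i1 : ∫ y, inner ℝ (gradient u y) (H y) ∂μ =
      ∫ y in W, inner ℝ (gradient u y) (gradient η y) := by
    rw [hμ, ← integral_indicator hBm, ← integral_indicator hs.isOpen.measurableSet]
    apply integral_congr_ae
    refine ae_of_all _ fun y => ?_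
    by_cases hy : y ∈ B <;> by_cases hyW : y ∈ W
    · rw [indicator_of_mem hy, indicator_of_mem hyW, hH, indicator_of_mem hyW]
    · rw [indicator_of_mem hy, indicator_of_notMem hyW, hH, indicator_of_notMem hyW,
        inner_zero_right]
    · rw [indicator_of_notMem hy, indicator_of_mem hyW, hgr0 y hy, inner_zero_right]
    · rw [indicator_of_notMem hy, indicator_of_notMem hyW]
  have i2 : ∫ y, ‖H y‖ ^ 2 ∂μ = ∫ y in W, ‖gradient η y‖ ^ 2 := by
    rw [hμ, ← integral_indicator hBm, ← integral_indicator hs.isOpen.measurableSet]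
    apply integral_congr_ae
    refine ae_of_all _ fun y => ?_
    by_cases hy : y ∈ B <;> by_cases hyW : y ∈ W
    · rw [indicator_of_mem hy, indicator_of_mem hyW, hH, indicator_of_mem hyW]
    · rw [indicator_of_mem hy, indicator_of_notMem hyW, hH, indicator_of_notMem hyW,
        norm_zero, zero_pow two_ne_zero]
    · rw [indicator_of_notMem hy, indicator_of_mem hyW, hgr0 y hy, norm_zero,
        zero_pow two_ne_zero]
    · rw [indicator_of_notMem hy, indicator_of_notMem hyW]
  rw [i1, i2] at hmin2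
  have hpos : 0 ≤ ∫ y, ‖gradient u y‖ ^ 2 ∂μ := integral_nonneg fun y => by positivity
  set a := ∫ y, ‖gradient u y‖ ^ 2 ∂μ with ha
  set b := ∫ y in W, inner ℝ (gradient u y) (gradient η y) with hb
  set c := ∫ y in W, ‖gradient η y‖ ^ 2 with hc
  have hnn : 0 ≤ a + 2 * t * b + t ^ 2 * c := by
    have h1 := integral_norm_add_smul_sq hG2 hH2 t
    rw [i1, i2] at h1
    rw [← h1]
    exact integral_nonneg fun y => by positivity
  rw [← ENNReal.ofReal_toReal hSl.ne, ← ENNReal.ofReal_add hnn ENNReal.toReal_nonneg,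
    ENNReal.ofReal_le_ofReal_iff (by positivity)] at hmin2
  linarith

/-- The linear term is controlled by the energy of the cut-off. -/
theorem flux_sq_le {u : E2 → ℝ} {K S W : Set E2} (h : IsQM univ 0 u K) (hs : Side K S W)
    {x : E2} {R : ℝ} (hR : 0 < R) (hSR : S ⊆ closedBall x R) (hSl : len S < ⊤)
    {η : E2 → ℝ} {C : ℝ≥0} (hη : LipschitzWith C η) (hη0 : ∀ y, y ∉ closedBall x R → η y = 0) :
    (∫ y in W, inner ℝ (gradient u y) (gradient η y)) ^ 2 ≤
      (len S).toReal * ∫ y in W, ‖gradient η y‖ ^ 2 := by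
  set f := ∫ y in W, inner ℝ (gradient u y) (gradient η y) with hf
  set c := ∫ y in W, ‖gradient η y‖ ^ 2 with hc
  have hc0 : 0 ≤ c := integral_nonneg fun y => by positivity
  have hl0 : 0 ≤ (len S).toReal := ENNReal.toReal_nonneg
  have key := fun t : ℝ => comp_ineq h hs hR hSR hSl hη hη0 t
  simp only [← hf, ← hc] at key
  have h1 := discrim_le_zero (a := c) (b := 2 * f) (c := (len S).toReal) (fun t => by
    have := key t
    linarith [this, sq t])
  unfold discrim at h1
  nlinarith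

/-- **No flux**: `∫_W ⟨∇u, ∇κ⟩ = 0` for all Lipschitz compactly supported `κ` equal to `1` on `S`,
provided cut-offs of arbitrarily small energy exist. -/
theorem flux_zero {u : E2 → ℝ} {K S W : Set E2} (h : IsQM univ 0 u K) (hs : Side K S W)
    (hSl : len S < ⊤)
    (hcut : ∀ ε > (0 : ℝ), ∃ (x : E2) (R : ℝ) (η : E2 → ℝ) (C : ℝ≥0), 0 < R ∧ S ⊆ closedBall x R ∧
      LipschitzWith C η ∧ (∀ y, y ∉ closedBall x R → η y = 0) ∧ (∀ y ∈ S, η y = 1) ∧
      ∫⁻ y, ‖gradient η y‖ₑ ^ 2 ≤ ENNReal.ofReal ε)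
    {κ : E2 → ℝ} {C : ℝ≥0} (hκ : LipschitzWith C κ) (hκc : HasCompactSupport κ)
    (hκ1 : ∀ y ∈ S, κ y = 1) :
    ∫ y in W, inner ℝ (gradient u y) (gradient κ y) = 0 := by
  set f := ∫ y in W, inner ℝ (gradient u y) (gradient κ y) with hf
  have hl0 : 0 ≤ (len S).toReal := ENNReal.toReal_nonneg
  have key : ∀ ε > (0 : ℝ), f ^ 2 ≤ (len S).toReal * ε := by
    intro ε hε
    obtain ⟨x, R, η, C', hR, hSR, hη, hη0, hη1, hηE⟩ := hcut ε hε
    have hηc : HasCompactSupport η := HasCompactSupport.intro (isCompact_closedBall x R) hη0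
    have h1 := flux_sq_le h hs hR hSR hSl hη hη0
    have h2 := el_cutF h hs (hη.sub hκ) (hηc.sub hκc) (fun y hy => by
      simp [hη1 y hy, hκ1 y hy])
    -- relation of the two linear terms
    obtain ⟨R', hR', hsub⟩ : ∃ R', 0 < R' ∧ tsupport κ ∪ closedBall x R ⊆ closedBall x R' := by
      obtain ⟨R', hR'⟩ := (hκc.isBounded.union isBounded_closedBall).subset_closedBall_lt 0 x
      exact ⟨R', hR'.1, hR'.2⟩
    have hgη : ∀ y, y ∉ closedBall x R' → gradient η y = 0 := by
      intro y hy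
      apply gradient_eq_zero_of_eventually_const 0
      have : y ∉ closedBall x R := fun h => hy (hsub (Or.inr h))
      filter_upwards [isClosed_closedBall.isOpen_compl.mem_nhds this] with z hz
      exact hη0 z hz
    have hgκ : ∀ y, y ∉ closedBall x R' → gradient κ y = 0 := fun y hy =>
      gradient_zero_off_tsupport (fun h => hy (hsub (Or.inl h)))
    have hint : ∀ (g : E2 → E2) (D : ℝ), Measurable g → (∀ y, ‖g y‖ ≤ D) →
        (∀ y, y ∉ closedBall x R' → g y = 0) →
        IntegrableOn (fun y => (inner ℝ (gradient u y) (g y) : ℝ)) W := by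
      intro g D hgm hgb hg0
      have hfin : IsFiniteMeasure (volume.restrict (closedBall x R')) :=
        ⟨by rw [Measure.restrict_apply_univ]; exact measure_closedBall_lt_top⟩
      have hG2 : MemLp (gradient u) 2 (volume.restrict (closedBall x R')) := by
        refine Gl.memLp_two_of_lintegral (measurable_gradient' u).aestronglyMeasurable ?_
        have h1 : dirE u K (closedBall x R') < ⊤ := h.dir_fin x R' (subset_univ _)
        unfold dirE at h1
        rwa [Measure.restrict_congr_set (sdiff_ae_eq h.volume_K)] at h1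
      have hH2 : MemLp g 2 (volume.restrict (closedBall x R')) :=
        MemLp.of_bound hgm.aestronglyMeasurable D (ae_of_all _ hgb)
      have h3 : IntegrableOn (fun y => (inner ℝ (gradient u y) (g y) : ℝ)) (closedBall x R') :=
        Gl.integrable_inner2 hG2 hH2
      have h4 : Integrable (fun y => (inner ℝ (gradient u y) (g y) : ℝ)) := by
        rw [← integrableOn_univ, ← union_compl_self (closedBall x R')]
        refine h3.union ?_
        have h5 : EqOn (fun _ : E2 => (0 : ℝ)) (fun y => (inner ℝ (gradient u y) (g y) : ℝ))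
            (closedBall x R')ᶜ := by
          intro y hy
          simp only [hg0 y hy, inner_zero_right]
        exact (integrableOn_zero).congr_fun h5 isClosed_closedBall.measurableSet.compl
      exact h4.integrableOn
    have h3 : ∫ y in W, inner ℝ (gradient u y) (gradient η y) = f := by
      have h5 : ∫ y in W, inner ℝ (gradient u y) (gradient (fun x => η x - κ x) y) =
          (∫ y in W, inner ℝ (gradient u y) (gradient η y)) - f := by
        rw [hf, ← integral_sub (hint _ C' (measurable_gradient' η) (norm_gradient_le hη) hgη)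
          (hint _ C (measurable_gradient' κ) (norm_gradient_le hκ) hgκ)]
        apply integral_congr_ae
        filter_upwards [ae_restrict_of_ae (hη.ae_differentiableAt (μ := volume)),
          ae_restrict_of_ae (hκ.ae_differentiableAt (μ := volume))] with y h1 h2
        rw [← inner_sub_right]
        congr 1
        simp only [gradient]
        rw [fderiv_fun_sub h1 h2, map_sub]
      rw [h5] at h2
      linarith
    rw [h3] at h1
    have h4 : ∫ y in W, ‖gradient η y‖ ^ 2 ≤ ε := by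
      have hη2 : ∫⁻ y in W, ‖gradient η y‖ₑ ^ 2 ≤ ENNReal.ofReal ε :=
        (setLIntegral_le_lintegral _ _).trans hηE
      have hm2 : MemLp (gradient η) 2 (volume.restrict W) :=
        Gl.memLp_two_of_lintegral (measurable_gradient' η).aestronglyMeasurable
          (hη2.trans_lt ENNReal.ofReal_lt_top)
      rw [Gl.lintegral_sq_eq hm2] at hη2
      exact (ENNReal.ofReal_le_ofReal_iff hε.le).1 hη2
    calc f ^ 2 ≤ _ := h1
      _ ≤ _ := mul_le_mul_of_nonneg_left h4 hl0
  by_contra hne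
  have hf2 : 0 < f ^ 2 := by positivity
  have h5 := key (f ^ 2 / (2 * ((len S).toReal + 1))) (by positivity)
  have h6 : (len S).toReal * (f ^ 2 / (2 * ((len S).toReal + 1))) ≤ f ^ 2 / 2 := by
    rw [mul_div_assoc', div_le_div_iff₀ (by positivity) (by positivity)]
    nlinarith
  linarith

end Crest.Agent.R135.ZF
end
end

-- ▼ part R135/ZFlux4
section

/-!
# R135, block ZFlux (helper638), part 4: cut-offs near the end points, ramps, angles
-/

set_option autoImplicit false

noncomputable section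

open MeasureTheory Set Real Topology Filter Metric
open scoped ENNReal NNReal ContDiff

namespace Crest.Agent.R135.ZF

/-! ### cut-offs at a point -/

/-- fixed smooth bump function -/
def bump0 : ContDiffBump (0 : E2) := ⟨1, 2, zero_lt_one, one_lt_two⟩

/-- the bump function -/
def chi0 (y : E2) : ℝ := bump0 y

lemma chi0_contDiff : ContDiff ℝ 1 chi0 := bump0.contDiff

lemma chi0_nonneg (y : E2) : 0 ≤ chi0 y := bump0.nonneg

lemma chi0_le_one (y : E2) : chi0 y ≤ 1 := bump0.le_one

lemma chi0_one {y : E2} (hy : ‖y‖ ≤ 1) : chi0 y = 1 :=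
  bump0.one_of_mem_closedBall (by rw [mem_closedBall, dist_zero_right]; exact hy)

lemma chi0_zero {y : E2} (hy : 2 ≤ ‖y‖) : chi0 y = 0 :=
  bump0.zero_of_le_dist (by rw [dist_zero_right]; exact hy)

lemma chi0_lip : ∃ C : ℝ≥0, LipschitzWith C chi0 :=
  chi0_contDiff.lipschitzWith_of_hasCompactSupport bump0.hasCompactSupport (by norm_num)

/-- Lipschitz constant of the bump -/
def C0 : ℝ≥0 := chi0_lip.choose

lemma chi0_lipC : LipschitzWith C0 chi0 := chi0_lip.choose_spec

/-- cut-off vanishing on `closedBall a ρ`, equal to `1` off `ball a (2ρ)` -/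
def mz (a : E2) (ρ : ℝ) (y : E2) : ℝ := 1 - chi0 (ρ⁻¹ • (y - a))

lemma mz_nonneg (a : E2) (ρ : ℝ) (y : E2) : 0 ≤ mz a ρ y := by
  have := chi0_le_one (ρ⁻¹ • (y - a)); unfold mz; linarith

lemma mz_le_one (a : E2) (ρ : ℝ) (y : E2) : mz a ρ y ≤ 1 := by
  have := chi0_nonneg (ρ⁻¹ • (y - a)); unfold mz; linarith

lemma norm_scaled {a : E2} {ρ : ℝ} (hρ : 0 < ρ) (y : E2) :
    ‖ρ⁻¹ • (y - a)‖ = dist y a / ρ := by
  rw [norm_smul, norm_inv, Real.norm_of_nonneg hρ.le, dist_eq_norm, div_eq_inv_mul]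

lemma mz_zero {a : E2} {ρ : ℝ} (hρ : 0 < ρ) {y : E2} (hy : dist y a ≤ ρ) : mz a ρ y = 0 := by
  unfold mz
  rw [chi0_one, sub_self]
  rw [norm_scaled hρ, div_le_one hρ]
  exact hy

lemma mz_one {a : E2} {ρ : ℝ} (hρ : 0 < ρ) {y : E2} (hy : 2 * ρ ≤ dist y a) : mz a ρ y = 1 := by
  unfold mz
  rw [chi0_zero, sub_zero]
  rw [norm_scaled hρ, le_div_iff₀ hρ]
  exact hy

lemma mz_contDiff (a : E2) (ρ : ℝ) : ContDiff ℝ 1 (mz a ρ) := by
  unfold mz
  exact contDiff_const.sub (chi0_contDiff.comp ((contDiff_id.sub contDiff_const).const_smul ρ⁻¹))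

lemma mz_lip (a : E2) {ρ : ℝ} (hρ : 0 < ρ) : LipschitzWith (C0 * (Real.toNNReal ρ)⁻¹) (mz a ρ) := by
  apply LipschitzWith.of_dist_le_mul
  intro y z
  have h1 := chi0_lipC.dist_le_mul (ρ⁻¹ • (y - a)) (ρ⁻¹ • (z - a))
  have h2 : dist (ρ⁻¹ • (y - a)) (ρ⁻¹ • (z - a)) = ρ⁻¹ * dist y z := by
    rw [dist_eq_norm, ← smul_sub, norm_smul, norm_inv, Real.norm_of_nonneg hρ.le,
      sub_sub_sub_cancel_right, dist_eq_norm]
  rw [h2] at h1
  unfold mz
  rw [dist_sub_left, NNReal.coe_mul, NNReal.coe_inv, Real.coe_toNNReal _ hρ.le, mul_assoc]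
  exact h1

lemma lip_mul {f g : E2 → ℝ} {Cf Cg : ℝ≥0} (hf : LipschitzWith Cf f) (hg : LipschitzWith Cg g)
    (hf1 : ∀ y, |f y| ≤ 1) (hg1 : ∀ y, |g y| ≤ 1) :
    LipschitzWith (Cf + Cg) (fun y => f y * g y) := by
  apply LipschitzWith.of_dist_le_mul
  intro y z
  have e : f y * g y - f z * g z = f y * (g y - g z) + g z * (f y - f z) := by ring
  have a1 : |g y - g z| ≤ Cg * dist y z := by rw [← Real.dist_eq]; exact hg.dist_le_mul y z
  have a2 : |f y - f z| ≤ Cf * dist y z := by rw [← Real.dist_eq]; exact hf.dist_le_mul y z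
  rw [Real.dist_eq, e]
  calc |f y * (g y - g z) + g z * (f y - f z)|
      ≤ |f y| * |g y - g z| + |g z| * |f y - f z| := by
        refine (abs_add_le _ _).trans ?_
        rw [abs_mul, abs_mul]
    _ ≤ 1 * (Cg * dist y z) + 1 * (Cf * dist y z) := by
        gcongr
        · exact hf1 y
        · exact hg1 z
    _ = _ := by push_cast; ring

/-- cut-off vanishing near two points -/
def mab (a b : E2) (ρ : ℝ) (y : E2) : ℝ := mz a ρ y * mz b ρ y

lemma mab_nonneg (a b : E2) (ρ : ℝ) (y : E2) : 0 ≤ mab a b ρ y :=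
  mul_nonneg (mz_nonneg _ _ _) (mz_nonneg _ _ _)

lemma mab_le_one (a b : E2) (ρ : ℝ) (y : E2) : mab a b ρ y ≤ 1 :=
  mul_le_one₀ (mz_le_one _ _ _) (mz_nonneg _ _ _) (mz_le_one _ _ _)

lemma abs_mz_le (a : E2) (ρ : ℝ) (y : E2) : |mz a ρ y| ≤ 1 := by
  rw [abs_of_nonneg (mz_nonneg _ _ _)]; exact mz_le_one _ _ _

lemma abs_mab_le (a b : E2) (ρ : ℝ) (y : E2) : |mab a b ρ y| ≤ 1 := by
  rw [abs_of_nonneg (mab_nonneg _ _ _ _)]; exact mab_le_one _ _ _ _

/-- Lipschitz constant of `mab` -/
def Cρ (ρ : ℝ) : ℝ≥0 := C0 * (Real.toNNReal ρ)⁻¹ + C0 * (Real.toNNReal ρ)⁻¹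

lemma mab_lip (a b : E2) {ρ : ℝ} (hρ : 0 < ρ) : LipschitzWith (Cρ ρ) (mab a b ρ) :=
  lip_mul (mz_lip a hρ) (mz_lip b hρ) (abs_mz_le a ρ) (abs_mz_le b ρ)

lemma mab_contDiff (a b : E2) (ρ : ℝ) : ContDiff ℝ 1 (mab a b ρ) :=
  (mz_contDiff a ρ).mul (mz_contDiff b ρ)

lemma mab_ne_zero {a b : E2} {ρ : ℝ} (hρ : 0 < ρ) {y : E2} (hy : mab a b ρ y ≠ 0) :
    ρ < dist y a ∧ ρ < dist y b := by
  constructor
  · by_contra h
    exact hy (by unfold mab; rw [mz_zero hρ (not_lt.1 h), zero_mul])
  · by_contra h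
    exact hy (by unfold mab; rw [mz_zero hρ (not_lt.1 h), mul_zero])

lemma mab_one {a b : E2} {ρ : ℝ} (hρ : 0 < ρ) {y : E2} (ha : 2 * ρ ≤ dist y a)
    (hb : 2 * ρ ≤ dist y b) : mab a b ρ y = 1 := by
  unfold mab; rw [mz_one hρ ha, mz_one hρ hb, mul_one]

lemma gradient_mab_zero {a b : E2} {ρ : ℝ} (hρ : 0 < ρ) {y : E2} (ha : 2 * ρ < dist y a)
    (hb : 2 * ρ < dist y b) : gradient (mab a b ρ) y = 0 := by
  apply gradient_eq_zero_of_eventually_const 1
  have h1 : ∀ᶠ z in 𝓝 y, 2 * ρ < dist z a :=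
    (continuous_id.dist continuous_const).continuousAt.eventually_const_lt ha
  have h2 : ∀ᶠ z in 𝓝 y, 2 * ρ < dist z b :=
    (continuous_id.dist continuous_const).continuousAt.eventually_const_lt hb
  filter_upwards [h1, h2] with z hz1 hz2
  exact mab_one hρ hz1.le hz2.le

/-! ### the ramp -/

/-- ramp: `1` on `S`, `0` at distance `≥ δ` -/
def ramp (S : Set E2) (δ : ℝ) (y : E2) : ℝ := 1 - min 1 (δ⁻¹ * infDist y S)

lemma ramp_nonneg (S : Set E2) (δ : ℝ) (y : E2) : 0 ≤ ramp S δ y := by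
  unfold ramp; linarith [min_le_left 1 (δ⁻¹ * infDist y S)]

lemma ramp_le_one (S : Set E2) {δ : ℝ} (hδ : 0 < δ) (y : E2) : ramp S δ y ≤ 1 := by
  have : 0 ≤ min 1 (δ⁻¹ * infDist y S) :=
    le_min zero_le_one (mul_nonneg (inv_nonneg.2 hδ.le) infDist_nonneg)
  unfold ramp; linarith

lemma ramp_on (S : Set E2) (δ : ℝ) {y : E2} (hy : y ∈ S) : ramp S δ y = 1 := by
  unfold ramp
  rw [infDist_zero_of_mem hy, mul_zero, min_eq_right zero_le_one, sub_zero]

lemma ramp_ne_zero {S : Set E2} {δ : ℝ} (hδ : 0 < δ) {y : E2} (hy : ramp S δ y ≠ 0) :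
    infDist y S < δ := by
  by_contra h
  push Not at h
  apply hy
  unfold ramp
  rw [min_eq_left, sub_self]
  rw [inv_mul_eq_div, le_div_iff₀ hδ, one_mul]
  exact h

lemma ramp_lip (S : Set E2) {δ : ℝ} (hδ : 0 < δ) :
    LipschitzWith (Real.toNNReal δ⁻¹) (ramp S δ) := by
  apply LipschitzWith.of_dist_le_mul
  intro y z
  unfold ramp
  rw [dist_sub_left, Real.coe_toNNReal _ (inv_nonneg.2 hδ.le), Real.dist_eq]
  have h1 : |infDist y S - infDist z S| ≤ dist y z := by
    have := (lipschitz_infDist_pt S).dist_le_mul y z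
    rw [Real.dist_eq] at this
    simpa using this
  calc |min 1 (δ⁻¹ * infDist y S) - min 1 (δ⁻¹ * infDist z S)|
      ≤ |δ⁻¹ * infDist y S - δ⁻¹ * infDist z S| := by
        have := abs_min_sub_min_le_max 1 (δ⁻¹ * infDist y S) 1 (δ⁻¹ * infDist z S)
        rwa [sub_self, abs_zero, max_eq_right (abs_nonneg _)] at this
    _ = δ⁻¹ * |infDist y S - infDist z S| := by
        rw [← mul_sub, abs_mul, abs_of_pos (inv_pos.2 hδ)]
    _ ≤ _ := mul_le_mul_of_nonneg_left h1 (inv_nonneg.2 hδ.le)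

/-! ### angles -/

lemma norm_dir_sub_dir_ge {φ θ : ℝ} (h : |φ - θ| ≤ π) : 2 / π * |φ - θ| ≤ ‖dir φ - dir θ‖ := by
  have h1 : ‖dir φ - dir θ‖ ^ 2 = (2 * Real.sin ((φ - θ) / 2)) ^ 2 := by
    rw [norm_sub_sq_real, norm_dir, norm_dir, inner_dir_dir]
    have := Real.cos_sq' ((φ - θ) / 2)
    have h2 : Real.cos (φ - θ) = 2 * Real.cos ((φ - θ) / 2) ^ 2 - 1 := by
      rw [← Real.cos_two_mul]; congr 1; ring
    rw [h2, this]; ring
  have h2 : ‖dir φ - dir θ‖ = |2 * Real.sin ((φ - θ) / 2)| := by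
    rw [← Real.sqrt_sq (norm_nonneg _), h1, Real.sqrt_sq_eq_abs]
  have h3 := Real.mul_abs_le_abs_sin (x := (φ - θ) / 2) (by
    rw [abs_div, abs_two]; linarith)
  rw [h2, abs_mul, abs_two]
  rw [abs_div, abs_two] at h3
  linarith

/-- the angle of a point close to `cpt x t θ` -/
lemma angle_close (x z : E2) {t : ℝ} (ht : 0 < t) (θ : ℝ) :
    ∃ φ, cpt x (dist z x) φ = z ∧ |φ - θ| ≤ π * (dist z (cpt x t θ) / t) := by
  have hpi := Real.pi_pos
  rcases eq_or_ne z x with rfl | hzx
  · refine ⟨θ, by simp [cpt], ?_⟩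
    rw [sub_self, abs_zero]
    positivity
  · obtain ⟨φ, hφ, hφz⟩ := exists_cpt_eq (x := x) (dist_pos.2 hzx) (y := z) (mem_sphere.2 rfl) (θ - π)
    refine ⟨φ, hφz, ?_⟩
    have h1 : |φ - θ| ≤ π := by
      rw [abs_le]; constructor
      · linarith [hφ.1]
      · linarith [hφ.2]
    have h2 := norm_dir_sub_dir_ge h1
    have h3 : t * ‖dir φ - dir θ‖ ≤ 2 * dist z (cpt x t θ) := by
      have e1 : t • (dir φ - dir θ) = (cpt x t φ - z) + (z - cpt x t θ) := by
        simp only [cpt, smul_sub]; abel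
      have e2 : t * ‖dir φ - dir θ‖ = ‖t • (dir φ - dir θ)‖ := by
        rw [norm_smul, Real.norm_of_nonneg ht.le]
      rw [e2, e1]
      refine (norm_add_le _ _).trans ?_
      have e3 : ‖cpt x t φ - z‖ = |t - dist z x| := by
        rw [← dist_eq_norm]
        conv_lhs => rw [← hφz]
        rw [dist_cpt_cpt_rad]
      have e4 : |t - dist z x| ≤ dist z (cpt x t θ) := by
        have h5 : t = dist (cpt x t θ) x := by rw [dist_cpt, abs_of_pos ht]
        rw [h5, abs_sub_comm]
        have := abs_dist_sub_le z (cpt x t θ) x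
        rw [← h5] at this ⊢
        exact this
      rw [e3, ← dist_eq_norm z]
      linarith
    have h4 : |φ - θ| = (π / 2) * (2 / π * |φ - θ|) := by field_simp
    rw [h4]
    have h5 : ‖dir φ - dir θ‖ ≤ 2 * dist z (cpt x t θ) / t := by
      rw [le_div_iff₀ ht]; linarith
    calc π / 2 * (2 / π * |φ - θ|) ≤ π / 2 * (2 * dist z (cpt x t θ) / t) :=
          mul_le_mul_of_nonneg_left (h2.trans h5) (by positivity)
      _ = _ := by ring

lemma infDist_arc {x z : E2} {r α β φ : ℝ} (hr : 0 < r) (hφ : φ ∈ Icc α β)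
    (hz : cpt x (dist z x) φ = z) : infDist z (arcS x r α β) = |dist z x - r| := by
  have hne : (arcS x r α β).Nonempty := ⟨_, mem_image_of_mem _ hφ⟩
  apply le_antisymm
  · have h1 := infDist_le_dist_of_mem (x := z) (mem_image_of_mem (cpt x r) hφ)
    rw [show dist z (cpt x r φ) = |dist z x - r| by
      conv_lhs => rw [← hz]
      rw [dist_cpt_cpt_rad]] at h1
    exact h1
  · rw [le_infDist hne]
    intro y hy
    have h2 := mem_sphere.1 (arcS_subset_sphere hr hy)
    rw [← h2]
    have := abs_dist_sub_le z y x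
    exact this

end Crest.Agent.R135.ZF
end
end

-- ▼ part R135/ZFlux5
section

/-!
# R135, block ZFlux (helper638), part 5: the flux through the arc as a limit of ramps
-/

set_option autoImplicit false

noncomputable section

open MeasureTheory Set Real Topology Filter Metric
open scoped ENNReal NNReal ContDiff

namespace Crest.Agent.R135.ZF

variable {K : Set E2} {x : E2} {r α β : ℝ}

/-- the side property of `W` -/
def SideProp (K : Set E2) (x : E2) (r α β : ℝ) (W : Set E2) : Prop :=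
  ∀ α' β', α < α' → β' < β → ∃ ε > 0, ε < r ∧ ∀ φ ∈ Icc α' β',
        (∀ s, |s - r| ≤ ε → cpt x s φ ∉ K) ∧ (∀ s ∈ Ioc r (r + ε), cpt x s φ ∈ W) ∧
        (∀ s ∈ Ico (r - ε) r, cpt x s φ ∉ W)

lemma dist_cpt_cpt_ang (x : E2) {r : ℝ} (hr : 0 ≤ r) (φ θ : ℝ) :
    dist (cpt x r φ) (cpt x r θ) ≤ r * |φ - θ| := by
  have := (lipschitz_cpt x hr).dist_le_mul φ θ
  rwa [Real.coe_toNNReal _ hr, Real.dist_eq] at this

/-- the localised ramp -/
def ff (x : E2) (r α β ρ δ : ℝ) (y : E2) : ℝ :=
  mab (cpt x r α) (cpt x r β) ρ y * ramp (arcS x r α β) δ y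

lemma ff_nonneg (x : E2) (r α β ρ δ : ℝ) (y : E2) : 0 ≤ ff x r α β ρ δ y :=
  mul_nonneg (mab_nonneg _ _ _ _) (ramp_nonneg _ _ _)

lemma gradient_ff_zero {ρ δ : ℝ} {y : E2} (h : ff x r α β ρ δ y = 0) :
    gradient (ff x r α β ρ δ) y = 0 := by
  have hmin : IsLocalMin (ff x r α β ρ δ) y := by
    refine Eventually.of_forall fun z => ?_
    rw [h]
    exact ff_nonneg _ _ _ _ _ _ _
  rw [gradient, hmin.fderiv_eq_zero, map_zero]

/-- angle bookkeeping: a point where the localised ramp does not vanish -/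
lemma ff_support_angle (hr : 0 < r) (hαβ : α < β) {ρ δ : ℝ} (hρ : 0 < ρ) (hδ : 0 < δ)
    (hδρ : 10 * δ ≤ ρ) {y : E2} (hy : ff x r α β ρ δ y ≠ 0) :
    ∃ φ ∈ Ioo (α + ρ / (2 * r)) (β - ρ / (2 * r)), cpt x (dist y x) φ = y ∧ |dist y x - r| < δ := by
  have hM : mab (cpt x r α) (cpt x r β) ρ y ≠ 0 := fun h => hy (by unfold ff; rw [h, zero_mul])
  have hR : ramp (arcS x r α β) δ y ≠ 0 := fun h => hy (by unfold ff; rw [h, mul_zero])
  obtain ⟨ha, hb⟩ := mab_ne_zero hρ hM
  have hne : (arcS x r α β).Nonempty := ⟨_, mem_image_of_mem _ (left_mem_Icc.2 hαβ.le)⟩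
  obtain ⟨q, hq, hqd⟩ := (infDist_lt_iff hne).1 (ramp_ne_zero hδ hR)
  obtain ⟨ψ, hψ, rfl⟩ := hq
  obtain ⟨φ, hφ, hφψ⟩ := angle_close x y hr ψ
  have hpi := Real.pi_pos
  have hpi4 : π < 4 := Real.pi_lt_four
  have hψa : ρ - δ < r * (ψ - α) := by
    have h1 := dist_cpt_cpt_ang x hr.le ψ α
    rw [abs_of_nonneg (by linarith [hψ.1])] at h1
    have h2 : dist y (cpt x r α) ≤ dist y (cpt x r ψ) + dist (cpt x r ψ) (cpt x r α) :=
      dist_triangle _ _ _
    linarith
  have hψb : ρ - δ < r * (β - ψ) := by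
    have h1 := dist_cpt_cpt_ang x hr.le ψ β
    rw [abs_sub_comm, abs_of_nonneg (by linarith [hψ.2])] at h1
    have h2 : dist y (cpt x r β) ≤ dist y (cpt x r ψ) + dist (cpt x r ψ) (cpt x r β) :=
      dist_triangle _ _ _
    linarith
  have h3 : r * |φ - ψ| ≤ 4 * δ := by
    have h4 : r * |φ - ψ| ≤ r * (π * (dist y (cpt x r ψ) / r)) :=
      mul_le_mul_of_nonneg_left hφψ hr.le
    have h5 : r * (π * (dist y (cpt x r ψ) / r)) = π * dist y (cpt x r ψ) := by
      field_simp
    have h6 : π * dist y (cpt x r ψ) ≤ 4 * δ := by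
      have h7 : π * dist y (cpt x r ψ) ≤ 4 * dist y (cpt x r ψ) :=
        mul_le_mul_of_nonneg_right hpi4.le dist_nonneg
      linarith
    linarith
  have h8 : r * (ρ / (2 * r)) = ρ / 2 := by field_simp
  have h9 := abs_le.1 (le_refl |φ - ψ|)
  refine ⟨φ, ⟨?_, ?_⟩, hφ, ?_⟩
  · have h10 : r * (α + ρ / (2 * r)) < r * φ := by
      rw [mul_add, h8]
      have h11 : r * (ψ - φ) ≤ r * |φ - ψ| :=
        mul_le_mul_of_nonneg_left (by linarith [h9.1]) hr.le
      nlinarith
    exact lt_of_mul_lt_mul_left h10 hr.le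
  · have h10 : r * φ < r * (β - ρ / (2 * r)) := by
      rw [mul_sub, h8]
      have h11 : r * (φ - ψ) ≤ r * |φ - ψ| :=
        mul_le_mul_of_nonneg_left (by linarith [h9.2]) hr.le
      nlinarith
    exact lt_of_mul_lt_mul_left h10 hr.le
  · have h12 : dist (cpt x r ψ) x = r := by rw [dist_cpt, abs_of_pos hr]
    have h13 := abs_dist_sub_le y (cpt x r ψ) x
    rw [h12] at h13
    linarith

/-- points of `W` where the localised ramp does not vanish are outside the disc -/
lemma ff_support (hr : 0 < r) (hαβ : α < β) {W : Set E2} (hWS : Disjoint W (arcS x r α β))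
    {ρ δ ε : ℝ} (hρ : 0 < ρ) (hδ : 0 < δ) (hδρ : 10 * δ ≤ ρ) (hδε : δ ≤ ε)
    (hW : ∀ φ ∈ Icc (α + ρ / (2 * r)) (β - ρ / (2 * r)), ∀ s ∈ Ico (r - ε) r, cpt x s φ ∉ W)
    {y : E2} (hyW : y ∈ W) (hy : ff x r α β ρ δ y ≠ 0) :
    ∃ φ ∈ Ioo (α + ρ / (2 * r)) (β - ρ / (2 * r)), cpt x (dist y x) φ = y ∧
      dist y x ∈ Ioo r (r + δ) := by
  obtain ⟨φ, hφ, hφy, hd⟩ := ff_support_angle hr hαβ hρ hδ hδρ hy
  refine ⟨φ, hφ, hφy, ?_, ?_⟩
  · by_contra hle
    push Not at hle
    rcases hle.lt_or_eq with h1 | h1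
    · refine hW φ ⟨hφ.1.le, hφ.2.le⟩ (dist y x) ⟨?_, h1⟩ (by rw [hφy]; exact hyW)
      have := (abs_lt.1 hd).1
      linarith
    · have hpos : 0 < ρ / (2 * r) := by positivity
      refine Set.disjoint_left.1 hWS hyW ?_
      rw [← hφy, h1]
      exact mem_image_of_mem _ ⟨by linarith [hφ.1], by linarith [hφ.2]⟩
  · have := (abs_lt.1 hd).2
    linarith

lemma hasGradientAt_dist {x : E2} {t θ : ℝ} (ht : 0 < t) :
    HasFDerivAt (fun z : E2 => dist z x) (innerSL ℝ (dir θ)) (cpt x t θ) := by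
  have h1 : cpt x t θ - x ≠ 0 := by
    rw [sub_ne_zero]
    intro h
    have := dist_cpt x t θ
    rw [h, dist_self, abs_of_pos ht] at this
    linarith
  have h2 : HasFDerivAt (fun z : E2 => ‖z - x‖) (innerSL ℝ (dir θ)) (cpt x t θ) := by
    have h3 : HasStrictFDerivAt (fun z : E2 => ‖z - x‖ ^ 2)
        ((2 : ℕ) • (innerSL ℝ (cpt x t θ - x))) (cpt x t θ) := by
      have h4 := (hasStrictFDerivAt_norm_sq (cpt x t θ - x)).comp (cpt x t θ)
        ((hasStrictFDerivAt_id (𝕜 := ℝ) (cpt x t θ)).sub_const x)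
      simpa using h4
    have h5 : ‖cpt x t θ - x‖ ^ 2 ≠ 0 := by
      have := norm_pos_iff.2 h1
      positivity
    have h6 := h3.hasFDerivAt.sqrt h5
    have h7 : (fun z : E2 => √(‖z - x‖ ^ 2)) = fun z => ‖z - x‖ := by
      ext z
      exact Real.sqrt_sq (norm_nonneg _)
    rw [h7] at h6
    convert! h6 using 1
    have h8 : ‖cpt x t θ - x‖ = t := by
      rw [← dist_eq_norm, dist_cpt, abs_of_pos ht]
    rw [Real.sqrt_sq (norm_nonneg _), h8]
    ext v
    simp [cpt]
    field_simp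
  simpa [dist_eq_norm] using h2

/-- gradient of the localised ramp in the outer box -/
lemma gradient_ff (hr : 0 < r) {ρ δ : ℝ} (hδ : 0 < δ) {θ t : ℝ} (hθ : θ ∈ Ioo α β)
    (ht : t ∈ Ioo r (r + δ)) :
    gradient (ff x r α β ρ δ) (cpt x t θ) =
      (1 - (t - r) / δ) • gradient (mab (cpt x r α) (cpt x r β) ρ) (cpt x t θ) -
        (mab (cpt x r α) (cpt x r β) ρ (cpt x t θ) / δ) • dir θ := by
  have ht0 : 0 < t := hr.trans ht.1
  set y := cpt x t θ with hy
  have hpi := Real.pi_pos
  -- near y the ramp is explicit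
  have hev : ramp (arcS x r α β) δ =ᶠ[𝓝 y] fun z => 1 - δ⁻¹ * (dist z x - r) := by
    obtain ⟨η, hη, hηs⟩ : ∃ η > 0, ∀ φ, |φ - θ| < η → φ ∈ Ioo α β := by
      obtain ⟨η, hη, hs⟩ := Metric.isOpen_iff.1 (isOpen_Ioo (a := α) (b := β)) θ hθ
      exact ⟨η, hη, fun φ hφ => hs (by rwa [mem_ball, Real.dist_eq])⟩
    have e1 : ∀ᶠ z in 𝓝 y, π * (dist z y / t) < η := by
      have hc : ContinuousAt (fun z : E2 => π * (dist z y / t)) y := by fun_prop
      have h0 : π * (dist y y / t) < η := by simpa using hη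
      exact hc.eventually_lt_const h0
    have e2 : ∀ᶠ z in 𝓝 y, dist z x ∈ Ioo r (r + δ) := by
      have hc : ContinuousAt (fun z : E2 => dist z x) y := by fun_prop
      apply hc.eventually_mem
      rw [hy, dist_cpt, abs_of_pos ht0]
      exact Ioo_mem_nhds ht.1 ht.2
    filter_upwards [e1, e2] with z hz1 hz2
    obtain ⟨φ, hφ, hφθ⟩ := angle_close x z ht0 θ
    have hφm : φ ∈ Ioo α β := hηs φ (hφθ.trans_lt hz1)
    unfold ramp
    rw [infDist_arc hr ⟨hφm.1.le, hφm.2.le⟩ hφ, abs_of_pos (by linarith [hz2.1]), min_eq_right]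
    rw [inv_mul_eq_div, div_le_one hδ]
    linarith [hz2.2]
  have hff : ff x r α β ρ δ =ᶠ[𝓝 y]
      fun z => mab (cpt x r α) (cpt x r β) ρ z * (1 - δ⁻¹ * (dist z x - r)) := by
    filter_upwards [hev] with z hz
    simp only [ff, hz]
  rw [gradient_congr_of_eventuallyEq hff]
  have hM : HasFDerivAt (mab (cpt x r α) (cpt x r β) ρ)
      (fderiv ℝ (mab (cpt x r α) (cpt x r β) ρ) y) y :=
    ((mab_contDiff _ _ ρ).differentiable (by norm_num)).differentiableAt.hasFDerivAt
  have hd : HasFDerivAt (fun z : E2 => 1 - δ⁻¹ * (dist z x - r)) (-(δ⁻¹ • innerSL ℝ (dir θ))) y :=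
    (((hasGradientAt_dist ht0).sub_const r).const_mul δ⁻¹).const_sub 1
  have hprod : HasFDerivAt
      (fun z => mab (cpt x r α) (cpt x r β) ρ z * (1 - δ⁻¹ * (dist z x - r)))
      (mab (cpt x r α) (cpt x r β) ρ y • -(δ⁻¹ • (innerSL ℝ) (dir θ)) +
        (1 - δ⁻¹ * (dist y x - r)) • fderiv ℝ (mab (cpt x r α) (cpt x r β) ρ) y) y := hM.mul hd
  have hdist : dist y x = t := by rw [hy, dist_cpt, abs_of_pos ht0]
  simp only [gradient]
  rw [hprod.fderiv, map_add, hdist]
  simp only [map_smul, map_neg]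
  have e3 : (InnerProductSpace.toDual ℝ E2).symm (innerSL ℝ (dir θ)) = dir θ := by
    apply (InnerProductSpace.toDual ℝ E2).injective
    rw [LinearIsometryEquiv.apply_symm_apply]
    ext v
    simp
  rw [e3, smul_neg, smul_smul, neg_add_eq_sub]
  congr 1
  · congr 1
    field_simp

end Crest.Agent.R135.ZF
end
end

-- ▼ part R135/ZFlux6
section

/-!
# R135, block ZFlux (helper638), part 6: the limit of the ramp integrals
-/

set_option autoImplicit false

noncomputable section

open MeasureTheory Set Real Topology Filter Metric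
open scoped ENNReal NNReal ContDiff

namespace Crest.Agent.R135.ZF

variable {K : Set E2} {x : E2} {r α β : ℝ}

lemma continuous_gradient_of_contDiff {f : E2 → ℝ} (hf : ContDiff ℝ 1 f) :
    Continuous (gradient f) := by
  unfold gradient
  exact (InnerProductSpace.toDual ℝ E2).symm.continuous.comp (hf.continuous_fderiv (by norm_num))

lemma ff_lip (x : E2) (r α β : ℝ) {ρ δ : ℝ} (hρ : 0 < ρ) (hδ : 0 < δ) :
    LipschitzWith (Cρ ρ + Real.toNNReal δ⁻¹) (ff x r α β ρ δ) := by
  refine lip_mul (mab_lip _ _ hρ) (ramp_lip _ hδ) (abs_mab_le _ _ _) (fun y => ?_)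
  rw [abs_of_nonneg (ramp_nonneg _ _ _)]
  exact ramp_le_one _ hδ _

/-- integrability on bounded sets of `⟨∇u, H⟩`, `H` bounded -/
lemma integrableOn_inner {u : E2 → ℝ} (h : IsQM univ 0 u K) {H : E2 → E2} (hH : Measurable H)
    {D : ℝ} (hD : ∀ y, ‖H y‖ ≤ D) (x : E2) (R : ℝ) :
    IntegrableOn (fun y => (inner ℝ (gradient u y) (H y) : ℝ)) (closedBall x R) := by
  have hfin : IsFiniteMeasure (volume.restrict (closedBall x R)) :=
    ⟨by rw [Measure.restrict_apply_univ]; exact measure_closedBall_lt_top⟩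
  have hG2 : MemLp (gradient u) 2 (volume.restrict (closedBall x R)) := by
    refine Gl.memLp_two_of_lintegral (measurable_gradient' u).aestronglyMeasurable ?_
    have h1 : dirE u K (closedBall x R) < ⊤ := h.dir_fin x R (subset_univ _)
    unfold dirE at h1
    rwa [Measure.restrict_congr_set (sdiff_ae_eq h.volume_K)] at h1
  exact Gl.integrable_inner2 hG2 (MemLp.of_bound hH.aestronglyMeasurable D (ae_of_all _ hD))

theorem ramp_limit {u : E2 → ℝ} (h : IsQM univ 0 u K) (hr : 0 < r) (hαβ : α < β)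
    (hβ : β < α + 2 * π) {W : Set E2} (hs : Side K (arcS x r α β) W)
    (hW : SideProp K x r α β W) {ρ : ℝ} (hρ : 0 < ρ)
    (hρs : α + ρ / (2 * r) ≤ β - ρ / (2 * r)) {η : ℝ} (hη : 0 < η) :
    ∃ δ0 > 0, ∀ δ ∈ Ioc 0 δ0,
      |(∫ y in W, inner ℝ (gradient u y) (gradient (ff x r α β ρ δ) y)) +
        ∫ θ in (α + ρ / (2 * r))..(β - ρ / (2 * r)),
          r * (mab (cpt x r α) (cpt x r β) ρ (cpt x r θ) *
            inner ℝ (gradient u (cpt x r θ)) (dir θ))| ≤ η := by
  set α' : ℝ := α + ρ / (2 * r) with hα'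
  set β' : ℝ := β - ρ / (2 * r) with hβ'
  set M : E2 → ℝ := mab (cpt x r α) (cpt x r β) ρ with hM
  have hpos : 0 < ρ / (2 * r) := by positivity
  have hαα' : α < α' := by rw [hα']; linarith
  have hβ'β : β' < β := by rw [hβ']; linarith
  obtain ⟨ε, hε, hεr, hbox⟩ := hW α' β' hαα' hβ'β
  set Pf : ℝ × ℝ → ℝ := fun p =>
    p.1 * inner ℝ (gradient u (cpt x p.1 p.2)) (gradient M (cpt x p.1 p.2)) with hPf
  set Qf : ℝ × ℝ → ℝ := fun p =>
    p.1 * (M (cpt x p.1 p.2) * inner ℝ (gradient u (cpt x p.1 p.2)) (dir p.2)) with hQf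
  set Kc : Set (ℝ × ℝ) := Icc r (r + ε) ×ˢ Icc α' β' with hKc
  have hKcc : IsCompact Kc := isCompact_Icc.prod isCompact_Icc
  have hoff : ∀ p ∈ Kc, cpt x p.1 p.2 ∉ K := by
    rintro ⟨t, θ⟩ ⟨ht, hθ⟩
    simp only at ht hθ
    refine (hbox θ hθ).1 t ?_
    rw [abs_of_nonneg (by linarith [ht.1])]
    linarith [ht.2]
  have hgu : ContinuousOn (fun p : ℝ × ℝ => gradient u (cpt x p.1 p.2)) Kc := by
    have h1 := h.continuousOn_gradient
    exact h1.comp (continuous_cpt x).continuousOn (fun p hp => ⟨mem_univ _, hoff p hp⟩)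
  have hgM : Continuous (gradient M) := continuous_gradient_of_contDiff (mab_contDiff _ _ _)
  have hMc : Continuous M := (mab_contDiff _ _ _).continuous
  have hcp := continuous_cpt x
  have hPc : ContinuousOn Pf Kc := by
    apply ContinuousOn.mul continuousOn_fst
    exact hgu.inner (hgM.comp hcp).continuousOn
  have hQc : ContinuousOn Qf Kc := by
    apply ContinuousOn.mul continuousOn_fst
    apply ContinuousOn.mul (hMc.comp hcp).continuousOn
    exact hgu.inner (continuous_dir.comp continuous_snd).continuousOn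
  obtain ⟨A, hA⟩ := hKcc.exists_bound_of_continuousOn hPc
  have huc := hKcc.uniformContinuousOn_of_continuous hQc
  set ℓ : ℝ := β' - α' with hℓ
  have hℓ0 : 0 ≤ ℓ := by rw [hℓ]; linarith
  obtain ⟨δ1, hδ1, huc1⟩ := Metric.uniformContinuousOn_iff.1 huc (η / (2 * (ℓ + 1))) (by positivity)
  have hA0 : 0 ≤ A := (norm_nonneg _).trans (hA (r, α') ⟨⟨le_rfl, by simp only; linarith⟩,
    ⟨le_rfl, hρs⟩⟩)
  refine ⟨min (min ε (ρ / 10)) (min (δ1 / 2) (η / (2 * ((A + 1) * (ℓ + 1))))), by positivity, ?_⟩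
  rintro δ ⟨hδ, hδ0⟩
  have hδε : δ ≤ ε := hδ0.trans ((min_le_left _ _).trans (min_le_left _ _))
  have hδρ : 10 * δ ≤ ρ := by
    have := hδ0.trans ((min_le_left _ _).trans (min_le_right _ _)); linarith
  have hδ1' : δ < δ1 := by
    have := hδ0.trans ((min_le_right _ _).trans (min_le_left _ _)); linarith
  have hδA : δ * ((A + 1) * (ℓ + 1)) ≤ η / 2 := by
    have h1 := hδ0.trans ((min_le_right _ _).trans (min_le_right _ _))
    have h2 : 0 < (A + 1) * (ℓ + 1) := by positivity
    calc δ * ((A + 1) * (ℓ + 1)) ≤ (η / (2 * ((A + 1) * (ℓ + 1)))) * ((A + 1) * (ℓ + 1)) :=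
          mul_le_mul_of_nonneg_right h1 h2.le
      _ = η / 2 := by field_simp
  -- the integrand
  set H : E2 → E2 := W.indicator (gradient (ff x r α β ρ δ)) with hH
  have hHm : Measurable H := (measurable_gradient' _).indicator hs.isOpen.measurableSet
  have hHb : ∀ y, ‖H y‖ ≤ (Cρ ρ + Real.toNNReal δ⁻¹ : ℝ≥0) := by
    intro y
    by_cases hy : y ∈ W
    · rw [hH, indicator_of_mem hy]; exact norm_gradient_le (ff_lip x r α β hρ hδ) y
    · rw [hH, indicator_of_notMem hy, norm_zero]; exact NNReal.coe_nonneg _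
  set g : E2 → ℝ := fun y => inner ℝ (gradient u y) (H y) with hg
  have hWS : Disjoint W (arcS x r α β) := by
    rw [Set.disjoint_left]
    intro y hy hyS
    exact hs.sub hy (Or.inr hyS)
  have hsupp : ∀ y, g y ≠ 0 → y ∈ W ∧ ∃ φ ∈ Ioo α' β', cpt x (dist y x) φ = y ∧
      dist y x ∈ Ioo r (r + δ) := by
    intro y hy
    have hyW : y ∈ W := by
      by_contra hcon
      exact hy (by simp only [hg, hH, indicator_of_notMem hcon, inner_zero_right])
    have hff : ff x r α β ρ δ y ≠ 0 := by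
      intro h0
      exact hy (by simp only [hg, hH, indicator_of_mem hyW, gradient_ff_zero h0, inner_zero_right])
    exact ⟨hyW, ff_support hr hαβ hWS hρ hδ hδρ hδε (fun φ hφ => (hbox φ hφ).2.2) hyW hff⟩
  have e1 : ∫ y in W, inner ℝ (gradient u y) (gradient (ff x r α β ρ δ) y) = ∫ y, g y := by
    rw [← integral_indicator hs.isOpen.measurableSet]
    congr 1
    ext y
    by_cases hy : y ∈ W
    · rw [indicator_of_mem hy]; simp only [hg, hH, indicator_of_mem hy]
    · rw [indicator_of_notMem hy]; simp only [hg, hH, indicator_of_notMem hy, inner_zero_right]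
  have e2 : ∫ y, g y = ∫ y in {y : E2 | dist y x ∈ Ioo r (r + δ)}, g y := by
    rw [setIntegral_eq_integral_of_forall_compl_eq_zero]
    intro y hy
    by_contra hcon
    obtain ⟨_, φ, _, _, h3⟩ := hsupp y hcon
    exact hy h3
  have hgint : IntegrableOn g {y : E2 | dist y x ∈ Ioo r (r + δ)} := by
    refine (integrableOn_inner h hHm hHb x (r + δ)).mono_set ?_
    intro y hy
    exact mem_closedBall.2 hy.2.le
  have hIoi : Ioi (0 : ℝ) ∩ Ioo r (r + δ) = Ioo r (r + δ) := by
    ext t
    constructor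
    · exact fun h => h.2
    · exact fun h => ⟨hr.trans h.1, h⟩
  have e3 := integral_polar_radii x (measurableSet_Ioo (a := r) (b := r + δ)) hgint
  have hradint := integrableOn_radial x (measurableSet_Ioo (a := r) (b := r + δ)) hgint
  rw [hIoi] at e3 hradint
  -- the circle integrals
  set q : ℝ := ∫ θ in α'..β', r * (M (cpt x r θ) * inner ℝ (gradient u (cpt x r θ)) (dir θ)) with hq
  have hqQ : q = ∫ θ in Ioo α' β', Qf (r, θ) := by
    rw [hq, intervalIntegral.integral_of_le hρs, integral_Ioc_eq_integral_Ioo]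
  have hcirc : ∀ t ∈ Ioo r (r + δ), t • ∫ θ in Ioo (-π) π, g (cpt x t θ) =
      ∫ θ in Ioo α' β', ((1 - (t - r) / δ) * Pf (t, θ) - δ⁻¹ * Qf (t, θ)) := by
    intro t ht
    have ht0 : 0 < t := hr.trans ht.1
    have h1 : ∫ θ in Ioo (-π) π, g (cpt x t θ) = ∫ θ in Ioc α (α + 2 * π), g (cpt x t θ) := by
      have h2 := circI_eq_set g x t
      rw [← h2, circI_eq_shift g x t α, intervalIntegral.integral_of_le (by linarith [pi_pos])]
    have h2 : ∫ θ in Ioc α (α + 2 * π), g (cpt x t θ) = ∫ θ in Ioo α' β', g (cpt x t θ) := by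
      apply setIntegral_eq_of_subset_of_forall_sdiff_eq_zero measurableSet_Ioc
      · intro θ hθ
        exact ⟨by linarith [hθ.1], by linarith [hθ.2]⟩
      · rintro θ ⟨hθ1, hθ2⟩
        by_contra hcon
        obtain ⟨_, φ, hφ, hφy, _⟩ := hsupp _ hcon
        rw [dist_cpt, abs_of_pos ht0] at hφy
        apply hθ2
        rcases hθ1.2.lt_or_eq with h3 | h3
        · have h4 := cpt_injOn (x := x) ht0.ne' α (⟨by linarith [hφ.1], by linarith [hφ.2]⟩)
            (⟨hθ1.1.le, h3⟩) hφy
          rw [← h4]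
          exact hφ
        · have h5 : cpt x t θ = cpt x t α := by
            rw [h3]; exact cpt_periodic x t α
          rw [h5] at hφy
          have h4 := cpt_injOn (x := x) ht0.ne' α (⟨by linarith [hφ.1], by linarith [hφ.2]⟩)
            (⟨le_rfl, by linarith⟩) hφy
          linarith [hφ.1]
    rw [h1, h2, ← integral_smul]
    apply setIntegral_congr_fun measurableSet_Ioo
    intro θ hθ
    have hθ' : θ ∈ Ioo α β := ⟨by linarith [hθ.1], by linarith [hθ.2]⟩
    have hyW : cpt x t θ ∈ W := (hbox θ ⟨hθ.1.le, hθ.2.le⟩).2.1 t ⟨ht.1, by linarith [ht.2]⟩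
    simp only [hg, hH, indicator_of_mem hyW, gradient_ff hr hδ hθ' ht, inner_sub_right,
      inner_smul_right, smul_eq_mul, hPf, hQf]
    ring
  have hℓvol : (volume (Ioo α' β')).toReal = ℓ := by
    rw [Real.volume_Ioo, ENNReal.toReal_ofReal hℓ0]
  have hest : ∀ t ∈ Ioo r (r + δ),
      ‖(t • ∫ θ in Ioo (-π) π, g (cpt x t θ)) + δ⁻¹ * q‖ ≤ (A + δ⁻¹ * (η / (2 * (ℓ + 1)))) * ℓ := by
    intro t ht
    have htK : t ∈ Icc r (r + ε) := ⟨ht.1.le, by linarith [ht.2]⟩
    have hrK : r ∈ Icc r (r + ε) := ⟨le_rfl, by linarith⟩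
    have hsl : ∀ {F : ℝ × ℝ → ℝ} {s : ℝ}, ContinuousOn F Kc → s ∈ Icc r (r + ε) →
        IntegrableOn (fun θ => F (s, θ)) (Ioo α' β') := by
      intro F s hF hs'
      have h1 : ContinuousOn (fun θ => F (s, θ)) (Icc α' β') :=
        hF.comp (by fun_prop) (fun θ hθ => ⟨hs', hθ⟩)
      exact (h1.integrableOn_compact isCompact_Icc).mono_set Ioo_subset_Icc_self
    rw [hcirc t ht, hqQ, ← integral_const_mul, ← integral_add]
    · have hb : ∀ θ ∈ Ioo α' β', ‖((1 - (t - r) / δ) * Pf (t, θ) - δ⁻¹ * Qf (t, θ)) +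
          δ⁻¹ * Qf (r, θ)‖ ≤ A + δ⁻¹ * (η / (2 * (ℓ + 1))) := by
        intro θ hθ
        have hθI : θ ∈ Icc α' β' := ⟨hθ.1.le, hθ.2.le⟩
        have h1 : ‖Pf (t, θ)‖ ≤ A := hA _ ⟨htK, hθI⟩
        have h2 : dist (Qf (t, θ)) (Qf (r, θ)) < η / (2 * (ℓ + 1)) := by
          apply huc1 (t, θ) ⟨htK, hθI⟩ (r, θ) ⟨hrK, hθI⟩
          rw [Prod.dist_eq, dist_self, max_eq_left dist_nonneg, Real.dist_eq,
            abs_of_pos (by linarith [ht.1])]
          linarith [ht.2]
        have e4 : ((1 - (t - r) / δ) * Pf (t, θ) - δ⁻¹ * Qf (t, θ)) + δ⁻¹ * Qf (r, θ) =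
            (1 - (t - r) / δ) * Pf (t, θ) - δ⁻¹ * (Qf (t, θ) - Qf (r, θ)) := by ring
        rw [e4]
        refine (norm_sub_le _ _).trans ?_
        rw [norm_mul (1 - (t - r) / δ) (Pf (t, θ)), norm_mul δ⁻¹ (Qf (t, θ) - Qf (r, θ)), norm_inv,
          Real.norm_of_nonneg hδ.le]
        have h3 : ‖1 - (t - r) / δ‖ ≤ 1 := by
          have h5 : 0 ≤ (t - r) / δ := div_nonneg (by linarith [ht.1]) hδ.le
          have h6 : (t - r) / δ ≤ 1 := by rw [div_le_one hδ]; linarith [ht.2]
          rw [Real.norm_eq_abs, abs_le]; constructor <;> linarith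
        rw [Real.dist_eq, ← Real.norm_eq_abs] at h2
        have h7 : ‖1 - (t - r) / δ‖ * ‖Pf (t, θ)‖ ≤ 1 * A :=
          mul_le_mul h3 h1 (norm_nonneg _) zero_le_one
        have h8 : δ⁻¹ * ‖Qf (t, θ) - Qf (r, θ)‖ ≤ δ⁻¹ * (η / (2 * (ℓ + 1))) :=
          mul_le_mul_of_nonneg_left h2.le (inv_nonneg.2 hδ.le)
        linarith
      have h9 := norm_setIntegral_le_of_norm_le_const (μ := volume) (s := Ioo α' β') (by simp) hb
      rwa [Measure.real, hℓvol] at h9
    · exact ((hsl hPc htK).const_mul _).sub ((hsl hQc htK).const_mul _)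
    · exact (hsl hQc hrK).const_mul _
  have hδvol : (volume (Ioo r (r + δ))).toReal = δ := by
    rw [Real.volume_Ioo, add_sub_cancel_left, ENNReal.toReal_ofReal hδ.le]
  have hfinal : (∫ y in W, inner ℝ (gradient u y) (gradient (ff x r α β ρ δ) y)) + q =
      ∫ t in Ioo r (r + δ), ((t • ∫ θ in Ioo (-π) π, g (cpt x t θ)) + δ⁻¹ * q) := by
    rw [e1, e2, e3, integral_add hradint (integrable_const _), setIntegral_const,
      Measure.real, hδvol, smul_eq_mul]
    field_simp
  rw [hfinal]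
  have h10 := norm_setIntegral_le_of_norm_le_const (μ := volume) (s := Ioo r (r + δ)) (by simp) hest
  rw [Measure.real, hδvol, Real.norm_eq_abs] at h10
  refine h10.trans ?_
  have h11 : (A + δ⁻¹ * (η / (2 * (ℓ + 1)))) * ℓ * δ = δ * (A * ℓ) + (η / 2) * (ℓ / (ℓ + 1)) := by
    field_simp
  rw [h11]
  have h12 : ℓ / (ℓ + 1) ≤ 1 := by rw [div_le_one (by linarith)]; linarith
  have h13 : δ * (A * ℓ) ≤ δ * ((A + 1) * (ℓ + 1)) := by
    apply mul_le_mul_of_nonneg_left _ hδ.le
    nlinarith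
  have h14 : η / 2 * (ℓ / (ℓ + 1)) ≤ η / 2 * 1 := mul_le_mul_of_nonneg_left h12 (by linarith)
  linarith

end Crest.Agent.R135.ZF
end
end

-- ▼ part R135/ZLog
section

/-!
R135 (helper990, for block ZF of helper638): logarithmic cut-off in the plane.
-/

set_option autoImplicit false

open MeasureTheory Set Real Topology Filter Metric
open scoped ENNReal NNReal Gradient

namespace Crest.Agent.R135

/-- logarithmic cut-off: `1` on `closedBall x R0`, `0` outside `ball x R`. -/
noncomputable def zlog (x : E2) (R0 R : ℝ) (y : E2) : ℝ :=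
  max 0 (min 1 (Real.log (R / max (dist y x) R0) / Real.log (R / R0)))

section

variable {x : E2} {R0 R : ℝ}



lemma zlog_log_pos (h0 : 0 < R0) (h1 : R0 < R) : 0 < Real.log (R / R0) :=
  Real.log_pos ((one_lt_div h0).2 h1)

lemma zlog_eq_one (h0 : 0 < R0) (h1 : R0 < R) {y : E2} (hy : y ∈ closedBall x R0) :
    zlog x R0 R y = 1 := by
  have hl := zlog_log_pos h0 h1
  unfold zlog
  rw [max_eq_right (mem_closedBall.1 hy), div_self hl.ne']
  simp

lemma zlog_eq_zero (h0 : 0 < R0) (h1 : R0 < R) {y : E2} (hy : y ∉ ball x R) :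
    zlog x R0 R y = 0 := by
  have hl := zlog_log_pos h0 h1
  have hy' : R ≤ dist y x := by simpa using hy
  unfold zlog
  rw [max_eq_left (by linarith : R0 ≤ dist y x)]
  apply max_eq_left
  apply (min_le_right _ _).trans
  apply div_nonpos_of_nonpos_of_nonneg _ hl.le
  apply Real.log_nonpos
  · exact div_nonneg (by linarith) dist_nonneg
  · exact (div_le_one (by linarith)).2 hy'

lemma zlog_eq_of_mem (h0 : 0 < R0) {y : E2} (hy1 : R0 ≤ dist y x) (hy2 : dist y x ≤ R) :
    zlog x R0 R y = Real.log (R / dist y x) / Real.log (R / R0) := by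
  have hd : 0 < dist y x := by linarith
  have hl : 0 ≤ Real.log (R / dist y x) := Real.log_nonneg ((one_le_div hd).2 hy2)
  unfold zlog
  rw [max_eq_left hy1]
  have h2 : Real.log (R / dist y x) ≤ Real.log (R / R0) := by
    apply Real.log_le_log (div_pos (by linarith) hd)
    exact div_le_div_of_nonneg_left (by linarith) h0 hy1
  rw [min_eq_right (div_le_one_of_le₀ h2 (hl.trans h2)), max_eq_right (div_nonneg hl (hl.trans h2))]

lemma zlog_lipschitz (h0 : 0 < R0) (h1 : R0 < R) :
    LipschitzWith (Real.toNNReal (1 / (R0 * Real.log (R / R0)))) (zlog x R0 R) := by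
  have hl := zlog_log_pos h0 h1
  have hK : 0 ≤ 1 / (R0 * Real.log (R / R0)) := by positivity
  have hcore : LipschitzWith (Real.toNNReal (1 / (R0 * Real.log (R / R0))))
      (fun y : E2 => Real.log (R / max (dist y x) R0) / Real.log (R / R0)) := by
    apply LipschitzWith.of_dist_le_mul
    intro y z
    rw [Real.coe_toNNReal _ hK]
    set s := max (dist y x) R0 with hs
    set s' := max (dist z x) R0 with hs'
    have hs0 : R0 ≤ s := le_max_right _ _
    have hs0' : R0 ≤ s' := le_max_right _ _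
    have h3 : |s - s'| ≤ dist y z := by
      refine (abs_max_sub_max_le_abs _ _ _).trans ?_
      have := abs_dist_sub_le y z x
      exact this
    have hlog : |Real.log s - Real.log s'| ≤ |s - s'| / R0 := by
      have key : ∀ a b : ℝ, R0 ≤ a → a ≤ b → Real.log b - Real.log a ≤ (b - a) / R0 := by
        intro a b ha hab
        have ha0 : 0 < a := by linarith
        have hb0 : 0 < b := by linarith
        rw [← Real.log_div hb0.ne' ha0.ne']
        have h4 := Real.log_le_sub_one_of_pos (div_pos hb0 ha0)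
        have h5 : b / a - 1 = (b - a) / a := by field_simp
        have h6 : (b - a) / a ≤ (b - a) / R0 :=
          div_le_div_of_nonneg_left (by linarith) h0 ha
        linarith
      rcases le_total s s' with h | h
      · have h4 := key s s' hs0 h
        have h5 : Real.log s ≤ Real.log s' := Real.log_le_log (by linarith) h
        rw [abs_sub_comm, abs_of_nonneg (by linarith), abs_sub_comm, abs_of_nonneg (by linarith)]
        exact h4
      · have h4 := key s' s hs0' h
        have h5 : Real.log s' ≤ Real.log s := Real.log_le_log (by linarith) h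
        rw [abs_of_nonneg (by linarith), abs_of_nonneg (by linarith)]
        exact h4
    rw [Real.dist_eq, Real.log_div (by linarith : R ≠ 0) (by linarith : s ≠ 0),
      Real.log_div (by linarith : R ≠ 0) (by linarith : s' ≠ 0), ← sub_div, abs_div,
      abs_of_pos hl]
    have h7 : |Real.log R - Real.log s - (Real.log R - Real.log s')| =
        |Real.log s - Real.log s'| := by
      rw [abs_sub_comm]; congr 1; ring
    rw [h7, div_le_iff₀ hl]
    calc |Real.log s - Real.log s'| ≤ |s - s'| / R0 := hlog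
      _ ≤ dist y z / R0 := by gcongr
      _ = 1 / (R0 * Real.log (R / R0)) * dist y z * Real.log (R / R0) := by
        field_simp
  exact (hcore.const_min 1).const_max 0

lemma zlog_lipschitz' (h0 : 0 < R0) (h1 : R0 < R) : ∃ C : ℝ≥0, LipschitzWith C (zlog x R0 R) :=
  ⟨_, zlog_lipschitz h0 h1⟩

lemma zlog_hasGradientAt (h0 : 0 < R0) (h1 : R0 < R) {y : E2} (hy1 : R0 < dist y x)
    (hy2 : dist y x < R) :
    HasGradientAt (zlog x R0 R) (-(1 / (Real.log (R / R0) * dist y x ^ 2)) • (y - x)) y := by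
  have hl := zlog_log_pos h0 h1
  have hd : 0 < dist y x := by linarith
  have hev : zlog x R0 R =ᶠ[𝓝 y] fun z => (1 / Real.log (R / R0)) *
      (Real.log R - (1 / 2) * Real.log (‖z - x‖ ^ 2)) := by
    have hc : ContinuousAt (fun z : E2 => dist z x) y := by fun_prop
    filter_upwards [hc.eventually_lt continuousAt_const hy2,
      continuousAt_const.eventually_lt hc hy1] with z hz2 hz1
    rw [zlog_eq_of_mem h0 hz1.le hz2.le, Real.log_div (by linarith) (by linarith), Real.log_pow,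
      ← dist_eq_norm]
    push_cast
    ring
  rw [hasGradientAt_iff_hasFDerivAt]
  refine HasFDerivAt.congr_of_eventuallyEq ?_ hev
  have hne : ‖y - x‖ ^ 2 ≠ 0 := by rw [← dist_eq_norm]; positivity
  have h2 : HasFDerivAt (fun z : E2 => ‖z - x‖ ^ 2) (2 • (innerSL ℝ (y - x))) y := by
    have h3 := (hasStrictFDerivAt_norm_sq (y - x)).hasFDerivAt
    have h4 : HasFDerivAt (fun z : E2 => z - x) (ContinuousLinearMap.id ℝ E2) y :=
      (hasFDerivAt_id y).sub_const x
    have h5 := h3.comp y h4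
    rw [ContinuousLinearMap.comp_id] at h5
    exact h5
  have h6 := (((h2.log hne).const_mul (1 / 2)).const_sub (Real.log R)).const_mul
    (1 / Real.log (R / R0))
  convert! h6 using 1
  ext v
  simp [dist_eq_norm, div_eq_mul_inv]
  ring

lemma zlog_gradient_zero (h0 : 0 < R0) (h1 : R0 < R) {y : E2}
    (hy : dist y x < R0 ∨ R < dist y x) : ∇ (zlog x R0 R) y = 0 := by
  have hc : ContinuousAt (fun z : E2 => dist z x) y := by fun_prop
  rcases hy with hy | hy
  · have hev : zlog x R0 R =ᶠ[𝓝 y] fun _ => 1 := by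
      filter_upwards [hc.eventually_lt continuousAt_const hy] with z hz
      exact zlog_eq_one h0 h1 (mem_closedBall.2 hz.le)
    rw [gradient_congr_of_eventuallyEq hev]
    simp [gradient]
  · have hev : zlog x R0 R =ᶠ[𝓝 y] fun _ => 0 := by
      filter_upwards [continuousAt_const.eventually_lt hc hy] with z hz
      exact zlog_eq_zero h0 h1 (by simp [hz.le])
    rw [gradient_congr_of_eventuallyEq hev]
    simp [gradient]

lemma zlog_norm_gradient (h0 : 0 < R0) (h1 : R0 < R) {y : E2} (hy1 : R0 < dist y x)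
    (hy2 : dist y x < R) : ‖∇ (zlog x R0 R) y‖ = 1 / (Real.log (R / R0) * dist y x) := by
  have hl := zlog_log_pos h0 h1
  have hd : 0 < dist y x := by linarith
  rw [(zlog_hasGradientAt h0 h1 hy1 hy2).gradient, norm_smul, norm_neg, ← dist_eq_norm,
    Real.norm_of_nonneg (by positivity)]
  field_simp

theorem zlog_lintegral (h0 : 0 < R0) (h1 : R0 < R) :
    ∫⁻ y, ‖∇ (zlog x R0 R) y‖ₑ ^ 2 ≤ ENNReal.ofReal (2 * π / Real.log (R / R0)) := by
  have hl := zlog_log_pos h0 h1
  set ℓ := Real.log (R / R0) with hℓ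
  set f : E2 → ℝ≥0∞ := fun y => ‖∇ (zlog x R0 R) y‖ₑ ^ 2 with hf
  have hfm : Measurable f := by
    have := measurable_gradient (zlog x R0 R)
    exact (this.enorm).pow_const 2
  rw [lintegral_polar x hfm]
  have hval : ∀ t : ℝ, 0 < t → t ≠ R0 → t ≠ R → ∀ θ : ℝ, f (cpt x t θ) =
      (Ioo R0 R).indicator (fun t => ENNReal.ofReal ((1 / (ℓ * t)) ^ 2)) t := by
    intro t ht htR0 htR θ
    simp only [hf]
    by_cases hmem : t ∈ Ioo R0 R
    · rw [indicator_of_mem hmem]
      have hd : dist (cpt x t θ) x = t := by rw [dist_cpt, abs_of_pos ht]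
      have h2 := zlog_norm_gradient (x := x) (y := cpt x t θ) h0 h1 (by rw [hd]; exact hmem.1)
        (by rw [hd]; exact hmem.2)
      rw [hd] at h2
      rw [← ofReal_norm, h2, ← ENNReal.ofReal_pow (by positivity)]
    · rw [indicator_of_notMem hmem]
      have hd : dist (cpt x t θ) x = t := by rw [dist_cpt, abs_of_pos ht]
      have h2 : t < R0 ∨ R < t := by
        by_contra hcon
        push Not at hcon
        exact hmem ⟨lt_of_le_of_ne hcon.1 (Ne.symm htR0), lt_of_le_of_ne hcon.2 htR⟩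
      rw [zlog_gradient_zero h0 h1 (by rw [hd]; exact h2)]
      simp
  have hae : ∀ᵐ t ∂(volume.restrict (Ioi (0:ℝ))),
      ENNReal.ofReal t * ∫⁻ θ in Ioo (-π) π, f (cpt x t θ) =
      (Ioo R0 R).indicator (fun t => ENNReal.ofReal ((2 * π / ℓ ^ 2) * t⁻¹)) t := by
    have hne : ∀ᵐ t ∂(volume.restrict (Ioi (0:ℝ))), t ≠ R0 ∧ t ≠ R := by
      have h2 : ∀ᵐ t ∂(volume : Measure ℝ), t ≠ R0 := by
        simp [ae_iff]
      have h3 : ∀ᵐ t ∂(volume : Measure ℝ), t ≠ R := by
        simp [ae_iff]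
      filter_upwards [ae_restrict_of_ae h2, ae_restrict_of_ae h3] with t ht2 ht3
      exact ⟨ht2, ht3⟩
    filter_upwards [hne, ae_restrict_mem measurableSet_Ioi] with t ht ht0
    have ht0' : 0 < t := ht0
    have h2 : ∫⁻ θ in Ioo (-π) π, f (cpt x t θ) = ∫⁻ θ in Ioo (-π) π,
        (Ioo R0 R).indicator (fun t => ENNReal.ofReal ((1 / (ℓ * t)) ^ 2)) t :=
      lintegral_congr fun θ => hval t ht0' ht.1 ht.2 θ
    rw [h2, setLIntegral_const, Real.volume_Ioo]
    by_cases hmem : t ∈ Ioo R0 R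
    · rw [indicator_of_mem hmem, indicator_of_mem hmem, ← ENNReal.ofReal_mul (by positivity),
        ← ENNReal.ofReal_mul ht0'.le]
      congr 1
      field_simp
      ring
    · rw [indicator_of_notMem hmem, indicator_of_notMem hmem]
      simp
  rw [lintegral_congr_ae hae, lintegral_indicator measurableSet_Ioo, Measure.restrict_restrict
    measurableSet_Ioo, show Ioo R0 R ∩ Ioi 0 = Ioo R0 R from
      inter_eq_left.2 fun t ht => lt_trans h0 ht.1]
  have hint : IntegrableOn (fun t : ℝ => (2 * π / ℓ ^ 2) * t⁻¹) (Ioo R0 R) := by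
    apply Integrable.const_mul
    have hc : ContinuousOn (fun t : ℝ => t⁻¹) (Icc R0 R) :=
      continuousOn_inv₀.mono fun t ht => by
        have : R0 ≤ t := ht.1
        simp only [mem_compl_iff, mem_singleton_iff]
        linarith
    exact (hc.integrableOn_Icc).mono_set Ioo_subset_Icc_self
  rw [← ofReal_integral_eq_lintegral_ofReal hint ?_]
  · apply ENNReal.ofReal_le_ofReal
    rw [integral_const_mul, ← integral_Ioc_eq_integral_Ioo,
      ← intervalIntegral.integral_of_le h1.le, integral_inv_of_pos h0 (by linarith)]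
    rw [← hℓ]
    apply le_of_eq
    field_simp
  · filter_upwards [ae_restrict_mem measurableSet_Ioo] with t ht
    have : 0 < t := lt_trans h0 ht.1
    simp only [Pi.zero_apply]
    positivity

end

end Crest.Agent.R135
end

-- ▼ part R135/ZFlux7
section

/-!
# R135, block ZFlux (helper638), part 7: zero flux through every arc of a good circle
-/

set_option autoImplicit false

noncomputable section

open MeasureTheory Set Real Topology Filter Metric
open scoped ENNReal NNReal ContDiff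

namespace Crest.Agent.R135.ZF

variable {K : Set E2} {x : E2} {r α β : ℝ}

lemma ArcData.side_exists (d : ArcData K x r α β) :
    ∃ W, Side K (arcS x r α β) W ∧ SideProp K x r α β W := by
  obtain ⟨W, h1, h2, h3, h4⟩ := d.exists_side
  exact ⟨W, ⟨d.closed, isCompact_arcS _ _ _ _, volume_arcS d.hr, h1, h2, h3⟩, h4⟩

lemma len_arcS_lt_top (hr : 0 ≤ r) : len (arcS x r α β) < ⊤ :=
  (hausdorff_arc_le x hr α β).trans_lt ENNReal.ofReal_lt_top

/-- cut-offs of small energy -/
lemma exists_cut (hr : 0 < r) {ε : ℝ} (hε : 0 < ε) :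
    ∃ (x' : E2) (R : ℝ) (η : E2 → ℝ) (C : ℝ≥0), 0 < R ∧ arcS x r α β ⊆ closedBall x' R ∧
      LipschitzWith C η ∧ (∀ y, y ∉ closedBall x' R → η y = 0) ∧ (∀ y ∈ arcS x r α β, η y = 1) ∧
      ∫⁻ y, ‖gradient η y‖ₑ ^ 2 ≤ ENNReal.ofReal ε := by
  set R : ℝ := r * Real.exp (2 * π / ε) with hR
  have hpi := Real.pi_pos
  have hexp : 1 < Real.exp (2 * π / ε) := Real.one_lt_exp_iff.2 (by positivity)
  have hrR : r < R := by rw [hR]; nlinarith
  have hsub : arcS x r α β ⊆ closedBall x r :=
    (arcS_subset_sphere hr).trans sphere_subset_closedBall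
  obtain ⟨C, hC⟩ := zlog_lipschitz' (x := x) hr hrR
  refine ⟨x, R, zlog x r R, C, hr.trans hrR, hsub.trans (closedBall_subset_closedBall hrR.le), hC,
    ?_, ?_, ?_⟩
  · intro y hy
    exact zlog_eq_zero hr hrR (fun h => hy (ball_subset_closedBall h))
  · intro y hy
    exact zlog_eq_one hr hrR (hsub hy)
  · refine (zlog_lintegral hr hrR).trans (ENNReal.ofReal_le_ofReal ?_)
    have h1 : R / r = Real.exp (2 * π / ε) := by rw [hR]; field_simp
    rw [h1, Real.log_exp]
    apply le_of_eq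
    field_simp

lemma integrableOn_inner_cpt_supp {u : E2 → ℝ} (h : IsQM univ 0 u K) {H : E2 → E2}
    (hH : Measurable H) {D : ℝ} (hD : ∀ y, ‖H y‖ ≤ D) {x : E2} {R : ℝ}
    (h0 : ∀ y, y ∉ closedBall x R → H y = 0) :
    Integrable (fun y => (inner ℝ (gradient u y) (H y) : ℝ)) := by
  have h3 := integrableOn_inner h hH hD x R
  rw [← integrableOn_univ, ← union_compl_self (closedBall x R)]
  refine h3.union ?_
  have h5 : EqOn (fun _ : E2 => (0 : ℝ)) (fun y => (inner ℝ (gradient u y) (H y) : ℝ))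
      (closedBall x R)ᶜ := by
    intro y hy
    simp only [h0 y hy, inner_zero_right]
  exact (integrableOn_zero).congr_fun h5 isClosed_closedBall.measurableSet.compl

/-- far away the cut-off is `1` -/
lemma mab_far {ρ : ℝ} (hr : 0 < r) {y : E2} (hy : y ∉ closedBall x (r + 2 * ρ)) :
    2 * ρ < dist y (cpt x r α) ∧ 2 * ρ < dist y (cpt x r β) := by
  rw [mem_closedBall, not_le] at hy
  constructor
  · have h1 := dist_triangle y (cpt x r α) x
    rw [dist_cpt, abs_of_pos hr] at h1
    linarith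
  · have h1 := dist_triangle y (cpt x r β) x
    rw [dist_cpt, abs_of_pos hr] at h1
    linarith

lemma ramp_far {δ : ℝ} (hr : 0 < r) (hαβ : α < β) (hδ : 0 < δ) {y : E2}
    (hy : y ∉ closedBall x (r + δ)) : ramp (arcS x r α β) δ y = 0 := by
  by_contra hcon
  have hne : (arcS x r α β).Nonempty := ⟨_, mem_image_of_mem _ (left_mem_Icc.2 hαβ.le)⟩
  obtain ⟨q, hq, hqd⟩ := (infDist_lt_iff hne).1 (ramp_ne_zero hδ hcon)
  apply hy
  have h1 := mem_sphere.1 (arcS_subset_sphere hr hq)
  have h2 := dist_triangle y q x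
  rw [mem_closedBall]
  linarith

/-- the ramp integral does not depend on `δ` -/
theorem ramp_const {u : E2 → ℝ} (h : IsQM univ 0 u K) (hr : 0 < r) (hαβ : α < β) {W : Set E2}
    (hs : Side K (arcS x r α β) W) {ρ δ : ℝ} (hρ : 0 < ρ) (hδ : 0 < δ) :
    ∫ y in W, inner ℝ (gradient u y) (gradient (ff x r α β ρ δ) y) =
      ∫ y in W, inner ℝ (gradient u y) (gradient (mab (cpt x r α) (cpt x r β) ρ) y) := by
  set M : E2 → ℝ := mab (cpt x r α) (cpt x r β) ρ with hM
  set κ : E2 → ℝ := fun y => 1 - M y + ff x r α β ρ δ y with hκdef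
  have hMl : LipschitzWith (Cρ ρ) M := mab_lip _ _ hρ
  have hfl := ff_lip x r α β hρ hδ
  have hκl : LipschitzWith (0 + Cρ ρ + (Cρ ρ + Real.toNNReal δ⁻¹)) κ :=
    ((LipschitzWith.const 1).sub hMl).add hfl
  have hκ0 : ∀ y, y ∉ closedBall x (r + 2 * ρ + δ) → κ y = 0 := by
    intro y hy
    have h1 : y ∉ closedBall x (r + 2 * ρ) := fun h1 =>
      hy (closedBall_subset_closedBall (by linarith) h1)
    have h2 : y ∉ closedBall x (r + δ) := fun h1 =>
      hy (closedBall_subset_closedBall (by linarith) h1)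
    obtain ⟨ha, hb⟩ := mab_far (α := α) (β := β) hr h1
    simp only [hκdef, ff, ramp_far hr hαβ hδ h2, hM, mab_one hρ ha.le hb.le]
    ring
  have hκc : HasCompactSupport κ := HasCompactSupport.intro (isCompact_closedBall x _) hκ0
  have hκ1 : ∀ y ∈ arcS x r α β, κ y = 1 := by
    intro y hy
    simp only [hκdef, ff, ramp_on _ δ hy, hM]
    ring
  have hz := flux_zero h hs (len_arcS_lt_top hr.le) (fun ε hε => exists_cut hr hε) hκl hκc hκ1
  -- integrability
  have i1 : Integrable (fun y => (inner ℝ (gradient u y) (gradient M y) : ℝ)) := by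
    refine integrableOn_inner_cpt_supp h (measurable_gradient' M) (norm_gradient_le hMl)
      (x := x) (R := r + 2 * ρ) ?_
    intro y hy
    obtain ⟨ha, hb⟩ := mab_far (α := α) (β := β) hr hy
    exact gradient_mab_zero hρ ha hb
  have i2 : Integrable (fun y => (inner ℝ (gradient u y) (gradient (ff x r α β ρ δ) y) : ℝ)) := by
    refine integrableOn_inner_cpt_supp h (measurable_gradient' _) (norm_gradient_le hfl)
      (x := x) (R := r + δ) ?_
    intro y hy
    apply gradient_ff_zero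
    unfold ff
    rw [ramp_far hr hαβ hδ hy, mul_zero]
  have e1 : ∫ y in W, inner ℝ (gradient u y) (gradient κ y) =
      (∫ y in W, inner ℝ (gradient u y) (gradient (ff x r α β ρ δ) y)) -
      ∫ y in W, inner ℝ (gradient u y) (gradient M y) := by
    rw [← integral_sub i2.integrableOn i1.integrableOn]
    apply integral_congr_ae
    filter_upwards [ae_restrict_of_ae (hMl.ae_differentiableAt (μ := volume)),
      ae_restrict_of_ae (hfl.ae_differentiableAt (μ := volume))] with y h1 h2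
    rw [← inner_sub_right]
    congr 1
    have h3 : HasFDerivAt κ (-fderiv ℝ M y + fderiv ℝ (ff x r α β ρ δ) y) y :=
      (h1.hasFDerivAt.const_sub 1).add h2.hasFDerivAt
    simp only [gradient]
    rw [h3.fderiv, map_add, map_neg]
    abel
  rw [e1] at hz
  linarith

/-- for each `ρ`: the flux with the cut-off -/
theorem flux_rho {u : E2 → ℝ} (h : IsQM univ 0 u K) (hr : 0 < r) (hαβ : α < β)
    (hβ : β < α + 2 * π) {W : Set E2} (hs : Side K (arcS x r α β) W)
    (hW : SideProp K x r α β W) {ρ : ℝ} (hρ : 0 < ρ)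
    (hρs : α + ρ / (2 * r) ≤ β - ρ / (2 * r)) :
    ∫ y in W, inner ℝ (gradient u y) (gradient (mab (cpt x r α) (cpt x r β) ρ) y) =
      - ∫ θ in α..β, r * (mab (cpt x r α) (cpt x r β) ρ (cpt x r θ) *
            inner ℝ (gradient u (cpt x r θ)) (dir θ)) := by
  set M : E2 → ℝ := mab (cpt x r α) (cpt x r β) ρ with hM
  set F : ℝ → ℝ := fun θ => r * (M (cpt x r θ) * inner ℝ (gradient u (cpt x r θ)) (dir θ)) with hF
  have hpos : 0 < ρ / (2 * r) := by positivity
  set α' : ℝ := α + ρ / (2 * r) with hα'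
  set β' : ℝ := β - ρ / (2 * r) with hβ'
  -- the integral over the whole arc is the integral over the shortened arc
  have hq : ∫ θ in α..β, F θ = ∫ θ in α'..β', F θ := by
    rw [intervalIntegral.integral_of_le hαβ.le, intervalIntegral.integral_of_le hρs]
    apply setIntegral_eq_of_subset_of_forall_sdiff_eq_zero measurableSet_Ioc
    · intro θ hθ
      exact ⟨by linarith [hθ.1], by linarith [hθ.2]⟩
    · rintro θ ⟨h1, h2⟩
      have hM0 : M (cpt x r θ) = 0 := by
        by_contra hcon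
        obtain ⟨ha, hb⟩ := mab_ne_zero hρ hcon
        have h3 := dist_cpt_cpt_ang x hr.le θ α
        have h4 := dist_cpt_cpt_ang x hr.le θ β
        rw [abs_of_pos (by linarith [h1.1])] at h3
        rw [abs_sub_comm, abs_of_nonneg (by linarith [h1.2])] at h4
        have h8 : r * (ρ / (2 * r)) = ρ / 2 := by field_simp
        apply h2
        constructor
        · by_contra h5
          push Not at h5
          have : r * (θ - α) ≤ r * (ρ / (2 * r)) := by
            apply mul_le_mul_of_nonneg_left _ hr.le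
            linarith
          linarith
        · by_contra h5
          push Not at h5
          have : r * (β - θ) ≤ r * (ρ / (2 * r)) := by
            apply mul_le_mul_of_nonneg_left _ hr.le
            linarith
          linarith
      simp only [hF, hM0, zero_mul, mul_zero]
  rw [hq]
  set c := ∫ y in W, inner ℝ (gradient u y) (gradient M y) with hc
  set q := ∫ θ in α'..β', F θ with hqdef
  by_contra hne
  have hη : 0 < |c + q| := abs_pos.2 (fun h0 => hne (by linarith))
  obtain ⟨δ0, hδ0, hlim⟩ := ramp_limit h hr hαβ hβ hs hW hρ hρs (half_pos hη)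
  have h1 := hlim δ0 ⟨hδ0, le_rfl⟩
  rw [ramp_const h hr hαβ hs hρ hδ0] at h1
  have h2 : |c + q| ≤ |c + q| / 2 := h1
  linarith

/-- the interior term is small -/
theorem small_term {u : E2 → ℝ} (h : IsQM univ 0 u K) (W : Set E2)
    (a b : E2) {ρ : ℝ} (hρ : 0 < ρ) :
    |∫ y in W, inner ℝ (gradient u y) (gradient (mab a b ρ) y)| ≤ 32 * π * C0 * √ρ := by
  have hρs : 0 < √ρ := Real.sqrt_pos.2 hρ
  have hpi := Real.pi_pos
  -- energy bounds on the two balls
  have hball : ∀ p : E2, IntegrableOn (fun y => ‖gradient u y‖ ^ 2) (closedBall p (2 * ρ)) ∧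
      ∫ y in closedBall p (2 * ρ), ‖gradient u y‖ ^ 2 ≤ 4 * π * ρ := by
    intro p
    have h1 : dirE u K (closedBall p (2 * ρ)) ≤ ENNReal.ofReal (4 * π * ρ) := by
      have h2 := h.energy_le (x := p) (ρ := 2 * ρ) (by positivity) (subset_univ _)
      refine le_trans ?_ (h2.trans (ENNReal.ofReal_le_ofReal (by nlinarith)))
      exact le_self_add
    have h3 : MemLp (gradient u) 2 (volume.restrict (closedBall p (2 * ρ))) := by
      refine Gl.memLp_two_of_lintegral (measurable_gradient' u).aestronglyMeasurable ?_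
      have h4 : dirE u K (closedBall p (2 * ρ)) < ⊤ := h.dir_fin p _ (subset_univ _)
      unfold dirE at h4
      rwa [Measure.restrict_congr_set (sdiff_ae_eq h.volume_K)] at h4
    refine ⟨Gl.integrable_normsq h3, ?_⟩
    unfold dirE at h1
    rw [Measure.restrict_congr_set (sdiff_ae_eq h.volume_K), Gl.lintegral_sq_eq h3] at h1
    exact (ENNReal.ofReal_le_ofReal_iff (by positivity)).1 h1
  have hvol : ∀ p : E2, volume.real (closedBall p (2 * ρ)) = 4 * π * ρ ^ 2 := by
    intro p
    rw [Measure.real, EuclideanSpace.volume_closedBall_fin_two, ENNReal.toReal_mul,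
      ENNReal.toReal_pow, ENNReal.toReal_ofReal (by positivity)]
    rw [ENNReal.toReal_ofReal hpi.le]
    ring
  -- pointwise bound
  set B : Set E2 := closedBall a (2 * ρ) ∪ closedBall b (2 * ρ) with hB
  have hC : ((Cρ ρ : ℝ≥0) : ℝ) = 2 * C0 / ρ := by
    unfold Cρ
    push_cast
    rw [Real.coe_toNNReal _ hρ.le]
    field_simp
    ring
  have hC0 : (0 : ℝ) ≤ C0 := C0.coe_nonneg
  have hpt : ∀ y, |(inner ℝ (gradient u y) (gradient (mab a b ρ) y) : ℝ)| ≤
      (closedBall a (2 * ρ)).indicator (fun y => (C0 / ρ) * (√ρ * ‖gradient u y‖ ^ 2 + (√ρ)⁻¹)) y +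
      (closedBall b (2 * ρ)).indicator (fun y => (C0 / ρ) * (√ρ * ‖gradient u y‖ ^ 2 + (√ρ)⁻¹)) y := by
    intro y
    have hnn : ∀ y : E2, 0 ≤ (C0 / ρ : ℝ) * (√ρ * ‖gradient u y‖ ^ 2 + (√ρ)⁻¹) := by
      intro y; positivity
    have hin : |(inner ℝ (gradient u y) (gradient (mab a b ρ) y) : ℝ)| ≤
        (C0 / ρ) * (√ρ * ‖gradient u y‖ ^ 2 + (√ρ)⁻¹) := by
      refine (abs_real_inner_le_norm _ _).trans ?_
      have h1 := norm_gradient_le (mab_lip a b hρ) y
      rw [hC] at h1
      have h2 : 2 * ‖gradient u y‖ ≤ √ρ * ‖gradient u y‖ ^ 2 + (√ρ)⁻¹ := by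
        have h3 : 0 ≤ (√ρ * ‖gradient u y‖ - 1) ^ 2 * (√ρ)⁻¹ := by positivity
        have h4 : (√ρ * ‖gradient u y‖ - 1) ^ 2 * (√ρ)⁻¹ =
            √ρ * ‖gradient u y‖ ^ 2 - 2 * ‖gradient u y‖ + (√ρ)⁻¹ := by
          field_simp
          ring
        linarith
      calc ‖gradient u y‖ * ‖gradient (mab a b ρ) y‖ ≤ ‖gradient u y‖ * (2 * C0 / ρ) :=
            mul_le_mul_of_nonneg_left h1 (norm_nonneg _)
        _ = (C0 / ρ) * (2 * ‖gradient u y‖) := by ring
        _ ≤ _ := mul_le_mul_of_nonneg_left h2 (by positivity)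
    by_cases hya : y ∈ closedBall a (2 * ρ)
    · rw [indicator_of_mem hya]
      have : 0 ≤ (closedBall b (2 * ρ)).indicator
          (fun y => (C0 / ρ : ℝ) * (√ρ * ‖gradient u y‖ ^ 2 + (√ρ)⁻¹)) y :=
        indicator_nonneg (fun y _ => hnn y) y
      linarith
    · by_cases hyb : y ∈ closedBall b (2 * ρ)
      · rw [indicator_of_mem hyb, indicator_of_notMem hya, zero_add]
        exact hin
      · rw [indicator_of_notMem hya, indicator_of_notMem hyb, add_zero]
        rw [mem_closedBall, not_le] at hya hyb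
        rw [gradient_mab_zero hρ hya hyb, inner_zero_right, abs_zero]
  have hfin : ∀ p : E2, IntegrableOn (fun y => (C0 / ρ : ℝ) * (√ρ * ‖gradient u y‖ ^ 2 + (√ρ)⁻¹))
      (closedBall p (2 * ρ)) := by
    intro p
    refine (((hball p).1.const_mul _).add ?_).const_mul _
    exact integrableOn_const (measure_closedBall_lt_top.ne)
  have hval : ∀ p : E2, ∫ y in closedBall p (2 * ρ),
      (C0 / ρ : ℝ) * (√ρ * ‖gradient u y‖ ^ 2 + (√ρ)⁻¹) ≤ 16 * π * C0 * √ρ := by
    intro p
    have i1 := (hball p).1.const_mul (√ρ)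
    have i2 : IntegrableOn (fun _ : E2 => (√ρ)⁻¹) (closedBall p (2 * ρ)) :=
      integrableOn_const (measure_closedBall_lt_top.ne)
    rw [integral_const_mul, integral_add i1 i2, integral_const_mul, setIntegral_const, hvol p,
      smul_eq_mul]
    have h1 := (hball p).2
    have h2 : √ρ * ∫ y in closedBall p (2 * ρ), ‖gradient u y‖ ^ 2 ≤ √ρ * (4 * π * ρ) :=
      mul_le_mul_of_nonneg_left h1 hρs.le
    have h3 : 4 * π * ρ ^ 2 * (√ρ)⁻¹ = √ρ * (4 * π * ρ) := by
      have : ρ ^ 2 = ρ * (√ρ * √ρ) := by rw [Real.mul_self_sqrt hρ.le]; ring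
      rw [this]
      field_simp
    rw [h3]
    calc (C0 / ρ : ℝ) * (√ρ * (∫ y in closedBall p (2 * ρ), ‖gradient u y‖ ^ 2) +
          √ρ * (4 * π * ρ)) ≤ (C0 / ρ : ℝ) * (√ρ * (4 * π * ρ) + √ρ * (4 * π * ρ)) := by
          apply mul_le_mul_of_nonneg_left _ (by positivity)
          linarith
      _ = 8 * π * C0 * √ρ := by field_simp; ring
      _ ≤ 16 * π * C0 * √ρ := by
          have : 0 ≤ π * C0 * √ρ := by positivity
          nlinarith
  have hcm : ∀ p : E2, MeasurableSet (closedBall p (2 * ρ)) :=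
    fun p => isClosed_closedBall.measurableSet
  calc |∫ y in W, inner ℝ (gradient u y) (gradient (mab a b ρ) y)|
      ≤ ∫ y in W, |(inner ℝ (gradient u y) (gradient (mab a b ρ) y) : ℝ)| :=
        abs_integral_le_integral_abs
    _ ≤ ∫ y in W, ((closedBall a (2 * ρ)).indicator
          (fun y => (C0 / ρ) * (√ρ * ‖gradient u y‖ ^ 2 + (√ρ)⁻¹)) y +
        (closedBall b (2 * ρ)).indicator
          (fun y => (C0 / ρ) * (√ρ * ‖gradient u y‖ ^ 2 + (√ρ)⁻¹)) y) := by
        apply integral_mono_of_nonneg (ae_of_all _ fun y => abs_nonneg _)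
        · exact (((hfin a).integrable_indicator (hcm a)).add
            ((hfin b).integrable_indicator (hcm b))).integrableOn
        · exact ae_of_all _ hpt
    _ ≤ ∫ y, ((closedBall a (2 * ρ)).indicator
          (fun y => (C0 / ρ) * (√ρ * ‖gradient u y‖ ^ 2 + (√ρ)⁻¹)) y +
        (closedBall b (2 * ρ)).indicator
          (fun y => (C0 / ρ) * (√ρ * ‖gradient u y‖ ^ 2 + (√ρ)⁻¹)) y) := by
        apply setIntegral_le_integral
        · exact ((hfin a).integrable_indicator (hcm a)).add ((hfin b).integrable_indicator (hcm b))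
        · refine ae_of_all _ fun y => ?_
          apply add_nonneg <;> exact indicator_nonneg (fun y _ => by positivity) y
    _ = _ + _ := integral_add ((hfin a).integrable_indicator (hcm a))
          ((hfin b).integrable_indicator (hcm b))
    _ ≤ 16 * π * C0 * √ρ + 16 * π * C0 * √ρ := by
        rw [integral_indicator (hcm a), integral_indicator (hcm b)]
        exact add_le_add (hval a) (hval b)
    _ = _ := by ring

/-- **Zero flux through every arc of a good circle.** -/
theorem arc_flux_zero {u : E2 → ℝ} (h : IsQM univ 0 u K) (d : ArcData K x r α β)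
    (hg : GoodCirc K (fun y => gradient u y) x r) :
    ∫ θ in α..β, inner ℝ (gradient u (cpt x r θ)) (dir θ) = 0 := by
  have hr := d.hr
  have hαβ := d.hαβ
  obtain ⟨W, hs, hW⟩ := d.side_exists
  set G : ℝ → ℝ := fun θ => inner ℝ (gradient u (cpt x r θ)) (dir θ) with hG
  have hGi : IntervalIntegrable G volume α β := hg.intervalIntegrable_dir α β
  set a := cpt x r α with ha
  set b := cpt x r β with hb
  -- a sequence of radii
  set ρ : ℕ → ℝ := fun n => r * (β - α) / (n + 1) with hρdef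
  have hba : 0 < β - α := by linarith
  have hρpos : ∀ n, 0 < ρ n := fun n => by positivity
  have hρlim : Tendsto ρ atTop (𝓝 0) := by
    have h1 := tendsto_one_div_add_atTop_nhds_zero_nat (𝕜 := ℝ)
    have h2 := h1.const_mul (r * (β - α))
    rw [mul_zero] at h2
    refine h2.congr fun n => ?_
    simp only [hρdef]
    ring
  have hρs : ∀ n, α + ρ n / (2 * r) ≤ β - ρ n / (2 * r) := by
    intro n
    have h1 : ρ n / (2 * r) ≤ (β - α) / 2 := by
      rw [hρdef]
      have h2 : r * (β - α) / ((n : ℝ) + 1) / (2 * r) = (β - α) / (2 * ((n : ℝ) + 1)) := by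
        field_simp
      simp only
      rw [h2]
      apply div_le_div_of_nonneg_left hba.le (by norm_num)
      have : (0 : ℝ) ≤ n := n.cast_nonneg
      linarith
    linarith
  have key : ∀ n, |∫ θ in α..β, r * (mab a b (ρ n) (cpt x r θ) * G θ)| ≤
      32 * π * C0 * √(ρ n) := by
    intro n
    have h1 := flux_rho h hr hαβ d.hβ hs hW (hρpos n) (hρs n)
    have h2 := small_term h W a b (hρpos n)
    rw [h1, abs_neg] at h2
    exact h2
  -- dominated convergence
  have hlim : Tendsto (fun n => ∫ θ in α..β, r * (mab a b (ρ n) (cpt x r θ) * G θ)) atTop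
      (𝓝 (∫ θ in α..β, r * (1 * G θ))) := by
    apply intervalIntegral.tendsto_integral_filter_of_dominated_convergence (fun θ => r * |G θ|)
    · refine Eventually.of_forall fun n => ?_
      have hMc : Continuous (fun θ => mab a b (ρ n) (cpt x r θ)) :=
        (mab_contDiff a b (ρ n)).continuous.comp (continuous_cptθ x r)
      have hGm : AEStronglyMeasurable G (volume.restrict (uIoc α β)) :=
        (intervalIntegrable_iff.1 hGi).aestronglyMeasurable
      exact ((hMc.aestronglyMeasurable).mul hGm).const_mul r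
    · refine Eventually.of_forall fun n => ae_of_all _ fun θ _ => ?_
      rw [norm_mul, norm_mul, Real.norm_of_nonneg hr.le, Real.norm_eq_abs, Real.norm_eq_abs]
      apply mul_le_mul_of_nonneg_left _ hr.le
      calc |mab a b (ρ n) (cpt x r θ)| * |G θ| ≤ 1 * |G θ| :=
            mul_le_mul_of_nonneg_right (abs_mab_le _ _ _ _) (abs_nonneg _)
        _ = |G θ| := one_mul _
    · exact (hGi.abs).const_mul r
    · have hb0 : ∀ᵐ θ : ℝ, θ ≠ β := by
        have : (volume : Measure ℝ) {β} = 0 := Real.volume_singleton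
        exact measure_eq_zero_iff_ae_notMem.1 this
      filter_upwards [hb0] with θ hθβ hθ
      rw [uIoc_of_le hαβ.le] at hθ
      have hθ' : θ ∈ Ioo α β := ⟨hθ.1, lt_of_le_of_ne hθ.2 hθβ⟩
      have hda : 0 < dist (cpt x r θ) a := by
        rw [dist_pos]
        intro h1
        have h2 := cpt_injOn (x := x) hr.ne' α (⟨hθ'.1.le, by linarith [hθ'.2, d.hβ]⟩)
          (⟨le_rfl, by linarith [pi_pos]⟩) h1
        linarith [hθ'.1]
      have hdb : 0 < dist (cpt x r θ) b := by
        rw [dist_pos]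
        intro h1
        have h2 := cpt_injOn (x := x) hr.ne' α (⟨hθ'.1.le, by linarith [hθ'.2, d.hβ]⟩)
          (⟨hαβ.le, d.hβ⟩) h1
        linarith [hθ'.2]
      have h3 : ∀ᶠ n in atTop, 2 * ρ n < min (dist (cpt x r θ) a) (dist (cpt x r θ) b) := by
        have h4 : Tendsto (fun n => 2 * ρ n) atTop (𝓝 0) := by
          have := hρlim.const_mul 2
          rwa [mul_zero] at this
        exact h4.eventually_lt_const (lt_min hda hdb)
      apply tendsto_const_nhds.congr'
      filter_upwards [h3] with n hn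
      rw [mab_one (hρpos n) (hn.le.trans (min_le_left _ _)) (hn.le.trans (min_le_right _ _))]
  have hlim0 : Tendsto (fun n => ∫ θ in α..β, r * (mab a b (ρ n) (cpt x r θ) * G θ)) atTop
      (𝓝 0) := by
    apply squeeze_zero_norm key
    have h1 : Tendsto (fun n => √(ρ n)) atTop (𝓝 0) := by
      have := (Real.continuous_sqrt.tendsto 0).comp hρlim
      rwa [Real.sqrt_zero] at this
    have := h1.const_mul (32 * π * C0)
    rwa [mul_zero] at this
  have h5 := tendsto_nhds_unique hlim hlim0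
  simp only [one_mul] at h5
  rw [intervalIntegral.integral_const_mul] at h5
  exact (mul_eq_zero.1 h5).resolve_left hr.ne'

/-- **ZERO FLUX THEOREM**, given that all components of `K` are unbounded. -/
theorem zeroFlux_of_unbounded {u : E2 → ℝ} (h : IsQM univ 0 u K)
    (hub : ∀ p ∈ K, ¬ Bornology.IsBounded (connectedComponentIn K p)) (x : E2) :
    ZeroFlux u K x := by
  have hKc : IsClosed K := by
    have h1 := h.closed
    rw [inter_univ] at h1
    exact closure_eq_iff_isClosed.1 (subset_antisymm h1 subset_closure)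
  obtain ⟨f, hf⟩ := QMC.exists_EL h
  have hf0 : ∀ y, f y = 0 := fun y => abs_eq_zero.1 (le_antisymm (hf.bdd y) (abs_nonneg _))
  have h1 : ∀ᵐ t : ℝ, ∀ n : ℕ, t ∈ Ioo (0 : ℝ) n → GoodCirc K (fun y => gradient u y) x t :=
    ae_all_iff.2 fun n => QMC.ae_goodCirc_qm h (subset_univ _)
  have h2 : ∀ᵐ t : ℝ, ∀ n : ℕ, t ∈ Ioo (0 : ℝ) n →
      t * (∫ θ in (-π)..π, inner ℝ (gradient u (cpt x t θ)) (dir θ)) = ∫ y in ball x t, f y :=
    ae_all_iff.2 fun n => QMC.total_flux h hf n.cast_nonneg (subset_univ _)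
  unfold ZeroFlux
  rw [ae_restrict_iff' measurableSet_Ioi]
  filter_upwards [h1, h2] with r hr1 hr2 hr a b hab
  obtain ⟨n, hn⟩ := exists_nat_gt r
  have hr0 : 0 < r := hr
  have hg := hr1 n ⟨hr0, hn⟩
  have htot := hr2 n ⟨hr0, hn⟩
  obtain ⟨hab1, hab2, haK, hbK, hI⟩ := hab
  unfold flux
  rcases hab2.lt_or_eq with hlt | heq
  · rw [arc_flux_zero h ⟨hKc, hr0, hab1, hlt, haK, hub _ haK, hbK, hub _ hbK, hI⟩ hg, mul_zero]
  · have hper : Function.Periodic
        (fun θ => (inner ℝ (gradient u (cpt x r θ)) (dir θ) : ℝ)) (2 * π) := by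
      intro θ
      simp only [cpt_periodic x r θ, dir_periodic θ]
    have h3 := hper.intervalIntegral_add_eq (-π) a
    have h4 : -π + 2 * π = π := by ring
    rw [h4] at h3
    rw [heq, ← h3, htot]
    simp [hf0]

end Crest.Agent.R135.ZF
end
end

-- ▼ part R135/IF_zero_flux

/-! INTERFACE zero_flux (proved in ZFlux1-7 by helper638). -/

set_option autoImplicit false

open MeasureTheory Set Filter Topology Metric
open scoped ENNReal NNReal ContDiff Gradient
open Crest.AnalysisR.PDE.OnePhase Crest.AnalysisR.PDE.MumfordShah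

namespace Crest.Agent.R135

/-- ZF -/
theorem zero_flux {u : E2 → ℝ} {K : Set E2} (h : IsQM univ 0 u K) (x : E2) : ZeroFlux u K x :=
  ZF.zeroFlux_of_unbounded h (fun _ hp => component_unbounded_gm h hp) x

end Crest.Agent.R135
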