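import Crest.Agent.R135.IFDefs2
import Crest.Agent.R135.IF_B4
import Crest.Agent.R135.IF_zero_flux
import Crest.Agent.R135.BonCone5

/-! INTERFACE Dr_div_mono: monotonicity of `D(r)/r` for global minimizers (helper898). -/

set_option autoImplicit false

open MeasureTheory Set Filter Topology Metric
open scoped ENNReal NNReal ContDiff Gradient
open Crest.AnalysisR.PDE.OnePhase Crest.AnalysisR.PDE.MumfordShah

namespace Crest.Agent.R135

/-- MONO -/
theorem Dr_div_mono {u : E2 → ℝ} {K : Set E2} (h : IsQM univ 0 u K) (x : E2) :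
    MonotoneOn (fun r => Dr u K x r / r) (Ioi 0) := by
  have hi : ∀ r, 0 ≤ r → IntervalIntegrable (fun t => cirE u x t) volume 0 r := fun r hr =>
    QMC.intervalIntegrable_cirE h (subset_univ (closedBall x r)) hr
  have hD : ∀ r, 0 ≤ r → Dr u K x r = ∫ t in (0:ℝ)..r, cirE u x t := by
    intro r hr
    have := QMC.Dr_sub h (subset_univ (closedBall x r)) le_rfl hr le_rfl
    rwa [QMC.Dr_of_nonpos u K x le_rfl, sub_zero] at this
  refine mono_div_of_ineq hi hD ?_
  filter_upwards [bonnet_arc h x, bonnet_empty h x, zero_flux h x,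
    ae_restrict_mem measurableSet_Ioi] with t h1 h2 h3 ht
  have ht0 : (0:ℝ) < t := ht
  have hE : 0 ≤ t * cirE u x t := mul_nonneg ht0.le (QMC.cirE_nonneg u x ht0.le)
  by_cases hne : (K ∩ sphere x t).Nonempty
  · refine (h1 hne h3 (2 * Real.pi) fun a b hab => by linarith [hab.2.1]).trans (le_of_eq ?_)
    rw [div_self (by positivity), one_mul]
  · refine (h2 (not_nonempty_iff_eq_empty.1 hne)).trans ?_
    linarith

end Crest.Agent.R135
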