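import Mathlib

-- ▼ part R135/TreeJ

/-! R135, block Tree (helper804), part J: a separation lemma in the plane obtained from continuous
logarithms (no Jordan curve theorem, no winding numbers).

`HasLogOn K a b`: `(z - a) / (z - b)` has a continuous logarithm on `K`.
* `hasLogOn_of_preconnected`: true if `a, b` lie in a preconnected subset of the complement of the
  closed set `K`.
* `not_preconn_compl_of_noncut`: `K` closed, `x ∈ K`, `e ≠ 0`, the two segments from `x` in the
  directions `e (1 ± i)` avoid `K` near `x`, `K` accumulates at `x` inside the thin cone around `e`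
  and also inside the half plane `Re (·/e) ≤ 0`; if `K \ {x}` is preconnected then the complement
  of `K` is not. -/

set_option autoImplicit false
open Set Topology Filter

namespace Crest.Agent.R135

/-- `(z - a) / (z - b)` has a continuous logarithm on `K`. -/
def HasLogOn (K : Set ℂ) (a b : ℂ) : Prop :=
  ∃ L : ℂ → ℂ, ContinuousOn L K ∧ ∀ z ∈ K, Complex.exp (L z) = (z - a) / (z - b)

theorem hasLogOn_near {K : Set ℂ} (hK : IsClosed K) {b : ℂ} (hb : b ∉ K) :
    ∀ᶠ b' in 𝓝 b, HasLogOn K b' b := by
  have ho : IsOpen Kᶜ := hK.isOpen_compl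
  obtain ⟨δ, hδ, hball⟩ := Metric.isOpen_iff.1 ho b hb
  filter_upwards [Metric.ball_mem_nhds b hδ] with b' hb'
  have hz : ∀ z ∈ K, δ ≤ ‖z - b‖ := by
    intro z hz
    by_contra hcon
    push Not at hcon
    exact hball (by rwa [Metric.mem_ball, dist_eq_norm]) hz
  have hne : ∀ z ∈ K, z - b ≠ 0 := fun z hzK h => by
    have := hz z hzK
    rw [h, norm_zero] at this
    linarith
  have hslit : ∀ z ∈ K, (z - b') / (z - b) ∈ Complex.slitPlane := by
    intro z hzK
    have h1 : (z - b') / (z - b) = 1 + (b - b') / (z - b) := by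
      field_simp [hne z hzK]
      ring
    rw [h1]
    apply Complex.mem_slitPlane_of_norm_lt_one
    rw [norm_div, div_lt_one (norm_pos_iff.2 (hne z hzK))]
    refine lt_of_lt_of_le ?_ (hz z hzK)
    rw [Metric.mem_ball, dist_comm, dist_eq_norm] at hb'
    exact hb'
  refine ⟨fun z => Complex.log ((z - b') / (z - b)), ?_, ?_⟩
  · apply ContinuousOn.clog
    · exact (continuousOn_id.sub continuousOn_const).div (continuousOn_id.sub continuousOn_const)
        hne
    · exact hslit
  · intro z hzK
    exact Complex.exp_log (Complex.slitPlane_ne_zero (hslit z hzK))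

theorem HasLogOn.symm {K : Set ℂ} {a b : ℂ} (h : HasLogOn K a b) : HasLogOn K b a := by
  obtain ⟨L, hL, he⟩ := h
  refine ⟨fun z => - L z, hL.neg, fun z hz => ?_⟩
  rw [Complex.exp_neg, he z hz, inv_div]

theorem HasLogOn.trans {K : Set ℂ} {a b c : ℂ} (hb : b ∉ K) (h : HasLogOn K a b)
    (h' : HasLogOn K b c) : HasLogOn K a c := by
  obtain ⟨L, hL, he⟩ := h
  obtain ⟨L', hL', he'⟩ := h'
  refine ⟨fun z => L z + L' z, hL.add hL', fun z hz => ?_⟩
  have hzb : z - b ≠ 0 := fun h => hb (by rw [sub_eq_zero] at h; rwa [← h])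
  rw [Complex.exp_add, he z hz, he' z hz]
  exact div_mul_div_cancel₀ hzb

theorem hasLogOn_of_preconnected {K S : Set ℂ} (hK : IsClosed K) (hS : IsPreconnected S)
    (hSK : S ⊆ Kᶜ) {a b : ℂ} (ha : a ∈ S) (hb : b ∈ S) : HasLogOn K a b := by
  refine hS.induction₂ (HasLogOn K) ?_ ?_ ?_ ha hb
  · intro x hx
    have := hasLogOn_near hK (hSK hx)
    exact (this.mono fun y hy => hy.symm).filter_mono nhdsWithin_le_nhds
  · intro x y z _ hy _ hxy hyz
    exact hxy.trans (hSK hy) hyz
  · intro x y _ _ h
    exact h.symm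









end Crest.Agent.R135
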