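import Mathlib
import Crest.Agent.R135.TreeJ
import Crest.Agent.R135.PolarD
import Crest.Agent.R135.Core
import Crest.Agent.R135.IFDefs
import Crest.Agent.R135.PolarE
import Crest.Agent.R135.GMT1

-- ▼ part R135/Net1
section

/-!
# R135, block NET (helper564), part 1: crossing in a disc and the general `Keeps` criterion

`keeps_preconn`: if `L₀ ⊆ closedBall x R` is compact and preconnected and contains `K ∩ sphere x R`
then `(K \ closedBall x R) ∪ L₀` keeps, outside `closedBall x R`, the separation made by `K`.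
No Jordan curve theorem: continuous logarithms of `(z - p)/(z - q)`.
-/

set_option autoImplicit false

open MeasureTheory Set Filter Topology Metric
open scoped ENNReal NNReal

namespace Crest.Agent.R135

namespace NetC

open Complex

/-- A continuous function on a preconnected set whose exponential is constant is constant. -/
theorem const_of_exp_const {S : Set ℂ} (hS : IsPreconnected S) {g : ℂ → ℂ} (hg : ContinuousOn g S)
    {c : ℂ} (hc : ∀ z ∈ S, Complex.exp (g z) = c) {a b : ℂ} (ha : a ∈ S) (hb : b ∈ S) :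
    g a = g b := by
  refine hS.induction₂ (fun x y => g x = g y) ?_ ?_ ?_ ha hb
  · intro x hx
    have h1 : ∀ᶠ y in 𝓝[S] x, dist (g y) (g x) < 1 := by
      have := (hg x hx)
      exact this (Metric.ball_mem_nhds _ one_pos)
    filter_upwards [h1, self_mem_nhdsWithin] with y hy hyS
    have h2 : Complex.exp (g x) = Complex.exp (g y) := by rw [hc x hx, hc y hyS]
    obtain ⟨n, hn⟩ := Complex.exp_eq_exp_iff_exists_int.1 h2
    have h3 : ‖g x - g y‖ < 1 := by
      rw [dist_comm, dist_eq_norm] at hy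
      exact hy
    have h4 : g x - g y = (n : ℂ) * (2 * Real.pi * I) := by
      rw [hn]; ring
    rw [h4] at h3
    rw [norm_mul] at h3
    have h5 : ‖(2 * (Real.pi : ℂ) * I)‖ = 2 * Real.pi := by
      rw [norm_mul, norm_mul, Complex.norm_I, Complex.norm_real, Real.norm_of_nonneg Real.pi_pos.le]
      simp
    rw [h5] at h3
    have h6 : ‖(n : ℂ)‖ = |(n : ℝ)| := by
      rw [Complex.norm_intCast]
    rw [h6] at h3
    have hn0 : n = 0 := by
      by_contra hne
      have h7 : (1 : ℝ) ≤ |(n : ℝ)| := by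
        have : (1 : ℤ) ≤ |n| := Int.one_le_abs hne
        exact_mod_cast this
      have := Real.pi_gt_three
      nlinarith
    rw [hn0] at h4
    simp at h4
    exact sub_eq_zero.1 h4
  · intro x y z _ _ _ h h'
    exact h.trans h'
  · intro x y _ _ h
    exact h.symm

/-- point of the circle of radius `R` with angle `θ` -/
noncomputable def pt (R θ : ℝ) : ℂ := (R : ℂ) * Complex.exp (θ * I)

theorem norm_pt {R : ℝ} (hR : 0 ≤ R) (θ : ℝ) : ‖pt R θ‖ = R := by
  unfold pt
  rw [norm_mul, Complex.norm_exp_ofReal_mul_I, Complex.norm_real, Real.norm_of_nonneg hR, mul_one]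


theorem conj_pt (R θ : ℝ) : (starRingEnd ℂ) (pt R θ) = (R : ℂ) * Complex.exp (-(θ * I)) := by
  unfold pt
  rw [map_mul, Complex.conj_ofReal, ← Complex.exp_conj]
  congr 2
  simp

/-- the rotation factor -/
noncomputable def om (R : ℝ) (p q : ℂ) : ℂ := q * (starRingEnd ℂ) p - (R : ℂ) ^ 2

theorem re_om_mul {R : ℝ} {p q : ℂ} (hp : ‖p‖ = R) (hq : ‖q‖ = R) (z : ℂ) :
    (om R p q * ((z - p) * (starRingEnd ℂ) (z - q))).re =
      (R ^ 2 - (q * (starRingEnd ℂ) p).re) * (R ^ 2 - ‖z‖ ^ 2) := by
  have hp' : p.re ^ 2 + p.im ^ 2 = R ^ 2 := by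
    rw [← hp, Complex.sq_norm, Complex.normSq_apply]; ring
  have hq' : q.re ^ 2 + q.im ^ 2 = R ^ 2 := by
    rw [← hq, Complex.sq_norm, Complex.normSq_apply]; ring
  rw [Complex.sq_norm, Complex.normSq_apply]
  unfold om
  simp only [Complex.mul_re, Complex.sub_re, Complex.sub_im, Complex.conj_re, Complex.conj_im,
    Complex.mul_im, map_sub, ← Complex.ofReal_pow, Complex.ofReal_re, Complex.ofReal_im]
  rw [← hp']
  have hq'' : q.re ^ 2 = p.re ^ 2 + p.im ^ 2 - q.im ^ 2 := by linarith
  ring_nf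
  simp only [hq'']
  ring

theorem re_om_neg {R : ℝ} {p q : ℂ} (hp : ‖p‖ = R) (hq : ‖q‖ = R) (hpq : p ≠ q) :
    0 < R ^ 2 - (q * (starRingEnd ℂ) p).re := by
  have hp' : p.re ^ 2 + p.im ^ 2 = R ^ 2 := by
    rw [← hp, Complex.sq_norm, Complex.normSq_apply]; ring
  have hq' : q.re ^ 2 + q.im ^ 2 = R ^ 2 := by
    rw [← hq, Complex.sq_norm, Complex.normSq_apply]; ring
  simp only [Complex.mul_re, Complex.conj_re, Complex.conj_im]
  have h : 0 < (p.re - q.re) ^ 2 + (p.im - q.im) ^ 2 := by
    by_contra hcon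
    push Not at hcon
    have h1 : p.re - q.re = 0 := by nlinarith [sq_nonneg (p.re - q.re), sq_nonneg (p.im - q.im)]
    have h2 : p.im - q.im = 0 := by nlinarith [sq_nonneg (p.re - q.re), sq_nonneg (p.im - q.im)]
    exact hpq (Complex.ext (by linarith) (by linarith))
  nlinarith

theorem om_mul_pt (R α β θ : ℝ) :
    om R (pt R α) (pt R β) * ((pt R θ - pt R α) * (starRingEnd ℂ) (pt R θ - pt R β)) =
      ((8 * R ^ 4 * Real.sin ((β - α) / 2) * Real.sin ((θ - α) / 2) * Real.sin ((θ - β) / 2) : ℝ) : ℂ)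
        * I := by
  have hs : ∀ u v : ℝ, Complex.sin (((u : ℂ) - v) / 2) =
      (Complex.exp (u / 2 * I) * Complex.exp (-(v / 2 * I)) -
        Complex.exp (v / 2 * I) * Complex.exp (-(u / 2 * I))) * (-I / 2) := by
    intro u v
    rw [Complex.sin, ← Complex.exp_add, ← Complex.exp_add]
    have h1 : (u : ℂ) / 2 * I + -(v / 2 * I) = (u - v) / 2 * I := by ring
    have h2 : (v : ℂ) / 2 * I + -(u / 2 * I) = -((u - v) / 2) * I := by ring
    rw [h1, h2]
    ring
  have he : ∀ u : ℝ, pt R u = R * (Complex.exp (u / 2 * I)) ^ 2 := by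
    intro u
    unfold pt
    rw [← Complex.exp_nat_mul]
    congr 2
    push_cast
    ring
  have hec : ∀ u : ℝ, (starRingEnd ℂ) (pt R u) = R * (Complex.exp (-(u / 2 * I))) ^ 2 := by
    intro u
    rw [conj_pt, ← Complex.exp_nat_mul]
    congr 2
    push_cast
    ring
  have hi : ∀ u : ℝ, Complex.exp (u / 2 * I) * Complex.exp (-(u / 2 * I)) = 1 := by
    intro u
    rw [← Complex.exp_add]
    simp
  push_cast
  rw [hs, hs, hs, map_sub]
  unfold om
  rw [hec, hec, hec, he, he, he]
  have ha := hi α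
  have hb := hi β
  have ht := hi θ
  have hI : I ^ 2 = -1 := Complex.I_sq
  set a := Complex.exp (α / 2 * I) with haa
  set a' := Complex.exp (-(α / 2 * I)) with haa'
  set b := Complex.exp (β / 2 * I) with hbb
  set b' := Complex.exp (-(β / 2 * I)) with hbb'
  set t := Complex.exp (θ / 2 * I) with htt
  set t' := Complex.exp (-(θ / 2 * I)) with htt'
  have ha0 : a ≠ 0 := Complex.exp_ne_zero _
  have hb0 : b ≠ 0 := Complex.exp_ne_zero _
  have ht0 : t ≠ 0 := Complex.exp_ne_zero _
  have ha1 : a' = 1 / a := by field_simp; linear_combination ha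
  have hb1 : b' = 1 / b := by field_simp; linear_combination hb
  have ht1 : t' = 1 / t := by field_simp; linear_combination ht
  rw [ha1, hb1, ht1]
  have hI4 : I ^ 4 = 1 := by
    calc I ^ 4 = (I ^ 2) ^ 2 := by ring
      _ = 1 := by rw [hI]; norm_num
  field_simp
  ring_nf
  rw [hI4]
  ring

/-- `ω N` where `N = (z - p)/(z - q)` is in the closed right half plane minus `0` -/
theorem mem_slit_of {R : ℝ} {p q z : ℂ} (hp : ‖p‖ = R) (hq : ‖q‖ = R) (hpq : p ≠ q)
    (hzp : z ≠ p) (hzq : z ≠ q) {s : ℝ} (hs0 : s ≠ 0) (hs : 0 ≤ s * (R ^ 2 - ‖z‖ ^ 2)) :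
    (s : ℂ) * (om R p q * ((z - p) / (z - q))) ∈ Complex.slitPlane := by
  have h1 : z - q ≠ 0 := sub_ne_zero.2 hzq
  have h2 : z - p ≠ 0 := sub_ne_zero.2 hzp
  have hN : 0 < Complex.normSq (z - q) := Complex.normSq_pos.2 h1
  have hom : om R p q ≠ 0 := by
    intro h
    have h3 := re_om_neg hp hq hpq
    have h4 : (om R p q).re = (q * (starRingEnd ℂ) p).re - R ^ 2 := by
      unfold om
      rw [Complex.sub_re, ← Complex.ofReal_pow, Complex.ofReal_re]
    rw [h, Complex.zero_re] at h4
    linarith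
  have key : (s : ℂ) * (om R p q * ((z - p) / (z - q))) =
      (((s / Complex.normSq (z - q) : ℝ)) : ℂ) *
        (om R p q * ((z - p) * (starRingEnd ℂ) (z - q))) := by
    have h5 : (z - q) * (starRingEnd ℂ) (z - q) = (Complex.normSq (z - q) : ℂ) :=
      Complex.mul_conj (z - q)
    have h6 : (Complex.normSq (z - q) : ℂ) ≠ 0 := by exact_mod_cast hN.ne'
    push_cast
    field_simp
    rw [← h5]
    ring
  rw [Complex.mem_slitPlane_iff]
  by_cases hre : 0 < ((s : ℂ) * (om R p q * ((z - p) / (z - q)))).re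
  · exact Or.inl hre
  · right
    intro him
    have hre2 : 0 ≤ ((s : ℂ) * (om R p q * ((z - p) / (z - q)))).re := by
      rw [key, Complex.re_ofReal_mul, re_om_mul hp hq]
      have h7 := re_om_neg hp hq hpq
      have : s / Complex.normSq (z - q) *
          ((R ^ 2 - (q * (starRingEnd ℂ) p).re) * (R ^ 2 - ‖z‖ ^ 2)) =
          (s * (R ^ 2 - ‖z‖ ^ 2)) * (R ^ 2 - (q * (starRingEnd ℂ) p).re) /
            Complex.normSq (z - q) := by ring
      rw [this]
      positivity
    have hre3 : ((s : ℂ) * (om R p q * ((z - p) / (z - q)))).re = 0 := le_antisymm (not_lt.1 hre) hre2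
    have h8 : (s : ℂ) * (om R p q * ((z - p) / (z - q))) = 0 :=
      Complex.ext (by rw [hre3]; rfl) (by rw [him]; rfl)
    have hs' : (s : ℂ) ≠ 0 := by exact_mod_cast hs0
    rcases mul_eq_zero.1 h8 with h9 | h9
    · exact hs' h9
    rcases mul_eq_zero.1 h9 with h9 | h9
    · exact hom h9
    · exact (div_ne_zero h2 h1) h9

theorem pt_ne_of_lt {R : ℝ} (hR : 0 < R) {a b : ℝ} (h1 : a < b) (h2 : b < a + 2 * Real.pi) :
    pt R a ≠ pt R b := by
  intro h
  unfold pt at h
  have hR' : (R : ℂ) ≠ 0 := by exact_mod_cast hR.ne'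
  have h3 := mul_left_cancel₀ hR' h
  obtain ⟨n, hn⟩ := Complex.exp_eq_exp_iff_exists_int.1 h3
  have h4 : (a : ℂ) = b + n * (2 * Real.pi) := by
    have hI := Complex.I_ne_zero
    have : ((a : ℂ) - b - n * (2 * Real.pi)) * I = 0 := by linear_combination hn
    rcases mul_eq_zero.1 this with h5 | h5
    · linear_combination h5
    · exact absurd h5 hI
  have h5 : a = b + n * (2 * Real.pi) := by exact_mod_cast h4
  have hpi := Real.pi_pos
  have h6 : (n : ℝ) < 0 := by
    by_contra hcon
    push Not at hcon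
    nlinarith
  have h7 : (-1 : ℝ) < n := by
    by_contra hcon
    push Not at hcon
    nlinarith
  have h8 : n < 0 := by exact_mod_cast h6
  have h9 : -1 < n := by exact_mod_cast h7
  omega

/-- Crossing theorem in a disc. -/
theorem no_cross {R : ℝ} (hR : 0 < R) {A P A' Q : ℝ} (h1 : A < P) (h2 : P < A') (h3 : A' < Q)
    (h4 : Q < A + 2 * Real.pi) {S Γ : Set ℂ} (hS : IsPreconnected S) (hSR : ∀ z ∈ S, ‖z‖ ≤ R)
    (hP : pt R P ∈ S) (hQ : pt R Q ∈ S) (hΓc : IsClosed Γ) (hΓ : IsPreconnected Γ)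
    (hΓR : ∀ z ∈ Γ, ‖z‖ ≤ R) (hA : pt R A ∈ Γ) (hA' : pt R A' ∈ Γ) (hdis : Disjoint Γ S) : False := by
  classical
  have hpi := Real.pi_pos
  -- the outer route
  let E1 : Set ℂ := (fun t : ℝ => pt t A) '' Icc R (2 * R)
  let E2' : Set ℂ := (fun t : ℝ => pt (2 * R) t) '' Icc A A'
  let E3 : Set ℂ := (fun t : ℝ => pt t A') '' Icc R (2 * R)
  have hc1 : ∀ θ : ℝ, Continuous (fun t : ℝ => pt t θ) := by
    intro θ; unfold pt; fun_prop
  have hc2 : ∀ t : ℝ, Continuous (fun θ : ℝ => pt t θ) := by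
    intro t; unfold pt; fun_prop
  have hAA' : A ≤ A' := by linarith
  have hRR : R ≤ 2 * R := by linarith
  have hE1c : IsCompact E1 := isCompact_Icc.image (hc1 A)
  have hE2c : IsCompact E2' := isCompact_Icc.image (hc2 (2 * R))
  have hE3c : IsCompact E3 := isCompact_Icc.image (hc1 A')
  have hE1p : IsPreconnected E1 := isPreconnected_Icc.image _ (hc1 A).continuousOn
  have hE2p : IsPreconnected E2' := isPreconnected_Icc.image _ (hc2 (2 * R)).continuousOn
  have hE3p : IsPreconnected E3 := isPreconnected_Icc.image _ (hc1 A').continuousOn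
  let E : Set ℂ := E1 ∪ E2' ∪ E3
  have hEc : IsClosed E := ((hE1c.union hE2c).union hE3c).isClosed
  have hEp : IsPreconnected E := by
    refine IsPreconnected.union (pt (2 * R) A') (Or.inr ⟨A', ⟨hAA', le_rfl⟩, rfl⟩)
      ⟨2 * R, ⟨hRR, le_rfl⟩, rfl⟩ ?_ hE3p
    exact IsPreconnected.union (pt (2 * R) A) ⟨2 * R, ⟨hRR, le_rfl⟩, rfl⟩
      ⟨A, ⟨le_rfl, hAA'⟩, rfl⟩ hE1p hE2p
  have hAE : pt R A ∈ E := Or.inl (Or.inl ⟨R, ⟨le_rfl, hRR⟩, rfl⟩)
  have hA'E : pt R A' ∈ E := Or.inr ⟨R, ⟨le_rfl, hRR⟩, rfl⟩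
  have hER : ∀ z ∈ E, R ≤ ‖z‖ := by
    rintro z ((⟨t, ht, rfl⟩ | ⟨t, ht, rfl⟩) | ⟨t, ht, rfl⟩)
    · simp only
      rw [norm_pt (hR.le.trans ht.1)]; exact ht.1
    · simp only
      rw [norm_pt (by linarith)]; exact hRR
    · simp only
      rw [norm_pt (hR.le.trans ht.1)]; exact ht.1
  have hES : Disjoint E S := by
    rw [Set.disjoint_left]
    rintro z hz hzS
    have hzR : ‖z‖ ≤ R := hSR z hzS
    rcases hz with ((⟨t, ht, rfl⟩ | ⟨t, ht, rfl⟩) | ⟨t, ht, rfl⟩)
    · simp only at hzR hzS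
      rw [norm_pt (hR.le.trans ht.1)] at hzR
      have : t = R := le_antisymm hzR ht.1
      rw [this] at hzS
      exact Set.disjoint_left.1 hdis hA hzS
    · simp only at hzR
      rw [norm_pt (by linarith)] at hzR
      linarith
    · simp only at hzR hzS
      rw [norm_pt (hR.le.trans ht.1)] at hzR
      have : t = R := le_antisymm hzR ht.1
      rw [this] at hzS
      exact Set.disjoint_left.1 hdis hA' hzS
  set p := pt R P with hp
  set q := pt R Q with hq
  have hpR : ‖p‖ = R := norm_pt hR.le P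
  have hqR : ‖q‖ = R := norm_pt hR.le Q
  have hpq : p ≠ q := pt_ne_of_lt hR (by linarith) (by linarith)
  have hTS : S ⊆ (Γ ∪ E)ᶜ := by
    intro z hz hz'
    rcases hz' with h | h
    · exact Set.disjoint_left.1 hdis h hz
    · exact Set.disjoint_left.1 hES h hz
  obtain ⟨F, hF, hFe⟩ := hasLogOn_of_preconnected (hΓc.union hEc) hS hTS hP hQ
  have hpT : ∀ z ∈ Γ ∪ E, z ≠ p := by
    rintro z hz rfl
    exact hTS hP hz
  have hqT : ∀ z ∈ Γ ∪ E, z ≠ q := by
    rintro z hz rfl
    exact hTS hQ hz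
  -- comparison of branches
  have comp : ∀ (T : Set ℂ) (s : ℝ), T ⊆ Γ ∪ E → s ≠ 0 → IsPreconnected T →
      (∀ z ∈ T, 0 ≤ s * (R ^ 2 - ‖z‖ ^ 2)) → pt R A ∈ T → pt R A' ∈ T →
      (F (pt R A)).im - (F (pt R A')).im =
        ((s : ℂ) * (om R p q * ((pt R A - p) / (pt R A - q)))).arg -
        ((s : ℂ) * (om R p q * ((pt R A' - p) / (pt R A' - q)))).arg := by
    intro T s hT hs hTp hTs hAT hA'T
    let g : ℂ → ℂ := fun z => F z - Complex.log ((s : ℂ) * (om R p q * ((z - p) / (z - q))))
    have hsl : ∀ z ∈ T, (s : ℂ) * (om R p q * ((z - p) / (z - q))) ∈ Complex.slitPlane :=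
      fun z hz => mem_slit_of hpR hqR hpq (hpT z (hT hz)) (hqT z (hT hz)) hs (hTs z hz)
    have hgc : ContinuousOn g T := by
      refine (hF.mono hT).sub (ContinuousOn.clog ?_ hsl)
      refine continuousOn_const.mul (continuousOn_const.mul ?_)
      exact (continuousOn_id.sub continuousOn_const).div (continuousOn_id.sub continuousOn_const)
        (fun z hz => sub_ne_zero.2 (hqT z (hT hz)))
    have hge : ∀ z ∈ T, Complex.exp (g z) = 1 / ((s : ℂ) * om R p q) := by
      intro z hz
      have hz1 : z - p ≠ 0 := sub_ne_zero.2 (hpT z (hT hz))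
      have hz2 : z - q ≠ 0 := sub_ne_zero.2 (hqT z (hT hz))
      simp only [g]
      rw [Complex.exp_sub, hFe z (hT hz), Complex.exp_log (Complex.slitPlane_ne_zero (hsl z hz))]
      have h5 := Complex.slitPlane_ne_zero (hsl z hz)
      have h6 : (s : ℂ) ≠ 0 := by exact_mod_cast hs
      have h7 : om R p q ≠ 0 := by
        intro h
        rw [h] at h5
        simp at h5
      field_simp
    have h8 := const_of_exp_const hTp hgc hge hAT hA'T
    have h9 := congrArg Complex.im h8
    simp only [g, Complex.sub_im, Complex.log_im] at h9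
    linarith
  have hcΓ := comp Γ 1 subset_union_left one_ne_zero hΓ (by
    intro z hz
    have := hΓR z hz
    rw [one_mul, sub_nonneg]
    exact pow_le_pow_left₀ (norm_nonneg _) this 2) hA hA'
  have hcE := comp E (-1) subset_union_right (by norm_num) hEp (by
    intro z hz
    have := hER z hz
    have : R ^ 2 ≤ ‖z‖ ^ 2 := pow_le_pow_left₀ hR.le this 2
    linarith) hAE hA'E
  -- values at the two points
  have hval : ∀ θ s : ℝ, pt R θ ≠ q →
      (s : ℂ) * (om R p q * ((pt R θ - p) / (pt R θ - q))) =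
      ((s * (8 * R ^ 4 * Real.sin ((Q - P) / 2) * Real.sin ((θ - P) / 2) * Real.sin ((θ - Q) / 2))
        / Complex.normSq (pt R θ - q) : ℝ) : ℂ) * I := by
    intro θ s hθ
    have hne : pt R θ - q ≠ 0 := sub_ne_zero.2 hθ
    have h5 : (pt R θ - q) * (starRingEnd ℂ) (pt R θ - q) = (Complex.normSq (pt R θ - q) : ℂ) :=
      Complex.mul_conj (pt R θ - q)
    have h6 : (Complex.normSq (pt R θ - q) : ℂ) ≠ 0 := by
      exact_mod_cast (Complex.normSq_pos.2 hne).ne'
    have h7 := om_mul_pt R P Q θ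
    rw [← hp, ← hq] at h7
    rw [Complex.ofReal_div, Complex.ofReal_mul s, div_mul_eq_mul_div, mul_assoc (s : ℂ), ← h7,
      ← h5]
    have h8 : (starRingEnd ℂ) (pt R θ - q) ≠ 0 := by
      intro h
      apply hne
      have := congrArg (starRingEnd ℂ) h
      simpa using this
    field_simp
  have hsinPQ : 0 < Real.sin ((Q - P) / 2) :=
    Real.sin_pos_of_pos_of_lt_pi (by linarith) (by linarith)
  have harg_pos : ∀ t : ℝ, 0 < t → ((t : ℂ) * I).arg = Real.pi / 2 := by
    intro t ht
    rw [Complex.arg_real_mul _ ht, Complex.arg_I]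
  have harg_neg : ∀ t : ℝ, t < 0 → ((t : ℂ) * I).arg = -(Real.pi / 2) := by
    intro t ht
    have : (t : ℂ) * I = ((-t : ℝ) : ℂ) * (-I) := by push_cast; ring
    rw [this, Complex.arg_real_mul _ (by linarith : 0 < -t), Complex.arg_neg_I]
  have hA1 : 0 < 8 * R ^ 4 * Real.sin ((Q - P) / 2) * Real.sin ((A - P) / 2) *
      Real.sin ((A - Q) / 2) := by
    have h5 : Real.sin ((A - P) / 2) < 0 := by
      have : (A - P) / 2 = -((P - A) / 2) := by ring
      rw [this, Real.sin_neg, neg_lt_zero]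
      exact Real.sin_pos_of_pos_of_lt_pi (by linarith) (by linarith)
    have h6 : Real.sin ((A - Q) / 2) < 0 := by
      have : (A - Q) / 2 = -((Q - A) / 2) := by ring
      rw [this, Real.sin_neg, neg_lt_zero]
      exact Real.sin_pos_of_pos_of_lt_pi (by linarith) (by linarith)
    have h7 : 0 < 8 * R ^ 4 * Real.sin ((Q - P) / 2) := by positivity
    have := mul_pos_of_neg_of_neg h5 h6
    calc (0 : ℝ) < (8 * R ^ 4 * Real.sin ((Q - P) / 2)) *
          (Real.sin ((A - P) / 2) * Real.sin ((A - Q) / 2)) := by positivity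
      _ = _ := by ring
  have hA2 : 8 * R ^ 4 * Real.sin ((Q - P) / 2) * Real.sin ((A' - P) / 2) *
      Real.sin ((A' - Q) / 2) < 0 := by
    have h5 : 0 < Real.sin ((A' - P) / 2) :=
      Real.sin_pos_of_pos_of_lt_pi (by linarith) (by linarith)
    have h6 : Real.sin ((A' - Q) / 2) < 0 := by
      have : (A' - Q) / 2 = -((Q - A') / 2) := by ring
      rw [this, Real.sin_neg, neg_lt_zero]
      exact Real.sin_pos_of_pos_of_lt_pi (by linarith) (by linarith)
    have h7 : 0 < 8 * R ^ 4 * Real.sin ((Q - P) / 2) * Real.sin ((A' - P) / 2) := by positivity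
    exact mul_neg_of_pos_of_neg h7 h6
  have hAq : pt R A ≠ q := hqT _ (Or.inl hA)
  have hA'q : pt R A' ≠ q := hqT _ (Or.inl hA')
  have hn1 : 0 < Complex.normSq (pt R A - q) := Complex.normSq_pos.2 (sub_ne_zero.2 hAq)
  have hn2 : 0 < Complex.normSq (pt R A' - q) := Complex.normSq_pos.2 (sub_ne_zero.2 hA'q)
  rw [hval A 1 hAq, hval A' 1 hA'q, harg_pos _ (by rw [one_mul]; exact div_pos hA1 hn1),
    harg_neg _ (by rw [one_mul]; exact div_neg_of_neg_of_pos hA2 hn2)] at hcΓ
  rw [hval A (-1) hAq, hval A' (-1) hA'q,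
    harg_neg _ (by
      apply div_neg_of_neg_of_pos _ hn1
      linarith),
    harg_pos _ (by
      apply div_pos _ hn2
      linarith)] at hcE
  linarith

end NetC

/-- complex coordinate centred at `x` -/
noncomputable def toC (x y : E2) : ℂ := ⟨y 0 - x 0, y 1 - x 1⟩

lemma continuous_toC (x : E2) : Continuous (toC x) := by
  unfold toC
  have h0 : Continuous (fun y : E2 => y 0 - x 0) := by fun_prop
  have h1 : Continuous (fun y : E2 => y 1 - x 1) := by fun_prop
  have : (fun y : E2 => (⟨y 0 - x 0, y 1 - x 1⟩ : ℂ)) =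
      fun y : E2 => ((y 0 - x 0 : ℝ) : ℂ) + ((y 1 - x 1 : ℝ) : ℂ) * Complex.I := by
    ext y
    apply Complex.ext <;> simp
  rw [this]
  exact (Complex.continuous_ofReal.comp h0).add
    ((Complex.continuous_ofReal.comp h1).mul continuous_const)

lemma norm_toC (x y : E2) : ‖toC x y‖ = dist y x := by
  have h1 : ‖toC x y‖ ^ 2 = dist y x ^ 2 := by
    rw [Complex.sq_norm, Complex.normSq_apply, dist_eq_norm, norm_E2]
    simp only [toC, PiLp.sub_apply]
    ring
  exact (pow_left_inj₀ (norm_nonneg _) dist_nonneg two_ne_zero).1 h1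

lemma toC_cpt (x : E2) (R θ : ℝ) : toC x (cpt x R θ) = NetC.pt R θ := by
  unfold toC NetC.pt cpt
  rw [Complex.exp_mul_I]
  apply Complex.ext <;>
    simp [Complex.cos_ofReal_re, Complex.sin_ofReal_re, Complex.cos_ofReal_im, Complex.sin_ofReal_im]

lemma toC_injective (x : E2) : Function.Injective (toC x) := by
  intro y z h
  have h0 := congrArg Complex.re h
  have h1 := congrArg Complex.im h
  simp only [toC] at h0 h1
  exact ext_E2 (by linarith) (by linarith)

/-- A locally constant function is constant along an arc which misses `K`. -/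
theorem arc_const {W : Set E2} {c : E2 → ℝ} (hc : LocConstOn W c) {x : E2} {R a b : ℝ}
    (hW : ∀ θ ∈ Icc a b, cpt x R θ ∈ W) (hab : a ≤ b) : c (cpt x R a) = c (cpt x R b) := by
  refine (isPreconnected_Icc (a := a) (b := b)).induction₂
    (fun s t => c (cpt x R s) = c (cpt x R t)) ?_ ?_ ?_ ⟨le_rfl, hab⟩ ⟨hab, le_rfl⟩
  · intro s hs
    have h1 := hc _ (hW s hs)
    have h2 : Continuous (cpt x R) := by
      unfold cpt
      exact continuous_const.add (continuous_dir.const_smul R)
    have h3 : ∀ᶠ t in 𝓝 s, c (cpt x R t) = c (cpt x R s) := h2.continuousAt.eventually h1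
    exact (h3.mono fun t ht => ht.symm).filter_mono nhdsWithin_le_nhds
  · intro s t r _ _ _ h h'
    exact h.trans h'
  · intro s t _ _ h
    exact h.symm

/-- Two points of the circle joined inside the disc off a connected set containing `K ∩ ∂B`
are not separated by `K`. -/
theorem eq_of_joined {U K L0 : Set E2} {c : E2 → ℝ} {x : E2} {R : ℝ} (hR : 0 < R)
    (hBU : sphere x R ⊆ U) (hc : LocConstOn (U \ K) c) (hL0 : IsPreconnected L0)
    (hsub : L0 ⊆ closedBall x R) (hKL : K ∩ sphere x R ⊆ L0) {Γ : Set E2} (hΓc : IsCompact Γ)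
    (hΓ : IsPreconnected Γ) (hΓR : Γ ⊆ closedBall x R) (hd : Disjoint Γ L0) {a b : E2}
    (ha : a ∈ sphere x R) (hb : b ∈ sphere x R) (haΓ : a ∈ Γ) (hbΓ : b ∈ Γ) : c a = c b := by
  obtain ⟨A, hA, hAa⟩ := exists_cpt_eq hR ha 0
  obtain ⟨B, hB, hBb⟩ := exists_cpt_eq hR hb A
  rcases eq_or_lt_of_le hB.1 with h | hAB
  · rw [← hAa, ← hBb, h]
  by_contra hne
  have hΓK : ∀ y ∈ Γ, y ∈ sphere x R → y ∉ K := fun y hy hys hyK =>
    Set.disjoint_left.1 hd hy (hKL ⟨hyK, hys⟩)
  have hsph : ∀ θ, cpt x R θ ∈ sphere x R := fun θ => cpt_mem_sphere hR.le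
  have hper : cpt x R (A + 2 * Real.pi) = a := by
    rw [← hAa]
    unfold cpt
    congr 2
    apply ext_E2 <;> simp
  have h1 : ∃ P ∈ Ioo A B, cpt x R P ∈ K := by
    by_contra hcon
    push Not at hcon
    apply hne
    rw [← hAa, ← hBb]
    refine arc_const hc ?_ hAB.le
    intro θ hθ
    refine ⟨hBU (hsph θ), ?_⟩
    rcases eq_or_lt_of_le hθ.1 with h | h
    · rw [← h, hAa]; exact hΓK a haΓ ha
    rcases eq_or_lt_of_le hθ.2 with h' | h'
    · rw [h', hBb]; exact hΓK b hbΓ hb
    · exact hcon θ ⟨h, h'⟩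
  have h2 : ∃ Q ∈ Ioo B (A + 2 * Real.pi), cpt x R Q ∈ K := by
    by_contra hcon
    push Not at hcon
    apply hne
    rw [← hper, ← hBb]
    refine (arc_const hc ?_ hB.2.le).symm
    intro θ hθ
    refine ⟨hBU (hsph θ), ?_⟩
    rcases eq_or_lt_of_le hθ.1 with h | h
    · rw [← h, hBb]; exact hΓK b hbΓ hb
    rcases eq_or_lt_of_le hθ.2 with h' | h'
    · rw [h', hper]; exact hΓK a haΓ ha
    · exact hcon θ ⟨h, h'⟩
  obtain ⟨P, hP, hPK⟩ := h1
  obtain ⟨Q, hQ, hQK⟩ := h2
  refine NetC.no_cross hR hP.1 hP.2 hQ.1 hQ.2 (S := toC x '' L0) (Γ := toC x '' Γ)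
    (hL0.image _ (continuous_toC x).continuousOn) ?_ ⟨cpt x R P, hKL ⟨hPK, hsph P⟩, toC_cpt x R P⟩
    ⟨cpt x R Q, hKL ⟨hQK, hsph Q⟩, toC_cpt x R Q⟩ (hΓc.image (continuous_toC x)).isClosed
    (hΓ.image _ (continuous_toC x).continuousOn) ?_ ⟨a, haΓ, by rw [← hAa, toC_cpt]⟩
    ⟨b, hbΓ, by rw [← hBb, toC_cpt]⟩ ?_
  · rintro _ ⟨y, hy, rfl⟩
    rw [norm_toC]
    exact hsub hy
  · rintro _ ⟨y, hy, rfl⟩
    rw [norm_toC]
    exact hΓR hy
  · exact (Set.disjoint_image_iff (toC_injective x)).2 hd

/-- **General `Keeps` criterion.** `L₀` compact, preconnected, in the closed disc, containing the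
points of `K` on the circle. -/
theorem keeps_preconn {U K L0 : Set E2} {x : E2} {R : ℝ} (hR : 0 < R)
    (hBU : sphere x R ⊆ U) (hL0c : IsCompact L0) (hL0 : IsPreconnected L0)
    (hsub : L0 ⊆ closedBall x R) (hKL : K ∩ sphere x R ⊆ L0) :
    Keeps U K ((K \ closedBall x R) ∪ L0) (closedBall x R) := by
  classical
  intro c hc
  let J : E2 → E2 → Prop := fun y a => a ∈ sphere x R ∧ ∃ Γ : Set E2, IsCompact Γ ∧
    IsPreconnected Γ ∧ Γ ⊆ closedBall x R ∧ Disjoint Γ L0 ∧ y ∈ Γ ∧ a ∈ Γ
  have J1 : ∀ y a b, J y a → J y b → c a = c b := by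
    rintro y a b ⟨ha, Γ, h1, h2, h3, h4, h5, h6⟩ ⟨hb, Γ', h1', h2', h3', h4', h5', h6'⟩
    exact eq_of_joined hR hBU hc hL0 hsub hKL (h1.union h1') (h2.union y h5 h5' h2')
      (union_subset h3 h3') (h4.union_left h4') ha hb (Or.inl h6) (Or.inr h6')
  have J2 : ∀ y ∈ sphere x R, y ∉ L0 → J y y := by
    intro y hy hyL
    exact ⟨hy, {y}, isCompact_singleton, isPreconnected_singleton,
      singleton_subset_iff.2 (sphere_subset_closedBall hy), by simpa using hyL, rfl, rfl⟩
  have J3 : ∀ y z a, segment ℝ y z ⊆ closedBall x R → Disjoint (segment ℝ y z) L0 → J y a →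
      J z a := by
    rintro y z a hs hd ⟨ha, Γ, h1, h2, h3, h4, h5, h6⟩
    refine ⟨ha, segment ℝ y z ∪ Γ, ?_, ?_, union_subset hs h3, hd.union_left h4,
      Or.inl (right_mem_segment ℝ y z), Or.inr h6⟩
    · refine IsCompact.union ?_ h1
      rw [segment_eq_image]
      exact isCompact_Icc.image (by fun_prop)
    · exact IsPreconnected.union y (left_mem_segment ℝ y z) h5 (convex_segment y z).isPreconnected h2
  let c' : E2 → ℝ := fun y => if y ∈ closedBall x R then
    (if h : ∃ a, J y a then c h.choose else 0) else c y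
  have hc'in : ∀ y a, y ∈ closedBall x R → J y a → c' y = c a := by
    intro y a hy hJ
    have hex : ∃ a, J y a := ⟨a, hJ⟩
    simp only [c', if_pos hy, dif_pos hex]
    exact J1 y _ _ hex.choose_spec hJ
  have hc'0 : ∀ y, y ∈ closedBall x R → (¬ ∃ a, J y a) → c' y = 0 := by
    intro y hy hJ
    simp only [c', if_pos hy, dif_neg hJ]
  have hc'out : ∀ y, y ∉ closedBall x R → c' y = c y := by
    intro y hy
    simp only [c', if_neg hy]
  refine ⟨c', ?_, fun y hy => hc'out y fun h => hy.2 (Or.inr h)⟩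
  rintro y ⟨hyU, hyL⟩
  by_cases hyB : y ∈ closedBall x R
  · have hyL0 : y ∉ L0 := fun h => hyL (Or.inr h)
    obtain ⟨δ, hδ, hball⟩ := Metric.isOpen_iff.1 hL0c.isClosed.isOpen_compl y hyL0
    have hin : ∀ z ∈ ball y δ, z ∈ closedBall x R → c' z = c' y := by
      intro z hz hzB
      have hs1 : segment ℝ y z ⊆ closedBall x R :=
        (convex_closedBall x R).segment_subset hyB hzB
      have hs2 : Disjoint (segment ℝ y z) L0 := by
        rw [Set.disjoint_left]
        intro w hw hwL
        exact hball ((convex_ball y δ).segment_subset (mem_ball_self hδ) hz hw) hwL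
      by_cases hJ : ∃ a, J y a
      · obtain ⟨a, ha⟩ := hJ
        rw [hc'in y a hyB ha, hc'in z a hzB (J3 y z a hs1 hs2 ha)]
      · rw [hc'0 y hyB hJ, hc'0 z hzB]
        rintro ⟨a, ha⟩
        exact hJ ⟨a, J3 z y a (by rwa [segment_symm]) (by rwa [segment_symm]) ha⟩
    by_cases hyS : y ∈ sphere x R
    · have hyK : y ∉ K := fun h => hyL0 (hKL ⟨h, hyS⟩)
      have hcy := hc y ⟨hyU, hyK⟩
      filter_upwards [hcy, ball_mem_nhds y hδ] with z hz hzb
      by_cases hzB : z ∈ closedBall x R
      · exact hin z hzb hzB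
      · rw [hc'out z hzB, hz, hc'in y y hyB (J2 y hyS hyL0)]
    · have hyb : y ∈ ball x R := by
        rw [mem_ball]
        exact lt_of_le_of_ne hyB hyS
      filter_upwards [isOpen_ball.mem_nhds hyb, ball_mem_nhds y hδ] with z hz hzb
      exact hin z hzb (ball_subset_closedBall hz)
  · have hyK : y ∉ K := fun h => hyL (Or.inl ⟨h, hyB⟩)
    have hcy := hc y ⟨hyU, hyK⟩
    filter_upwards [hcy, isClosed_closedBall.isOpen_compl.mem_nhds hyB] with z hz hzB
    rw [hc'out z hzB, hz, hc'out y hyB]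

/-- closedness of the competitor set -/
theorem closed_preconn {U K L0 : Set E2} {x : E2} {R : ℝ} (hK : closure K ∩ U ⊆ K)
    (hL0c : IsClosed L0) (hKL : K ∩ sphere x R ⊆ L0) :
    closure ((K \ closedBall x R) ∪ L0) ∩ U ⊆ (K \ closedBall x R) ∪ L0 := by
  rintro y ⟨hy, hyU⟩
  rw [closure_union, hL0c.closure_eq] at hy
  rcases hy with hy | hy
  · have h1 : y ∈ K := hK ⟨closure_mono sdiff_subset hy, hyU⟩
    have h2 : y ∉ ball x R := by
      intro h
      have := mem_closure_iff.1 hy (ball x R) isOpen_ball h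
      obtain ⟨z, hz, hz'⟩ := this
      exact hz'.2 (ball_subset_closedBall hz)
    by_cases h3 : y ∈ closedBall x R
    · right
      apply hKL
      refine ⟨h1, ?_⟩
      rw [mem_sphere]
      rw [mem_ball, not_lt] at h2
      exact le_antisymm h3 h2
    · exact Or.inl ⟨h1, h3⟩
  · exact Or.inr hy

end Crest.Agent.R135
end

-- ▼ part R135/Net2
section

/-!
# R135, block NET (helper564), part 2: length comparison for `IsLenMin`

`IsLenMin.le_len`: the length in a closed disc is at most that of any compact preconnected set of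
the disc containing `K ∩ ∂B`. Consequences: at least two points on circles centred on `K`; star,
chord and circle competitors; the gain for at least four points.
-/

set_option autoImplicit false

open MeasureTheory Set Filter Topology Metric
open scoped ENNReal NNReal

namespace Crest.Agent.R135

theorem IsLenMin.le_len {K : Set E2} (h : IsLenMin K) {x : E2} {R : ℝ} (hR : 0 < R) {L0 : Set E2}
    (hc : IsCompact L0) (hp : IsPreconnected L0) (hs : L0 ⊆ closedBall x R)
    (hKL : K ∩ sphere x R ⊆ L0) : len (K ∩ closedBall x R) ≤ len L0 := by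
  have hcl : IsClosed ((K \ closedBall x R) ∪ L0) := by
    have h1 := closed_preconn (U := univ) (x := x) (R := R)
      (by rw [h.closed.closure_eq]; exact inter_subset_left) hc.isClosed hKL
    rw [inter_univ] at h1
    exact isClosed_of_closure_subset h1
  have h2 := h.min x R hR ((K \ closedBall x R) ∪ L0) hcl (by
    ext y
    constructor
    · rintro ⟨(hy | hy), hy'⟩
      · exact hy
      · exact absurd (hs hy) hy'
    · intro hy
      exact ⟨Or.inl hy, hy.2⟩) (keeps_preconn hR (subset_univ _) hc hp hs hKL)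
  refine h2.trans (measure_mono ?_)
  rintro y ⟨(hy | hy), hy'⟩
  · exact absurd hy' hy.2
  · exact hy

theorem len_segment (a b : E2) : len (segment ℝ a b) = ENNReal.ofReal (dist a b) := by
  unfold len
  rw [hausdorffMeasure_segment, edist_dist]

theorem len_subsingleton {A : Set E2} (hA : A.Subsingleton) : len A = 0 := by
  unfold len
  have : NullSingletonClass (Measure.hausdorffMeasure 1 : Measure E2) :=
    Measure.nullSingletonClass_hausdorff E2 one_pos
  exact hA.measure_zero _

theorem IsLenMin.two_le_encard {K : Set E2} (h : IsLenMin K) {x : E2} (hx : x ∈ K) {R : ℝ}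
    (hR : 0 < R) : 2 ≤ (K ∩ sphere x R).encard := by
  by_contra hcon
  have h1 : (K ∩ sphere x R).encard ≤ 1 := by
    have h3 : (K ∩ sphere x R).encard < 2 := not_le.1 hcon
    simpa using h3
  have hsub : (K ∩ sphere x R).Subsingleton := by
    rw [Set.encard_le_one_iff] at h1
    intro a ha b hb
    exact h1 a b ha hb
  have h2 := h.le_len hR (L0 := K ∩ sphere x R)
    ((isCompact_sphere x R).inter_left h.closed) hsub.isPreconnected
    (inter_subset_right.trans sphere_subset_closedBall) Subset.rfl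
  rw [len_subsingleton hsub] at h2
  have h3 := h.red x hx R hR
  have h4 : len (K ∩ ball x R) ≤ 0 :=
    (measure_mono (inter_subset_inter_right K ball_subset_closedBall)).trans h2
  exact absurd h3 (not_lt.2 h4)

theorem IsLenMin.two_mul_le {K : Set E2} (h : IsLenMin K) {x : E2} (hx : x ∈ K) (R : ℝ) :
    ENNReal.ofReal (2 * R) ≤ len (K ∩ ball x R) := by
  have h1 := mul_volume_le_hausdorffMeasure (fun y : E2 => dist y x) K
    ((lipschitzWith_dist_left x).lipschitzOnWith) (Ioo 0 R) measurableSet_Ioo 2 (by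
      intro t ht
      exact h.two_le_encard hx ht.1)
  have h2 : len (K ∩ (fun y : E2 => dist y x) ⁻¹' Ioo 0 R) ≤ len (K ∩ ball x R) := by
    apply measure_mono
    rintro y ⟨hy, hy'⟩
    exact ⟨hy, hy'.2⟩
  refine le_trans ?_ (h1.trans h2)
  rw [Real.volume_Ioo, sub_zero, ENNReal.ofReal_mul (by norm_num)]
  norm_num

/-- the star with centre `z` over a finite set -/
def star (z : E2) (F : Finset E2) : Set E2 := {z} ∪ ⋃ p ∈ F, segment ℝ z p

lemma star_compact (z : E2) (F : Finset E2) : IsCompact (star z F) := by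
  refine isCompact_singleton.union ?_
  refine F.isCompact_biUnion fun p _ => ?_
  rw [segment_eq_image]
  exact isCompact_Icc.image (by fun_prop)

lemma star_preconnected (z : E2) (F : Finset E2) : IsPreconnected (star z F) := by
  rw [isPreconnected_iff_subset_of_disjoint_closed]
  intro u v hu hv hsub hdis
  have hz : z ∈ star z F := Or.inl rfl
  have hseg : ∀ p ∈ F, segment ℝ z p ⊆ star z F := fun p hp =>
    (subset_biUnion_of_mem (u := fun p => segment ℝ z p) hp).trans subset_union_right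
  have key : ∀ A : Set E2, A ⊆ star z F → IsPreconnected A → z ∈ A → ∀ u v : Set E2, IsClosed u →
      IsClosed v → star z F ⊆ u ∪ v → star z F ∩ (u ∩ v) = ∅ → z ∈ u → A ⊆ u := by
    intro A hA hAp hzA u v hu hv hsub hdis hzu
    rw [isPreconnected_iff_subset_of_disjoint_closed] at hAp
    rcases hAp u v hu hv (hA.trans hsub) (by
      rw [← subset_empty_iff, ← hdis]
      exact inter_subset_inter_left _ hA) with h | h
    · exact h
    · exfalso
      have : z ∈ star z F ∩ (u ∩ v) := ⟨hz, hzu, h hzA⟩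
      rw [hdis] at this
      exact this
  have main : ∀ u v : Set E2, IsClosed u →
      IsClosed v → star z F ⊆ u ∪ v → star z F ∩ (u ∩ v) = ∅ → z ∈ u → star z F ⊆ u := by
    intro u v hu hv hsub hdis hzu
    unfold star
    refine union_subset (singleton_subset_iff.2 hzu) (iUnion₂_subset fun p hp => ?_)
    exact key _ (hseg p hp) (convex_segment z p).isPreconnected (left_mem_segment ℝ z p) u v hu hv
      hsub hdis hzu
  rcases hsub hz with h | h
  · exact Or.inl (main u v hu hv hsub hdis h)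
  · exact Or.inr (main v u hv hu (by rwa [union_comm]) (by rwa [inter_comm v u]) h)

lemma star_subset {x z : E2} {R : ℝ} (hz : z ∈ closedBall x R) {F : Finset E2}
    (hF : ∀ p ∈ F, p ∈ closedBall x R) : star z F ⊆ closedBall x R := by
  unfold star
  refine union_subset (singleton_subset_iff.2 hz) (iUnion₂_subset fun p hp => ?_)
  exact (convex_closedBall x R).segment_subset hz (hF p hp)

lemma mem_star {z p : E2} {F : Finset E2} (hp : p ∈ F) : p ∈ star z F :=
  Or.inr (mem_biUnion hp (right_mem_segment ℝ z p))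

lemma len_star_le (z : E2) (F : Finset E2) :
    len (star z F) ≤ ENNReal.ofReal (∑ p ∈ F, dist z p) := by
  unfold star
  calc len ({z} ∪ ⋃ p ∈ F, segment ℝ z p) ≤ len {z} + len (⋃ p ∈ F, segment ℝ z p) :=
        measure_union_le _ _
    _ ≤ 0 + ∑ p ∈ F, len (segment ℝ z p) := by
        gcongr
        · rw [len_subsingleton subsingleton_singleton]
        · exact measure_biUnion_finset_le F _
    _ = ENNReal.ofReal (∑ p ∈ F, dist z p) := by
        rw [zero_add, ENNReal.ofReal_sum_of_nonneg fun _ _ => dist_nonneg]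
        exact Finset.sum_congr rfl fun p _ => len_segment z p

theorem IsLenMin.le_star {K : Set E2} (h : IsLenMin K) {x z : E2} {R : ℝ} (hR : 0 < R)
    {F : Finset E2} (hF : K ∩ sphere x R = F) (hz : z ∈ closedBall x R) :
    len (K ∩ closedBall x R) ≤ ENNReal.ofReal (∑ p ∈ F, dist z p) := by
  have hF' : ∀ p ∈ F, p ∈ closedBall x R := by
    intro p hp
    have : p ∈ K ∩ sphere x R := by rw [hF]; exact hp
    exact sphere_subset_closedBall this.2
  refine (h.le_len hR (star_compact z F) (star_preconnected z F) (star_subset hz hF') ?_).trans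
    (len_star_le z F)
  rw [hF]
  intro p hp
  exact mem_star hp

theorem IsLenMin.le_cone {K : Set E2} (h : IsLenMin K) {x : E2} {R : ℝ} (hR : 0 < R)
    {F : Finset E2} (hF : K ∩ sphere x R = F) :
    len (K ∩ closedBall x R) ≤ ENNReal.ofReal (F.card * R) := by
  have h1 := h.le_star hR hF (mem_closedBall_self hR.le)
  have h2 : ∑ p ∈ F, dist x p = F.card * R := by
    rw [Finset.sum_congr rfl (g := fun _ => R), Finset.sum_const, nsmul_eq_mul]
    intro p hp
    have : p ∈ K ∩ sphere x R := by rw [hF]; exact hp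
    rw [dist_comm]
    exact this.2
  rwa [h2] at h1

theorem IsLenMin.le_chord {K : Set E2} (h : IsLenMin K) {x : E2} {R : ℝ} (hR : 0 < R) {p q : E2}
    (hF : K ∩ sphere x R = {p, q}) : len (K ∩ closedBall x R) ≤ ENNReal.ofReal (dist p q) := by
  have hp : p ∈ K ∩ sphere x R := by rw [hF]; exact mem_insert _ _
  have hq : q ∈ K ∩ sphere x R := by rw [hF]; exact mem_insert_of_mem _ rfl
  rw [← len_segment]
  refine h.le_len hR ?_ (convex_segment p q).isPreconnected
    ((convex_closedBall x R).segment_subset (sphere_subset_closedBall hp.2)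
      (sphere_subset_closedBall hq.2)) ?_
  · rw [segment_eq_image]
    exact isCompact_Icc.image (by fun_prop)
  · rw [hF]
    rintro y (rfl | rfl)
    · exact left_mem_segment ..
    · exact right_mem_segment ..

theorem sphere_preconnected (x : E2) {R : ℝ} (hR : 0 < R) : IsPreconnected (sphere x R) := by
  rw [← cpt_image_Ico hR 0]
  refine isPreconnected_Ico.image _ ?_
  unfold cpt
  exact (continuous_const.add (continuous_dir.const_smul R)).continuousOn

theorem IsLenMin.le_circle {K : Set E2} (h : IsLenMin K) {x : E2} {R : ℝ} (hR : 0 < R) :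
    len (K ∩ closedBall x R) ≤ ENNReal.ofReal (2 * Real.pi * R) := by
  refine (h.le_len hR (isCompact_sphere x R) (sphere_preconnected x hR) sphere_subset_closedBall
    inter_subset_right).trans ?_
  have := hausdorff_sphere_le x hR
  exact this

/-! ### At least four points -/

lemma sign_pigeonhole (a b c : ℝ) : 0 ≤ a * b ∨ 0 ≤ a * c ∨ 0 ≤ b * c := by
  by_contra hcon
  push Not at hcon
  obtain ⟨h1, h2, h3⟩ := hcon
  have h4 : 0 < (a * b) * (a * c) := mul_pos_of_neg_of_neg h1 h2
  have h5 : (a * b) * (a * c) * (b * c) < 0 := mul_neg_of_pos_of_neg h4 h3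
  have h6 : (a * b) * (a * c) * (b * c) = (a * b * c) ^ 2 := by ring
  rw [h6] at h5
  exact absurd (sq_nonneg (a * b * c)) (not_le.2 h5)

lemma exists_nonneg_inner {F : Finset E2} (hF : 4 ≤ F.card) {x : E2} {R : ℝ} (hR : 0 < R)
    (h : ∀ p ∈ F, dist p x = R) :
    ∃ p ∈ F, ∃ q ∈ F, p ≠ q ∧ 0 ≤ inner ℝ (p - x) (q - x) := by
  classical
  by_contra hcon
  push Not at hcon
  have hne : F.Nonempty := Finset.card_pos.1 (by omega)
  obtain ⟨p0, hp0⟩ := hne
  have hG : 2 < (F.erase p0).card := by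
    rw [Finset.card_erase_of_mem hp0]
    omega
  obtain ⟨a, ha, b, hb, c, hc, hab, hac, hbc⟩ := Finset.two_lt_card.1 hG
  have hv : 0 < (p0 - x) 0 ^ 2 + (p0 - x) 1 ^ 2 := by
    rw [← norm_E2, ← dist_eq_norm, h p0 hp0]
    positivity
  have key : ∀ w w' : E2, w ∈ F.erase p0 → w' ∈ F.erase p0 → w ≠ w' →
      ((w - x) 0 * (-(p0 - x) 1) + (w - x) 1 * (p0 - x) 0) *
      ((w' - x) 0 * (-(p0 - x) 1) + (w' - x) 1 * (p0 - x) 0) < 0 := by
    intro w w' hw hw' hne
    have h1 := hcon w (Finset.mem_of_mem_erase hw) p0 hp0 (Finset.ne_of_mem_erase hw)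
    have h2 := hcon w' (Finset.mem_of_mem_erase hw') p0 hp0 (Finset.ne_of_mem_erase hw')
    have h3 := hcon w (Finset.mem_of_mem_erase hw) w' (Finset.mem_of_mem_erase hw') hne
    rw [inner_E2] at h1 h2 h3
    have h4 := mul_pos_of_neg_of_neg h1 h2
    have h5 := mul_neg_of_neg_of_pos h3 hv
    have h6 : ((w - x) 0 * (w' - x) 0 + (w - x) 1 * (w' - x) 1) *
        ((p0 - x) 0 ^ 2 + (p0 - x) 1 ^ 2) =
        ((w - x) 0 * (p0 - x) 0 + (w - x) 1 * (p0 - x) 1) *
        ((w' - x) 0 * (p0 - x) 0 + (w' - x) 1 * (p0 - x) 1) +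
        ((w - x) 0 * (-(p0 - x) 1) + (w - x) 1 * (p0 - x) 0) *
      ((w' - x) 0 * (-(p0 - x) 1) + (w' - x) 1 * (p0 - x) 0) := by ring
    linarith
  rcases sign_pigeonhole ((a - x) 0 * (-(p0 - x) 1) + (a - x) 1 * (p0 - x) 0)
    ((b - x) 0 * (-(p0 - x) 1) + (b - x) 1 * (p0 - x) 0)
    ((c - x) 0 * (-(p0 - x) 1) + (c - x) 1 * (p0 - x) 0) with h1 | h1 | h1
  · exact absurd h1 (not_le.2 (key a b ha hb hab))
  · exact absurd h1 (not_le.2 (key a c ha hc hac))
  · exact absurd h1 (not_le.2 (key b c hb hc hbc))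

lemma le_of_sq_le {a b c : ℝ} (hc : 0 < c) (h : a ^ 2 ≤ b) : a ≤ (b + c ^ 2) / (2 * c) := by
  rw [le_div_iff₀ (by positivity)]
  nlinarith [sq_nonneg (a - c)]

/-- length of the small tree joining `x`, `p`, `q` (angle at most 90 degrees) -/
lemma Y_length {x p q : E2} {R : ℝ} (hR : 0 < R) (hp : dist p x = R) (hq : dist q x = R)
    (hpq : 0 ≤ inner ℝ (p - x) (q - x)) :
    dist (x + (1 / 5 : ℝ) • ((p - x) + (q - x))) x +
      dist (x + (1 / 5 : ℝ) • ((p - x) + (q - x))) p +
      dist (x + (1 / 5 : ℝ) • ((p - x) + (q - x))) q ≤ (2 - 1 / 20) * R := by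
  have hp2 : (p - x) 0 ^ 2 + (p - x) 1 ^ 2 = R ^ 2 := by
    rw [← norm_E2, ← dist_eq_norm, hp]
  have hq2 : (q - x) 0 ^ 2 + (q - x) 1 ^ 2 = R ^ 2 := by
    rw [← norm_E2, ← dist_eq_norm, hq]
  rw [inner_E2] at hpq
  simp only [PiLp.sub_apply] at hp2 hq2 hpq
  set s : ℝ := (p 0 - x 0) * (q 0 - x 0) + (p 1 - x 1) * (q 1 - x 1) with hs
  have h1 : dist (x + (1 / 5 : ℝ) • ((p - x) + (q - x))) x ^ 2 ≤ (2 / 25) * (R ^ 2 + s) := by
    rw [dist_eq_norm, norm_E2]
    simp only [PiLp.sub_apply, PiLp.add_apply, PiLp.smul_apply, smul_eq_mul]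
    rw [hs]
    nlinarith [hp2, hq2]
  have h2 : dist (x + (1 / 5 : ℝ) • ((p - x) + (q - x))) p ^ 2 ≤
      R ^ 2 - (8 / 25) * (R ^ 2 + s) := by
    rw [dist_eq_norm, norm_E2]
    simp only [PiLp.sub_apply, PiLp.add_apply, PiLp.smul_apply, smul_eq_mul]
    rw [hs]
    nlinarith [hp2, hq2]
  have h3 : dist (x + (1 / 5 : ℝ) • ((p - x) + (q - x))) q ^ 2 ≤
      R ^ 2 - (8 / 25) * (R ^ 2 + s) := by
    rw [dist_eq_norm, norm_E2]
    simp only [PiLp.sub_apply, PiLp.add_apply, PiLp.smul_apply, smul_eq_mul]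
    rw [hs]
    nlinarith [hp2, hq2]
  have h1' := le_of_sq_le (c := 7 / 25 * R) (by positivity) h1
  have h2' := le_of_sq_le (c := 41 / 50 * R) (by positivity) h2
  have h3' := le_of_sq_le (c := 41 / 50 * R) (by positivity) h3
  have e1 : ((2 / 25) * (R ^ 2 + s) + (7 / 25 * R) ^ 2) / (2 * (7 / 25 * R)) =
      ((2 / 25) / (14 / 25)) * (s / R) + ((2 / 25 + 49 / 625) / (14 / 25)) * R := by
    field_simp
    ring
  have e2 : (R ^ 2 - (8 / 25) * (R ^ 2 + s) + (41 / 50 * R) ^ 2) / (2 * (41 / 50 * R)) =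
      -((8 / 25) / (82 / 50)) * (s / R) + ((17 / 25 + 1681 / 2500) / (82 / 50)) * R := by
    field_simp
    ring
  rw [e1] at h1'
  rw [e2] at h2' h3'
  have hsR : 0 ≤ s / R := div_nonneg hpq hR.le
  nlinarith

theorem IsLenMin.le_Y {K : Set E2} (h : IsLenMin K) {x : E2} {R : ℝ} (hR : 0 < R)
    {F : Finset E2} (hF : K ∩ sphere x R = F) (h4 : 4 ≤ F.card) :
    len (K ∩ closedBall x R) ≤ ENNReal.ofReal ((F.card - 1 / 20) * R) := by
  classical
  have hmem : ∀ p ∈ F, dist p x = R := by
    intro p hp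
    have : p ∈ K ∩ sphere x R := by rw [hF]; exact hp
    exact this.2
  obtain ⟨p, hp, q, hq, hpq, hin⟩ := exists_nonneg_inner h4 hR hmem
  have hYl := Y_length hR (hmem p hp) (hmem q hq) hin
  set b : E2 := x + (1 / 5 : ℝ) • ((p - x) + (q - x)) with hb
  let G : Finset E2 := (F.erase p).erase q
  have hGc : (G.card : ℝ) = F.card - 2 := by
    have hq' : q ∈ F.erase p := Finset.mem_erase.2 ⟨hpq.symm, hq⟩
    have h1 : G.card + 2 = F.card := by
      simp only [G]
      rw [Finset.card_erase_of_mem hq', Finset.card_erase_of_mem hp]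
      omega
    rw [← h1]
    push_cast
    ring
  let T : Finset E2 := {x, p, q}
  have hbB : b ∈ closedBall x R := by
    rw [mem_closedBall]
    have h1 : 0 ≤ dist b p := dist_nonneg
    have h2 : 0 ≤ dist b q := dist_nonneg
    have h3 : ‖(1 / 5 : ℝ) • ((p - x) + (q - x))‖ ≤ 2 / 5 * R := by
      rw [norm_smul]
      have h4 : ‖(p - x) + (q - x)‖ ≤ R + R := by
        refine (norm_add_le _ _).trans ?_
        rw [← dist_eq_norm, ← dist_eq_norm, hmem p hp, hmem q hq]
      have h5 : ‖(1 / 5 : ℝ)‖ = 1 / 5 := by norm_num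
      rw [h5]
      linarith
    have h6 : dist b x = ‖(1 / 5 : ℝ) • ((p - x) + (q - x))‖ := by
      rw [hb, dist_eq_norm, add_sub_cancel_left]
    rw [h6]
    linarith
  have hxB : x ∈ closedBall x R := mem_closedBall_self hR.le
  have hFB : ∀ y ∈ F, y ∈ closedBall x R := fun y hy => (hmem y hy).le
  have hGB : ∀ y ∈ G, y ∈ closedBall x R := fun y hy =>
    hFB y (Finset.mem_of_mem_erase (Finset.mem_of_mem_erase hy))
  have hTB : ∀ y ∈ T, y ∈ closedBall x R := by
    intro y hy
    simp only [T, Finset.mem_insert, Finset.mem_singleton] at hy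
    rcases hy with rfl | rfl | rfl
    · exact hxB
    · exact hFB _ hp
    · exact hFB _ hq
  have hxT : x ∈ star b T := mem_star (by simp [T])
  have hxG : x ∈ star x G := Or.inl rfl
  refine (h.le_len hR (L0 := star x G ∪ star b T) ((star_compact x G).union (star_compact b T))
    (IsPreconnected.union x hxG hxT (star_preconnected x G) (star_preconnected b T))
    (union_subset (star_subset hxB hGB) (star_subset hbB hTB)) ?_).trans ?_
  · rw [hF]
    intro y hy
    by_cases hyp : y = p
    · exact Or.inr (mem_star (by simp [T, hyp]))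
    by_cases hyq : y = q
    · exact Or.inr (mem_star (by simp [T, hyq]))
    · exact Or.inl (mem_star (Finset.mem_erase.2 ⟨hyq, Finset.mem_erase.2 ⟨hyp, hy⟩⟩))
  · have hxp : x ≠ p := by
      intro h0
      have := hmem p hp
      rw [← h0, dist_self] at this
      exact hR.ne this
    have hxq : x ≠ q := by
      intro h0
      have := hmem q hq
      rw [← h0, dist_self] at this
      exact hR.ne this
    have hsT : ∑ y ∈ T, dist b y = dist b x + (dist b p + dist b q) := by
      simp only [T]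
      rw [Finset.sum_insert (by simp [hxp, hxq]), Finset.sum_insert (by simp [hpq]),
        Finset.sum_singleton]
    have hsG : ∑ y ∈ G, dist x y = (F.card - 2) * R := by
      rw [Finset.sum_congr rfl (g := fun _ => R), Finset.sum_const, nsmul_eq_mul, hGc]
      intro y hy
      rw [dist_comm]
      exact hmem y (Finset.mem_of_mem_erase (Finset.mem_of_mem_erase hy))
    calc len (star x G ∪ star b T) ≤ len (star x G) + len (star b T) := measure_union_le _ _
      _ ≤ ENNReal.ofReal (∑ y ∈ G, dist x y) + ENNReal.ofReal (∑ y ∈ T, dist b y) :=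
          add_le_add (len_star_le _ _) (len_star_le _ _)
      _ = ENNReal.ofReal (∑ y ∈ G, dist x y + ∑ y ∈ T, dist b y) := by
          rw [ENNReal.ofReal_add (Finset.sum_nonneg fun _ _ => dist_nonneg)
            (Finset.sum_nonneg fun _ _ => dist_nonneg)]
      _ ≤ _ := by
          apply ENNReal.ofReal_le_ofReal
          rw [hsT, hsG]
          linarith

/-- the gain: if the circle meets `K` in at least four points, the length in the disc is at most
`(119/120) R` times the number of points -/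
theorem IsLenMin.le_encard {K : Set E2} (h : IsLenMin K) {x : E2} {R : ℝ} (hR : 0 < R)
    (h4 : 4 ≤ (K ∩ sphere x R).encard) :
    len (K ∩ closedBall x R) ≤
      ENNReal.ofReal (119 / 120 * R) * ((K ∩ sphere x R).encard : ℝ≥0∞) := by
  classical
  by_cases hfin : (K ∩ sphere x R).Finite
  · obtain ⟨F, hF⟩ : ∃ F : Finset E2, K ∩ sphere x R = F := ⟨hfin.toFinset, by simp⟩
    rw [hF, Set.encard_coe_eq_coe_finsetCard] at h4 ⊢
    have h4' : 4 ≤ F.card := by exact_mod_cast h4
    have e1 : ENNReal.ofReal (119 / 120 * R) * (((F.card : ℕ) : ℕ∞) : ℝ≥0∞) =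
        ENNReal.ofReal (119 / 120 * R * F.card) := by
      rw [ENNReal.ofReal_mul (p := 119 / 120 * R) (by positivity)]
      congr 1
      simp
    rw [e1]
    rcases le_or_gt F.card 6 with h6 | h6
    · refine (h.le_Y hR hF h4').trans (ENNReal.ofReal_le_ofReal ?_)
      have : (F.card : ℝ) ≤ 6 := by exact_mod_cast h6
      nlinarith
    · refine (h.le_circle hR).trans (ENNReal.ofReal_le_ofReal ?_)
      have h7 : (7 : ℝ) ≤ F.card := by exact_mod_cast h6
      have hpi := Real.pi_lt_d2
      nlinarith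
  · have : (K ∩ sphere x R).encard = ⊤ := by
      rwa [Set.encard_eq_top_iff]
    rw [this]
    have h0 : ENNReal.ofReal (119 / 120 * R) ≠ 0 := by
      rw [Ne, ENNReal.ofReal_eq_zero, not_le]
      positivity
    simp only [ENat.toENNReal_top]
    rw [ENNReal.mul_top h0]
    exact le_top

end Crest.Agent.R135
end

-- ▼ part R135/Net3

/-!
# R135, block NET (helper564), part 3: growth of the length

For `K` length minimizing and `x ∈ K` there are arbitrarily large radii whose circle meets `K` in at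
most three points.
-/

set_option autoImplicit false

open MeasureTheory Set Filter Topology Metric
open scoped ENNReal NNReal

namespace Crest.Agent.R135

/-- Eilenberg's inequality for the distance function, lower bound form. -/
theorem len_ge_lintegral (K : Set E2) (x : E2) :
    ∫⁻ t, ((K ∩ sphere x t).encard : ℝ≥0∞) ≤ len K :=
  lintegral_encard_fiber_le (fun y : E2 => dist y x) K ((lipschitzWith_dist_left x).lipschitzOnWith)

/-- If the circles with radius in `(a,b)` meet `K` in at least `c` points, a.e., then the length of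
`K` in the annulus is at least `c (b-a)`. -/
theorem len_annulus_ge {K : Set E2} {x : E2} {a b : ℝ} {c : ℝ≥0∞}
    (h : ∀ᵐ t : ℝ, t ∈ Ioo a b → c ≤ ((K ∩ sphere x t).encard : ℝ≥0∞)) :
    c * ENNReal.ofReal (b - a) ≤ len (K ∩ {y | dist y x ∈ Ioo a b}) := by
  refine le_trans ?_ (len_ge_lintegral _ x)
  calc c * ENNReal.ofReal (b - a) = ∫⁻ t in Ioo a b, c := by
        rw [setLIntegral_const, Real.volume_Ioo]
    _ = ∫⁻ t, (Ioo a b).indicator (fun _ => c) t := by rw [lintegral_indicator measurableSet_Ioo]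
    _ ≤ _ := by
        apply lintegral_mono_ae
        filter_upwards [h] with t ht
        by_cases htI : t ∈ Ioo a b
        · rw [indicator_of_mem htI]
          refine (ht htI).trans ?_
          apply ENat.toENNReal_le.2
          apply Set.encard_le_encard
          rintro y ⟨hy, hy'⟩
          refine ⟨⟨hy, ?_⟩, hy'⟩
          rw [mem_sphere] at hy'
          show dist y x ∈ Ioo a b
          rw [hy']
          exact htI
        · rw [indicator_of_notMem htI]
          exact zero_le

theorem IsLenMin.exists_radius {K : Set E2} (h : IsLenMin K) {x : E2} (hx : x ∈ K) (R0 : ℝ)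
    {P : ℝ → Prop} (hP : ∀ᵐ r : ℝ, P r) :
    ∃ r, R0 < r ∧ 0 < r ∧ P r ∧ (K ∩ sphere x r).encard ≤ 3 := by
  by_contra hcon
  push Not at hcon
  have h4 : ∀ᵐ r : ℝ, R0 < r → 0 < r → (4 : ℕ∞) ≤ (K ∩ sphere x r).encard := by
    filter_upwards [hP] with r hr h1 h2
    have h3 := hcon r h1 h2 hr
    have : (3 : ℕ∞) + 1 ≤ (K ∩ sphere x r).encard := Order.add_one_le_of_lt h3
    exact this
  have claim : ∀ n : ℕ, ∃ Rn : ℝ, 0 < Rn ∧ R0 < Rn ∧ ∀ r, Rn ≤ r →
      ENNReal.ofReal (2 * (241 / 240) ^ n * r) ≤ len (K ∩ closedBall x r) := by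
    intro n
    induction n with
    | zero =>
      refine ⟨max 1 (R0 + 1), by positivity, lt_of_lt_of_le (by linarith) (le_max_right _ _), ?_⟩
      intro r hr
      rw [pow_zero, mul_one]
      exact (h.two_mul_le hx r).trans
        (measure_mono (inter_subset_inter_right K ball_subset_closedBall))
    | succ n ih =>
      obtain ⟨Rn, hRn, hRn0, hlow⟩ := ih
      set γ : ℝ := 2 * (241 / 240) ^ n with hγ
      have hγ0 : 0 < γ := by positivity
      refine ⟨300 * Rn, by linarith, by linarith, ?_⟩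
      intro r hr
      have h5 : ∀ᵐ t : ℝ, t ∈ Ioo Rn r → ENNReal.ofReal (120 / 119 * γ) ≤
          ((K ∩ sphere x t).encard : ℝ≥0∞) := by
        filter_upwards [h4] with t ht htI
        have ht0 : 0 < t := hRn.trans htI.1
        have h6 := h.le_encard ht0 (ht (hRn0.trans htI.1) ht0)
        have h7 := (hlow t htI.1.le).trans h6
        have h8 : ENNReal.ofReal (γ * t) =
            ENNReal.ofReal (119 / 120 * t) * ENNReal.ofReal (120 / 119 * γ) := by
          rw [← ENNReal.ofReal_mul (by positivity)]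
          congr 1
          ring
        rw [h8] at h7
        have h9 : ENNReal.ofReal (119 / 120 * t) ≠ 0 := by
          rw [Ne, ENNReal.ofReal_eq_zero, not_le]
          positivity
        exact (ENNReal.mul_le_mul_iff_right h9 ENNReal.ofReal_ne_top).1 h7
      have h6 := len_annulus_ge h5
      have h7 : len (K ∩ {y | dist y x ∈ Ioo Rn r}) ≤ len (K ∩ closedBall x r) := by
        apply measure_mono
        rintro y ⟨hy, hy'⟩
        exact ⟨hy, hy'.2.le⟩
      refine le_trans ?_ (h6.trans h7)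
      rw [← ENNReal.ofReal_mul (by positivity)]
      apply ENNReal.ofReal_le_ofReal
      rw [pow_succ]
      have h8 : 2 * ((241 / 240 : ℝ) ^ n * (241 / 240)) * r = γ * (241 / 240 * r) := by
        rw [hγ]; ring
      rw [h8]
      have h9 : 120 / 119 * γ * (r - Rn) = γ * (120 / 119 * (r - Rn)) := by ring
      rw [h9]
      apply mul_le_mul_of_nonneg_left _ hγ0.le
      linarith
  obtain ⟨n, hn⟩ := pow_unbounded_of_one_lt (4 : ℝ) (by norm_num : (1 : ℝ) < 241 / 240)
  obtain ⟨Rn, hRn, -, hlow⟩ := claim n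
  have h5 := (hlow Rn le_rfl).trans (h.le_circle hRn)
  rw [ENNReal.ofReal_le_ofReal_iff (by positivity)] at h5
  have h6 := Real.pi_lt_d2
  have h7 : 2 * (241 / 240 : ℝ) ^ n ≤ 2 * Real.pi := le_of_mul_le_mul_right h5 hRn
  linarith

end Crest.Agent.R135
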