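import Crest.Agent.R135.IFDefs2
import Crest.Agent.R135.IF_zero_flux
import Crest.Agent.R135.Inner8
import Mathlib
import Crest.Agent.R135.Net3
import Crest.Agent.R135.QMBasic
import Crest.Agent.R135.QMOps
import Crest.Agent.R135.CT1
import Crest.Agent.R135.PolarF
import Crest.Agent.R135.IF_A2
import Crest.Agent.R135.IF_B3
import Crest.Agent.R135.IF_component_unbounded_gm
import Crest.Agent.R135.IF_Dr_div_mono

-- ▼ part R135/IF_cone_thm
section

/-! INTERFACE cone_thm (proved: helper898 BonCone1-5, helper828 Inner8; from zero_flux). -/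

set_option autoImplicit false

open MeasureTheory Set Filter Topology Metric
open scoped ENNReal NNReal ContDiff Gradient
open Crest.AnalysisR.PDE.OnePhase Crest.AnalysisR.PDE.MumfordShah

namespace Crest.Agent.R135

/-- CONE (C4): constant density -/
theorem cone_thm {u : E2 → ℝ} {K : Set E2} (h : IsQM univ 0 u K) {x : E2} {e : ℝ}
    (he : ∀ r : ℝ, 0 < r → Dr u K x r = e * r) : e = 0 ∨ (e = 1 ∧ IsTip u K x) :=
  Inner.cone_final h (zero_flux h x) he

end Crest.Agent.R135
end

-- ▼ part R135/Net4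
section

/-!
# R135, block NET (helper564), part 4: radial rigidity

If the length of `K` in the ball is the minimal one `m R` allowed by the number `≥ m` of points on
the circles centred at `x`, if these points are separated and if `H¹(K ∩ B(z,ρ)) ≥ 2ρ` for `z ∈ K`,
then `K ∩ ball x R` is radial.
-/

set_option autoImplicit false

open MeasureTheory Set Filter Topology Metric
open scoped ENNReal NNReal

namespace Crest.Agent.R135

/-- hypotheses of the radial rigidity -/
structure RadHyp (K : Set E2) (x : E2) (R : ℝ) (m : ℕ) : Prop where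
  closed : IsClosed K
  le : len (K ∩ ball x R) ≤ ENNReal.ofReal (m * R)
  card : ∀ᵐ s : ℝ, s ∈ Ioo 0 R → (m : ℕ∞) ≤ (K ∩ sphere x s).encard
  sep : ∀ᵐ s : ℝ, s ∈ Ioo 0 R → ∀ p ∈ K ∩ sphere x s, ∀ q ∈ K ∩ sphere x s, p ≠ q → s ≤ dist p q
  low : ∀ z ∈ K, ∀ ρ : ℝ, ENNReal.ofReal (2 * ρ) ≤ len (K ∩ ball z ρ)

theorem RadHyp.exists_near {K : Set E2} {x : E2} {R : ℝ} {m : ℕ} (h : RadHyp K x R m) {y : E2}
    (hy : y ∈ K) {ρ : ℝ} (hρ : 0 < ρ) (hρ1 : ρ ≤ dist y x / 4) (hρ2 : ρ ≤ R - dist y x) {a b : ℝ}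
    (hab : a < b) (ha : dist y x - ρ ≤ a) (hb : b ≤ dist y x + ρ) :
    ∃ z ∈ K, dist z y < ρ ∧ dist z x ∈ Ioo a b := by
  classical
  by_contra hcon
  push Not at hcon
  set t := dist y x with ht
  have hsub : ball y ρ ⊆ ball x R := by
    intro z hz
    rw [mem_ball] at hz ⊢
    have := dist_triangle z y x
    linarith
  set B : Set E2 := (K ∩ ball x R) \ ball y ρ with hB
  set T : Set ℝ := Ioo (t - ρ) (t + ρ) \ Ioo a b with hT
  have hTm : MeasurableSet T := measurableSet_Ioo.diff measurableSet_Ioo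
  have hTv : volume T ≤ ENNReal.ofReal (2 * ρ - (b - a)) := by
    have h1 : T ⊆ Ioc (t - ρ) a ∪ Ico b (t + ρ) := by
      rintro s ⟨hs, hs'⟩
      rw [mem_Ioo, not_and_or, not_lt, not_lt] at hs'
      rcases hs' with h | h
      · exact Or.inl ⟨hs.1, h⟩
      · exact Or.inr ⟨h, hs.2⟩
    calc volume T ≤ volume (Ioc (t - ρ) a) + volume (Ico b (t + ρ)) :=
          (measure_mono h1).trans (measure_union_le _ _)
      _ = ENNReal.ofReal (2 * ρ - (b - a)) := by
          rw [Real.volume_Ioc, Real.volume_Ico, ← ENNReal.ofReal_add (by linarith) (by linarith)]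
          congr 1
          ring
  have h1 : ∀ᵐ s : ℝ, s ∈ Ioo 0 R → ((m : ℕ∞) : ℝ≥0∞) ≤
      ((B ∩ sphere x s).encard : ℝ≥0∞) + T.indicator (fun _ => (1 : ℝ≥0∞)) s := by
    filter_upwards [h.card, h.sep] with s hs1 hs2 hsI
    have hc := hs1 hsI
    have hsp := hs2 hsI
    have hcover : K ∩ sphere x s ⊆ (B ∩ sphere x s) ∪ (K ∩ ball y ρ ∩ sphere x s) := by
      rintro z ⟨hz, hz'⟩
      by_cases hzy : z ∈ ball y ρ
      · exact Or.inr ⟨⟨hz, hzy⟩, hz'⟩
      · refine Or.inl ⟨⟨⟨hz, ?_⟩, hzy⟩, hz'⟩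
        rw [mem_ball, mem_sphere.1 hz']
        exact hsI.2
    have hc2 : (K ∩ sphere x s).encard ≤ (B ∩ sphere x s).encard +
        (K ∩ ball y ρ ∩ sphere x s).encard := (encard_le_encard hcover).trans (encard_union_le _ _)
    have hIoo : ∀ z ∈ K ∩ ball y ρ ∩ sphere x s, s ∈ Ioo (t - ρ) (t + ρ) := by
      rintro z ⟨⟨hz, hzy⟩, hzs⟩
      rw [mem_sphere] at hzs
      rw [mem_ball] at hzy
      have h3 := dist_triangle z y x
      have h4 := dist_triangle y z x
      rw [dist_comm y z] at h4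
      constructor <;> linarith
    by_cases hsT : s ∈ T
    · rw [indicator_of_mem hsT]
      have hss : (K ∩ ball y ρ ∩ sphere x s).Subsingleton := by
        rintro p ⟨⟨hp, hpy⟩, hps⟩ q ⟨⟨hq, hqy⟩, hqs⟩
        by_contra hpq
        have h3 := hsp p ⟨hp, hps⟩ q ⟨hq, hqs⟩ hpq
        rw [mem_ball] at hpy hqy
        have h4 := dist_triangle p y q
        rw [dist_comm y q] at h4
        have h5 : t - ρ < s := hsT.1.1
        linarith
      have h3 : (K ∩ ball y ρ ∩ sphere x s).encard ≤ 1 := by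
        rw [Set.encard_le_one_iff]
        intro p q hp hq
        exact hss hp hq
      have h4 : (m : ℕ∞) ≤ (B ∩ sphere x s).encard + 1 :=
        hc.trans (hc2.trans (by gcongr))
      have h5 := ENat.toENNReal_le.2 h4
      simpa using h5
    · rw [indicator_of_notMem hsT, add_zero]
      have hemp : K ∩ ball y ρ ∩ sphere x s = ∅ := by
        rw [eq_empty_iff_forall_notMem]
        intro z hz
        have h3 := hIoo z hz
        have h4 : s ∈ Ioo a b := by
          by_contra h5
          exact hsT ⟨h3, h5⟩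
        apply hcon z hz.1.1 hz.1.2
        rw [mem_sphere.1 hz.2]
        exact h4
      rw [hemp, encard_empty, add_zero] at hc2
      exact ENat.toENNReal_le.2 (hc.trans hc2)
  have hR : 0 < R := by
    have : 0 ≤ t := dist_nonneg
    linarith
  have h2 : ENNReal.ofReal (m * R) ≤ len B + ENNReal.ofReal (2 * ρ - (b - a)) := by
    calc ENNReal.ofReal (m * R) = ∫⁻ s in Ioo 0 R, ((m : ℕ∞) : ℝ≥0∞) := by
          rw [setLIntegral_const, Real.volume_Ioo, sub_zero, ENNReal.ofReal_mul (by positivity)]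
          congr 1
          simp
      _ ≤ ∫⁻ s in Ioo 0 R, (((B ∩ sphere x s).encard : ℝ≥0∞) +
            T.indicator (fun _ => (1 : ℝ≥0∞)) s) := by
          apply lintegral_mono_ae
          rw [ae_restrict_iff' measurableSet_Ioo]
          exact h1
      _ ≤ ∫⁻ s, (((B ∩ sphere x s).encard : ℝ≥0∞) + T.indicator (fun _ => (1 : ℝ≥0∞)) s) :=
          setLIntegral_le_lintegral _ _
      _ = (∫⁻ s, ((B ∩ sphere x s).encard : ℝ≥0∞)) +
            ∫⁻ s, T.indicator (fun _ => (1 : ℝ≥0∞)) s := by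
          rw [lintegral_add_right _ (measurable_const.indicator hTm)]
      _ ≤ len B + ENNReal.ofReal (2 * ρ - (b - a)) := by
          gcongr
          · exact len_ge_lintegral B x
          · rw [lintegral_indicator hTm, setLIntegral_const, one_mul]
            exact hTv
  have h3 : len (K ∩ ball x R) = len (K ∩ ball x R ∩ ball y ρ) + len B := by
    unfold len
    exact (measure_inter_add_sdiff _ measurableSet_ball).symm
  have h4 : K ∩ ball x R ∩ ball y ρ = K ∩ ball y ρ := by
    ext z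
    constructor
    · rintro ⟨⟨hz, -⟩, hz'⟩
      exact ⟨hz, hz'⟩
    · rintro ⟨hz, hz'⟩
      exact ⟨⟨hz, hsub hz'⟩, hz'⟩
  rw [h4] at h3
  have h5 := h.low y hy ρ
  have h6 : ENNReal.ofReal (2 * ρ) + ENNReal.ofReal (m * R) ≤
      ENNReal.ofReal (2 * ρ - (b - a)) + ENNReal.ofReal (m * R) := by
    calc ENNReal.ofReal (2 * ρ) + ENNReal.ofReal (m * R) ≤
          len (K ∩ ball y ρ) + (len B + ENNReal.ofReal (2 * ρ - (b - a))) := add_le_add h5 h2
      _ = len (K ∩ ball x R) + ENNReal.ofReal (2 * ρ - (b - a)) := by rw [h3, add_assoc]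
      _ ≤ ENNReal.ofReal (m * R) + ENNReal.ofReal (2 * ρ - (b - a)) := by
          gcongr
          exact h.le
      _ = _ := add_comm _ _
  have h7 := (ENNReal.add_le_add_iff_right ENNReal.ofReal_ne_top).1 h6
  rw [ENNReal.ofReal_le_ofReal_iff (by linarith)] at h7
  linarith

theorem RadHyp.radial_open {K : Set E2} {x : E2} {R : ℝ} {m : ℕ} (h : RadHyp K x R m) {y : E2}
    (hy : y ∈ K) {s : ℝ} (hs1 : |s - dist y x| < dist y x / 4) (hs2 : |s - dist y x| < R - dist y x) :
    x + (s / dist y x) • (y - x) ∈ K := by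
  set t := dist y x with ht
  set d := |s - t| with hd
  have hd0 : 0 ≤ d := abs_nonneg _
  have ht0 : 0 < t := by linarith
  have hs0 : 0 < s := by
    have := abs_lt.1 hs1
    linarith
  have hdsq : d ^ 2 = (s - t) ^ 2 := sq_abs _
  set C : ℝ := 2 * s + 1 + (s / t) * (2 * s + 2 * d) with hC
  have hC0 : 0 < C := by positivity
  have key : ∀ ε : ℝ, 0 < ε → ε < 1 → ε < s → ε ≤ t / 4 - d → ε ≤ R - t - d →
      ∃ z ∈ K, dist z (x + (s / t) • (y - x)) ^ 2 ≤ C * ε := by
    intro ε hε hε1 hεs hε2 hε3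
    obtain ⟨z, hz, hzy, hzx⟩ := h.exists_near hy (ρ := d + ε) (by linarith) (by linarith)
      (by linarith) (a := s - ε) (b := s + ε) (by linarith)
      (by have := neg_abs_le (s - t); linarith) (by have := le_abs_self (s - t); linarith)
    refine ⟨z, hz, ?_⟩
    have e1 : dist z y ^ 2 = (z 0 - y 0) ^ 2 + (z 1 - y 1) ^ 2 := by
      rw [dist_eq_norm, norm_E2]; simp only [PiLp.sub_apply]
    have e2 : dist z x ^ 2 = (z 0 - x 0) ^ 2 + (z 1 - x 1) ^ 2 := by
      rw [dist_eq_norm, norm_E2]; simp only [PiLp.sub_apply]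
    have e3 : t ^ 2 = (y 0 - x 0) ^ 2 + (y 1 - x 1) ^ 2 := by
      rw [ht, dist_eq_norm, norm_E2]; simp only [PiLp.sub_apply]
    have e4 : dist z (x + (s / t) • (y - x)) ^ 2 =
        (z 0 - (x 0 + (s / t) * (y 0 - x 0))) ^ 2 + (z 1 - (x 1 + (s / t) * (y 1 - x 1))) ^ 2 := by
      rw [dist_eq_norm, norm_E2]
      simp only [PiLp.sub_apply, PiLp.add_apply, PiLp.smul_apply, smul_eq_mul]
    have e5 : dist z (x + (s / t) • (y - x)) ^ 2 =
        dist z x ^ 2 - (s / t) * (dist z x ^ 2 + t ^ 2 - dist z y ^ 2) + s ^ 2 := by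
      rw [e4, e1, e2]
      have : s ^ 2 = (s / t) ^ 2 * t ^ 2 := by field_simp
      rw [this, e3]
      ring
    rw [e5]
    have hA0 : 0 ≤ dist z x := dist_nonneg
    have hB0 : 0 ≤ dist z y := dist_nonneg
    have hA1 : dist z x ^ 2 ≤ (s + ε) ^ 2 := pow_le_pow_left₀ hA0 hzx.2.le 2
    have hA2 : (s - ε) ^ 2 ≤ dist z x ^ 2 := pow_le_pow_left₀ (by linarith) hzx.1.le 2
    have hB1 : dist z y ^ 2 ≤ (d + ε) ^ 2 := pow_le_pow_left₀ hB0 hzy.le 2
    have hst : 0 < s / t := by positivity
    have h1 : (s / t) * ((s - ε) ^ 2 + t ^ 2 - (d + ε) ^ 2) ≤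
        (s / t) * (dist z x ^ 2 + t ^ 2 - dist z y ^ 2) :=
      mul_le_mul_of_nonneg_left (by linarith) hst.le
    have h2 : (s / t) * ((s - ε) ^ 2 + t ^ 2 - (d + ε) ^ 2) =
        2 * s ^ 2 - (s / t) * ((2 * s + 2 * d) * ε) := by
      have h3 : (s - ε) ^ 2 + t ^ 2 - (d + ε) ^ 2 = 2 * s * t - (2 * s + 2 * d) * ε := by
        have : (d + ε) ^ 2 = d ^ 2 + 2 * d * ε + ε ^ 2 := by ring
        rw [this, hdsq]
        ring
      rw [h3]
      have h4 : (s / t) * (2 * s * t) = 2 * s ^ 2 := by field_simp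
      rw [mul_sub, h4]
    have h5 : ε ^ 2 ≤ ε := by nlinarith
    have h6 : (s + ε) ^ 2 = s ^ 2 + 2 * s * ε + ε ^ 2 := by ring
    have h7 : C * ε = 2 * s * ε + ε + (s / t) * ((2 * s + 2 * d) * ε) := by rw [hC]; ring
    rw [h7]
    linarith
  have hmem : x + (s / t) • (y - x) ∈ closure K := by
    rw [Metric.mem_closure_iff]
    intro η hη
    have hm : 0 < min (min (1 / 2) (s / 2)) (min (t / 4 - d) (min (R - t - d) (η ^ 2 / (2 * C)))) := by
      refine lt_min (lt_min (by norm_num) (by linarith)) (lt_min (by linarith)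
        (lt_min (by linarith) (by positivity)))
    set ε := min (min (1 / 2) (s / 2)) (min (t / 4 - d) (min (R - t - d) (η ^ 2 / (2 * C)))) with hε
    have h1 : ε ≤ 1 / 2 := (min_le_left _ _).trans (min_le_left _ _)
    have h2 : ε ≤ s / 2 := (min_le_left _ _).trans (min_le_right _ _)
    have h3 : ε ≤ t / 4 - d := (min_le_right _ _).trans (min_le_left _ _)
    have h4 : ε ≤ R - t - d := (min_le_right _ _).trans ((min_le_right _ _).trans (min_le_left _ _))
    have h5 : ε ≤ η ^ 2 / (2 * C) :=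
      (min_le_right _ _).trans ((min_le_right _ _).trans (min_le_right _ _))
    obtain ⟨z, hz, hzd⟩ := key ε hm (by linarith) (by linarith) h3 h4
    refine ⟨z, hz, ?_⟩
    rw [dist_comm]
    have h6 : C * ε ≤ η ^ 2 / 2 := by
      calc C * ε ≤ C * (η ^ 2 / (2 * C)) := mul_le_mul_of_nonneg_left h5 hC0.le
        _ = η ^ 2 / 2 := by field_simp
    have h7 : dist z (x + (s / t) • (y - x)) ^ 2 < η ^ 2 := by
      have : 0 < η ^ 2 := by positivity
      linarith
    exact lt_of_pow_lt_pow_left₀ 2 hη.le h7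
  rwa [h.closed.closure_eq] at hmem

theorem RadHyp.radial_full {K : Set E2} {x : E2} {R : ℝ} {m : ℕ} (h : RadHyp K x R m) {y : E2}
    (hy : y ∈ K) (hyx : y ≠ x) (hyR : dist y x < R) {s : ℝ} (hs : s ∈ Ioo 0 R) :
    x + (s / dist y x) • (y - x) ∈ K := by
  set t := dist y x with ht
  have ht0 : 0 < t := dist_pos.2 hyx
  have hcont : Continuous (fun s : ℝ => x + (s / t) • (y - x)) := by fun_prop
  have key : ∀ s s' : ℝ, s ∈ Ioo 0 R → s' ∈ Ioo 0 R → ((x + (s / t) • (y - x) ∈ K) ↔
      (x + (s' / t) • (y - x) ∈ K)) := by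
    intro s s' hs hs'
    refine (isPreconnected_Ioo (a := (0 : ℝ)) (b := R)).induction₂
      (fun s s' => ((x + (s / t) • (y - x) ∈ K) ↔ (x + (s' / t) • (y - x) ∈ K))) ?_ ?_ ?_ hs hs'
    · intro r hr
      by_cases hrK : x + (r / t) • (y - x) ∈ K
      · have hd : dist (x + (r / t) • (y - x)) x = r := by
          rw [dist_eq_norm, add_sub_cancel_left, norm_smul, ← dist_eq_norm, ← ht,
            Real.norm_of_nonneg (div_nonneg hr.1.le ht0.le)]
          field_simp
        have hev : ∀ᶠ r' in 𝓝 r, |r' - r| < min (r / 4) (R - r) := by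
          have : 0 < min (r / 4) (R - r) := lt_min (by linarith [hr.1]) (by linarith [hr.2])
          have := Metric.ball_mem_nhds r this
          filter_upwards [this] with r' hr'
          rwa [mem_ball, Real.dist_eq] at hr'
        filter_upwards [hev.filter_mono nhdsWithin_le_nhds] with r' hr'
        have h1 := h.radial_open hrK (s := r') (by
          rw [hd]; exact hr'.trans_le (min_le_left _ _)) (by
          rw [hd]; exact hr'.trans_le (min_le_right _ _))
        have h2 : x + (r' / dist (x + (r / t) • (y - x)) x) • (x + (r / t) • (y - x) - x) =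
            x + (r' / t) • (y - x) := by
          rw [hd, add_sub_cancel_left, smul_smul]
          congr 2
          have := hr.1
          field_simp
        rw [h2] at h1
        exact ⟨fun _ => h1, fun _ => hrK⟩
      · have hev : ∀ᶠ r' in 𝓝 r, x + (r' / t) • (y - x) ∉ K :=
          hcont.continuousAt.eventually (h.closed.isOpen_compl.mem_nhds hrK)
        filter_upwards [hev.filter_mono nhdsWithin_le_nhds] with r' hr'
        exact ⟨fun h => absurd h hrK, fun h => absurd h hr'⟩
    · intro a b c _ _ _ hab hbc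
      exact hab.trans hbc
    · intro a b _ _ hab
      exact hab.symm
  rw [key s t hs ⟨ht0, hyR⟩]
  have : x + (t / t) • (y - x) = y := by
    rw [div_self ht0.ne', one_smul, add_sub_cancel]
  rwa [this]

end Crest.Agent.R135
end

-- ▼ part R135/Net5
section

/-!
# R135, block NET (helper564), part 5: straight and triple discs
-/

set_option autoImplicit false

open MeasureTheory Set Filter Topology Metric
open scoped ENNReal NNReal

namespace Crest.Agent.R135

/-- minimal length forces the minimal number of points on almost every circle -/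
theorem ae_encard_le {K : Set E2} {x : E2} {R : ℝ} {m : ℕ}
    (hl : len (K ∩ ball x R) ≤ ENNReal.ofReal (m * R))
    (hN : ∀ᵐ s : ℝ, s ∈ Ioo 0 R → (m : ℕ∞) ≤ (K ∩ sphere x s).encard) :
    ∀ᵐ s : ℝ, s ∈ Ioo 0 R → (K ∩ sphere x s).encard ≤ m := by
  obtain ⟨g, hgm, hgle, hgint⟩ := exists_fiber_majorant (fun y : E2 => dist y x) (K ∩ ball x R)
    ((lipschitzWith_dist_left x).lipschitzOnWith)
  have hcirc : ∀ s ∈ Ioo 0 R, K ∩ ball x R ∩ (fun y : E2 => dist y x) ⁻¹' {s} = K ∩ sphere x s := by
    intro s hs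
    ext z
    constructor
    · rintro ⟨⟨hz, -⟩, hz'⟩
      exact ⟨hz, hz'⟩
    · rintro ⟨hz, hz'⟩
      refine ⟨⟨hz, ?_⟩, hz'⟩
      rw [mem_ball, mem_sphere.1 hz']
      exact hs.2
  have h1 : (fun _ => ((m : ℕ∞) : ℝ≥0∞)) ≤ᵐ[volume.restrict (Ioo 0 R)] g := by
    rw [Filter.EventuallyLE, ae_restrict_iff' measurableSet_Ioo]
    filter_upwards [hN] with s hs hsI
    have h2 := hgle s
    rw [hcirc s hsI] at h2
    exact (ENat.toENNReal_le.2 (hs hsI)).trans h2
  have h2 : ∫⁻ s in Ioo 0 R, ((m : ℕ∞) : ℝ≥0∞) = ENNReal.ofReal (m * R) := by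
    rw [setLIntegral_const, Real.volume_Ioo, sub_zero, ENNReal.ofReal_mul (by positivity)]
    congr 1
    simp
  have h3 : (fun _ => ((m : ℕ∞) : ℝ≥0∞)) =ᵐ[volume.restrict (Ioo 0 R)] g := by
    refine ae_eq_of_ae_le_of_lintegral_le h1 ?_ hgm.aemeasurable ?_
    · rw [h2]; exact ENNReal.ofReal_ne_top
    · rw [h2]
      exact (setLIntegral_le_lintegral _ _).trans (hgint.trans hl)
  rw [Filter.EventuallyEq, ae_restrict_iff' measurableSet_Ioo] at h3
  filter_upwards [h3] with s hs hsI
  have h4 := hgle s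
  rw [hcirc s hsI, ← hs hsI] at h4
  exact ENat.toENNReal_le.1 h4


/-- antipodal points -/
theorem antipodal {x p q : E2} {s : ℝ} (hp : dist p x = s) (hq : dist q x = s)
    (hpq : 2 * s ≤ dist p q) : q - x = -(p - x) := by
  have hs : 0 ≤ s := by rw [← hp]; exact dist_nonneg
  have hp2 : (p 0 - x 0) ^ 2 + (p 1 - x 1) ^ 2 = s ^ 2 := by
    rw [← hp, dist_eq_norm, norm_E2]; simp only [PiLp.sub_apply]
  have hq2 : (q 0 - x 0) ^ 2 + (q 1 - x 1) ^ 2 = s ^ 2 := by
    rw [← hq, dist_eq_norm, norm_E2]; simp only [PiLp.sub_apply]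
  have h2 : (2 * s) ^ 2 ≤ (p 0 - q 0) ^ 2 + (p 1 - q 1) ^ 2 := by
    have := pow_le_pow_left₀ (by positivity) hpq 2
    rw [dist_eq_norm, norm_E2] at this
    simpa only [PiLp.sub_apply] using this
  have h3 : (q 0 - x 0 + (p 0 - x 0)) ^ 2 + (q 1 - x 1 + (p 1 - x 1)) ^ 2 ≤ 0 := by nlinarith
  have h4 : q 0 - x 0 + (p 0 - x 0) = 0 := by
    nlinarith [sq_nonneg (q 0 - x 0 + (p 0 - x 0)), sq_nonneg (q 1 - x 1 + (p 1 - x 1))]
  have h5 : q 1 - x 1 + (p 1 - x 1) = 0 := by
    nlinarith [sq_nonneg (q 0 - x 0 + (p 0 - x 0)), sq_nonneg (q 1 - x 1 + (p 1 - x 1))]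
  apply ext_E2
  · simp only [PiLp.sub_apply, PiLp.neg_apply]; linarith
  · simp only [PiLp.sub_apply, PiLp.neg_apply]; linarith

/-- `K` is a diameter in the ball -/
def Str (K : Set E2) (x : E2) (R : ℝ) (e : E2) : Prop :=
  ‖e‖ = 1 ∧ ∀ y ∈ ball x R, y ∈ K ↔ ∃ s : ℝ, y = x + s • e

/-- two points on a circle -/
theorem eq_pair_of_encard_two {A : Set E2} (h1 : 2 ≤ A.encard) (h2 : A.encard ≤ 2) :
    ∃ p q : E2, p ≠ q ∧ A = {p, q} := Set.encard_eq_two.1 (le_antisymm h2 h1)

theorem IsLenMin.chord_ge {K : Set E2} (h : IsLenMin K) {x : E2} (hx : x ∈ K) {R : ℝ} (hR : 0 < R)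
    {p q : E2} (hF : K ∩ sphere x R = {p, q}) : 2 * R ≤ dist p q := by
  have h1 := (h.two_mul_le hx R).trans ((measure_mono (inter_subset_inter_right K
    ball_subset_closedBall)).trans (h.le_chord hR hF))
  exact (ENNReal.ofReal_le_ofReal_iff dist_nonneg).1 h1

theorem IsLenMin.straight {K : Set E2} (h : IsLenMin K) {x : E2} (hx : x ∈ K) {R : ℝ} (hR : 0 < R)
    (h2 : (K ∩ sphere x R).encard ≤ 2) : ∃ e, Str K x R e := by
  obtain ⟨p, q, hpq, hF⟩ := eq_pair_of_encard_two (h.two_le_encard hx hR) h2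
  have hp : p ∈ K ∩ sphere x R := by rw [hF]; exact mem_insert _ _
  have hq : q ∈ K ∩ sphere x R := by rw [hF]; exact mem_insert_of_mem _ rfl
  have hl : len (K ∩ ball x R) ≤ ENNReal.ofReal ((2 : ℕ) * R) := by
    refine (measure_mono (inter_subset_inter_right K ball_subset_closedBall)).trans
      ((h.le_chord hR hF).trans (ENNReal.ofReal_le_ofReal ?_))
    have := dist_triangle p x q
    rw [dist_comm x q, mem_sphere.1 hp.2, mem_sphere.1 hq.2] at this
    push_cast
    linarith
  have hN : ∀ᵐ s : ℝ, s ∈ Ioo 0 R → ((2 : ℕ) : ℕ∞) ≤ (K ∩ sphere x s).encard :=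
    Eventually.of_forall fun s hs => h.two_le_encard hx hs.1
  have hN2 := ae_encard_le hl hN
  have hrad : RadHyp K x R 2 := by
    refine ⟨h.closed, hl, hN, ?_, fun z hz ρ => h.two_mul_le hz ρ⟩
    filter_upwards [hN2] with s hs hsI a ha b hb hab
    obtain ⟨p', q', hpq', hF'⟩ := eq_pair_of_encard_two (h.two_le_encard hx hsI.1) (hs hsI)
    have h3 := h.chord_ge hx hsI.1 hF'
    have hs0 := hsI.1
    rw [hF'] at ha hb
    rcases ha with rfl | ha <;> rcases hb with rfl | hb
    · exact absurd rfl hab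
    · rw [mem_singleton_iff.1 hb]; linarith
    · rw [mem_singleton_iff.1 ha, dist_comm]; linarith
    · rw [mem_singleton_iff.1 ha, mem_singleton_iff.1 hb] at hab
      exact absurd rfl hab
  -- a good radius
  obtain ⟨s, hsI, hs⟩ : ∃ s ∈ Ioo 0 R, (K ∩ sphere x s).encard ≤ 2 := by
    by_contra hcon
    push Not at hcon
    have h3 : Ioo 0 R ⊆ {s | ¬ (s ∈ Ioo 0 R → (K ∩ sphere x s).encard ≤ ((2 : ℕ) : ℕ∞))} := by
      intro s hs hcon2
      exact absurd (hcon2 hs) (not_le.2 (hcon s hs))
    have h4 := measure_mono_null h3 hN2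
    rw [Real.volume_Ioo, ENNReal.ofReal_eq_zero] at h4
    linarith
  obtain ⟨p', q', hpq', hF'⟩ := eq_pair_of_encard_two (h.two_le_encard hx hsI.1) hs
  have hp' : p' ∈ K ∩ sphere x s := by rw [hF']; exact mem_insert _ _
  have hq' : q' ∈ K ∩ sphere x s := by rw [hF']; exact mem_insert_of_mem _ rfl
  have hs0 := hsI.1
  have hanti := antipodal (mem_sphere.1 hp'.2) (mem_sphere.1 hq'.2) (h.chord_ge hx hs0 hF')
  have hpx : p' ≠ x := by
    rintro rfl
    have := mem_sphere.1 hp'.2
    rw [dist_self] at this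
    linarith
  have hqx : q' ≠ x := by
    rintro rfl
    have := mem_sphere.1 hq'.2
    rw [dist_self] at this
    linarith
  refine ⟨(1 / s) • (p' - x), ?_, ?_⟩
  · rw [norm_smul, ← dist_eq_norm, mem_sphere.1 hp'.2, Real.norm_of_nonneg (by positivity)]
    field_simp
  · have hpos : ∀ r ∈ Ioo 0 R, x + r • ((1 / s) • (p' - x)) ∈ K := by
      intro r hr
      have h3 := hrad.radial_full hp'.1 hpx (by rw [mem_sphere.1 hp'.2]; exact hsI.2) hr
      rw [mem_sphere.1 hp'.2] at h3
      rw [smul_smul, mul_one_div]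
      exact h3
    have hneg : ∀ r ∈ Ioo 0 R, x + (-r) • ((1 / s) • (p' - x)) ∈ K := by
      intro r hr
      have h3 := hrad.radial_full hq'.1 hqx (by rw [mem_sphere.1 hq'.2]; exact hsI.2) hr
      rw [mem_sphere.1 hq'.2, hanti] at h3
      have h4 : (-r) • ((1 / s) • (p' - x)) = (r / s) • -(p' - x) := by
        rw [smul_smul, smul_neg, ← neg_smul]
        congr 1
        ring
      rw [h4]
      exact h3
    intro y hy
    constructor
    · intro hyK
      by_cases hyx : y = x
      · exact ⟨0, by rw [hyx, zero_smul, add_zero]⟩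
      have h3 := hrad.radial_full hyK hyx (mem_ball.1 hy) hsI
      have hd : 0 < dist y x := dist_pos.2 hyx
      have h4 : x + (s / dist y x) • (y - x) ∈ K ∩ sphere x s := by
        refine ⟨h3, ?_⟩
        rw [mem_sphere, dist_eq_norm, add_sub_cancel_left, norm_smul, ← dist_eq_norm,
          Real.norm_of_nonneg (by positivity)]
        field_simp
      rw [hF'] at h4
      rcases h4 with h4 | h4
      · refine ⟨dist y x, ?_⟩
        rw [← h4, add_sub_cancel_left, smul_smul, smul_smul]
        have : dist y x * (1 / s) * (s / dist y x) = 1 := by field_simp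
        rw [this, one_smul, add_sub_cancel]
      · refine ⟨-dist y x, ?_⟩
        have h5 : q' - x = (s / dist y x) • (y - x) := by
          rw [← mem_singleton_iff.1 h4, add_sub_cancel_left]
        have h6 : p' - x = -((s / dist y x) • (y - x)) := by
          rw [← h5, hanti, neg_neg]
        rw [h6, smul_neg, smul_neg, neg_smul, neg_neg, smul_smul, smul_smul]
        have : dist y x * (1 / s) * (s / dist y x) = 1 := by field_simp
        rw [this, one_smul, add_sub_cancel]
    · rintro ⟨r, rfl⟩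
      have h3 : |r| < R := by
        rw [mem_ball, dist_eq_norm, add_sub_cancel_left, norm_smul, norm_smul, ← dist_eq_norm,
          mem_sphere.1 hp'.2, Real.norm_of_nonneg (by positivity : (0 : ℝ) ≤ 1 / s),
          Real.norm_eq_abs] at hy
        have : 1 / s * s = 1 := by field_simp
        rw [this, mul_one] at hy
        exact hy
      rcases lt_trichotomy r 0 with h4 | h4 | h4
      · have := hneg (-r) ⟨by linarith, by rw [abs_of_neg h4] at h3; exact h3⟩
        rwa [neg_neg] at this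
      · rw [h4, zero_smul, add_zero]; exact hx
      · exact hpos r ⟨h4, by rw [abs_of_pos h4] at h3; exact h3⟩

/-! ### Triple discs -/

/-- first order condition at a Fermat point (three points on a circle centred at `x`) -/
theorem fermat_sum {x : E2} {s : ℝ} (hs : 0 < s) {F : Finset E2} (hF : ∀ p ∈ F, dist p x = s)
    (hmin : ∀ z ∈ closedBall x s, (F.card : ℝ) * s ≤ ∑ p ∈ F, dist z p) :
    ∑ p ∈ F, (p - x) = 0 := by
  set V : E2 := ∑ p ∈ F, (p - x) with hV
  by_contra hne
  have hV0 : 0 < ‖V‖ := norm_pos_iff.2 hne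
  -- point `x + ε V`
  set ε : ℝ := min (s / ‖V‖) (1 / (F.card + 1)) with hε
  have hε0 : 0 < ε := lt_min (by positivity) (by positivity)
  have hε1 : ε * ‖V‖ ≤ s := by
    calc ε * ‖V‖ ≤ (s / ‖V‖) * ‖V‖ := mul_le_mul_of_nonneg_right (min_le_left _ _) hV0.le
      _ = s := by field_simp
  have hε2 : ε * (F.card + 1) ≤ 1 := by
    calc ε * (F.card + 1) ≤ (1 / (F.card + 1)) * (F.card + 1) :=
          mul_le_mul_of_nonneg_right (min_le_right _ _) (by positivity)
      _ = 1 := by field_simp
  have hz : x + ε • V ∈ closedBall x s := by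
    rw [mem_closedBall, dist_eq_norm, add_sub_cancel_left, norm_smul, Real.norm_of_nonneg hε0.le]
    exact hε1
  have h1 := hmin _ hz
  have h2 : ∀ p ∈ F, dist (x + ε • V) p ≤ s - (ε / s) * inner ℝ V (p - x) +
      ε ^ 2 * ‖V‖ ^ 2 / (2 * s) := by
    intro p hp
    have h3 : dist (x + ε • V) p ^ 2 = s ^ 2 - 2 * ε * inner ℝ V (p - x) + ε ^ 2 * ‖V‖ ^ 2 := by
      have h4 : x + ε • V - p = ε • V - (p - x) := by abel
      rw [dist_eq_norm, h4, norm_sub_sq_real, ← dist_eq_norm, hF p hp, norm_smul,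
        Real.norm_of_nonneg hε0.le, inner_smul_left]
      simp only [conj_trivial]
      ring
    have h4 := le_of_sq_le hs h3.le
    refine h4.trans (le_of_eq ?_)
    field_simp
    ring
  have h3 : ∑ p ∈ F, dist (x + ε • V) p ≤
      ∑ p ∈ F, (s - (ε / s) * inner ℝ V (p - x) + ε ^ 2 * ‖V‖ ^ 2 / (2 * s)) :=
    Finset.sum_le_sum h2
  have h4 : ∑ p ∈ F, (s - (ε / s) * inner ℝ V (p - x) + ε ^ 2 * ‖V‖ ^ 2 / (2 * s)) =
      F.card * s - (ε / s) * ‖V‖ ^ 2 + F.card * (ε ^ 2 * ‖V‖ ^ 2 / (2 * s)) := by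
    rw [Finset.sum_add_distrib, Finset.sum_sub_distrib, Finset.sum_const, Finset.sum_const,
      ← Finset.mul_sum, ← inner_sum, ← hV, real_inner_self_eq_norm_sq, nsmul_eq_mul, nsmul_eq_mul]
  rw [h4] at h3
  have h5 : (ε / s) * ‖V‖ ^ 2 ≤ F.card * (ε ^ 2 * ‖V‖ ^ 2 / (2 * s)) := by linarith
  have h6 : F.card * (ε ^ 2 * ‖V‖ ^ 2 / (2 * s)) = (ε / s) * ‖V‖ ^ 2 * (ε * F.card / 2) := by
    field_simp
  rw [h6] at h5
  have h7 : 0 < (ε / s) * ‖V‖ ^ 2 := by positivity
  have h8 : ε * F.card / 2 ≤ 1 / 2 := by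
    have : ε * F.card ≤ ε * (F.card + 1) := by
      apply mul_le_mul_of_nonneg_left _ hε0.le
      linarith
    linarith
  nlinarith

/-- three unit directions at 120 degrees -/
theorem three_dirs {a b c : E2} (ha : ‖a‖ = 1) (hb : ‖b‖ = 1) (hc : ‖c‖ = 1) (hsum : a + b + c = 0)
    (θ : ℝ) (hθ : dir θ = a) :
    (b = dir (θ + 2 * Real.pi / 3) ∧ c = dir (θ - 2 * Real.pi / 3)) ∨
      (b = dir (θ - 2 * Real.pi / 3) ∧ c = dir (θ + 2 * Real.pi / 3)) := by
  have hcos : Real.cos (2 * Real.pi / 3) = -(1 / 2) := by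
    have : 2 * Real.pi / 3 = Real.pi - Real.pi / 3 := by ring
    rw [this, Real.cos_pi_sub, Real.cos_pi_div_three]
  have hsin : Real.sin (2 * Real.pi / 3) = Real.sqrt 3 / 2 := by
    have : 2 * Real.pi / 3 = Real.pi - Real.pi / 3 := by ring
    rw [this, Real.sin_pi_sub, Real.sin_pi_div_three]
  have hs3 : Real.sqrt 3 ^ 2 = 3 := Real.sq_sqrt (by norm_num)
  have hC : Real.cos θ = a 0 := by rw [← hθ, dir_zero]
  have hS : Real.sin θ = a 1 := by rw [← hθ, dir_one]
  have ha2 : a 0 ^ 2 + a 1 ^ 2 = 1 := by rw [← norm_E2, ha]; norm_num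
  have hb2 : b 0 ^ 2 + b 1 ^ 2 = 1 := by rw [← norm_E2, hb]; norm_num
  have hc2 : c 0 ^ 2 + c 1 ^ 2 = 1 := by rw [← norm_E2, hc]; norm_num
  have h0 : a 0 + b 0 + c 0 = 0 := by
    have := congrArg (fun v : E2 => v 0) hsum
    simpa using this
  have h1 : a 1 + b 1 + c 1 = 0 := by
    have := congrArg (fun v : E2 => v 1) hsum
    simpa using this
  have hc0 : c 0 = -(a 0 + b 0) := by linarith
  have hc1 : c 1 = -(a 1 + b 1) := by linarith
  rw [hc0, hc1] at hc2
  -- inner product and cross product of `a`, `b`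
  have hin : a 0 * b 0 + a 1 * b 1 = -(1 / 2) := by nlinarith
  set k : ℝ := a 0 * b 1 - a 1 * b 0 with hk
  have hk2 : k ^ 2 = 3 / 4 := by
    have : (a 0 * b 0 + a 1 * b 1) ^ 2 + k ^ 2 = (a 0 ^ 2 + a 1 ^ 2) * (b 0 ^ 2 + b 1 ^ 2) := by
      rw [hk]; ring
    rw [hin, ha2, hb2] at this
    linarith
  have hb0 : b 0 = -(1 / 2) * a 0 - k * a 1 := by
    have : b 0 * (a 0 ^ 2 + a 1 ^ 2) = (a 0 * b 0 + a 1 * b 1) * a 0 - k * a 1 := by
      rw [hk]; ring
    rw [ha2, hin] at this
    linarith
  have hb1 : b 1 = -(1 / 2) * a 1 + k * a 0 := by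
    have : b 1 * (a 0 ^ 2 + a 1 ^ 2) = (a 0 * b 0 + a 1 * b 1) * a 1 + k * a 0 := by
      rw [hk]; ring
    rw [ha2, hin] at this
    linarith
  have hkk : (k - Real.sqrt 3 / 2) * (k + Real.sqrt 3 / 2) = 0 := by nlinarith
  rcases mul_eq_zero.1 hkk with hk' | hk'
  · left
    have hk3 : k = Real.sqrt 3 / 2 := by linarith
    constructor
    · apply ext_E2
      · rw [dir_zero, Real.cos_add, hcos, hsin, hC, hS, hb0, hk3]; ring
      · rw [dir_one, Real.sin_add, hcos, hsin, hC, hS, hb1, hk3]; ring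
    · apply ext_E2
      · rw [dir_zero, Real.cos_sub, hcos, hsin, hC, hS, hc0, hb0, hk3]; ring
      · rw [dir_one, Real.sin_sub, hcos, hsin, hC, hS, hc1, hb1, hk3]; ring
  · right
    have hk3 : k = -(Real.sqrt 3 / 2) := by linarith
    constructor
    · apply ext_E2
      · rw [dir_zero, Real.cos_sub, hcos, hsin, hC, hS, hb0, hk3]; ring
      · rw [dir_one, Real.sin_sub, hcos, hsin, hC, hS, hb1, hk3]; ring
    · apply ext_E2
      · rw [dir_zero, Real.cos_add, hcos, hsin, hC, hS, hc0, hb0, hk3]; ring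
      · rw [dir_one, Real.sin_add, hcos, hsin, hC, hS, hc1, hb1, hk3]; ring

/-- the propeller -/
def prop3 (x : E2) (θ : ℝ) : Set E2 :=
  ray x (dir θ) ∪ ray x (dir (θ + 2 * Real.pi / 3)) ∪ ray x (dir (θ - 2 * Real.pi / 3))

/-- structure of the three points on a circle -/
theorem IsLenMin.three_points {K : Set E2} (h : IsLenMin K) {x : E2} {s : ℝ} (hs : 0 < s)
    (h3 : (K ∩ sphere x s).encard = 3)
    (hl : ENNReal.ofReal (3 * s) ≤ len (K ∩ closedBall x s)) :
    ∃ θ : ℝ, K ∩ sphere x s = {x + s • dir θ, x + s • dir (θ + 2 * Real.pi / 3),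
      x + s • dir (θ - 2 * Real.pi / 3)} := by
  classical
  obtain ⟨p, q, r, hpq, hpr, hqr, hF⟩ := Set.encard_eq_three.1 h3
  let F : Finset E2 := {p, q, r}
  have hF' : K ∩ sphere x s = F := by rw [hF]; simp [F]
  have hcard : F.card = 3 := by
    simp only [F]
    rw [Finset.card_insert_of_notMem (by simp [hpq, hpr]), Finset.card_insert_of_notMem (by simp [hqr]),
      Finset.card_singleton]
  have hmem : ∀ y ∈ F, dist y x = s := by
    intro y hy
    have : y ∈ K ∩ sphere x s := by rw [hF']; exact hy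
    exact this.2
  have hsum := fermat_sum hs hmem (by
    intro z hz
    rw [hcard]
    have h4 := hl.trans (h.le_star hs hF' hz)
    push_cast
    exact (ENNReal.ofReal_le_ofReal_iff (Finset.sum_nonneg fun _ _ => dist_nonneg)).1 h4)
  have hsum' : (p - x) + (q - x) + (r - x) = 0 := by
    simp only [F] at hsum
    rw [Finset.sum_insert (by simp [hpq, hpr]), Finset.sum_insert (by simp [hqr]),
      Finset.sum_singleton] at hsum
    rw [add_assoc]
    exact hsum
  have hu : ∀ y ∈ F, ‖(1 / s) • (y - x)‖ = 1 := by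
    intro y hy
    rw [norm_smul, ← dist_eq_norm, hmem y hy, Real.norm_of_nonneg (by positivity)]
    field_simp
  have hrec : ∀ y : E2, x + s • ((1 / s) • (y - x)) = y := by
    intro y
    rw [smul_smul, mul_one_div, div_self hs.ne', one_smul, add_sub_cancel]
  obtain ⟨θ, -, hθ⟩ := exists_dir_eq _ (hu p (by simp [F])) 0
  refine ⟨θ, ?_⟩
  have h5 := three_dirs (hu p (by simp [F])) (hu q (by simp [F])) (hu r (by simp [F]))
    (by rw [← smul_add, ← smul_add, hsum', smul_zero]) θ hθ
  rw [hF]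
  rcases h5 with ⟨h6, h7⟩ | ⟨h6, h7⟩
  · rw [hθ, ← h6, ← h7, hrec, hrec, hrec]
  · rw [hθ, ← h6, ← h7, hrec, hrec, hrec]
    rw [Set.insert_comm p q, Set.insert_comm p r]
    ext y
    simp only [mem_insert_iff, mem_singleton_iff]
    tauto

end Crest.Agent.R135
end

-- ▼ part R135/Net6
section

/-!
# R135, block NET (helper564), part 6: classification of the closed sets minimizing length
-/

set_option autoImplicit false

open MeasureTheory Set Filter Topology Metric
open scoped ENNReal NNReal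

namespace Crest.Agent.R135

theorem dist_dir_sq (x : E2) (s a b : ℝ) :
    dist (x + s • dir a) (x + s • dir b) ^ 2 = s ^ 2 * (2 - 2 * Real.cos (a - b)) := by
  rw [dist_eq_norm, norm_E2]
  simp only [PiLp.sub_apply, PiLp.add_apply, PiLp.smul_apply, smul_eq_mul, dir_zero, dir_one]
  rw [Real.cos_sub]
  have h1 := Real.sin_sq_add_cos_sq a
  have h2 := Real.sin_sq_add_cos_sq b
  have h3 : Real.cos a ^ 2 = 1 - Real.sin a ^ 2 := by linarith
  have h4 : Real.cos b ^ 2 = 1 - Real.sin b ^ 2 := by linarith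
  ring_nf
  rw [h3, h4]
  ring

theorem IsLenMin.triple {K : Set E2} (h : IsLenMin K) {x : E2} (hx : x ∈ K) {R : ℝ} (hR : 0 < R)
    (h3 : (K ∩ sphere x R).encard ≤ 3)
    (hN : ∀ᵐ s : ℝ, s ∈ Ioo 0 R → 3 ≤ (K ∩ sphere x s).encard) :
    ∃ θ : ℝ, ∀ y ∈ ball x R, y ∈ K ↔ y ∈ prop3 x θ := by
  classical
  have hN' : ∀ᵐ s : ℝ, s ∈ Ioo 0 R → ((3 : ℕ) : ℕ∞) ≤ (K ∩ sphere x s).encard := hN
  have hl : len (K ∩ ball x R) ≤ ENNReal.ofReal ((3 : ℕ) * R) := by
    refine (measure_mono (inter_subset_inter_right K ball_subset_closedBall)).trans ?_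
    have hfin : (K ∩ sphere x R).Finite := by
      rw [← Set.encard_lt_top_iff]
      exact lt_of_le_of_lt h3 (ENat.natCast_lt_top 3)
    obtain ⟨F, hF⟩ : ∃ F : Finset E2, K ∩ sphere x R = F := ⟨hfin.toFinset, by simp⟩
    rw [hF, Set.encard_coe_eq_coe_finsetCard] at h3
    have h3' : F.card ≤ 3 := by exact_mod_cast h3
    refine (h.le_cone hR hF).trans (ENNReal.ofReal_le_ofReal ?_)
    have : (F.card : ℝ) ≤ 3 := by exact_mod_cast h3'
    push_cast
    nlinarith
  have hN2 := ae_encard_le hl hN'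
  have hlow : ∀ s ∈ Ioo 0 R, ENNReal.ofReal (3 * s) ≤ len (K ∩ closedBall x s) := by
    intro s hs
    have h4 : ((3 : ℕ∞) : ℝ≥0∞) * ENNReal.ofReal (s - 0) ≤ len (K ∩ {y | dist y x ∈ Ioo 0 s}) := by
      apply len_annulus_ge
      filter_upwards [hN] with t ht htI
      exact ENat.toENNReal_le.2 (ht ⟨htI.1, htI.2.trans hs.2⟩)
    have h5 : ((3 : ℕ∞) : ℝ≥0∞) * ENNReal.ofReal (s - 0) = ENNReal.ofReal (3 * s) := by
      rw [sub_zero, ENNReal.ofReal_mul (by norm_num)]
      congr 1
      simp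
    rw [h5] at h4
    refine h4.trans (measure_mono ?_)
    rintro y ⟨hy, hy'⟩
    exact ⟨hy, hy'.2.le⟩
  have hstruct : ∀ s ∈ Ioo 0 R, 3 ≤ (K ∩ sphere x s).encard → (K ∩ sphere x s).encard ≤ 3 →
      ∃ θ : ℝ, K ∩ sphere x s = {x + s • dir θ, x + s • dir (θ + 2 * Real.pi / 3),
      x + s • dir (θ - 2 * Real.pi / 3)} := fun s hs h4 h5 =>
    h.three_points hs.1 (le_antisymm h5 h4) (hlow s hs)
  have hrad : RadHyp K x R 3 := by
    refine ⟨h.closed, hl, hN', ?_, fun z hz ρ => h.two_mul_le hz ρ⟩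
    filter_upwards [hN, hN2] with s hs1 hs2 hsI a ha b hb hab
    obtain ⟨θ, hθ⟩ := hstruct s hsI (hs1 hsI) (hs2 hsI)
    have hs0 := hsI.1
    have hcos1 : Real.cos (2 * Real.pi / 3) = -(1 / 2) := by
      have : 2 * Real.pi / 3 = Real.pi - Real.pi / 3 := by ring
      rw [this, Real.cos_pi_sub, Real.cos_pi_div_three]
    have hcos2 : Real.cos (4 * Real.pi / 3) = -(1 / 2) := by
      have : 4 * Real.pi / 3 = Real.pi / 3 + Real.pi := by ring
      rw [this, Real.cos_add_pi, Real.cos_pi_div_three]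
    have key : ∀ α β : ℝ, Real.cos (α - β) = -(1 / 2) → s ≤ dist (x + s • dir α) (x + s • dir β) := by
      intro α β hc
      have h4 := dist_dir_sq x s α β
      rw [hc] at h4
      refine le_of_sq_le_sq ?_ dist_nonneg
      rw [h4]
      nlinarith [sq_nonneg s]
    rw [hθ] at ha hb
    simp only [mem_insert_iff, mem_singleton_iff] at ha hb
    rcases ha with rfl | rfl | rfl <;> rcases hb with rfl | rfl | rfl
    · exact absurd rfl hab
    · apply key
      rw [← Real.cos_neg]
      have : -(θ - (θ + 2 * Real.pi / 3)) = 2 * Real.pi / 3 := by ring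
      rw [this, hcos1]
    · apply key
      have : θ - (θ - 2 * Real.pi / 3) = 2 * Real.pi / 3 := by ring
      rw [this, hcos1]
    · apply key
      have : (θ + 2 * Real.pi / 3) - θ = 2 * Real.pi / 3 := by ring
      rw [this, hcos1]
    · exact absurd rfl hab
    · apply key
      have : (θ + 2 * Real.pi / 3) - (θ - 2 * Real.pi / 3) = 4 * Real.pi / 3 := by ring
      rw [this, hcos2]
    · apply key
      rw [← Real.cos_neg]
      have : -((θ - 2 * Real.pi / 3) - θ) = 2 * Real.pi / 3 := by ring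
      rw [this, hcos1]
    · apply key
      rw [← Real.cos_neg]
      have : -((θ - 2 * Real.pi / 3) - (θ + 2 * Real.pi / 3)) = 4 * Real.pi / 3 := by ring
      rw [this, hcos2]
    · exact absurd rfl hab
  -- a good radius
  obtain ⟨s, hsI, hs1, hs2⟩ : ∃ s ∈ Ioo 0 R, 3 ≤ (K ∩ sphere x s).encard ∧
      (K ∩ sphere x s).encard ≤ 3 := by
    by_contra hcon
    push Not at hcon
    have h4 : Ioo 0 R ⊆ {s | ¬ ((s ∈ Ioo 0 R → 3 ≤ (K ∩ sphere x s).encard) ∧
        (s ∈ Ioo 0 R → (K ∩ sphere x s).encard ≤ ((3 : ℕ) : ℕ∞)))} := by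
      intro s hs hcon2
      exact absurd (hcon2.2 hs) (not_le.2 (hcon s hs (hcon2.1 hs)))
    have h5 := measure_mono_null h4 (hN.and hN2)
    rw [Real.volume_Ioo, ENNReal.ofReal_eq_zero] at h5
    linarith
  obtain ⟨θ, hθ⟩ := hstruct s hsI hs1 hs2
  have hs0 := hsI.1
  have hdist : ∀ α : ℝ, dist (x + s • dir α) x = s := by
    intro α
    rw [dist_eq_norm, add_sub_cancel_left, norm_smul, norm_dir, mul_one, Real.norm_of_nonneg hs0.le]
  have hray : ∀ α : ℝ, x + s • dir α ∈ K → ∀ r ∈ Ioo 0 R, x + r • dir α ∈ K := by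
    intro α hα r hr
    have h4 := hrad.radial_full hα (by
      intro h5
      have h6 := hdist α
      rw [h5, dist_self] at h6
      linarith) (by rw [hdist]; exact hsI.2) hr
    rw [hdist, add_sub_cancel_left, smul_smul] at h4
    have : r / s * s = r := by field_simp
    rwa [this] at h4
  have hm1 : x + s • dir θ ∈ K := by
    have : x + s • dir θ ∈ K ∩ sphere x s := by rw [hθ]; simp
    exact this.1
  have hm2 : x + s • dir (θ + 2 * Real.pi / 3) ∈ K := by
    have : x + s • dir (θ + 2 * Real.pi / 3) ∈ K ∩ sphere x s := by rw [hθ]; simp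
    exact this.1
  have hm3 : x + s • dir (θ - 2 * Real.pi / 3) ∈ K := by
    have : x + s • dir (θ - 2 * Real.pi / 3) ∈ K ∩ sphere x s := by rw [hθ]; simp
    exact this.1
  have hback : ∀ α : ℝ, x + s • dir α ∈ K → ∀ y ∈ ball x R, y ∈ ray x (dir α) → y ∈ K := by
    rintro α hα y hy ⟨r, hr, rfl⟩
    have h4 : r < R := by
      rw [mem_ball, dist_eq_norm, add_sub_cancel_left, norm_smul, norm_dir, mul_one,
        Real.norm_of_nonneg hr] at hy
      exact hy
    rcases eq_or_lt_of_le hr with h5 | h5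
    · rw [← h5, zero_smul, add_zero]; exact hx
    · exact hray α hα r ⟨h5, h4⟩
  refine ⟨θ, fun y hy => ⟨fun hyK => ?_, fun hyP => ?_⟩⟩
  · by_cases hyx : y = x
    · rw [hyx]
      exact Or.inl (Or.inl ⟨0, le_rfl, by rw [zero_smul, add_zero]⟩)
    have h4 := hrad.radial_full hyK hyx (mem_ball.1 hy) hsI
    have hd : 0 < dist y x := dist_pos.2 hyx
    have h5 : x + (s / dist y x) • (y - x) ∈ K ∩ sphere x s := by
      refine ⟨h4, ?_⟩
      rw [mem_sphere, dist_eq_norm, add_sub_cancel_left, norm_smul, ← dist_eq_norm,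
        Real.norm_of_nonneg (by positivity)]
      field_simp
    have h6 : ∀ α : ℝ, x + (s / dist y x) • (y - x) = x + s • dir α → y ∈ ray x (dir α) := by
      intro α hα
      refine ⟨dist y x, dist_nonneg, ?_⟩
      have h7 : (s / dist y x) • (y - x) = s • dir α := add_left_cancel hα
      have h8 : y - x = dist y x • dir α := by
        have h9 : (dist y x / s) • ((s / dist y x) • (y - x)) = (dist y x / s) • (s • dir α) := by
          rw [h7]
        rw [smul_smul, smul_smul] at h9
        have h10 : dist y x / s * (s / dist y x) = 1 := by field_simp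
        have h11 : dist y x / s * s = dist y x := by field_simp
        rwa [h10, h11, one_smul] at h9
      rw [← h8, add_sub_cancel]
    rw [hθ] at h5
    simp only [mem_insert_iff, mem_singleton_iff] at h5
    rcases h5 with h5 | h5 | h5
    · exact Or.inl (Or.inl (h6 _ h5))
    · exact Or.inl (Or.inr (h6 _ h5))
    · exact Or.inr (h6 _ h5)
  · rcases hyP with (hyP | hyP) | hyP
    · exact hback _ hm1 y hy hyP
    · exact hback _ hm2 y hy hyP
    · exact hback _ hm3 y hy hyP

/-! ### Globalization -/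

/-- invariance of a ray under dilations -/
theorem ray_dilate {x e : E2} {c : ℝ} (hc : 0 < c) (y : E2) :
    x + c • (y - x) ∈ ray x e ↔ y ∈ ray x e := by
  constructor
  · rintro ⟨s, hs, h⟩
    refine ⟨s / c, by positivity, ?_⟩
    have h1 : c • (y - x) = s • e := add_left_cancel h
    have h2 : y - x = (s / c) • e := by
      have h3 : (1 / c) • (c • (y - x)) = (1 / c) • (s • e) := by rw [h1]
      rw [smul_smul, smul_smul] at h3
      have h4 : 1 / c * c = 1 := by field_simp
      have h5 : 1 / c * s = s / c := by ring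
      rwa [h4, h5, one_smul] at h3
    rw [← h2, add_sub_cancel]
  · rintro ⟨s, hs, rfl⟩
    refine ⟨c * s, by positivity, ?_⟩
    rw [add_sub_cancel_left, smul_smul]

theorem prop3_dilate {x : E2} {θ c : ℝ} (hc : 0 < c) (y : E2) :
    x + c • (y - x) ∈ prop3 x θ ↔ y ∈ prop3 x θ := by
  unfold prop3
  simp only [mem_union, ray_dilate hc]

/-- a triple centre gives a propeller -/
theorem IsLenMin.isProp {K : Set E2} (h : IsLenMin K) {x : E2} (hx : x ∈ K)
    (hN : ∀ᵐ s : ℝ, 0 < s → 3 ≤ (K ∩ sphere x s).encard) : IsProp K x := by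
  have main : ∀ R0 : ℝ, ∃ R, R0 < R ∧ 0 < R ∧ ∃ θ : ℝ, ∀ y ∈ ball x R, y ∈ K ↔ y ∈ prop3 x θ := by
    intro R0
    obtain ⟨R, hR0, hR, -, hR3⟩ := h.exists_radius hx R0 (P := fun _ => True)
      (Eventually.of_forall fun _ => trivial)
    exact ⟨R, hR0, hR, h.triple hx hR hR3 (by
      filter_upwards [hN] with s hs hsI
      exact hs hsI.1)⟩
  obtain ⟨R1, -, hR1, θ, hθ⟩ := main 0
  refine ⟨θ, ?_⟩
  change K = prop3 x θ
  ext y
  obtain ⟨R2, hR2, hR2', θ2, hθ2⟩ := main (max R1 (dist y x))
  have hR12 : R1 < R2 := (le_max_left _ _).trans_lt hR2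
  have hy2 : y ∈ ball x R2 := (le_max_right _ _).trans_lt hR2
  set c : ℝ := R1 / (2 * (dist y x + 1)) with hc
  have hd : 0 ≤ dist y x := dist_nonneg
  have hc0 : 0 < c := by positivity
  have hz : x + c • (y - x) ∈ ball x R1 := by
    rw [mem_ball, dist_eq_norm, add_sub_cancel_left, norm_smul, ← dist_eq_norm,
      Real.norm_of_nonneg hc0.le, hc, div_mul_eq_mul_div, div_lt_iff₀ (by positivity)]
    nlinarith
  have hz2 : x + c • (y - x) ∈ ball x R2 := ball_subset_ball hR12.le hz
  rw [hθ2 y hy2, ← prop3_dilate hc0 y, ← hθ2 _ hz2, hθ _ hz, prop3_dilate hc0 y]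

end Crest.Agent.R135
end

-- ▼ part R135/Net7
section

/-!
# R135, block NET (helper564), part 7: the line case and the classification
-/

set_option autoImplicit false

open MeasureTheory Set Filter Topology Metric
open scoped ENNReal NNReal

namespace Crest.Agent.R135

theorem Str.center_mem {K : Set E2} {x : E2} {R : ℝ} {e : E2} (h : Str K x R e) (hR : 0 < R) :
    x ∈ K := (h.2 x (mem_ball_self hR)).2 ⟨0, by rw [zero_smul, add_zero]⟩

theorem Str.mem {K : Set E2} {x : E2} {R : ℝ} {e : E2} (h : Str K x R e) {s : ℝ} (hs : |s| < R) :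
    x + s • e ∈ K := by
  refine (h.2 _ ?_).2 ⟨s, rfl⟩
  rw [mem_ball, dist_eq_norm, add_sub_cancel_left, norm_smul, h.1, mul_one, Real.norm_eq_abs]
  exact hs

/-- the straight discs propagate along the line -/
theorem line_subset {K : Set E2} (hK : IsClosed K)
    (hall : ∀ z ∈ K, ∃ r : ℝ, 0 < r ∧ ∃ e, Str K z r e) {x e : E2} {r0 : ℝ} (hr0 : 0 < r0)
    (hx : Str K x r0 e) (t : ℝ) : x + t • e ∈ K := by
  let A : ℝ → Prop := fun t => ∃ r : ℝ, 0 < r ∧ Str K (x + t • e) r e
  have he : ‖e‖ = 1 := hx.1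
  have hcont : Continuous (fun t : ℝ => x + t • e) := by fun_prop
  have h0 : A 0 := ⟨r0, hr0, by rw [zero_smul, add_zero]; exact hx⟩
  have key : A 0 ↔ A t := by
    refine isPreconnected_univ.induction₂ (fun t t' => (A t ↔ A t')) ?_ ?_ ?_ (mem_univ 0)
      (mem_univ t)
    · intro t _
      by_cases ht : A t
      · obtain ⟨r, hr, hstr⟩ := ht
        have hev : ∀ᶠ t' in 𝓝 t, |t' - t| < r := by
          have := Metric.ball_mem_nhds t hr
          filter_upwards [this] with t' ht'
          rwa [mem_ball, Real.dist_eq] at ht'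
        filter_upwards [hev.filter_mono nhdsWithin_le_nhds] with t' ht'
        refine ⟨fun _ => ⟨r - |t' - t|, by linarith, he, ?_⟩, fun _ => ⟨r, hr, hstr⟩⟩
        intro y hy
        have hy2 : y ∈ ball (x + t • e) r := by
          rw [mem_ball] at hy ⊢
          have h1 := dist_triangle y (x + t' • e) (x + t • e)
          have h2 : dist (x + t' • e) (x + t • e) = |t' - t| := by
            rw [dist_eq_norm, add_sub_add_left_eq_sub, ← sub_smul, norm_smul, he, mul_one,
              Real.norm_eq_abs]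
          linarith
        rw [hstr.2 y hy2]
        constructor
        · rintro ⟨s, rfl⟩
          refine ⟨s + t - t', ?_⟩
          rw [add_assoc, add_assoc, ← add_smul, ← add_smul]
          congr 2
          ring
        · rintro ⟨s, rfl⟩
          refine ⟨s + t' - t, ?_⟩
          rw [add_assoc, add_assoc, ← add_smul, ← add_smul]
          congr 2
          ring
      · by_cases htK : x + t • e ∈ K
        · obtain ⟨r, hr, e', hstr⟩ := hall _ htK
          have hev : ∀ᶠ t' in 𝓝 t, |t' - t| < r := by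
            have := Metric.ball_mem_nhds t hr
            filter_upwards [this] with t' ht'
            rwa [mem_ball, Real.dist_eq] at ht'
          filter_upwards [hev.filter_mono nhdsWithin_le_nhds] with t' ht'
          refine ⟨fun h => absurd h ht, fun h => ?_⟩
          exfalso
          by_cases htt : t' = t
          · rw [htt] at h; exact ht h
          obtain ⟨r', hr', hstr'⟩ := h
          have h1 : x + t' • e ∈ K := hstr'.center_mem hr'
          have h2 : x + t' • e ∈ ball (x + t • e) r := by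
            rw [mem_ball, dist_eq_norm, add_sub_add_left_eq_sub, ← sub_smul, norm_smul, he, mul_one,
              Real.norm_eq_abs]
            exact ht'
          obtain ⟨s, hs⟩ := (hstr.2 _ h2).1 h1
          have h3 : (t' - t) • e = s • e' := by
            rw [add_assoc] at hs
            have := add_left_cancel hs
            rw [sub_smul, this, add_sub_cancel_left]
          have htt' : t' - t ≠ 0 := sub_ne_zero.2 htt
          have hs0 : s ≠ 0 := by
            rintro rfl
            rw [zero_smul] at h3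
            rcases smul_eq_zero.1 h3 with h4 | h4
            · exact htt' h4
            · rw [h4, norm_zero] at he
              exact zero_ne_one he
          have h4 : e' = ((t' - t) / s) • e := by
            rw [div_eq_inv_mul, ← smul_smul, h3, smul_smul, inv_mul_cancel₀ hs0, one_smul]
          apply ht
          refine ⟨r, hr, he, fun y hy => ?_⟩
          rw [hstr.2 y hy]
          constructor
          · rintro ⟨a, rfl⟩
            exact ⟨a * ((t' - t) / s), by rw [h4, smul_smul]⟩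
          · rintro ⟨a, rfl⟩
            refine ⟨a * (s / (t' - t)), ?_⟩
            rw [h4, smul_smul]
            congr 2
            field_simp
        · have hev : ∀ᶠ t' in 𝓝 t, x + t' • e ∉ K :=
            hcont.continuousAt.eventually (hK.isOpen_compl.mem_nhds htK)
          filter_upwards [hev.filter_mono nhdsWithin_le_nhds] with t' ht'
          refine ⟨fun h => absurd h ht, fun h => ?_⟩
          obtain ⟨r, hr, hstr⟩ := h
          exact absurd (hstr.center_mem hr) ht'
    · intro a b c _ _ _ hab hbc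
      exact hab.trans hbc
    · intro a b _ _ hab
      exact hab.symm
  obtain ⟨r, hr, hstr⟩ := key.1 h0
  exact hstr.center_mem hr

/-- two points of a line on a sphere whose ball contains a point of the line -/
theorem line_sphere {x y e : E2} (he : ‖e‖ = 1) {R : ℝ} (hy : dist y x < R) :
    ∃ s t : ℝ, s ≠ t ∧ y + s • e ∈ sphere x R ∧ y + t • e ∈ sphere x R := by
  have hR : 0 < R := lt_of_le_of_lt dist_nonneg hy
  set β : ℝ := inner ℝ (y - x) e with hβ
  set D : ℝ := β ^ 2 + R ^ 2 - dist y x ^ 2 with hD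
  have hD0 : 0 < D := by
    have : dist y x ^ 2 < R ^ 2 := pow_lt_pow_left₀ hy dist_nonneg two_ne_zero
    have := sq_nonneg β
    linarith
  have hsq : Real.sqrt D ^ 2 = D := Real.sq_sqrt hD0.le
  have hpos : 0 < Real.sqrt D := Real.sqrt_pos.2 hD0
  have key : ∀ s : ℝ, (s + β) ^ 2 = D → y + s • e ∈ sphere x R := by
    intro s hs
    rw [mem_sphere]
    have h1 : dist (y + s • e) x ^ 2 = R ^ 2 := by
      have h2 : y + s • e - x = (y - x) + s • e := by abel
      rw [dist_eq_norm, h2, norm_add_sq_real, inner_smul_right, norm_smul, he, mul_one,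
        Real.norm_eq_abs, sq_abs, ← hβ, ← dist_eq_norm]
      rw [hD] at hs
      nlinarith
    exact (pow_left_inj₀ dist_nonneg hR.le two_ne_zero).1 h1
  refine ⟨-β + Real.sqrt D, -β - Real.sqrt D, by intro h; linarith, key _ ?_, key _ ?_⟩
  · have : -β + Real.sqrt D + β = Real.sqrt D := by ring
    rw [this, hsq]
  · have : -β - Real.sqrt D + β = -Real.sqrt D := by ring
    rw [this, neg_sq, hsq]

theorem IsLenMin.isLine {K : Set E2} (h : IsLenMin K) {x : E2} (hx : x ∈ K)
    (hall : ∀ z ∈ K, ∃ r : ℝ, 0 < r ∧ (K ∩ sphere z r).encard ≤ 2) : IsLine K := by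
  have hall' : ∀ z ∈ K, ∃ r : ℝ, 0 < r ∧ ∃ e, Str K z r e := by
    intro z hz
    obtain ⟨r, hr, h2⟩ := hall z hz
    exact ⟨r, hr, h.straight hz hr h2⟩
  obtain ⟨r, hr, e, hstr⟩ := hall' x hx
  have hl : ∀ t : ℝ, x + t • e ∈ K := line_subset h.closed hall' hr hstr
  have he : ‖e‖ = 1 := hstr.1
  have hsub : ∀ y ∈ K, ∃ t : ℝ, y = x + t • e := by
    intro y hy
    by_contra hcon
    obtain ⟨r', hr', e', hstr'⟩ := hall' y hy
    have hl' : ∀ t : ℝ, y + t • e' ∈ K := line_subset h.closed hall' hr' hstr'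
    have he' : ‖e'‖ = 1 := hstr'.1
    -- at most one parameter of the first line lies on the second line
    have hss : {t : ℝ | ∃ s : ℝ, x + t • e = y + s • e'}.Subsingleton := by
      rintro t1 ⟨s1, h1⟩ t2 ⟨s2, h2⟩
      by_contra hne
      have h3 : (t1 - t2) • e = (s1 - s2) • e' := by
        have h4 : (x + t1 • e) - (x + t2 • e) = (y + s1 • e') - (y + s2 • e') := by rw [h1, h2]
        rw [add_sub_add_left_eq_sub, add_sub_add_left_eq_sub, ← sub_smul, ← sub_smul] at h4
        exact h4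
      have hs : s1 - s2 ≠ 0 := by
        intro h4
        rw [h4, zero_smul] at h3
        rcases smul_eq_zero.1 h3 with h5 | h5
        · exact hne (by linarith)
        · rw [h5, norm_zero] at he
          exact zero_ne_one he
      have h4 : e' = ((t1 - t2) / (s1 - s2)) • e := by
        rw [div_eq_inv_mul, ← smul_smul, h3, smul_smul, inv_mul_cancel₀ hs, one_smul]
      apply hcon
      refine ⟨t1 - s1 * ((t1 - t2) / (s1 - s2)), ?_⟩
      rw [sub_smul, ← smul_smul, ← h4, add_sub, h1, add_sub_cancel_right]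
    have hae1 : ∀ᵐ t : ℝ, ¬ ∃ s : ℝ, x + t • e = y + s • e' := by
      exact compl_mem_ae_iff.2 (hss.measure_zero volume)
    have hae2 : ∀ᵐ t : ℝ, ¬ ∃ s : ℝ, x + (-t) • e = y + s • e' := by
      have hss2 : {t : ℝ | ∃ s : ℝ, x + (-t) • e = y + s • e'}.Subsingleton := by
        intro t1 h1 t2 h2
        have := hss h1 h2
        linarith
      exact compl_mem_ae_iff.2 (hss2.measure_zero volume)
    obtain ⟨R, hR1, hR, ⟨hP1, hP2⟩, hR3⟩ := h.exists_radius hx (dist y x) (hae1.and hae2)
    obtain ⟨s, t, hst, hs, ht⟩ := line_sphere he' hR1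
    have hp1 : x + R • e ∈ K ∩ sphere x R := by
      refine ⟨hl R, ?_⟩
      rw [mem_sphere, dist_eq_norm, add_sub_cancel_left, norm_smul, he, mul_one,
        Real.norm_of_nonneg hR.le]
    have hp2 : x + (-R) • e ∈ K ∩ sphere x R := by
      refine ⟨hl (-R), ?_⟩
      rw [mem_sphere, dist_eq_norm, add_sub_cancel_left, norm_smul, he, mul_one, norm_neg,
        Real.norm_of_nonneg hR.le]
    have he0 : e ≠ 0 := by
      intro h0
      rw [h0, norm_zero] at he
      exact zero_ne_one he
    have he0' : e' ≠ 0 := by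
      intro h0
      rw [h0, norm_zero] at he'
      exact zero_ne_one he'
    have hne12 : x + R • e ≠ x + (-R) • e := by
      intro h1
      have h2 := add_left_cancel h1
      have h3 : (R - (-R)) • e = 0 := by rw [sub_smul, h2, sub_self]
      rcases smul_eq_zero.1 h3 with h4 | h4
      · linarith
      · exact he0 h4
    have hne34 : y + s • e' ≠ y + t • e' := by
      intro h1
      have h2 := add_left_cancel h1
      have h3 : (s - t) • e' = 0 := by rw [sub_smul, h2, sub_self]
      rcases smul_eq_zero.1 h3 with h4 | h4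
      · exact hst (by linarith)
      · exact he0' h4
    have hcard : ({x + R • e, x + (-R) • e, y + s • e', y + t • e'} : Set E2).encard = 4 := by
      rw [Set.encard_insert_of_notMem, Set.encard_insert_of_notMem, Set.encard_pair hne34]
      · norm_num
      · simp only [mem_insert_iff, mem_singleton_iff, not_or]
        exact ⟨fun h1 => hP2 ⟨s, h1⟩, fun h1 => hP2 ⟨t, h1⟩⟩
      · simp only [mem_insert_iff, mem_singleton_iff, not_or]
        exact ⟨hne12, fun h1 => hP1 ⟨s, h1⟩, fun h1 => hP1 ⟨t, h1⟩⟩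
    have hsubset : ({x + R • e, x + (-R) • e, y + s • e', y + t • e'} : Set E2) ⊆
        K ∩ sphere x R := by
      rintro z (rfl | rfl | rfl | rfl)
      · exact hp1
      · exact hp2
      · exact ⟨hl' s, hs⟩
      · exact ⟨hl' t, ht⟩
    have h4 := (encard_le_encard hsubset).trans hR3
    rw [hcard] at h4
    exact absurd h4 (by decide)
  refine ⟨x, e, he, ?_⟩
  ext y
  constructor
  · intro hy
    obtain ⟨t, rfl⟩ := hsub y hy
    rcases le_total 0 t with ht | ht
    · exact Or.inl ⟨t, ht, rfl⟩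
    · exact Or.inr ⟨-t, by linarith, by rw [smul_neg, neg_smul, neg_neg]⟩
  · rintro (⟨t, ht, rfl⟩ | ⟨t, ht, rfl⟩)
    · exact hl t
    · have := hl (-t)
      rwa [neg_smul, ← smul_neg] at this

/-- **Classification** of closed sets minimizing length among separation preserving sets. -/
theorem IsLenMin.classify {K : Set E2} (h : IsLenMin K) :
    K = ∅ ∨ IsLine K ∨ ∃ x, IsProp K x := by
  rcases K.eq_empty_or_nonempty with h0 | ⟨x, hx⟩
  · exact Or.inl h0
  right
  by_cases hall : ∀ z ∈ K, ∃ r : ℝ, 0 < r ∧ (K ∩ sphere z r).encard ≤ 2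
  · exact Or.inl (h.isLine hx hall)
  · push Not at hall
    obtain ⟨z, hz, hall⟩ := hall
    refine Or.inr ⟨z, h.isProp hz (Eventually.of_forall fun s hs => ?_)⟩
    have h1 := hall s hs
    have h2 : (2 : ℕ∞) + 1 ≤ (K ∩ sphere z s).encard := Order.add_one_le_of_lt h1
    exact h2

/-- a zero energy global object minimizes length -/
theorem IsQM.isLenMin {u : E2 → ℝ} {K : Set E2} (h : IsQM univ 0 u K)
    (h0 : ∀ y ∉ K, gradient u y = 0) : IsLenMin K := by
  have hcl : IsClosed K := by
    have := h.closed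
    rw [inter_univ] at this
    exact isClosed_of_closure_subset this
  have hlc : LocConstOn (univ \ K) u := by
    rintro y ⟨-, hy⟩
    obtain ⟨δ, hδ, hball⟩ := Metric.isOpen_iff.1 hcl.isOpen_compl y hy
    have hd : DifferentiableOn ℝ u (ball y δ) := fun z hz =>
      (h.contDiffAt ⟨mem_univ z, hball hz⟩).differentiableAt one_ne_zero |>.differentiableWithinAt
    filter_upwards [ball_mem_nhds y hδ] with z hz
    refine (convex_ball y δ).is_const_of_fderivWithin_eq_zero (𝕜 := ℝ) hd ?_ hz (mem_ball_self hδ)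
    intro w hw
    rw [fderivWithin_of_isOpen isOpen_ball hw]
    have h1 := h.hasGradientAt (y := w) ⟨mem_univ w, hball hw⟩
    rw [h0 w (hball hw)] at h1
    have h2 := h1.hasFDerivAt.fderiv
    rw [h2, map_zero]
  refine ⟨hcl, fun x r => h.len_fin x r (subset_univ _), h.red, ?_⟩
  intro x ρ hρ L hL hLK hkeep
  by_cases hfin : len (L ∩ closedBall x ρ) = ⊤
  · rw [hfin]; exact le_top
  obtain ⟨c', hc', hcc⟩ := hkeep u hlc
  have hcomp : IsComp univ u K x ρ c' L := by
    refine ⟨subset_univ _, ?_, lt_top_iff_ne_top.2 hfin, hLK, ?_, hcc, hkeep⟩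
    · rw [hL.closure_eq]; exact inter_subset_left
    · have hopen : IsOpen (univ \ L) := by
        rw [← compl_eq_univ_sdiff]; exact hL.isOpen_compl
      exact (locallyLipschitzOn_iff_lipAt hopen).2 fun z hz => hc'.lipAt hz
  have h1 := h.min x ρ hρ (subset_univ _) c' L hcomp
  have h2 : dirE c' L (closedBall x ρ) = 0 := by
    unfold dirE
    have h3 : ∫⁻ z in closedBall x ρ \ L, ‖gradient c' z‖ₑ ^ 2 =
        ∫⁻ z in closedBall x ρ \ L, 0 := by
      refine setLIntegral_congr_fun (measurableSet_closedBall.diff hL.measurableSet) ?_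
      intro z hz
      have h4 : gradient c' z = 0 :=
        gradient_eq_zero_of_eventually_const (c' z) (hc' z ⟨mem_univ z, hz.2⟩)
      simp only [h4]
      simp
    rw [h3]
    simp
  have h5 : enE c' L (closedBall x ρ) = len (L ∩ closedBall x ρ) := by
    unfold enE
    rw [h2, zero_add]
  rw [h5] at h1
  simp only [zero_mul, ENNReal.ofReal_zero, add_zero] at h1
  exact (le_add_self).trans h1

/-- the target: `net_thm` of the interface -/
theorem net_classify {u : E2 → ℝ} {K : Set E2} (h : IsQM univ 0 u K)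
    (h0 : ∀ y ∉ K, gradient u y = 0) : K = ∅ ∨ IsLine K ∨ ∃ x, IsProp K x :=
  (h.isLenMin h0).classify

end Crest.Agent.R135
end

-- ▼ part R135/IF_net_thm
section

/-! INTERFACE net_thm (helper564): proved in Net1-Net7. -/

set_option autoImplicit false

open MeasureTheory Set Filter Topology Metric
open scoped ENNReal NNReal ContDiff Gradient
open Crest.AnalysisR.PDE.OnePhase Crest.AnalysisR.PDE.MumfordShah

namespace Crest.Agent.R135

/-- NET (C5): zero energy -/
theorem net_thm {u : E2 → ℝ} {K : Set E2} (h : IsQM univ 0 u K)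
    (h0 : ∀ y ∉ K, gradient u y = 0) : K = ∅ ∨ IsLine K ∨ ∃ x, IsProp K x :=
  net_classify h h0

end Crest.Agent.R135
end

-- ▼ part R135/TipOff
section

/-!
# R135: the cracktip has small density off its centre (helper270)
-/

set_option autoImplicit false

open MeasureTheory Set Filter Topology Metric
open scoped ENNReal NNReal ContDiff Gradient

namespace Crest.Agent.R135

/-- `|∇u|² = 1/(2π dist)` for the normalised cracktip -/
theorem IsTip.norm_gradient_sq {u : E2 → ℝ} {K : Set E2} {x : E2} (h : IsTip u K x) {z : E2}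
    (hz : z ∉ K) : ‖gradient u z‖ ^ 2 = 1 / (2 * Real.pi * dist z x) := by
  obtain ⟨θ₀, c, A, hK, hA, hu⟩ := h
  have hxK : x ∈ K := by
    rw [hK]; exact ⟨0, le_rfl, by simp⟩
  have hzx : z ≠ x := fun h => hz (h ▸ hxK)
  have hpos : 0 < dist z x := dist_pos.2 hzx
  obtain ⟨θ, hθ, he⟩ := exists_cpt_eq hpos (rfl : z ∈ Metric.sphere x (dist z x)) θ₀
  have hne : θ ≠ θ₀ := by
    intro h1
    apply hz
    rw [hK, he.symm, h1]
    exact ⟨dist z x, hpos.le, rfl⟩
  have hφ : θ - θ₀ ∈ Ioo (0 : ℝ) (2 * Real.pi) := by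
    constructor
    · have := lt_of_le_of_ne hθ.1 (Ne.symm hne)
      linarith
    · have := hθ.2
      linarith
  have h1 := (hu (dist z x) hpos (θ - θ₀) hφ).2
  have h2 : θ₀ + (θ - θ₀) = θ := by ring
  rw [h2, he] at h1
  rw [h1, norm_smul, mul_pow]
  have h3 : ‖Real.cos ((θ - θ₀) / 2) • dir θ - Real.sin ((θ - θ₀) / 2) • tau θ‖ ^ 2 = 1 := by
    rw [norm_sub_sq_real, norm_smul, norm_smul, inner_smul_left, inner_smul_right, inner_dir_tau,
      norm_dir, norm_tau]
    simp only [Real.norm_eq_abs, mul_one, sq_abs, mul_zero, sub_zero]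
    rw [Real.cos_sq_add_sin_sq]
  rw [h3, mul_one, Real.norm_eq_abs, sq_abs, div_pow, mul_pow, Real.sq_sqrt hpos.le, hA]
  field_simp

/-- `(u,K)` tip centred at `x`, `y ∈ K`, `y ≠ x`: the density is small at `y` at small scales -/
theorem tip_off_centre_aux {u : E2 → ℝ} {K : Set E2} {x y : E2} (h : IsTip u K x)
    (hxy : dist y x = 1) {c : ℝ} (hc : 0 < c) (hc2 : c ≤ 1 / 2) : Dr u K y c ≤ c ^ 2 := by
  have h1 : dirE u K (ball y c) ≤ ∫⁻ _ in ball y c, ENNReal.ofReal (1 / Real.pi) := by
    unfold dirE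
    refine le_trans ?_ (lintegral_mono_set (sdiff_subset (s := ball y c) (t := K)))
    have hopen : MeasurableSet (ball y c \ K) := by
      obtain ⟨θ₀, c', A, hK, -, -⟩ := h
      refine measurableSet_ball.diff ?_
      rw [hK]
      have : IsClosed (ray x (dir θ₀)) := by
        have h2 : ray x (dir θ₀) = (fun s : ℝ => x + s • dir θ₀) '' Ici 0 := by
          ext z; constructor
          · rintro ⟨s, hs, rfl⟩; exact ⟨s, hs, rfl⟩
          · rintro ⟨s, hs, rfl⟩; exact ⟨s, hs, rfl⟩
        rw [h2]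
        have hiso : Isometry (fun s : ℝ => x + s • dir θ₀) := by
          refine Isometry.of_dist_eq fun a b => ?_
          rw [dist_add_left, dist_eq_norm, ← sub_smul, norm_smul, norm_dir, mul_one,
            Real.dist_eq, Real.norm_eq_abs]
        exact hiso.isClosedEmbedding.isClosedMap _ isClosed_Ici
      exact this.measurableSet
    refine setLIntegral_mono' hopen fun z hz => ?_
    have h2 := h.norm_gradient_sq hz.2
    have h3 : (1 : ℝ) / 2 ≤ dist z x := by
      have h4 := dist_triangle y z x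
      have h5 : dist z y < c := hz.1
      rw [dist_comm y z] at h4
      linarith
    rw [← ofReal_norm, ← ENNReal.ofReal_pow (norm_nonneg _), h2]
    refine ENNReal.ofReal_le_ofReal ?_
    have hpi := Real.pi_pos
    refine one_div_le_one_div_of_le hpi ?_
    nlinarith
  rw [setLIntegral_const, EuclideanSpace.volume_ball_fin_two] at h1
  have h2 : ENNReal.ofReal (1 / Real.pi) * (ENNReal.ofReal c ^ 2 * ENNReal.ofReal Real.pi) =
      ENNReal.ofReal (c ^ 2) := by
    rw [← ENNReal.ofReal_pow hc.le, ← ENNReal.ofReal_mul (by positivity),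
      ← ENNReal.ofReal_mul (by positivity)]
    congr 1
    have := Real.pi_pos
    field_simp
  rw [h2] at h1
  have h3 := ENNReal.toReal_mono ENNReal.ofReal_ne_top h1
  rwa [ENNReal.toReal_ofReal (by positivity)] at h3

end Crest.Agent.R135
end

-- ▼ part R135/IF_tip_off_centre
section

/-! INTERFACE tip_off_centre: replace the sorry here (import your own files), keep the statement. -/

set_option autoImplicit false

open MeasureTheory Set Filter Topology Metric
open scoped ENNReal NNReal ContDiff Gradient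
open Crest.AnalysisR.PDE.OnePhase Crest.AnalysisR.PDE.MumfordShah

namespace Crest.Agent.R135

/-- `(u,K)` tip centred at `x`, `y ∈ K`, `y ≠ x`: the density is small at `y` at small scales -/
theorem tip_off_centre {u : E2 → ℝ} {K : Set E2} {x y : E2} (h : IsTip u K x)
    (hxy : dist y x = 1) {c : ℝ} (hc : 0 < c) (hc2 : c ≤ 1 / 2) : Dr u K y c ≤ 4 * c * c :=
  (tip_off_centre_aux h hxy hc hc2).trans (by nlinarith [sq_nonneg c])

end Crest.Agent.R135
end

-- ▼ part R135/Class
section

/-!
# R135: classification of the density `D(x,r)/r` of global objects (helper804)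

Inputs, passed as hypotheses: monotonicity of `Dr u K x r / r` (`MonoStmt`) and the cone theorem
(`ConeStmt`).
-/

set_option autoImplicit false

open MeasureTheory Set Filter Topology Metric
open scoped ENNReal NNReal ContDiff Gradient

namespace Crest.Agent.R135

/-- monotonicity formula for global minimizers -/
def MonoStmt : Prop := ∀ (u : E2 → ℝ) (K : Set E2), IsQM univ 0 u K → ∀ x : E2,
  MonotoneOn (fun r => Dr u K x r / r) (Ioi 0)

/-- the density of a homogeneous global minimizer is `0` or `1` -/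
def ConeStmt : Prop := ∀ (u : E2 → ℝ) (K : Set E2) (x : E2) (e : ℝ), IsQM univ 0 u K → 0 < e →
  (∀ r : ℝ, 0 < r → Dr u K x r = e * r) → e = 1

namespace Cls

lemma Dr_nonneg (u : E2 → ℝ) (K : Set E2) (x : E2) (r : ℝ) : 0 ≤ Dr u K x r :=
  ENNReal.toReal_nonneg


lemma dirE_closedBall_lt_top {u : E2 → ℝ} {K : Set E2} (h : IsQM univ 0 u K) (x : E2) (r : ℝ) :
    dirE u K (closedBall x r) < ⊤ :=
  h.dir_fin x r (subset_univ _)

lemma dirE_mono {u : E2 → ℝ} {K B B' : Set E2} (hB : B ⊆ B') : dirE u K B ≤ dirE u K B' :=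
  lintegral_mono_set (sdiff_subset_sdiff_left hB)

lemma Dr_le {u : E2 → ℝ} {K : Set E2} (h : IsQM univ 0 u K) (x : E2) {r : ℝ} (hr : 0 < r) :
    Dr u K x r ≤ 2 * Real.pi * r := by
  have h1 := h.energy_le hr (subset_univ (closedBall x r))
  rw [zero_mul, add_zero] at h1
  have h2 : dirE u K (ball x r) ≤ ENNReal.ofReal (2 * Real.pi * r) :=
    (dirE_mono ball_subset_closedBall).trans (le_self_add.trans h1)
  have h3 := ENNReal.toReal_mono ENNReal.ofReal_ne_top h2
  rwa [ENNReal.toReal_ofReal (by positivity)] at h3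


/-- blow-ups / blow-downs along which the density converges are cones -/
theorem exists_cone_limit {u : E2 → ℝ} {K : Set E2} (h : IsQM univ 0 u K) (x : E2) {r : ℕ → ℝ}
    (hr : ∀ k, 0 < r k) {e : ℝ}
    (he : ∀ s : ℝ, 0 < s → Tendsto (fun k => Dr u K x (r k * s) / (r k * s)) atTop (𝓝 e)) :
    ∃ φ : ℕ → ℕ, StrictMono φ ∧ ∃ (u' : E2 → ℝ) (K' : Set E2), IsQM univ 0 u' K' ∧
      Conv (fun k => rescF u x (r (φ k))) (fun k => rescK K x (r (φ k))) u' K' ∧
      ∀ s : ℝ, 0 < s → Dr u' K' 0 s = e * s := by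
  have h0 : ∀ k, IsQM univ 0 (rescF u x (r k)) (rescK K x (r k)) := fun k =>
    h.resc_univ x (hr k)
  obtain ⟨φ, hφ, u', K', hu', hc⟩ := compactness (Uk := fun _ => univ) (lamk := fun _ => 0)
    (uk := fun k => rescF u x (r k)) (Kk := fun k => rescK K x (r k)) h0
    (fun R => Eventually.of_forall fun _ => subset_univ _) tendsto_const_nhds
  refine ⟨φ, hφ, u', K', hu', hc, fun s hs => ?_⟩
  have h1 := hc.tendsto_Dr (fun k => (h0 (φ k)).volume_K) hu'.volume_K
    (fun y ρ => dirE_closedBall_lt_top hu' y ρ) 0 s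
  have h2 : Tendsto (fun k => Dr (rescF u x (r (φ k))) (rescK K x (r (φ k))) 0 s) atTop
      (𝓝 (e * s)) := by
    have h3 := ((he s hs).comp hφ.tendsto_atTop).mul_const s
    refine h3.congr fun k => ?_
    have hk := hr (φ k)
    rw [Dr_resc u K x 0 hk, smul_zero, add_zero]
    simp only [Function.comp]
    field_simp
  exact tendsto_nhds_unique h1 h2

/-- the limit of the density along any sequence for which it exists at all multiples is `0` or
`1` -/
theorem limit_zero_or_one (hcone : ConeStmt) {u : E2 → ℝ} {K : Set E2} (h : IsQM univ 0 u K)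
    (x : E2) {r : ℕ → ℝ} (hr : ∀ k, 0 < r k) {e : ℝ}
    (he : ∀ s : ℝ, 0 < s → Tendsto (fun k => Dr u K x (r k * s) / (r k * s)) atTop (𝓝 e)) :
    e = 0 ∨ e = 1 := by
  obtain ⟨φ, -, u', K', hu', -, hD⟩ := exists_cone_limit h x hr he
  have he0 : 0 ≤ e := by
    have := Dr_nonneg u' K' 0 1
    rw [hD 1 one_pos, mul_one] at this
    exact this
  rcases he0.eq_or_lt with h1 | h1
  · exact Or.inl h1.symm
  · exact Or.inr (hcone u' K' 0 e hu' h1 hD)

variable {u : E2 → ℝ} {K : Set E2}

/-- the density has a limit at infinity, which is `0` or `1` -/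
theorem tendsto_atTop (hmono : MonoStmt) (hcone : ConeStmt) (h : IsQM univ 0 u K) (x : E2) :
    Tendsto (fun r => Dr u K x r / r) atTop (𝓝 0) ∨
      Tendsto (fun r => Dr u K x r / r) atTop (𝓝 1) := by
  set f : ℝ → ℝ := fun r => Dr u K x r / r with hf
  have hm : MonotoneOn f (Ioi 0) := hmono u K h x
  have hb : ∀ r, 0 < r → f r ≤ 2 * Real.pi := fun r hr => by
    rw [hf]; simp only
    rw [div_le_iff₀ hr]; exact Dr_le h x hr
  -- a globally monotone version
  have hlim : ∃ e, Tendsto f atTop (𝓝 e) := by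
    have hg : Monotone fun r => f (max r 1) := by
      intro a b hab
      exact hm (mem_Ioi.2 (lt_of_lt_of_le one_pos (le_max_right _ _)))
        (mem_Ioi.2 (lt_of_lt_of_le one_pos (le_max_right _ _))) (max_le_max_right 1 hab)
    have hgb : BddAbove (range fun r => f (max r 1)) := by
      refine ⟨2 * Real.pi, ?_⟩
      rintro _ ⟨r, rfl⟩
      exact hb _ (lt_of_lt_of_le one_pos (le_max_right _ _))
    refine ⟨_, (tendsto_atTop_ciSup hg hgb).congr' ?_⟩
    filter_upwards [eventually_ge_atTop (1 : ℝ)] with r hr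
    rw [max_eq_left hr]
  obtain ⟨e, he⟩ := hlim
  have h01 := limit_zero_or_one hcone h x (r := fun k : ℕ => (k : ℝ) + 1)
    (fun k => by positivity) (e := e) (fun s hs => by
      refine he.comp ?_
      refine Tendsto.atTop_mul_const hs ?_
      exact tendsto_atTop_add_const_right _ _ tendsto_natCast_atTop_atTop)
  rcases h01 with h1 | h1
  · left; rwa [h1] at he
  · right; rwa [h1] at he

/-- the density has a limit at zero, which is `0` or `1` -/
theorem tendsto_nhds_zero (hmono : MonoStmt) (hcone : ConeStmt) (h : IsQM univ 0 u K) (x : E2) :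
    Tendsto (fun r => Dr u K x r / r) (𝓝[>] 0) (𝓝 0) ∨
      Tendsto (fun r => Dr u K x r / r) (𝓝[>] 0) (𝓝 1) := by
  set f : ℝ → ℝ := fun r => Dr u K x r / r with hf
  have hm : MonotoneOn f (Ioi 0) := hmono u K h x
  have hb : BddBelow (f '' Ioi 0) := by
    refine ⟨0, ?_⟩
    rintro _ ⟨r, hr, rfl⟩
    exact div_nonneg (Dr_nonneg _ _ _ _) (le_of_lt hr)
  have he : Tendsto f (𝓝[>] 0) (𝓝 (sInf (f '' Ioi 0))) := hm.tendsto_nhdsGT hb
  set e := sInf (f '' Ioi 0)
  have h01 := limit_zero_or_one hcone h x (r := fun k : ℕ => 1 / ((k : ℝ) + 1))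
    (fun k => by positivity) (e := e) (fun s hs => by
      refine he.comp ?_
      rw [tendsto_nhdsWithin_iff]
      constructor
      · have := (tendsto_one_div_add_atTop_nhds_zero_nat (𝕜 := ℝ)).mul_const s
        rwa [zero_mul] at this
      · exact Eventually.of_forall fun k => mem_Ioi.2 (by positivity))
  rcases h01 with h1 | h1
  · left; rwa [h1] at he
  · right; rwa [h1] at he

/-- zero Dirichlet energy in all balls means zero gradient off the crack -/
theorem gradient_eq_zero_of_Dr {U : Set E2} {lam : ℝ} {x : E2} {r : ℝ} (h : IsQM U lam u K)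
    (hB : closedBall x r ⊆ U) (hD : Dr u K x r = 0) : ∀ y ∈ ball x r \ K, gradient u y = 0 := by
  intro y hy
  have hU : ball x r ⊆ U := ball_subset_closedBall.trans hB
  have hopen : IsOpen (ball x r \ K) := by
    have : ball x r \ K = ball x r ∩ (U \ K) := by
      ext z
      exact ⟨fun hz => ⟨hz.1, hU hz.1, hz.2⟩, fun hz => ⟨hz.1, hz.2.2⟩⟩
    rw [this]
    exact isOpen_ball.inter h.isOpen_diff
  have hfin : dirE u K (ball x r) ≠ ⊤ := (h.dir_fin_ball hB).ne
  have h0 : dirE u K (ball x r) = 0 := by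
    rcases (ENNReal.toReal_eq_zero_iff _).1 hD with h1 | h1
    · exact h1
    · exact absurd h1 hfin
  have hcont : ContinuousOn (fun z => ‖gradient u z‖ₑ ^ 2) (ball x r \ K) := by
    have h1 : ContinuousOn (gradient u) (ball x r \ K) :=
      h.continuousOn_gradient.mono (sdiff_subset_sdiff_left hU)
    exact (ENNReal.continuous_pow 2).comp_continuousOn h1.enorm
  by_contra hne
  have hpos : 0 < ‖gradient u y‖ₑ ^ 2 := by
    have : 0 < ‖gradient u y‖ₑ := by simpa [enorm_pos] using hne
    positivity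
  -- the integrand is bounded below by a positive constant near `y`
  obtain ⟨b, hb0, hb⟩ := exists_between hpos
  have hnhds : {z ∈ ball x r \ K | b < ‖gradient u z‖ₑ ^ 2} ∈ 𝓝 y := by
    have h1 : ∀ᶠ z in 𝓝[ball x r \ K] y, b < ‖gradient u z‖ₑ ^ 2 :=
      (hcont y hy).eventually (lt_mem_nhds hb)
    rw [hopen.nhdsWithin_eq hy] at h1
    filter_upwards [h1, hopen.mem_nhds hy] with z h2 h3 using ⟨h3, h2⟩
  obtain ⟨ε, hε, hball⟩ := Metric.mem_nhds_iff.1 hnhds
  have h2 : b * volume (ball y ε) ≤ dirE u K (ball x r) := by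
    calc b * volume (ball y ε) = ∫⁻ _ in ball y ε, b := by simp
      _ ≤ ∫⁻ z in ball y ε, ‖gradient u z‖ₑ ^ 2 :=
          setLIntegral_mono' measurableSet_ball fun z hz => (hball hz).2.le
      _ ≤ dirE u K (ball x r) := lintegral_mono_set fun z hz => (hball hz).1
  rw [h0, nonpos_iff_eq_zero, mul_eq_zero] at h2
  rcases h2 with h3 | h3
  · exact hb0.ne' h3
  · exact (measure_ball_pos volume y hε).ne' h3

theorem gradient_eq_zero_of_Dr_all (h : IsQM univ 0 u K) (x : E2)
    (hD : ∀ r : ℝ, 0 < r → Dr u K x r = 0) : ∀ y, y ∉ K → gradient u y = 0 := by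
  intro y hy
  have h1 : 0 < dist y x + 1 := by positivity
  refine gradient_eq_zero_of_Dr h (subset_univ (closedBall x (dist y x + 1))) (hD _ h1) y ⟨?_, hy⟩
  rw [mem_ball]; linarith

theorem Dr_eq_zero_of_gradient (h : IsQM univ 0 u K) (h0 : ∀ y, y ∉ K → gradient u y = 0)
    (x : E2) (r : ℝ) : Dr u K x r = 0 := by
  have h1 : dirE u K (ball x r) = 0 := by
    unfold dirE
    rw [setLIntegral_congr_fun (g := fun _ => 0) (measurableSet_ball.diff h.measurable_K)]
    · simp
    · intro y hy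
      simp [h0 y hy.2]
  rw [Dr, h1]; simp

/-- the density is at most `1` -/
theorem Dr_le_self (hmono : MonoStmt) (hcone : ConeStmt) (h : IsQM univ 0 u K) (x : E2) {r : ℝ}
    (hr : 0 < r) : Dr u K x r ≤ r := by
  have hm : MonotoneOn (fun r => Dr u K x r / r) (Ioi 0) := hmono u K h x
  have h1 : Dr u K x r / r ≤ 1 := by
    rcases tendsto_atTop hmono hcone h x with h2 | h2
    · refine (ge_of_tendsto h2 ?_).trans zero_le_one
      filter_upwards [eventually_ge_atTop r] with s hs using hm hr (hr.trans_le hs) hs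
    · refine ge_of_tendsto h2 ?_
      filter_upwards [eventually_ge_atTop r] with s hs using hm hr (hr.trans_le hs) hs
  rwa [div_le_one hr] at h1

/-- small density at infinity: zero energy -/
theorem Dr_eq_zero_of_small (hmono : MonoStmt) (hcone : ConeStmt) (h : IsQM univ 0 u K) (x : E2)
    {c : ℝ} (hc : c < 1) (hfr : ∃ᶠ r in atTop, Dr u K x r ≤ c * r) (r : ℝ) (hr : 0 < r) :
    Dr u K x r = 0 := by
  have hm : MonotoneOn (fun r => Dr u K x r / r) (Ioi 0) := hmono u K h x
  have h0 : Tendsto (fun r => Dr u K x r / r) atTop (𝓝 0) := by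
    rcases tendsto_atTop hmono hcone h x with h2 | h2
    · exact h2
    · exfalso
      have h3 : ∀ᶠ r in atTop, c < Dr u K x r / r := h2.eventually (lt_mem_nhds hc)
      obtain ⟨s, hs1, hs2, hs3⟩ := (hfr.and_eventually (h3.and (eventually_gt_atTop 0))).exists
      rw [lt_div_iff₀ hs3] at hs2
      linarith
  have h1 : Dr u K x r / r ≤ 0 := by
    refine ge_of_tendsto h0 ?_
    filter_upwards [eventually_ge_atTop r] with s hs using hm hr (hr.trans_le hs) hs
  have h2 : Dr u K x r ≤ 0 := by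
    have := (div_le_iff₀ hr).1 h1
    linarith
  exact le_antisymm h2 (Dr_nonneg _ _ _ _)

theorem gradient_eq_zero_of_small (hmono : MonoStmt) (hcone : ConeStmt) (h : IsQM univ 0 u K)
    (x : E2) {c : ℝ} (hc : c < 1) (hfr : ∃ᶠ r in atTop, Dr u K x r ≤ c * r) :
    ∀ y, y ∉ K → gradient u y = 0 :=
  gradient_eq_zero_of_Dr_all h x (Dr_eq_zero_of_small hmono hcone h x hc hfr)

/-- positive density at zero: the density is constant equal to one -/
theorem Dr_eq_self_of_big (hmono : MonoStmt) (hcone : ConeStmt) (h : IsQM univ 0 u K) (x : E2)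
    {c : ℝ} (hc : 0 < c) (hfr : ∃ᶠ r in 𝓝[>] (0 : ℝ), c * r ≤ Dr u K x r) (r : ℝ) (hr : 0 < r) :
    Dr u K x r = r := by
  have hm : MonotoneOn (fun r => Dr u K x r / r) (Ioi 0) := hmono u K h x
  have h1 : Tendsto (fun r => Dr u K x r / r) (𝓝[>] 0) (𝓝 1) := by
    rcases tendsto_nhds_zero hmono hcone h x with h2 | h2
    · exfalso
      have h3 : ∀ᶠ r in 𝓝[>] (0 : ℝ), Dr u K x r / r < c := h2.eventually (gt_mem_nhds hc)
      have h4 : ∀ᶠ r in 𝓝[>] (0 : ℝ), 0 < r := eventually_mem_nhdsWithin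
      obtain ⟨s, hs1, hs2, hs3⟩ := (hfr.and_eventually (h3.and h4)).exists
      rw [div_lt_iff₀ hs3] at hs2
      linarith
    · exact h2
  have h2 : 1 ≤ Dr u K x r / r := by
    refine le_of_tendsto h1 ?_
    have h4 : ∀ᶠ s in 𝓝[>] (0 : ℝ), 0 < s := eventually_mem_nhdsWithin
    have h5 : ∀ᶠ s in 𝓝[>] (0 : ℝ), s < r :=
      eventually_nhdsWithin_of_eventually_nhds (gt_mem_nhds hr)
    filter_upwards [h4, h5] with s hs hs' using hm (mem_Ioi.2 hs) (mem_Ioi.2 hr) hs'.le
  rw [le_div_iff₀ hr, one_mul] at h2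
  exact le_antisymm (Dr_le_self hmono hcone h x hr) h2


end Cls

end Crest.Agent.R135
end

-- ▼ part R135/IF_GM

/-!
# INTERFACE GM (helper253): global objects, i.e. `IsQM univ 0 u K`

Owners: `no_cluster` helper391 (EARN), `component_unbounded_gm` helper391,
`zero_flux` helper638 (+ SEP helper990), `Dr_div_mono`, `cone_thm` helper898 (+ helper828 for
`e = 1`), `net_thm` helper564, CLASS (all the `gm_*` theorems) helper804.
Each owner may replace the sorry in place (importing the own files), or tell me to move the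
statement to a separate file. The statements are not to be changed without a post.
-/

set_option autoImplicit false

open MeasureTheory Set Filter Topology Metric
open scoped ENNReal NNReal ContDiff Gradient

namespace Crest.Agent.R135

/-! ### CLASS (proved in Class.lean from `Dr_div_mono`, `cone_thm`, `net_thm`; helper804) -/

theorem monoStmt : MonoStmt := fun _ _ h x => Dr_div_mono h x

theorem coneStmt : ConeStmt := fun _ _ _ _ h he hD => by
  rcases cone_thm h hD with h1 | h1
  · exact absurd h1 he.ne'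
  · exact h1.1




/-- a global object with small density at arbitrarily large scales has zero gradient -/
theorem gm_gradient_zero {u : E2 → ℝ} {K : Set E2} (h : IsQM univ 0 u K) {x : E2} {ε : ℝ}
    (hε : ε < 1) (hf : ∃ᶠ r in atTop, Dr u K x r ≤ ε * r) : ∀ y ∉ K, gradient u y = 0 :=
  Cls.gradient_eq_zero_of_small monoStmt coneStmt h x hε hf

/-- hence it is empty, a line or a propeller -/
theorem gm_shape {u : E2 → ℝ} {K : Set E2} (h : IsQM univ 0 u K) {x : E2} {ε : ℝ}
    (hε : ε < 1) (hf : ∃ᶠ r in atTop, Dr u K x r ≤ ε * r) :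
    (∀ y ∉ K, gradient u y = 0) ∧ (∀ x r, Dr u K x r = 0) ∧
      (K = ∅ ∨ IsLine K ∨ ∃ z, IsProp K z) := by
  have h0 := gm_gradient_zero h hε hf
  exact ⟨h0, fun x r => Cls.Dr_eq_zero_of_gradient h h0 x r, net_thm h h0⟩

/-- a global object with density bounded below at all scales around `x` is a tip centred at `x` -/
theorem gm_tip {u : E2 → ℝ} {K : Set E2} (h : IsQM univ 0 u K) {x : E2} {ε : ℝ}
    (hε : 0 < ε) (hf : ∀ r : ℝ, 0 < r → ε * r ≤ Dr u K x r) : IsTip u K x := by
  have h1 : ∀ r : ℝ, 0 < r → Dr u K x r = 1 * r := by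
    intro r hr
    rw [one_mul]
    refine Cls.Dr_eq_self_of_big monoStmt coneStmt h x hε (Eventually.frequently ?_) r hr
    filter_upwards [self_mem_nhdsWithin] with s hs using hf s hs
  rcases cone_thm h h1 with h2 | h2
  · exact absurd h2 one_ne_zero
  · exact h2.2

end Crest.Agent.R135
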