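import Mathlib
import Crest.Agent.R135.EpsGeo2
import Crest.Agent.R135.Scal1
import Crest.Agent.R135.IFDefs
import Crest.Agent.R135.Fell
import Crest.Agent.R135.CT4
import Crest.Agent.R135.PolarD
import Crest.Agent.R135.IF_GM
import Crest.Agent.R135.FlatLine
import Crest.Agent.R135.IFDefs2
import Crest.Agent.R135.EpsLoc1

-- ▼ part R135/Rgm1
section

/-!
# R135, block REGIME (helper288): geometry of lines, propellers and half-lines under rescaling
-/

set_option autoImplicit false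

open MeasureTheory Set Filter Topology Metric
open scoped ENNReal NNReal

namespace Crest.Agent.R135.Rgm

open Crest.Agent.R135

/-! ### rescaling of the models -/

lemma rescK_ray (y e : E2) {ρ : ℝ} (hρ : 0 < ρ) : rescK (ray y e) y ρ = ray 0 e := by
  ext z
  rw [mem_rescK, mem_ray, mem_ray]
  constructor
  · rintro ⟨s, hs, h⟩
    refine ⟨s / ρ, by positivity, ?_⟩
    have h1 : ρ • z = s • e := add_left_cancel h
    rw [zero_add]
    calc z = ρ⁻¹ • (ρ • z) := by rw [smul_smul, inv_mul_cancel₀ hρ.ne', one_smul]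
      _ = (s / ρ) • e := by rw [h1, smul_smul]; congr 1; field_simp
  · rintro ⟨s, hs, h⟩
    refine ⟨ρ * s, by positivity, ?_⟩
    rw [h, zero_add, smul_smul]

lemma rescK_lineAt (y : E2) (θ : ℝ) {ρ : ℝ} (hρ : 0 < ρ) :
    rescK (lineAt y θ) y ρ = lineAt 0 θ := by
  unfold lineAt
  rw [rescK_union, rescK_ray _ _ hρ, rescK_ray _ _ hρ]

lemma rescK_propAt (y : E2) (θ : ℝ) {ρ : ℝ} (hρ : 0 < ρ) :
    rescK (propAt y θ) y ρ = propAt 0 θ := by
  unfold propAt
  rw [rescK_union, rescK_union, rescK_ray _ _ hρ, rescK_ray _ _ hρ, rescK_ray _ _ hρ]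

/-- closeness under rescaling (centre at the origin) -/
lemma hclose_resc_iff {ε R ρ : ℝ} {y : E2} {K Y : Set E2} (hρ : 0 < ρ) :
    HClose ε 0 R (rescK K y ρ) (rescK Y y ρ) ↔ HClose (ε * ρ) y (R * ρ) K Y := by
  have key : ∀ A B : Set E2, (∀ z ∈ rescK A y ρ ∩ ball 0 R, ∃ w ∈ rescK B y ρ, dist z w < ε) ↔
      (∀ z ∈ A ∩ ball y (R * ρ), ∃ w ∈ B, dist z w < ε * ρ) := by
    intro A B
    constructor
    · rintro h z ⟨hz, hzb⟩
      have h1 : scI y ρ z ∈ rescK A y ρ ∩ ball 0 R := by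
        refine ⟨?_, ?_⟩
        · rw [mem_rescK', scm_scI y hρ.ne']; exact hz
        · rw [mem_ball] at hzb ⊢
          have h2 : dist (scm y ρ (scI y ρ z)) (scm y ρ 0) = |ρ| * dist (scI y ρ z) 0 :=
            dist_scm _ _ _ _
          rw [scm_scI y hρ.ne', abs_of_pos hρ] at h2
          have h3 : scm y ρ 0 = y := by simp [scm]
          rw [h3] at h2
          rw [h2, mul_comm R] at hzb
          exact lt_of_mul_lt_mul_left hzb hρ.le
      obtain ⟨w, hw, hd⟩ := h _ h1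
      refine ⟨scm y ρ w, hw, ?_⟩
      have h2 : dist (scm y ρ (scI y ρ z)) (scm y ρ w) = |ρ| * dist (scI y ρ z) w :=
        dist_scm _ _ _ _
      rw [scm_scI y hρ.ne', abs_of_pos hρ] at h2
      rw [h2, mul_comm ε]
      exact mul_lt_mul_of_pos_left hd hρ
    · rintro h z ⟨hz, hzb⟩
      have h1 : scm y ρ z ∈ A ∩ ball y (R * ρ) := by
        refine ⟨hz, ?_⟩
        rw [mem_ball] at hzb ⊢
        have h2 : dist (scm y ρ z) (scm y ρ 0) = |ρ| * dist z 0 := dist_scm _ _ _ _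
        have h3 : scm y ρ 0 = y := by simp [scm]
        rw [h3, abs_of_pos hρ] at h2
        rw [h2, mul_comm R]
        exact mul_lt_mul_of_pos_left hzb hρ
      obtain ⟨w, hw, hd⟩ := h _ h1
      refine ⟨scI y ρ w, ?_, ?_⟩
      · rw [mem_rescK', scm_scI y hρ.ne']; exact hw
      · have h2 : dist (scm y ρ z) (scm y ρ (scI y ρ w)) = |ρ| * dist z (scI y ρ w) :=
          dist_scm _ _ _ _
        rw [scm_scI y hρ.ne', abs_of_pos hρ] at h2
        rw [h2, mul_comm ε] at hd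
        exact lt_of_mul_lt_mul_left hd hρ.le
  unfold HClose
  rw [key K Y, key Y K]

lemma ln_resc_iff {η R ρ : ℝ} {y : E2} {K : Set E2} (hρ : 0 < ρ) :
    Ln η (rescK K y ρ) 0 R ↔ Ln η K y (R * ρ) := by
  unfold Ln
  refine exists_congr fun θ => ?_
  rw [← rescK_lineAt y θ hρ, hclose_resc_iff hρ, mul_assoc]

lemma pr_resc_iff {η R ρ : ℝ} {y : E2} {K : Set E2} (hρ : 0 < ρ) :
    Pr η (rescK K y ρ) 0 R ↔ Pr η K y (R * ρ) := by
  unfold Pr
  refine exists_congr fun θ => ?_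
  rw [← rescK_propAt y θ hρ, hclose_resc_iff hρ, mul_assoc]



lemma rescK_ray_dir (p y : E2) (θ : ℝ) {ρ : ℝ} (hρ : 0 < ρ) :
    rescK (ray p (dir θ)) y ρ = ray (scI y ρ p) (dir θ) := by
  ext z
  rw [mem_rescK, mem_ray, mem_ray]
  constructor
  · rintro ⟨s, hs, h⟩
    refine ⟨s / ρ, by positivity, ?_⟩
    have h1 : ρ • z = (p - y) + s • dir θ := by
      rw [← add_right_inj y, h]; abel
    calc z = ρ⁻¹ • (ρ • z) := by rw [smul_smul, inv_mul_cancel₀ hρ.ne', one_smul]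
      _ = scI y ρ p + (s / ρ) • dir θ := by
        rw [h1, smul_add, smul_smul]
        unfold scI
        congr 2
        field_simp
  · rintro ⟨s, hs, h⟩
    refine ⟨ρ * s, by positivity, ?_⟩
    rw [h, smul_add, smul_smul]
    unfold scI
    rw [smul_smul, mul_inv_cancel₀ hρ.ne', one_smul]
    abel



lemma rescK_propAt' (p y : E2) (θ : ℝ) {ρ : ℝ} (hρ : 0 < ρ) :
    rescK (propAt p θ) y ρ = propAt (scI y ρ p) θ := by
  unfold propAt
  rw [rescK_union, rescK_union, rescK_ray_dir _ _ _ hρ, rescK_ray_dir _ _ _ hρ,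
    rescK_ray_dir _ _ _ hρ]


/-! ### models versus models -/

lemma hclose_self {ε : ℝ} (hε : 0 < ε) (x : E2) (R : ℝ) (K : Set E2) : HClose ε x R K K :=
  ⟨fun y hy => ⟨y, hy.1, by rwa [dist_self]⟩, fun y hy => ⟨y, hy.1, by rwa [dist_self]⟩⟩

/-- a propeller is not line-like at scales large with respect to the distance of its centre -/
lemma not_ln_propAt {c : E2} {θ R δ : ℝ} {p : E2} {φ : ℝ} (hR : 0 < R) (hc : dist c 0 ≤ R / 4)
    (hδ : 0 ≤ δ) (hδ1 : δ ≤ R / 50) : ¬ HClose δ 0 R (propAt c θ) (lineAt p φ) := by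
  have hT : Tr (1 / 100) (propAt c θ) 0 R := ⟨c, θ, hc, hclose_self (by positivity) _ _ _⟩
  exact hT.not_line hR (by norm_num) le_rfl hδ hδ1 (by rw [dist_self, zero_add])

/-- a line is not close to a propeller with centre near the origin -/
lemma not_pr_lineAt {p : E2} {φ R δ : ℝ} {c : E2} {θ : ℝ} (hR : 0 < R) (hc : dist c 0 ≤ R / 4)
    (_hδ : 0 ≤ δ) (hδ1 : δ ≤ R / 100) : ¬ HClose δ 0 R (lineAt p φ) (propAt c θ) := by
  intro h
  have hT : Tr (1 / 100) (lineAt p φ) 0 R :=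
    ⟨c, θ, hc, h.mono_eps (by linarith)⟩
  exact hT.not_line hR (by norm_num) le_rfl (δ := R / 50) (by positivity) le_rfl
    (by rw [dist_self, zero_add]) (hclose_self (by positivity) _ _ _)

/-- a propeller which is propeller-like about the origin at all scales is centred there -/
lemma centre_eq_zero {c : E2} {θ δ : ℝ} (hδ : 0 < δ) (hδ1 : δ ≤ 1 / 10000)
    (h : ∀ R : ℝ, 0 < R → ∃ φ, HClose (δ * R) 0 R (propAt c θ) (propAt 0 φ)) : c = 0 := by
  by_contra hc
  have hc0 : 0 < dist c 0 := dist_pos.2 hc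
  set R := 4 * dist c 0 with hR
  have hR0 : 0 < R := by positivity
  obtain ⟨φ, hφ⟩ := h R hR0
  have h1 := Tr.center_close (η := δ) (K := propAt c θ) (y := 0) (ρ := R) (ρ' := R) hR0 hδ
    (by linarith) (c := c) (c' := 0) (θ := θ) (θ' := φ) (by rw [hR]; linarith)
    (hclose_self (by positivity) _ _ _) le_rfl (by linarith) hφ
  nlinarith

/-! ### lengths of the models -/

lemma len_ray_ball_le (e : E2) (he : ‖e‖ = 1) (s : ℝ) (hs : 0 ≤ s) :
    len (ray 0 e ∩ closedBall 0 s) ≤ ENNReal.ofReal s := by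
  have h1 : ray 0 e ∩ closedBall 0 s ⊆ (fun t : ℝ => t • e) '' Icc 0 s := by
    rintro z ⟨⟨t, ht, rfl⟩, hz⟩
    refine ⟨t, ⟨ht, ?_⟩, by simp⟩
    rw [mem_closedBall, dist_zero_right, zero_add, norm_smul, he, mul_one, Real.norm_eq_abs,
      abs_of_nonneg ht] at hz
    exact hz
  have h2 : LipschitzWith 1 (fun t : ℝ => t • e) := by
    apply LipschitzWith.of_dist_le_mul
    intro a b
    rw [dist_eq_norm, ← sub_smul, norm_smul, he, mul_one, NNReal.coe_one, one_mul, Real.dist_eq,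
      Real.norm_eq_abs]
  unfold len
  calc Measure.hausdorffMeasure 1 (ray 0 e ∩ closedBall 0 s)
      ≤ Measure.hausdorffMeasure 1 ((fun t : ℝ => t • e) '' Icc 0 s) := measure_mono h1
    _ ≤ Measure.hausdorffMeasure 1 (Icc (0:ℝ) s) := by
        have := h2.hausdorffMeasure_image_le (d := 1) zero_le_one (Icc 0 s)
        simpa using this
    _ = ENNReal.ofReal s := by
        rw [hausdorffMeasure_real, Real.volume_Icc, sub_zero]



lemma len_lineAt_le (θ : ℝ) (s : ℝ) (hs : 0 ≤ s) :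
    len (lineAt 0 θ ∩ closedBall 0 s) ≤ ENNReal.ofReal (2 * s) := by
  unfold lineAt
  rw [union_inter_distrib_right, show 2 * s = s + s by ring, ENNReal.ofReal_add hs hs]
  refine (measure_union_le _ _).trans ?_
  exact add_le_add (len_ray_ball_le _ (norm_dir θ) s hs)
    (len_ray_ball_le _ (by rw [norm_neg, norm_dir]) s hs)

lemma len_propAt_le (θ : ℝ) (s : ℝ) (hs : 0 ≤ s) :
    len (propAt 0 θ ∩ closedBall 0 s) ≤ ENNReal.ofReal (3 * s) := by
  unfold propAt
  rw [union_inter_distrib_right, union_inter_distrib_right, show 3 * s = (s + s) + s by ring,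
    ENNReal.ofReal_add (by positivity) hs, ENNReal.ofReal_add hs hs]
  refine (measure_union_le _ _).trans (add_le_add ((measure_union_le _ _).trans ?_) ?_)
  · exact add_le_add (len_ray_ball_le _ (norm_dir _) s hs) (len_ray_ball_le _ (norm_dir _) s hs)
  · exact len_ray_ball_le _ (norm_dir _) s hs




end Crest.Agent.R135.Rgm
end

-- ▼ part R135/Rgm2
section

/-!
# R135, block REGIME (helper288): blow-up limits of sequences of quasi-minimizers with moving
centres, readings at the original scale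
-/

set_option autoImplicit false

open MeasureTheory Set Filter Topology Metric
open scoped ENNReal NNReal

namespace Crest.Agent.R135.Rgm

open Crest.Agent.R135

/-- `(v, L)` is the limit of the blow-ups of `(u k, K k)` at the centres `y k` and scales `ρ k` -/
structure BU (u : ℕ → E2 → ℝ) (K : ℕ → Set E2) (y : ℕ → E2) (ρ : ℕ → ℝ) (v : E2 → ℝ)
    (L : Set E2) : Prop where
  qm : IsQM univ 0 v L
  conv : Conv (fun k => rescF (u k) (y k) (ρ k)) (fun k => rescK (K k) (y k) (ρ k)) v L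
  pos : ∀ k, 0 < ρ k
  vol : ∀ k, volume (K k) = 0

lemma isClosed_of_qm {v : E2 → ℝ} {L : Set E2} (h : IsQM univ 0 v L) : IsClosed L :=
  h.isClosed_univ

lemma Dr_mono {U : Set E2} {lam : ℝ} {u : E2 → ℝ} {K : Set E2} (h : IsQM U lam u K)
    {x x' : E2} {r r' : ℝ} (hb : ball x r ⊆ ball x' r') (hU : closedBall x' r' ⊆ U) :
    Dr u K x r ≤ Dr u K x' r' := by
  unfold Dr
  refine ENNReal.toReal_mono ?_ ?_
  · refine ne_of_lt (lt_of_le_of_lt ?_ (h.dir_fin x' r' hU))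
    unfold dirE
    exact lintegral_mono_set (sdiff_subset_sdiff_left ball_subset_closedBall)
  · unfold dirE
    exact lintegral_mono_set (sdiff_subset_sdiff_left hb)

lemma Dr_mono_center {U : Set E2} {lam : ℝ} {u : E2 → ℝ} {K : Set E2} (h : IsQM U lam u K)
    {x x' : E2} {r r' : ℝ} (hb : dist x x' + r ≤ r') (hU : closedBall x' r' ⊆ U) :
    Dr u K x r ≤ Dr u K x' r' := by
  refine Dr_mono h (fun z hz => ?_) hU
  rw [mem_ball] at hz ⊢
  have := dist_triangle z x x'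
  linarith


namespace BU

variable {u : ℕ → E2 → ℝ} {K : ℕ → Set E2} {y : ℕ → E2} {ρ : ℕ → ℝ} {v : E2 → ℝ} {L : Set E2}

lemma closed (h : BU u K y ρ v L) : IsClosed L := isClosed_of_qm h.qm

/-- energies at a fixed rescaled centre -/
lemma tendsto_Dr (h : BU u K y ρ v L) (z : E2) (R : ℝ) :
    Tendsto (fun k => Dr (u k) (K k) (y k + ρ k • z) (ρ k * R) / ρ k) atTop
      (𝓝 (Dr v L z R)) := by
  have h1 := h.conv.tendsto_Dr (fun k => volume_rescK_zero (h.vol k) (y k) (h.pos k))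
    (volume_K h.qm) (fun x r => h.qm.dir_fin x r (subset_univ _)) z R
  refine h1.congr fun k => ?_
  rw [Dr_resc (u k) (K k) (y k) z (h.pos k), div_eq_inv_mul]

lemma tendsto_Dr0 (h : BU u K y ρ v L) (R : ℝ) :
    Tendsto (fun k => Dr (u k) (K k) (y k) (ρ k * R) / ρ k) atTop (𝓝 (Dr v L 0 R)) := by
  have := h.tendsto_Dr 0 R
  simpa using this

/-- if the energies are small along a subsequence, so are those of the limit -/
lemma Dr_le (h : BU u K y ρ v L) {c R : ℝ}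
    (hk : ∃ᶠ k in atTop, Dr (u k) (K k) (y k) (ρ k * R) ≤ c * (ρ k * R)) :
    Dr v L 0 R ≤ c * R := by
  refine le_of_tendsto_of_frequently (h.tendsto_Dr0 R) (hk.mono fun k hk => ?_)
  rw [div_le_iff₀ (h.pos k)]
  linarith

lemma le_Dr (h : BU u K y ρ v L) {c R : ℝ}
    (hk : ∃ᶠ k in atTop, c * (ρ k * R) ≤ Dr (u k) (K k) (y k) (ρ k * R)) :
    c * R ≤ Dr v L 0 R := by
  refine ge_of_tendsto_of_frequently (h.tendsto_Dr0 R) (hk.mono fun k hk => ?_)
  rw [le_div_iff₀ (h.pos k)]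
  linarith

/-- closeness of the rescaled cracks to the limit -/
lemma hclose (h : BU u K y ρ v L) (R : ℝ) {ε : ℝ} (hε : 0 < ε) :
    ∀ᶠ k in atTop, HClose ε 0 R (rescK (K k) (y k) (ρ k)) L :=
  h.conv.hclose h.closed 0 R hε

lemma zero_mem (h : BU u K y ρ v L) (hy : ∃ᶠ k in atTop, y k ∈ K k) : (0 : E2) ∈ L := by
  have hF : FellTo (fun k => rescK (K k) (y k) (ρ k)) L := ⟨h.closed, h.conv.near, h.conv.away⟩
  refine hF.mem_of_frequently fun ε hε => hy.mono fun k hk => ⟨0, ?_, by rwa [dist_self]⟩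
  rw [mem_rescK, smul_zero, add_zero]
  exact hk

/-- closeness to a model read at the original scale -/
lemma hclose_model (h : BU u K y ρ v L) {R ε : ℝ} (hε : 0 < ε) :
    ∀ᶠ k in atTop, ∀ Y : Set E2, rescK Y (y k) (ρ k) = L →
      HClose (ε * ρ k) (y k) (R * ρ k) (K k) Y := by
  filter_upwards [h.hclose R hε] with k hk Y hY
  rw [← hY] at hk
  exact (hclose_resc_iff (h.pos k)).1 hk

/-- upper bound for the lengths, read at the original scale -/
lemma Lr_lt (h : BU u K y ρ v L) {R M : ℝ} (hM : Lr L 0 R < M) :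
    ∀ᶠ k in atTop, Lr (K k) (y k) (ρ k * R) < M * ρ k := by
  have h1 := h.conv.eventually_Lr_lt (xk := fun _ => 0) (rk := fun _ => R)
    (fun x r => h.qm.len_fin x r (subset_univ _)) h.closed.measurableSet tendsto_const_nhds
    tendsto_const_nhds hM
  filter_upwards [h1] with k hk
  have h2 : Lr (rescK (K k) (y k) (ρ k)) 0 R = (ρ k)⁻¹ * Lr (K k) (y k) (ρ k * R) := by
    rw [Lr_resc (K k) (y k) 0 (h.pos k) R]
    simp [scm]
  rw [h2, inv_mul_lt_iff₀ (h.pos k)] at hk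
  linarith

end BU

/-- **Blow-up compactness** for sequences of quasi-minimizers with moving centres. -/
theorem exists_BU {U : ℕ → Set E2} {lam : ℕ → ℝ} {u : ℕ → E2 → ℝ} {K : ℕ → Set E2}
    (h : ∀ k, IsQM (U k) (lam k) (u k) (K k)) {y : ℕ → E2} {ρ : ℕ → ℝ}
    (hρ : ∀ k, 0 < ρ k) (hρ1 : ∀ k, ρ k ≤ 1) (hlam : Tendsto (fun k => lam k * ρ k) atTop (𝓝 0))
    (hd : ∀ R : ℝ, ∀ᶠ k in atTop, closedBall (y k) (ρ k * R) ⊆ U k) :
    ∃ φ : ℕ → ℕ, StrictMono φ ∧ ∃ (v : E2 → ℝ) (L : Set E2),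
      BU (fun k => u (φ k)) (fun k => K (φ k)) (fun k => y (φ k)) (fun k => ρ (φ k)) v L := by
  obtain ⟨φ, hφ, v, L, hq, hc⟩ := ct_extract h hρ (by
    refine squeeze_zero (g := fun k => 2 * (lam k * ρ k)) (fun k => ?_) (fun k => ?_) ?_
    · have h1 := (h k).lam_nonneg
      have h2 := hρ k
      positivity
    · have h1 := (h k).lam_nonneg
      have h2 := hρ k
      have h3 : √(ρ k) ≤ 1 := Real.sqrt_le_one.2 (hρ1 k)
      have h4 : 0 ≤ ρ k * lam k := by positivity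
      nlinarith
    · simpa using hlam.const_mul 2) hd
  exact ⟨φ, hφ, v, L, hq, hc, fun k => hρ _, fun k => volume_K (h _)⟩

end Crest.Agent.R135.Rgm
end

-- ▼ part R135/Rgm3
section

/-!
# R135, block REGIME (helper288): propagation of smallness, limits of line-like and propeller-like
sequences
-/

set_option autoImplicit false

open MeasureTheory Set Filter Topology Metric
open scoped ENNReal NNReal

namespace Crest.Agent.R135.Rgm

open Crest.Agent.R135

/-- almost maximal bad scale -/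
lemma exists_almost_max {P : ℝ → Prop} {M ρ : ℝ} (hρ : 0 < ρ) (hM : ρ ≤ M) (hP : P ρ) :
    ∃ σ, ρ ≤ σ ∧ σ ≤ M ∧ P σ ∧ ∀ τ, 2 * σ ≤ τ → τ ≤ M → ¬ P τ := by
  set S := {σ | ρ ≤ σ ∧ σ ≤ M ∧ P σ} with hS
  have hρS : ρ ∈ S := ⟨le_rfl, hM, hP⟩
  have hbdd : BddAbove S := ⟨M, fun σ hσ => hσ.2.1⟩
  have h1 : ρ ≤ sSup S := le_csSup hbdd hρS
  obtain ⟨σ, hσ, hσ2⟩ := exists_lt_of_lt_csSup ⟨ρ, hρS⟩ (show sSup S / 2 < sSup S by linarith)
  refine ⟨σ, hσ.1, hσ.2.1, hσ.2.2, fun τ hτ hτM hPτ => ?_⟩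
  have h2 : τ ≤ sSup S := le_csSup hbdd ⟨by linarith [hσ.1], hτM, hPτ⟩
  linarith

lemma isModel_of_line {L : Set E2} (hL : IsLine L) : ∃ p θ, L = lineAt p θ := by
  obtain ⟨p, e, he, rfl⟩ := hL
  obtain ⟨θ, -, rfl⟩ := exists_dir_eq e he 0
  exact ⟨p, θ, rfl⟩

section Lim

variable {u : ℕ → E2 → ℝ} {K : ℕ → Set E2} {y : ℕ → E2} {ρ : ℕ → ℝ} {v : E2 → ℝ} {L : Set E2}

/-- limit of blow-ups with small energies at all large scales: zero energy, line or propeller -/
theorem BU.limit_model (hBU : BU u K y ρ v L) (hy : ∃ᶠ k in atTop, y k ∈ K k) {ε : ℝ}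
    (hε : ε < 1)
    (hD : ∀ R : ℝ, 2 ≤ R → ∃ᶠ k in atTop, Dr (u k) (K k) (y k) (ρ k * R) ≤ ε * (ρ k * R)) :
    (∀ x r, Dr v L x r = 0) ∧ ((∃ p θ, L = lineAt p θ) ∨ ∃ p θ, L = propAt p θ) := by
  obtain ⟨-, h1, h2⟩ := gm_shape hBU.qm (x := 0) hε (Eventually.frequently (by
    filter_upwards [eventually_ge_atTop (2:ℝ)] with R hR
    exact hBU.Dr_le (hD R hR)))
  refine ⟨h1, ?_⟩
  rcases h2 with h2 | h2 | ⟨x, h2⟩
  · have := hBU.zero_mem hy
    rw [h2] at this
    exact absurd this (notMem_empty _)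
  · exact Or.inl (isModel_of_line h2)
  · obtain ⟨θ, h2⟩ := h2
    exact Or.inr ⟨x, θ, h2⟩



/-- transfer of closeness from the rescaled cracks to the limit -/
lemma BU.limit_close (hBU : BU u K y ρ v L) {Y : ℝ → Set E2} {δ R R' : ℝ} (hδ : 0 < δ)
    (hR : R' ≤ R - 2 * δ)
    (hk : ∃ᶠ k in atTop, ∃ θ, HClose δ 0 R (rescK (K k) (y k) (ρ k)) (Y θ)) :
    ∃ θ, HClose (2 * δ) 0 R' L (Y θ) := by
  obtain ⟨k, ⟨θ, h1⟩, h2⟩ := (hk.and_eventually (hBU.hclose R hδ)).exists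
  refine ⟨θ, ?_⟩
  have h3 := h2.symm.trans h1 hδ.le hδ.le
  rw [max_self] at h3
  exact h3.mono_ball' (by linarith) (by rw [dist_self]; linarith)

/-- a limit of line-like sets is a line -/
theorem BU.limit_line (hBU : BU u K y ρ v L) (hy : ∃ᶠ k in atTop, y k ∈ K k)
    (hmod : (∃ p θ, L = lineAt p θ) ∨ ∃ p θ, L = propAt p θ)
    (hln : ∀ R : ℝ, 1 ≤ R → ∃ᶠ k in atTop, Ln (1 / 400) (K k) (y k) (R * ρ k)) :
    ∃ θ, L = lineAt 0 θ := by
  have h0 := hBU.zero_mem hy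
  rcases hmod with ⟨p, θ, hL⟩ | ⟨c, θ, hL⟩
  · refine ⟨θ, ?_⟩
    rw [hL] at h0 ⊢
    exact (lineAt_eq_of_mem h0).symm
  · exfalso
    set R := 8 * dist c 0 + 1 with hR
    have hR1 : 1 ≤ R := by have := dist_nonneg (x := c) (y := (0:E2)); linarith
    obtain ⟨φ, hφ⟩ := hBU.limit_close (Y := fun θ => lineAt 0 θ) (δ := R / 400) (R := R)
      (R' := R / 2) (by positivity) (by linarith) ((hln R hR1).mono fun k hk => by
        obtain ⟨θ, h1⟩ := (ln_resc_iff (hBU.pos k)).2 hk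
        exact ⟨θ, by rwa [one_div_mul_eq_div] at h1⟩)
    rw [hL] at hφ
    refine not_ln_propAt (R := R / 2) (by positivity) ?_ (by positivity) ?_ hφ
    · have := dist_nonneg (x := c) (y := (0:E2)); linarith
    · linarith

/-- a limit of sets which are propeller-like about the centre at all scales is a centred
propeller -/
theorem BU.limit_prop (hBU : BU u K y ρ v L)
    (hmod : (∃ p θ, L = lineAt p θ) ∨ ∃ p θ, L = propAt p θ)
    (hpr : ∀ R : ℝ, 0 < R → ∃ᶠ k in atTop, Pr (1 / 100000) (K k) (y k) (R * ρ k)) :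
    ∃ θ, L = propAt 0 θ := by
  have hlim : ∀ R : ℝ, 0 < R → ∃ φ, HClose (1 / 10000 * R) 0 R L (propAt 0 φ) := by
    intro R hR
    obtain ⟨φ, hφ⟩ := hBU.limit_close (Y := fun θ => propAt 0 θ) (δ := 1 / 100000 * (2 * R))
      (R := 2 * R) (R' := R) (by positivity) (by linarith)
      ((hpr (2 * R) (by positivity)).mono fun k hk => (pr_resc_iff (hBU.pos k)).2 hk)
    exact ⟨φ, hφ.mono_eps (by linarith)⟩
  rcases hmod with ⟨p, θ, hL⟩ | ⟨c, θ, hL⟩
  · exfalso
    obtain ⟨φ, hφ⟩ := hlim 1 one_pos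
    rw [hL] at hφ
    exact not_pr_lineAt (c := 0) one_pos (by simp) (by norm_num) (by norm_num) hφ
  · refine ⟨θ, ?_⟩
    rw [hL] at hlim ⊢
    rw [centre_eq_zero (by norm_num) le_rfl hlim]

end Lim

/-- from closeness to a line at one scale and flatness at all points and smaller scales to
line-likeness -/
theorem ln_of_line {η δ R : ℝ} {K : Set E2} {y0 p : E2} {φ : ℝ} (hη : 0 < η) (hη1 : η ≤ 1 / 1000)
    (_hR : 0 < R) (hδ0 : 0 ≤ δ) (hδ : δ ≤ R / 3200) (hl : HClose δ y0 R K (lineAt p φ))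
    (hF : ∀ y ∈ K, dist y y0 ≤ R → ∀ ρ, 0 < ρ → ρ ≤ R → Fl η K y ρ) :
    ∀ y ∈ K, dist y y0 ≤ R / 4 → ∀ ρ, 0 < ρ → ρ ≤ R / 64 → Ln (16 * η) K y ρ := by
  intro y hy hyd ρ hρ hρR
  have hFy : ∀ ρ', 0 < ρ' → ρ' ≤ R → Fl η K y ρ' := fun ρ' h1 h2 => hF y hy (by linarith) ρ' h1 h2
  have hnT : ¬ Tr η K y (8 * ρ) := by
    intro hT
    obtain ⟨ρ', h1, h2, hT'⟩ := hT.up_to (M := R / 2) (by positivity) hη hη1 (by linarith)
      (fun ρ' h1 h2 => hFy ρ' h1 (by linarith))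
    refine hT'.not_line (by linarith) hη.le (by linarith) hδ0 ?_ ?_ hl
    · linarith
    · linarith
  have := (hFy (8 * ρ) (by positivity) (by linarith)).line_of_not_Tr (by positivity) hη hη1 hy hnT
  rwa [mul_div_cancel_left₀ ρ (by norm_num : (8:ℝ) ≠ 0)] at this

/-- smallness propagates, `ε ≤ 1/2` -/
theorem small_propagates_aux (ε : ℝ) (hε : 0 < ε) (hε1 : ε ≤ 1 / 2) : ∃ ε₀ : ℝ, 0 < ε₀ ∧
    ∀ {U : Set E2} {lam : ℝ} {u : E2 → ℝ} {K : Set E2}, IsQM U lam u K →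
      ∀ x ∈ K, ∀ r : ℝ, 0 < r → r ≤ 1 → closedBall x r ⊆ U → lam * r ≤ ε₀ →
        Dr u K x r ≤ ε₀ * r →
        ∀ y ∈ K, dist y x ≤ r / 2 → ∀ ρ : ℝ, 0 < ρ → ρ ≤ r / 2 → Dr u K y ρ ≤ ε * ρ := by
  by_contra hcon
  push Not at hcon
  have hk : ∀ k : ℕ, ∃ (U : Set E2) (lam : ℝ) (u : E2 → ℝ) (K : Set E2), IsQM U lam u K ∧
      ∃ x ∈ K, ∃ r : ℝ, 0 < r ∧ r ≤ 1 ∧ closedBall x r ⊆ U ∧ lam * r ≤ 1 / ((k:ℝ) + 1) ∧
        Dr u K x r ≤ 1 / ((k:ℝ) + 1) * r ∧
        ∃ y ∈ K, dist y x ≤ r / 2 ∧ ∃ ρ : ℝ, 0 < ρ ∧ ρ ≤ r / 2 ∧ ε * ρ < Dr u K y ρ := by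
    intro k
    obtain ⟨U, lam, u, K, hqm, x, hx, r, hr, hr1, hb, hl, hD, y, hy, hyx, ρ, hρ, hρr, hbad⟩ :=
      hcon (1 / ((k:ℝ) + 1)) (by positivity)
    exact ⟨U, lam, u, K, hqm, x, hx, r, hr, hr1, hb, hl, hD, y, hy, hyx, ρ, hρ, hρr, hbad⟩
  choose U lam u K hqm x hx r hr hr1 hb hl hD y hy hyx ρ hρ hρr hbad using hk
  have hmax := fun k => exists_almost_max (P := fun σ => ε * σ < Dr (u k) (K k) (y k) σ) (hρ k)
    (hρr k) (hbad k)
  choose σ hσ1 hσ2 hσ3 hσ4 using hmax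
  have hσ0 : ∀ k, 0 < σ k := fun k => (hρ k).trans_le (hσ1 k)
  -- the bad scale is much smaller than `r k`
  have hσr : ∀ k : ℕ, ε * σ k * ((k:ℝ) + 1) ≤ r k := by
    intro k
    have h1 : Dr (u k) (K k) (y k) (σ k) ≤ Dr (u k) (K k) (x k) (r k) :=
      Dr_mono_center (hqm k) (by linarith [hyx k, hσ2 k]) (hb k)
    have h4 : (0:ℝ) < (k:ℝ) + 1 := by positivity
    have h5 : ε * σ k < r k / ((k:ℝ) + 1) := by
      have := lt_of_lt_of_le (hσ3 k) (h1.trans (hD k))
      rwa [one_div_mul_eq_div ((k:ℝ) + 1)] at this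
    rw [lt_div_iff₀ h4] at h5
    linarith
  obtain ⟨φ, hφ, v, L, hBU⟩ := exists_BU hqm (y := y) (ρ := σ) hσ0
    (fun k => by linarith [hσ2 k, hr1 k]) (by
      refine squeeze_zero (g := fun k : ℕ => 1 / ((k:ℝ) + 1)) (fun k => ?_) (fun k => ?_)
        tendsto_one_div_add_atTop_nhds_zero_nat
      · exact mul_nonneg (hqm k).lam_nonneg (hσ0 k).le
      · refine (mul_le_mul_of_nonneg_left ?_ (hqm k).lam_nonneg).trans (hl k)
        linarith [hσ2 k, hr k]) (by
      intro R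
      have h1 : ∀ᶠ k : ℕ in atTop, 2 * |R| / ε ≤ (k:ℝ) + 1 := by
        filter_upwards [(tendsto_natCast_atTop_atTop (R := ℝ)).eventually
          (eventually_ge_atTop (2 * |R| / ε))] with k hk
        linarith
      filter_upwards [h1] with k hk
      refine (closedBall_subset_closedBall' ?_).trans (hb k)
      have h2 := hσr k
      have h3 : σ k * |R| ≤ r k / 2 := by
        rw [div_le_iff₀ hε] at hk
        nlinarith [hσ0 k]
      have h4 : σ k * R ≤ σ k * |R| := mul_le_mul_of_nonneg_left (le_abs_self R) (hσ0 k).le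
      linarith [hyx k])
  have hφt : Tendsto φ atTop atTop := hφ.tendsto_atTop
  have hz := (hBU.limit_model (Frequently.of_forall fun k => hy _) (ε := ε) (by linarith) (by
    intro R hR
    refine Eventually.frequently ?_
    have h1 : ∀ᶠ k : ℕ in atTop, 2 * R / ε ≤ (k:ℝ) + 1 := by
      filter_upwards [(tendsto_natCast_atTop_atTop (R := ℝ)).eventually
        (eventually_ge_atTop (2 * R / ε))] with k hk
      linarith
    filter_upwards [hφt.eventually h1] with k hk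
    by_contra hcon2
    push Not at hcon2
    refine hσ4 (φ k) (σ (φ k) * R) ?_ ?_ hcon2
    · nlinarith [hσ0 (φ k)]
    · have h2 := hσr (φ k)
      rw [div_le_iff₀ hε] at hk
      nlinarith [hσ0 (φ k)])).1 0 1
  have h2 : ε * 1 ≤ Dr v L 0 1 := by
    refine hBU.le_Dr (Frequently.of_forall fun k => ?_)
    rw [mul_one]
    exact (hσ3 (φ k)).le
  rw [hz] at h2
  linarith

end Crest.Agent.R135.Rgm

namespace Crest.Agent.R135

theorem small_propagates' (ε : ℝ) (hε : 0 < ε) : ∃ ε₀ : ℝ, 0 < ε₀ ∧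
    ∀ {U : Set E2} {lam : ℝ} {u : E2 → ℝ} {K : Set E2}, IsQM U lam u K →
      ∀ x ∈ K, ∀ r : ℝ, 0 < r → r ≤ 1 → closedBall x r ⊆ U → lam * r ≤ ε₀ →
        Dr u K x r ≤ ε₀ * r →
        ∀ y ∈ K, dist y x ≤ r / 2 → ∀ ρ : ℝ, 0 < ρ → ρ ≤ r / 2 → Dr u K y ρ ≤ ε * ρ := by
  obtain ⟨ε₀, h0, h1⟩ := Rgm.small_propagates_aux (min ε (1 / 2)) (by positivity)
    (min_le_right _ _)
  refine ⟨ε₀, h0, fun hqm x hx r hr hr1 hb hl hD y hy hyx ρ hρ hρr => ?_⟩
  refine (h1 hqm x hx r hr hr1 hb hl hD y hy hyx ρ hρ hρr).trans ?_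
  exact mul_le_mul_of_nonneg_right (min_le_left _ _) hρ.le

end Crest.Agent.R135
end

-- ▼ part R135/IF_small_propagates
section

/-! INTERFACE small_propagates: complete (helper288, Rgm3.lean). -/

set_option autoImplicit false

open MeasureTheory Set Filter Topology Metric
open scoped ENNReal NNReal ContDiff Gradient
open Crest.AnalysisR.PDE.OnePhase Crest.AnalysisR.PDE.MumfordShah

namespace Crest.Agent.R135

/-- (2.2) smallness of the energy density propagates to all centres and all smaller scales.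
[Largest bad scale `ρ_n` at `y_n`: `ρ_n/r_n → 0` since `Dr y ρ ≤ Dr x r`; blow up: global object
with density `≤ ε < 1` at all scales `≥ 2`, so `gm_shape`: `Dr = 0`, contradiction.] -/
theorem small_propagates (ε : ℝ) (hε : 0 < ε) : ∃ ε₀ : ℝ, 0 < ε₀ ∧
    ∀ {U : Set E2} {lam : ℝ} {u : E2 → ℝ} {K : Set E2}, IsQM U lam u K →
      ∀ x ∈ K, ∀ r : ℝ, 0 < r → r ≤ 1 → closedBall x r ⊆ U → lam * r ≤ ε₀ →
        Dr u K x r ≤ ε₀ * r →
        ∀ y ∈ K, dist y x ≤ r / 2 → ∀ ρ : ℝ, 0 < ρ → ρ ≤ r / 2 → Dr u K y ρ ≤ ε * ρ :=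
  small_propagates' ε hε

end Crest.Agent.R135
end

-- ▼ part R135/Rgm4
section

/-!
# R135, block REGIME (helper288): `shape_of_small`
-/

set_option autoImplicit false

open MeasureTheory Set Filter Topology Metric
open scoped ENNReal NNReal

namespace Crest.Agent.R135.Rgm

open Crest.Agent.R135

section Lim

variable {u : ℕ → E2 → ℝ} {K : ℕ → Set E2} {y : ℕ → E2} {ρ : ℕ → ℝ} {v : E2 → ℝ} {L : Set E2}

lemma Lr_lineAt_le (θ : ℝ) {s : ℝ} (hs : 0 ≤ s) : Lr (lineAt 0 θ) 0 s ≤ 2 * s :=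
  ENNReal.toReal_le_of_le_ofReal (by positivity) (len_lineAt_le θ s hs)

lemma Lr_propAt_le (θ : ℝ) {s : ℝ} (hs : 0 ≤ s) : Lr (propAt 0 θ) 0 s ≤ 3 * s :=
  ENNReal.toReal_le_of_le_ofReal (by positivity) (len_propAt_le θ s hs)


/-- if the limit is a line through the origin, the blown up sets are line-like with length
close to `2 ρ` -/
theorem BU.line_good (hBU : BU u K y ρ v L) (hy : ∀ k, y k ∈ K k) {θ : ℝ} (hL : L = lineAt 0 θ)
    {η : ℝ} (hη : 0 < η) :
    ∀ᶠ k in atTop, LineLike η (K k) (y k) (ρ k) ∧ Lr (K k) (y k) (ρ k) ≤ (2 + η) * ρ k := by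
  have h1 := hBU.hclose_model (R := 2) (ε := min (η / 2) (1 / 2)) (by positivity)
  have h2 := hBU.Lr_lt (R := 1) (M := 2 + η) (by
    rw [hL]
    have := Lr_lineAt_le θ (s := 1) zero_le_one
    linarith)
  filter_upwards [h1, h2] with k hk1 hk2
  have hρ := hBU.pos k
  refine ⟨⟨dir θ, ?_⟩, by rw [mul_one] at hk2; exact hk2.le⟩
  have h3 := hk1 (lineAt (y k) θ) (by rw [rescK_lineAt _ _ hρ, hL])
  have h4 : min (η / 2) (1 / 2) ≤ 1 / 2 := min_le_right _ _
  have h5 : min (η / 2) (1 / 2) ≤ η / 2 := min_le_left _ _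
  have h6 := Arc.flat_of_hclose (ρ := ρ k) (norm_dir θ) (by positivity) (hy k) (by nlinarith)
    (by positivity) h3
  refine ⟨h6.1, fun z hz hd => (h6.2.1 z hz hd).trans ?_, fun t ht => ?_⟩
  · nlinarith
  · obtain ⟨z, hz, hd⟩ := h6.2.2 t ht
    exact ⟨z, hz, hd.trans (by nlinarith)⟩

/-- if the limit is a propeller, the blown up sets are close to propellers -/
theorem BU.prop_good (hBU : BU u K y ρ v L) {c : E2} {θ : ℝ} (hL : L = propAt c θ)
    {η : ℝ} (hη : 0 < η) :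
    ∀ᶠ k in atTop, HClose (η * ρ k) (y k) (ρ k) (K k) (propAt (scm (y k) (ρ k) c) θ) ∧
      Lr (K k) (y k) (ρ k) ≤ Lr (propAt (scm (y k) (ρ k) c) θ) (y k) (ρ k) + η * ρ k := by
  have h1 := hBU.hclose_model (R := 1) hη
  have h2 := hBU.Lr_lt (R := 1) (M := Lr L 0 1 + η) (by linarith)
  filter_upwards [h1, h2] with k hk1 hk2
  have hρ := hBU.pos k
  have hP : rescK (propAt (scm (y k) (ρ k) c) θ) (y k) (ρ k) = L := by
    rw [rescK_propAt' _ _ _ hρ, scI_scm _ hρ.ne', hL]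
  refine ⟨?_, ?_⟩
  · have := hk1 _ hP
    rwa [one_mul] at this
  · have h3 : Lr L 0 1 = (ρ k)⁻¹ * Lr (propAt (scm (y k) (ρ k) c) θ) (y k) (ρ k) := by
      rw [← hP, Lr_resc _ _ _ hρ]
      simp [scm]
    rw [mul_one] at hk2
    have h4 : (Lr L 0 1 + η) * ρ k =
        Lr (propAt (scm (y k) (ρ k) c) θ) (y k) (ρ k) + η * ρ k := by
      rw [h3, add_mul, inv_mul_eq_div, div_mul_cancel₀ _ hρ.ne']
    linarith

end Lim

end Crest.Agent.R135.Rgm

namespace Crest.Agent.R135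

open Rgm in
theorem shape_of_small' (η : ℝ) (hη : 0 < η) : ∃ ε₀ : ℝ, 0 < ε₀ ∧
    ∀ {U : Set E2} {lam : ℝ} {u : E2 → ℝ} {K : Set E2}, IsQM U lam u K →
      ∀ y ∈ K, ∀ ρ : ℝ, 0 < ρ → ρ ≤ 1 → closedBall y (ρ / ε₀) ⊆ U → lam * ρ ≤ ε₀ →
        (∀ s : ℝ, ρ ≤ s → s ≤ ρ / ε₀ → Dr u K y s ≤ ε₀ * s) →
        (LineLike η K y ρ ∧ Lr K y ρ ≤ (2 + η) * ρ) ∨
          ∃ (v : E2) (P : Set E2), IsProp P v ∧ HClose (η * ρ) y ρ K P ∧
            Lr K y ρ ≤ Lr P y ρ + η * ρ := by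
  by_contra hcon
  push Not at hcon
  have hk : ∀ k : ℕ, ∃ (U : Set E2) (lam : ℝ) (u : E2 → ℝ) (K : Set E2), IsQM U lam u K ∧
      ∃ y ∈ K, ∃ ρ : ℝ, 0 < ρ ∧ ρ ≤ 1 ∧ closedBall y (ρ * ((k:ℝ) + 1)) ⊆ U ∧
        lam * ρ ≤ 1 / ((k:ℝ) + 1) ∧
        (∀ s : ℝ, ρ ≤ s → s ≤ ρ * ((k:ℝ) + 1) → Dr u K y s ≤ 1 / ((k:ℝ) + 1) * s) ∧
        ¬ (LineLike η K y ρ ∧ Lr K y ρ ≤ (2 + η) * ρ) ∧
        ¬ ∃ (v : E2) (P : Set E2), IsProp P v ∧ HClose (η * ρ) y ρ K P ∧
            Lr K y ρ ≤ Lr P y ρ + η * ρ := by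
    intro k
    obtain ⟨U, lam, u, K, hqm, y, hy, ρ, hρ, hρ1, hb, hl, hD, h1, h2⟩ :=
      hcon (1 / ((k:ℝ) + 1)) (by positivity)
    have hdiv : ρ / (1 / ((k:ℝ) + 1)) = ρ * ((k:ℝ) + 1) := by rw [div_div_eq_mul_div, div_one]
    rw [hdiv] at hb hD
    exact ⟨U, lam, u, K, hqm, y, hy, ρ, hρ, hρ1, hb, hl, hD, fun h => absurd (h1 h.1) (not_lt.2 h.2),
      fun ⟨v, P, hP, hc, hL⟩ => absurd (h2 v P hP hc) (not_lt.2 hL)⟩
  choose U lam u K hqm y hy ρ hρ hρ1 hb hl hD hbad1 hbad2 using hk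
  have hlarge : ∀ R : ℝ, ∀ᶠ k : ℕ in atTop, R ≤ (k:ℝ) + 1 := by
    intro R
    filter_upwards [(tendsto_natCast_atTop_atTop (R := ℝ)).eventually (eventually_ge_atTop R)]
      with k hk
    linarith
  obtain ⟨φ, hφ, v, L, hBU⟩ := exists_BU hqm (y := y) (ρ := ρ) hρ hρ1 (by
      refine squeeze_zero (g := fun k : ℕ => 1 / ((k:ℝ) + 1)) (fun k => ?_) hl
        tendsto_one_div_add_atTop_nhds_zero_nat
      exact mul_nonneg (hqm k).lam_nonneg (hρ k).le) (by
      intro R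
      filter_upwards [hlarge R] with k hk
      exact (closedBall_subset_closedBall (mul_le_mul_of_nonneg_left hk (hρ k).le)).trans (hb k))
  have hφt : Tendsto φ atTop atTop := hφ.tendsto_atTop
  obtain ⟨-, hmod⟩ := hBU.limit_model (Frequently.of_forall fun k => hy _) (ε := 1 / 2)
    (by norm_num) (by
    intro R hR
    refine Eventually.frequently ?_
    filter_upwards [hφt.eventually (hlarge R)] with k hk
    refine (hD (φ k) _ ?_ ?_).trans ?_
    · nlinarith [hρ (φ k)]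
    · exact mul_le_mul_of_nonneg_left hk (hρ _).le
    · have h1 : (1:ℝ) / ((φ k : ℝ) + 1) ≤ 1 / 2 :=
        one_div_le_one_div_of_le (by norm_num) (by linarith)
      have h2 : 0 ≤ ρ (φ k) * R := by have := hρ (φ k); positivity
      exact mul_le_mul_of_nonneg_right h1 h2)
  rcases hmod with ⟨p, θ, hL⟩ | ⟨c, θ, hL⟩
  · have h0 := hBU.zero_mem (Frequently.of_forall fun k => hy _)
    rw [hL] at h0
    obtain ⟨k, hk⟩ := (hBU.line_good (fun k => hy _) (hL.trans (lineAt_eq_of_mem h0).symm) hη).exists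
    exact hbad1 (φ k) hk
  · obtain ⟨k, hk1, hk2⟩ := (hBU.prop_good hL hη).exists
    exact hbad2 (φ k) ⟨_, _, ⟨θ, rfl⟩, hk1, hk2⟩

end Crest.Agent.R135
end

-- ▼ part R135/IF_shape_of_small
section

/-! INTERFACE shape_of_small: complete (helper288, Rgm4.lean). -/

set_option autoImplicit false

open MeasureTheory Set Filter Topology Metric
open scoped ENNReal NNReal ContDiff Gradient
open Crest.AnalysisR.PDE.OnePhase Crest.AnalysisR.PDE.MumfordShah

namespace Crest.Agent.R135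

/-- (2.3) small density on a long range of scales above `ρ`: closeness to a line through `y`
(with the length bound) or to a propeller -/
theorem shape_of_small (η : ℝ) (hη : 0 < η) : ∃ ε₀ : ℝ, 0 < ε₀ ∧
    ∀ {U : Set E2} {lam : ℝ} {u : E2 → ℝ} {K : Set E2}, IsQM U lam u K →
      ∀ y ∈ K, ∀ ρ : ℝ, 0 < ρ → ρ ≤ 1 → closedBall y (ρ / ε₀) ⊆ U → lam * ρ ≤ ε₀ →
        (∀ s : ℝ, ρ ≤ s → s ≤ ρ / ε₀ → Dr u K y s ≤ ε₀ * s) →
        (LineLike η K y ρ ∧ Lr K y ρ ≤ (2 + η) * ρ) ∨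
          ∃ (v : E2) (P : Set E2), IsProp P v ∧ HClose (η * ρ) y ρ K P ∧
            Lr K y ρ ≤ Lr P y ρ + η * ρ :=
  shape_of_small' η hη

end Crest.Agent.R135
end

-- ▼ part R135/LSh1
section

/-!
# R135, block REGIME (helper288): control of shape and length by compactness, for points which
are line-like / propeller-like at all large scales
-/

set_option autoImplicit false

open MeasureTheory Set Filter Topology Metric
open scoped ENNReal NNReal

namespace Crest.Agent.R135.LSh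

open Crest.Agent.R135 Crest.Agent.R135.Rgm

/-- smallness at `(y, ρ)`, with parameter `δ` -/
structure Small (δ : ℝ) (U : Set E2) (lam : ℝ) (u : E2 → ℝ) (K : Set E2) (y : E2) (ρ : ℝ) :
    Prop where
  qm : IsQM U lam u K
  mem : y ∈ K
  pos : 0 < ρ
  le_one : ρ ≤ 1
  sub : closedBall y (ρ / δ) ⊆ U
  lam_le : lam * ρ ≤ δ
  en : ∀ s : ℝ, ρ ≤ s → s ≤ ρ / δ → Dr u K y s ≤ δ * s

lemma large (R : ℝ) : ∀ᶠ k : ℕ in atTop, R ≤ (k:ℝ) + 1 := by
  filter_upwards [(tendsto_natCast_atTop_atTop (R := ℝ)).eventually (eventually_ge_atTop R)]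
    with k hk
  linarith

lemma div_inv_nat (ρ : ℝ) (k : ℕ) : ρ / (1 / ((k:ℝ) + 1)) = ρ * ((k:ℝ) + 1) := by
  rw [div_div_eq_mul_div, div_one]

theorem exists_BU_of_small {U : ℕ → Set E2} {lam : ℕ → ℝ} {u : ℕ → E2 → ℝ} {K : ℕ → Set E2}
    {y : ℕ → E2} {ρ : ℕ → ℝ}
    (h : ∀ k : ℕ, Small (1 / ((k:ℝ) + 1)) (U k) (lam k) (u k) (K k) (y k) (ρ k)) :
    ∃ φ : ℕ → ℕ, StrictMono φ ∧ ∃ (v : E2 → ℝ) (L : Set E2),
      BU (fun k => u (φ k)) (fun k => K (φ k)) (fun k => y (φ k)) (fun k => ρ (φ k)) v L ∧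
      (0 : E2) ∈ L ∧ ((∃ p θ, L = lineAt p θ) ∨ ∃ p θ, L = propAt p θ) := by
  have hρ := fun k => (h k).pos
  obtain ⟨φ, hφ, v, L, hBU⟩ := exists_BU (fun k => (h k).qm) (y := y) (ρ := ρ) hρ
    (fun k => (h k).le_one) (by
      refine squeeze_zero (g := fun k : ℕ => 1 / ((k:ℝ) + 1)) (fun k => ?_) (fun k => (h k).lam_le)
        tendsto_one_div_add_atTop_nhds_zero_nat
      exact mul_nonneg (h k).qm.lam_nonneg (hρ k).le) (by
      intro R
      filter_upwards [large R] with k hk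
      refine (closedBall_subset_closedBall ?_).trans (h k).sub
      rw [div_inv_nat]
      exact mul_le_mul_of_nonneg_left hk (hρ k).le)
  have hφt : Tendsto φ atTop atTop := hφ.tendsto_atTop
  obtain ⟨-, hmod⟩ := hBU.limit_model (Frequently.of_forall fun k => (h _).mem) (ε := 1 / 2)
    (by norm_num) (by
    intro R hR
    refine Eventually.frequently ?_
    filter_upwards [hφt.eventually (large R)] with k hk
    refine ((h (φ k)).en _ ?_ ?_).trans ?_
    · nlinarith [hρ (φ k)]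
    · rw [div_inv_nat]
      exact mul_le_mul_of_nonneg_left hk (hρ _).le
    · have h1 : (1:ℝ) / ((φ k : ℝ) + 1) ≤ 1 / 2 :=
        one_div_le_one_div_of_le (by norm_num) (by linarith)
      have h2 : 0 ≤ ρ (φ k) * R := by have := hρ (φ k); positivity
      exact mul_le_mul_of_nonneg_right h1 h2)
  exact ⟨φ, hφ, v, L, hBU, hBU.zero_mem (Frequently.of_forall fun k => (h _).mem), hmod⟩

lemma Small.mono {δ δ' : ℝ} {U : Set E2} {lam : ℝ} {u : E2 → ℝ} {K : Set E2} {y : E2} {ρ : ℝ}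
    (h : Small δ U lam u K y ρ) (hδ : 0 < δ) (hle : δ ≤ δ') : Small δ' U lam u K y ρ := by
  have hρ := h.pos
  have h1 : ρ / δ' ≤ ρ / δ := div_le_div_of_nonneg_left hρ.le hδ hle
  exact ⟨h.qm, h.mem, h.pos, h.le_one, (closedBall_subset_closedBall h1).trans h.sub,
    h.lam_le.trans hle, fun s hs hs' => (h.en s hs (hs'.trans h1)).trans
      (mul_le_mul_of_nonneg_right hle (by linarith))⟩

/-- line-like at all large scales, small density: close to a line with length bound -/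
theorem line_ctrl (ε : ℝ) (hε : 0 < ε) : ∃ δ : ℝ, 0 < δ ∧ δ ≤ 1 ∧
    ∀ {U : Set E2} {lam : ℝ} {u : E2 → ℝ} {K : Set E2} {y : E2} {ρ : ℝ},
      Small δ U lam u K y ρ → (∀ s, ρ ≤ s → s ≤ ρ / δ → Ln (1 / 400) K y s) →
        LineLike ε K y ρ ∧ Lr K y ρ ≤ (2 + ε) * ρ := by
  by_contra hcon
  push Not at hcon
  have hk : ∀ k : ℕ, ∃ (U : Set E2) (lam : ℝ) (u : E2 → ℝ) (K : Set E2) (y : E2) (ρ : ℝ),
      Small (1 / ((k:ℝ) + 1)) U lam u K y ρ ∧
      (∀ s, ρ ≤ s → s ≤ ρ * ((k:ℝ) + 1) → Ln (1 / 400) K y s) ∧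
      ¬ (LineLike ε K y ρ ∧ Lr K y ρ ≤ (2 + ε) * ρ) := by
    intro k
    obtain ⟨U, lam, u, K, y, ρ, h1, h2, h3⟩ := hcon (1 / ((k:ℝ) + 1)) (by positivity)
      (by rw [div_le_one (by positivity)]; linarith [(Nat.cast_nonneg k : (0:ℝ) ≤ k)])
    rw [div_inv_nat] at h2
    exact ⟨U, lam, u, K, y, ρ, h1, h2, fun h => absurd (h3 h.1) (not_lt.2 h.2)⟩
  choose U lam u K y ρ hS hln hbad using hk
  obtain ⟨φ, hφ, v, L, hBU, h0, hmod⟩ := exists_BU_of_small hS
  have hφt : Tendsto φ atTop atTop := hφ.tendsto_atTop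
  have hy : ∀ k, y (φ k) ∈ K (φ k) := fun k => (hS _).mem
  obtain ⟨θ, hL⟩ := hBU.limit_line (Frequently.of_forall hy) hmod (by
    intro R hR
    refine Eventually.frequently ?_
    filter_upwards [hφt.eventually (large R)] with k hk
    have hp := (hS (φ k)).pos
    exact hln (φ k) _ (by nlinarith) (by nlinarith))
  obtain ⟨k, hk⟩ := (hBU.line_good hy hL hε).exists
  exact hbad (φ k) hk

/-- propeller-like at all scales, small density: close to a propeller with length bound -/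
theorem prop_ctrl (ε : ℝ) (hε : 0 < ε) : ∃ δ : ℝ, 0 < δ ∧ δ ≤ 1 ∧
    ∀ {U : Set E2} {lam : ℝ} {u : E2 → ℝ} {K : Set E2} {y : E2} {ρ : ℝ},
      Small δ U lam u K y ρ → (∀ s, 0 < s → s ≤ ρ / δ → Pr (1 / 100000) K y s) →
        PropLike ε K y ρ ∧ Lr K y ρ ≤ (3 + ε) * ρ := by
  by_contra hcon
  push Not at hcon
  have hk : ∀ k : ℕ, ∃ (U : Set E2) (lam : ℝ) (u : E2 → ℝ) (K : Set E2) (y : E2) (ρ : ℝ),
      Small (1 / ((k:ℝ) + 1)) U lam u K y ρ ∧
      (∀ s, 0 < s → s ≤ ρ * ((k:ℝ) + 1) → Pr (1 / 100000) K y s) ∧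
      ¬ (PropLike ε K y ρ ∧ Lr K y ρ ≤ (3 + ε) * ρ) := by
    intro k
    obtain ⟨U, lam, u, K, y, ρ, h1, h2, h3⟩ := hcon (1 / ((k:ℝ) + 1)) (by positivity)
      (by rw [div_le_one (by positivity)]; linarith [(Nat.cast_nonneg k : (0:ℝ) ≤ k)])
    rw [div_inv_nat] at h2
    exact ⟨U, lam, u, K, y, ρ, h1, h2, fun h => absurd (h3 h.1) (not_lt.2 h.2)⟩
  choose U lam u K y ρ hS hpr hbad using hk
  obtain ⟨φ, hφ, v, L, hBU, h0, hmod⟩ := exists_BU_of_small hS
  have hφt : Tendsto φ atTop atTop := hφ.tendsto_atTop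
  have hy : ∀ k, y (φ k) ∈ K (φ k) := fun k => (hS _).mem
  obtain ⟨θ, hL⟩ := hBU.limit_prop hmod (by
    intro R hR
    refine Eventually.frequently ?_
    filter_upwards [hφt.eventually (large R)] with k hk
    have hp := (hS (φ k)).pos
    exact hpr (φ k) _ (by positivity) (by nlinarith))
  have h1 := hBU.hclose_model (R := 2) (ε := min (ε / 2) (1 / 2)) (by positivity)
  have h2 := hBU.Lr_lt (R := 1) (M := 3 + ε) (by
    rw [hL]
    have := Lr_propAt_le θ (s := 1) zero_le_one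
    linarith)
  obtain ⟨k, hk1, hk2⟩ := (h1.and h2).exists
  have hρ := (hS (φ k)).pos
  refine hbad (φ k) ⟨⟨dir θ, ?_⟩, by rw [mul_one] at hk2; exact hk2.le⟩
  have h3 := hk1 (propAt (y (φ k)) θ) (by rw [rescK_propAt _ _ hρ, hL])
  have h4 : min (ε / 2) (1 / 2) ≤ 1 / 2 := min_le_right _ _
  have h5 : min (ε / 2) (1 / 2) ≤ ε / 2 := min_le_left _ _
  have h7 : 0 ≤ min (ε / 2) (1 / 2) := by positivity
  have h6 := Arc.starAt_of_hclose_prop (ρ := ρ (φ k)) (x0 := y (φ k))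
    (by rw [dist_self]; positivity) (by nlinarith) h3
  refine ⟨h6.1, fun z hz hd => ?_, fun j t ht ht' => ?_⟩
  · obtain ⟨j, t, ht, hd'⟩ := h6.2.1 z hz hd
    exact ⟨j, t, ht, hd'.trans (by nlinarith)⟩
  · obtain ⟨z, hz, hd⟩ := h6.2.2 j t ht ht'
    exact ⟨z, hz, hd.trans (by nlinarith)⟩

end Crest.Agent.R135.LSh
end

-- ▼ part R135/LSh2
section

/-!
# R135, block REGIME (helper288): points near a propeller-like point
-/

set_option autoImplicit false

open MeasureTheory Set Filter Topology Metric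
open scoped ENNReal NNReal

namespace Crest.Agent.R135.LSh

open Crest.Agent.R135 Crest.Agent.R135.Rgm

section Lim

variable {u : ℕ → E2 → ℝ} {K : ℕ → Set E2} {y : ℕ → E2} {ρ : ℕ → ℝ} {v : E2 → ℝ} {L : Set E2}

/-- if the limit is a line through the origin in `ball 0 (3/2)`, the blown up sets are line-like
with length close to `2 ρ` -/
theorem line_good' (hBU : BU u K y ρ v L) (hy : ∀ k, y k ∈ K k) {θ : ℝ}
    (hL : ∀ z ∈ ball (0:E2) (3 / 2), z ∈ L ↔ z ∈ lineAt 0 θ)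
    {η : ℝ} (hη : 0 < η) :
    ∀ᶠ k in atTop, LineLike η (K k) (y k) (ρ k) ∧ Lr (K k) (y k) (ρ k) ≤ (2 + η) * ρ k := by
  have hsub : closedBall (0:E2) 1 ⊆ ball 0 (3 / 2) := closedBall_subset_ball (by norm_num)
  set ε := min (η / 2) (1 / 8) with hε
  have h4 : ε ≤ 1 / 8 := min_le_right _ _
  have h5 : ε ≤ η / 2 := min_le_left _ _
  have h0 : 0 < ε := by positivity
  have h1 := hBU.hclose (3 / 2) (ε := ε) h0
  have h2 := hBU.Lr_lt (R := 1) (M := 2 + η) (by
    have e1 : Lr L 0 1 = Lr (lineAt 0 θ) 0 1 := by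
      unfold Lr
      congr 2
      ext z
      constructor
      · rintro ⟨hz, hb⟩; exact ⟨(hL z (hsub hb)).1 hz, hb⟩
      · rintro ⟨hz, hb⟩; exact ⟨(hL z (hsub hb)).2 hz, hb⟩
    have := Lr_lineAt_le θ (s := 1) zero_le_one
    linarith)
  filter_upwards [h1, h2] with k hk1 hk2
  have hρ := hBU.pos k
  refine ⟨⟨dir θ, ?_⟩, by rw [mul_one] at hk2; exact hk2.le⟩
  have h3 : HClose ε 0 (5 / 4) (rescK (K k) (y k) (ρ k)) (lineAt 0 θ) := by
    constructor
    · rintro z ⟨hz, hzb⟩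
      rw [mem_ball] at hzb
      obtain ⟨w, hw, hd⟩ := hk1.1 z ⟨hz, by rw [mem_ball]; linarith⟩
      refine ⟨w, (hL w ?_).1 hw, hd⟩
      rw [mem_ball]
      have := dist_triangle w z 0
      rw [dist_comm w z] at this
      linarith
    · rintro z ⟨hz, hzb⟩
      have hzb' : z ∈ ball (0:E2) (3 / 2) := ball_subset_ball (by norm_num) hzb
      exact hk1.2 z ⟨(hL z hzb').2 hz, hzb'⟩
  rw [← rescK_lineAt (y k) θ hρ, hclose_resc_iff hρ] at h3
  have h6 := Arc.flat_of_hclose (ρ := ρ k) (norm_dir θ) (by positivity) (hy k) (by nlinarith)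
    (by positivity) h3
  refine ⟨h6.1, fun z hz hd => (h6.2.1 z hz hd).trans ?_, fun t ht => ?_⟩
  · nlinarith
  · obtain ⟨z, hz, hd⟩ := h6.2.2 t ht
    exact ⟨z, hz, hd.trans (by nlinarith)⟩

end Lim

/-- near a propeller-like point `x`: the points `z ≠ x` are line-like with length bound at all
scales `≤ dist z x / 2` -/
theorem side_ctrl (ε : ℝ) (hε : 0 < ε) : ∃ δ : ℝ, 0 < δ ∧ δ ≤ 1 ∧
    ∀ {U : Set E2} {lam : ℝ} {u : E2 → ℝ} {K : Set E2} {z : E2} {ρ : ℝ} {x : E2},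
      Small δ U lam u K z ρ → 2 * ρ ≤ dist z x →
      (∀ s, dist z x ≤ s → s ≤ dist z x / δ → Pr (1 / 100000) K x s) →
      (∀ s, ρ ≤ s → s ≤ dist z x / 40 → Ln (1 / 400) K z s) →
        LineLike ε K z ρ ∧ Lr K z ρ ≤ (2 + ε) * ρ := by
  by_contra hcon
  push Not at hcon
  have hk : ∀ k : ℕ, ∃ (U : Set E2) (lam : ℝ) (u : E2 → ℝ) (K : Set E2) (z : E2) (ρ : ℝ) (x : E2),
      Small (1 / ((k:ℝ) + 1)) U lam u K z ρ ∧ 2 * ρ ≤ dist z x ∧
      (∀ s, dist z x ≤ s → s ≤ dist z x * ((k:ℝ) + 1) → Pr (1 / 100000) K x s) ∧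
      (∀ s, ρ ≤ s → s ≤ dist z x / 40 → Ln (1 / 400) K z s) ∧
      ¬ (LineLike ε K z ρ ∧ Lr K z ρ ≤ (2 + ε) * ρ) := by
    intro k
    obtain ⟨U, lam, u, K, z, ρ, x, h1, h2, h3, h4, h5⟩ := hcon (1 / ((k:ℝ) + 1)) (by positivity)
      (by rw [div_le_one (by positivity)]; linarith [(Nat.cast_nonneg k : (0:ℝ) ≤ k)])
    rw [div_inv_nat] at h3
    exact ⟨U, lam, u, K, z, ρ, x, h1, h2, h3, h4, fun h => absurd (h5 h.1) (not_lt.2 h.2)⟩
  choose U lam u K z ρ x hS hdx hpr hln hbad using hk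
  obtain ⟨φ, hφ, v, L, hBU, h0, hmod⟩ := exists_BU_of_small hS
  have hφt : Tendsto φ atTop atTop := hφ.tendsto_atTop
  have hy : ∀ k, z (φ k) ∈ K (φ k) := fun k => (hS _).mem
  have hline : ∃ θ, ∀ w ∈ ball (0:E2) (3 / 2), w ∈ L ↔ w ∈ lineAt 0 θ := by
    rcases hmod with ⟨p, θ, hL⟩ | ⟨c, θ, hL⟩
    · refine ⟨θ, fun w _ => ?_⟩
      rw [hL] at h0
      rw [hL, lineAt_eq_of_mem h0]
    · have hc : 3 / 2 ≤ dist c 0 := by
        by_contra hc
        push Not at hc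
        set R := 8 * dist c 0 + 1 with hR
        have hR1 : 1 ≤ R := by have := dist_nonneg (x := c) (y := (0:E2)); linarith
        by_cases hfreq : ∃ᶠ k in atTop, 40 * R * ρ (φ k) ≤ dist (z (φ k)) (x (φ k))
        · -- the point `x` is far: line-like at scale `R`
          obtain ⟨α, hα⟩ := hBU.limit_close (Y := fun θ => lineAt 0 θ) (δ := R / 400) (R := R)
            (R' := R / 2) (by positivity) (by linarith) (hfreq.mono fun k hk => by
              have hp := (hS (φ k)).pos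
              obtain ⟨θ, h1⟩ := (ln_resc_iff (hBU.pos k)).2 (hln (φ k) (R * ρ (φ k))
                (by nlinarith) (by linarith))
              exact ⟨θ, by rwa [one_div_mul_eq_div] at h1⟩)
          rw [hL] at hα
          refine not_ln_propAt (R := R / 2) (by positivity) ?_ (by positivity) ?_ hα
          · have := dist_nonneg (x := c) (y := (0:E2)); linarith
          · linarith
        · rw [not_frequently] at hfreq
          obtain ⟨k, hk1, hk2, hk3⟩ := (hfreq.and ((hBU.hclose (160 * R) (ε := 1 / 50000)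
            (by norm_num)).and (hφt.eventually (large 5)))).exists
          push Not at hk1
          have hp := (hS (φ k)).pos
          set r := ρ (φ k) with hr
          set d := dist (z (φ k)) (x (φ k)) with hd
          have h2 := hdx (φ k)
          rw [← hr, ← hd] at h2
          have hd0 : 0 < d := by linarith
          -- closeness to the propeller centred at `x`
          obtain ⟨β, hβ⟩ := hpr (φ k) (5 * d) (by linarith) (by rw [mul_comm]; gcongr)
          set D := d / r with hD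
          have hD2 : 2 ≤ D := by rw [hD, le_div_iff₀ hp]; exact h2
          have hdD : d = D * r := by rw [hD, div_mul_cancel₀ _ hp.ne']
          have h3 : HClose (D * (5 / 100000) * r) (z (φ k)) (4 * D * r) (K (φ k))
              (propAt (x (φ k)) β) := by
            refine hβ.mono_ball' (by rw [hdD]; linarith) ?_
            rw [← hd, hdD]; linarith
          rw [← hclose_resc_iff hp, rescK_propAt' _ _ _ hp] at h3
          set x' := scI (z (φ k)) r (x (φ k)) with hx'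
          have hx'D : dist x' 0 = D := by
            rw [dist_zero_right, hx', scI, norm_smul, ← dist_eq_norm, dist_comm, ← hd, hD,
              norm_inv, Real.norm_eq_abs, abs_of_pos hp, inv_mul_eq_div]
          have hDR : D < 40 * R := by rw [hD, div_lt_iff₀ hp]; exact hk1
          have h4 : HClose (1 / 50000) 0 (4 * D) L (rescK (K (φ k)) (z (φ k)) r) :=
            (hk2.mono_ball' le_rfl (by rw [dist_self]; linarith)).swap
          have h5 := h4.trans h3 (by norm_num) (by positivity)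
          have hmax : max (1 / 50000) (D * (5 / 100000)) ≤ D := max_le (by linarith) (by linarith)
          rw [hL] at h5
          have h6 := Tr.center_close (η := 2 / 100000) (K := propAt c θ) (y := 0) (ρ := 3 * D)
            (ρ' := 3 * D) (by positivity) (by norm_num) (by norm_num) (c := c) (c' := x') (θ := θ)
            (θ' := β) (by linarith) (hclose_self (by positivity) _ _ _) le_rfl (by linarith)
            (h5.mono_ball' (by linarith) (by rw [dist_self]; linarith))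
          have h7 := dist_triangle x' c 0
          rw [dist_comm x' c, hx'D] at h7
          linarith
      rw [hL] at h0
      obtain ⟨α, hα⟩ := propAt_far (y := (0:E2)) (q := 0) (t := 3 / 2) (δ := 0) (R' := 3 / 2) h0
        (by rw [dist_self]) hc (by norm_num)
      refine ⟨α, fun w hw => ?_⟩
      have h1 := (hα 0 (mem_ball_self (by norm_num))).1 h0
      rw [lineAt_eq_of_mem h1, hL]
      exact hα w hw
  obtain ⟨θ, hθ⟩ := hline
  obtain ⟨k, hk⟩ := (line_good' hBU hy hθ hε).exists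
  exact hbad (φ k) hk

end Crest.Agent.R135.LSh
end

-- ▼ part R135/LSh3

/-!
# R135, block REGIME (helper288): `local_shape` and `line_reg`
-/

set_option autoImplicit false

open MeasureTheory Set Filter Topology Metric
open scoped ENNReal NNReal

namespace Crest.Agent.R135.LSh

open Crest.Agent.R135 Crest.Agent.R135.Rgm

lemma fl_of_lineLike {η : ℝ} {K : Set E2} {y : E2} {ρ : ℝ} (hη : 0 < η) (hρ : 0 < ρ)
    (h : LineLike (η / 2) K y ρ) : Fl η K y ρ := by
  obtain ⟨e, he⟩ := h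
  obtain ⟨θ, -, h⟩ := EpsLoc.hclose_of_flat (by positivity) he
  exact Fl.of_Ln ⟨θ, h.mono_eps (by linarith)⟩

/-- flatness and smallness at all points near `x` and all small scales -/
theorem fl_small (η δ : ℝ) (hη : 0 < η) (hδ : 0 < δ) (_hδ1 : δ ≤ 1) :
    ∃ ε₀ c : ℝ, 0 < ε₀ ∧ ε₀ ≤ δ ∧ 0 < c ∧ c ≤ 1 / 4 ∧
    ∀ {U : Set E2} {lam : ℝ} {u : E2 → ℝ} {K : Set E2}, IsQM U lam u K →
      ∀ x ∈ K, ∀ r : ℝ, 0 < r → r ≤ 1 → closedBall x r ⊆ U → lam * r ≤ ε₀ →
        Dr u K x r ≤ ε₀ * r →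
        ∀ y ∈ K, dist y x ≤ r / 4 → ∀ ρ : ℝ, 0 < ρ → ρ ≤ c * r →
          Fl η K y ρ ∧ Small δ U lam u K y ρ := by
  obtain ⟨ε₂, h2, hshape⟩ := shape_of_small (η / 2) (by positivity)
  obtain ⟨ε₁, h1, hprop⟩ := small_propagates (min δ ε₂) (by positivity)
  set c := min (1 / 4) (min (δ / 4) (ε₂ / 4)) with hc
  have hc0 : 0 < c := by positivity
  have hc1 : c ≤ 1 / 4 := min_le_left _ _
  have hc2 : c ≤ δ / 4 := (min_le_right _ _).trans (min_le_left _ _)
  have hc3 : c ≤ ε₂ / 4 := (min_le_right _ _).trans (min_le_right _ _)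
  refine ⟨min ε₁ (min δ ε₂), c, by positivity, (min_le_right _ _).trans (min_le_left _ _),
    hc0, hc1, ?_⟩
  intro U lam u K hqm x hx r hr hr1 hb hl hD y hy hyx ρ hρ hρr
  have hlam := hqm.lam_nonneg
  have e1 : min ε₁ (min δ ε₂) ≤ ε₁ := min_le_left _ _
  have e2 : min ε₁ (min δ ε₂) ≤ δ := (min_le_right _ _).trans (min_le_left _ _)
  have e3 : min ε₁ (min δ ε₂) ≤ ε₂ := (min_le_right _ _).trans (min_le_right _ _)
  have hDall : ∀ s : ℝ, 0 < s → s ≤ r / 2 → Dr u K y s ≤ min δ ε₂ * s := fun s hs hsr =>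
    hprop hqm x hx r hr hr1 hb (hl.trans e1)
      (hD.trans (mul_le_mul_of_nonneg_right e1 hr.le)) y hy (by linarith) s hs hsr
  have hρr' : ρ ≤ r / 4 := by nlinarith
  have hlamρ : lam * ρ ≤ lam * r := mul_le_mul_of_nonneg_left (by linarith) hlam
  have hρδ : ρ / δ ≤ r / 4 := by
    rw [div_le_iff₀ hδ]; nlinarith
  have hρε : ρ / ε₂ ≤ r / 4 := by
    rw [div_le_iff₀ h2]; nlinarith
  have hsub : closedBall y (r / 4) ⊆ U := (closedBall_subset_closedBall' (by linarith)).trans hb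
  constructor
  · rcases hshape hqm y hy ρ hρ (by linarith) ((closedBall_subset_closedBall hρε).trans hsub)
      (hlamρ.trans (hl.trans e3)) (fun s hs hs' => (hDall s (by linarith) (by linarith)).trans
        (mul_le_mul_of_nonneg_right (min_le_right _ _) (by linarith))) with h | ⟨v, P, hP, h, -⟩
    · exact fl_of_lineLike hη hρ h.1
    · obtain ⟨θ, hθ⟩ := hP
      exact ⟨P, Or.inr ⟨v, θ, hθ⟩, h.mono_eps (by nlinarith)⟩
  · exact ⟨hqm, hy, hρ, by linarith, (closedBall_subset_closedBall hρδ).trans hsub,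
      hlamρ.trans (hl.trans e2), fun s hs hs' => (hDall s (by linarith) (by linarith)).trans
        (mul_le_mul_of_nonneg_right (min_le_left _ _) (by linarith))⟩

end Crest.Agent.R135.LSh

namespace Crest.Agent.R135

open LSh Rgm in
theorem local_shape' (ε : ℝ) (hε : 0 < ε) : ∃ ε₀ : ℝ, 0 < ε₀ ∧
    ∀ {U : Set E2} {lam : ℝ} {u : E2 → ℝ} {K : Set E2}, IsQM U lam u K →
      ∀ x ∈ K, ∀ r : ℝ, 0 < r → r ≤ 1 → closedBall x r ⊆ U → lam * r ≤ ε₀ →
        Dr u K x r ≤ ε₀ * r →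
        ∃ ρ₀ : ℝ, LineReg ε U lam u K x ρ₀ ∨ PropReg ε U lam u K x ρ₀ := by
  obtain ⟨δ₁, hδ₁, -, hline⟩ := line_ctrl ε hε
  obtain ⟨δ₂, hδ₂, -, hprop⟩ := prop_ctrl ε hε
  obtain ⟨δ₃, hδ₃, -, hside⟩ := side_ctrl ε hε
  set δ := min (min (min δ₁ δ₂) (min δ₃ ε)) (1 / 2) with hδ
  have hδ0 : 0 < δ := by positivity
  have hd1 : δ ≤ δ₁ := (min_le_left _ _).trans ((min_le_left _ _).trans (min_le_left _ _))
  have hd2 : δ ≤ δ₂ := (min_le_left _ _).trans ((min_le_left _ _).trans (min_le_right _ _))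
  have hd3 : δ ≤ δ₃ := (min_le_left _ _).trans ((min_le_right _ _).trans (min_le_left _ _))
  have hdε : δ ≤ ε := (min_le_left _ _).trans ((min_le_right _ _).trans (min_le_right _ _))
  have hdh : δ ≤ 1 / 2 := min_le_right _ _
  obtain ⟨ε₀, c, hε₀, hε₀δ, hc, hc1, hfl⟩ := fl_small (1 / 10000000) δ (by norm_num) hδ0
    (by linarith)
  refine ⟨ε₀, hε₀, ?_⟩
  intro U lam u K hqm x hx r hr hr1 hb hl hD
  have hlam := hqm.lam_nonneg
  have key := fun (y : E2) (hy : y ∈ K) (hyx : dist y x ≤ r / 4) (ρ : ℝ) (hρ : 0 < ρ)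
    (hρr : ρ ≤ c * r) => hfl hqm x hx r hr hr1 hb hl hD y hy hyx ρ hρ hρr
  have hcr : c * r ≤ r / 4 := by nlinarith
  have hdiv : ∀ {a b t : ℝ}, 0 < b → 0 ≤ t → δ ≤ b → t ≤ δ * a → t / b ≤ a := by
    intro a b t hb ht hδb hta
    rw [div_le_iff₀ hb]
    have ha : 0 ≤ a := by
      by_contra hcon
      push Not at hcon
      nlinarith
    nlinarith
  have hen : ∀ z ∈ K, dist z x ≤ r / 4 → ∀ s, 0 < s → s ≤ c * r → Dr u K z s ≤ ε * s := by
    intro z hz hzx s hs hs'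
    refine ((key z hz hzx s hs hs').2.en s le_rfl ?_).trans
      (mul_le_mul_of_nonneg_right hdε hs.le)
    rw [le_div_iff₀ hδ0]
    nlinarith
  rcases line_or_propeller (η := 1 / 10000000) (K := K) (x0 := x) (r0 := c * r) (by norm_num)
    (by norm_num) hx (by positivity) (fun y hy ρ hρ hρr =>
      (key y hy.1 (by have := mem_ball.1 hy.2; linarith) ρ hρ hρr).1) with
    ⟨r1, hr1pos, hln⟩ | ⟨r1, hr1pos, hpr, hln⟩
  · -- line-like regime
    refine ⟨min (δ * r1) (c * r) / 2, Or.inl ?_⟩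
    set ρ₀ := min (δ * r1) (c * r) / 2 with hρ₀
    have h0 : 0 < ρ₀ := by positivity
    have h1 : ρ₀ ≤ δ * r1 / 2 := by
      rw [hρ₀]; exact div_le_div_of_nonneg_right (min_le_left _ _) (by norm_num)
    have h2 : ρ₀ ≤ c * r / 2 := by
      rw [hρ₀]; exact div_le_div_of_nonneg_right (min_le_right _ _) (by norm_num)
    have h3 : 0 < δ * r1 := by positivity
    have h3' : δ * r1 ≤ r1 := by nlinarith
    have h4 : 0 < c * r := by positivity
    have hlr : lam * ρ₀ ≤ lam * r := mul_le_mul_of_nonneg_left (by linarith) hlam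
    have hctrl : ∀ z ∈ K, dist z x < ρ₀ → ∀ s, 0 < s → s ≤ ρ₀ →
        LineLike ε K z s ∧ Lr K z s ≤ (2 + ε) * s := by
      intro z hz hzx s hs hs'
      refine hline ((key z hz (by linarith) s hs (by linarith)).2.mono hδ0 hd1)
        (fun t ht ht' => ?_)
      have ht1 : t ≤ r1 := ht'.trans (hdiv hδ₁ hs.le hd1 (by linarith))
      exact (hln z ⟨hz, by rw [mem_ball]; linarith⟩ t (by linarith) ht1).mono (by norm_num)
        (by linarith)
    exact ⟨h0, by linarith, hx, (closedBall_subset_closedBall (by linarith)).trans hb,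
      by linarith, fun z hz hzx s hs hs' => hen z hz (by linarith) s hs (by linarith),
      fun z hz hzx s hs hs' => (hctrl z hz hzx s hs hs').1,
      fun z hz hzx s hs hs' => (hctrl z hz hzx s hs hs').2⟩
  · -- propeller-like regime
    refine ⟨min (δ * r1) (c * r) / 2, Or.inr ?_⟩
    set ρ₀ := min (δ * r1) (c * r) / 2 with hρ₀
    have h0 : 0 < ρ₀ := by positivity
    have h1 : ρ₀ ≤ δ * r1 / 2 := by
      rw [hρ₀]; exact div_le_div_of_nonneg_right (min_le_left _ _) (by norm_num)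
    have h2 : ρ₀ ≤ c * r / 2 := by
      rw [hρ₀]; exact div_le_div_of_nonneg_right (min_le_right _ _) (by norm_num)
    have h3 : 0 < δ * r1 := by positivity
    have h3' : δ * r1 ≤ r1 := by nlinarith
    have h4 : 0 < c * r := by positivity
    have hlr : lam * ρ₀ ≤ lam * r := mul_le_mul_of_nonneg_left (by linarith) hlam
    have hpr' : ∀ t, 0 < t → t ≤ r1 → Pr (1 / 100000) K x t := fun t ht ht1 =>
      (hpr t ht ht1).mono (by norm_num) ht.le
    have hctrl : ∀ s, 0 < s → s ≤ ρ₀ → PropLike ε K x s ∧ Lr K x s ≤ (3 + ε) * s := by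
      intro s hs hs'
      refine hprop ((key x hx (by rw [dist_self]; positivity) s hs (by linarith)).2.mono hδ0 hd2)
        (fun t ht ht' => hpr' t ht (ht'.trans (hdiv hδ₂ hs.le hd2 (by linarith))))
    exact ⟨h0, by linarith, hx, (closedBall_subset_closedBall (by linarith)).trans hb,
      by linarith, fun z hz hzx s hs hs' => hen z hz (by linarith) s hs (by linarith),
      fun s hs hs' => (hctrl s hs hs').1, fun s hs hs' => (hctrl s hs hs').2,
      fun z hz hz0 hzx s hs hs' => by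
        refine hside (x := x)
          ((key z hz (by linarith) s hs (by linarith)).2.mono hδ0 hd3) (by linarith)
          (fun t ht ht' => hpr' t (by linarith) (ht'.trans (hdiv hδ₃ hz0.le hd3 (by linarith))))
          (fun t ht ht' => ?_)
        exact (hln z ⟨hz, by rw [mem_ball]; linarith⟩ (dist_pos.1 hz0) t (by linarith)
          ht').mono (by norm_num) (by linarith)⟩

open LSh Rgm in
theorem line_reg' (ε : ℝ) (hε : 0 < ε) : ∃ ε₀ c : ℝ, 0 < ε₀ ∧ 0 < c ∧ c ≤ 1 / 4 ∧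
    ∀ {U : Set E2} {lam : ℝ} {u : E2 → ℝ} {K : Set E2}, IsQM U lam u K →
      ∀ y ∈ K, ∀ r : ℝ, 0 < r → r ≤ 1 → closedBall y r ⊆ U → lam * r ≤ ε₀ →
        Dr u K y r ≤ ε₀ * r → LineLike ε₀ K y r → LineReg ε U lam u K y (c * r) := by
  obtain ⟨δ₁, hδ₁, -, hline⟩ := line_ctrl ε hε
  set δ := min (min δ₁ ε) (1 / 2) with hδ
  have hδ0 : 0 < δ := by positivity
  have hd1 : δ ≤ δ₁ := (min_le_left _ _).trans (min_le_left _ _)
  have hdε : δ ≤ ε := (min_le_left _ _).trans (min_le_right _ _)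
  have hdh : δ ≤ 1 / 2 := min_le_right _ _
  obtain ⟨ε₀, c, hε₀, hε₀δ, hc, hc1, hfl⟩ := fl_small (1 / 10000) δ (by norm_num) hδ0
    (by linarith)
  refine ⟨min ε₀ (c / 6400), δ * c / 64, by positivity, by positivity, by nlinarith, ?_⟩
  intro U lam u K hqm y hy r hr hr1 hb hl hD hlin
  have hlam := hqm.lam_nonneg
  have e1 : min ε₀ (c / 6400) ≤ ε₀ := min_le_left _ _
  have e2 : min ε₀ (c / 6400) ≤ c / 6400 := min_le_right _ _
  have key := fun (z : E2) (hz : z ∈ K) (hzy : dist z y ≤ r / 4) (ρ : ℝ) (hρ : 0 < ρ)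
    (hρr : ρ ≤ c * r) => hfl hqm y hy r hr hr1 hb (hl.trans e1)
      (hD.trans (mul_le_mul_of_nonneg_right e1 hr.le)) z hz hzy ρ hρ hρr
  have hcr : c * r ≤ r / 4 := by nlinarith
  have hcr0 : 0 < c * r := by positivity
  have hδcr : δ * (c * r) ≤ c * r / 2 := by nlinarith
  -- closeness to a line at scale `c r`
  obtain ⟨e, he⟩ := hlin
  obtain ⟨θ, -, hθ⟩ := EpsLoc.hclose_of_flat (by positivity) he
  have hln := ln_of_line (η := 1 / 10000) (δ := c * r / 3200) (R := c * r) (y0 := y) (p := y)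
    (φ := θ) (by norm_num) (by norm_num) hcr0 (by positivity) le_rfl
    (hθ.mono_ball' (by nlinarith) (by rw [dist_self]; linarith))
    (fun z hz hzy ρ hρ hρr => (key z hz (by linarith) ρ hρ hρr).1)
  have hρ₀ : δ * c / 64 * r = δ * (c * r) / 64 := by ring
  rw [hρ₀]
  set ρ₀ := δ * (c * r) / 64 with hρ₀d
  have h0 : 0 < ρ₀ := by positivity
  have hlr : lam * ρ₀ ≤ lam * r := mul_le_mul_of_nonneg_left (by linarith) hlam
  have hctrl : ∀ z ∈ K, dist z y < ρ₀ → ∀ s, 0 < s → s ≤ ρ₀ →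
      LineLike ε K z s ∧ Lr K z s ≤ (2 + ε) * s := by
    intro z hz hzx s hs hs'
    refine hline ((key z hz (by linarith) s hs (by linarith)).2.mono hδ0 hd1)
      (fun t ht ht' => ?_)
    have ht1 : t ≤ c * r / 64 := by
      refine ht'.trans ?_
      rw [div_le_iff₀ hδ₁]
      nlinarith
    exact (hln z hz (by linarith) t (by linarith) ht1).mono (by norm_num) (by linarith)
  refine ⟨h0, by linarith, hy, (closedBall_subset_closedBall (by linarith)).trans hb,
    by linarith, fun z hz hzx s hs hs' => ?_,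
    fun z hz hzx s hs hs' => (hctrl z hz hzx s hs hs').1,
    fun z hz hzx s hs hs' => (hctrl z hz hzx s hs hs').2⟩
  refine ((key z hz (by linarith) s hs (by linarith)).2.en s le_rfl ?_).trans
    (mul_le_mul_of_nonneg_right hdε hs.le)
  rw [le_div_iff₀ hδ0]
  nlinarith

end Crest.Agent.R135
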