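import Crest.Agent.R135.Core
import Crest.Agent.R135.PolarD
import Crest.Agent.R135.RegQM
import Crest.Agent.R135.QMBasic
import Crest.Agent.R135.Conc3
import Crest.Agent.R135.Jump
import Crest.Agent.R135.IFDefs2
import Crest.Agent.R135.FlatLine

-- ▼ part R135/Phs1
section

/-!
# R135 / PHASE: stars with `m` arms, their sectors and the depth function (helper12)
-/

set_option autoImplicit false

noncomputable section

open MeasureTheory Set Filter Topology Metric Real

namespace Crest.Agent.R135.Phs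

/-- star with `m` equally spaced arms issued from `v` -/
def star (m : ℕ) (v : E2) (θ : ℝ) : Set E2 :=
  {y | ∃ k : ℕ, k < m ∧ y ∈ ray v (dir (θ + 2 * π * k / m))}

/-- angle of the bisector of the `k`-th sector -/
def bis (m : ℕ) (θ : ℝ) (k : ℕ) : ℝ := θ + π * (2 * k + 1) / m

/-- depth of `z` in the sector of half opening `π / m` with vertex `v` and axis `dir ψ` -/
def depth (m : ℕ) (v : E2) (ψ : ℝ) (z : E2) : ℝ :=
  sin (π / m) * inner ℝ (z - v) (dir ψ) - cos (π / m) * |inner ℝ (z - v) (tau ψ)|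

lemma inner_dir_tau' (a b : ℝ) : inner ℝ (dir a) (tau b) = sin (a - b) := by
  rw [inner_E2, Real.sin_sub]; simp; ring

lemma depth_cpt (m : ℕ) (v : E2) (ψ : ℝ) {r : ℝ} (hr : 0 ≤ r) (φ : ℝ) :
    depth m v ψ (cpt v r φ) =
      r * (sin (π / m) * cos (φ - ψ) - cos (π / m) * |sin (φ - ψ)|) := by
  unfold depth cpt
  rw [add_sub_cancel_left, inner_smul_left, inner_smul_left, inner_dir_dir, inner_dir_tau']
  simp only [conj_trivial]
  rw [abs_mul, abs_of_nonneg hr]
  ring

lemma cos_pi_div_nonneg {m : ℕ} (hm : 2 ≤ m) : 0 ≤ cos (π / m) := by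
  apply cos_nonneg_of_neg_pi_div_two_le_of_le
  · have : 0 ≤ π / m := by positivity
    linarith [pi_pos]
  · have hm' : (2:ℝ) ≤ m := by exact_mod_cast hm
    exact div_le_div_of_nonneg_left pi_pos.le (by norm_num) hm'

lemma sin_pi_div_nonneg {m : ℕ} (hm : 1 ≤ m) : 0 ≤ sin (π / m) := by
  apply sin_nonneg_of_nonneg_of_le_pi
  · positivity
  · have hm' : (1:ℝ) ≤ m := by exact_mod_cast hm
    exact div_le_self pi_pos.le hm'

/-- the depth function is 1-Lipschitz -/
lemma depth_le_add {m : ℕ} (hm : 2 ≤ m) (v : E2) (ψ : ℝ) (z z' : E2) :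
    depth m v ψ z ≤ depth m v ψ z' + dist z z' := by
  have hc := cos_pi_div_nonneg hm
  have hs := sin_pi_div_nonneg (m := m) (by omega)
  unfold depth
  set σ := sin (π / m)
  set γ := cos (π / m)
  have h1 : σ ^ 2 + γ ^ 2 = 1 := sin_sq_add_cos_sq _
  set A := inner ℝ (z - v) (dir ψ)
  set B := inner ℝ (z - v) (tau ψ)
  set A' := inner ℝ (z' - v) (dir ψ)
  set B' := inner ℝ (z' - v) (tau ψ)
  have hA : A - A' = inner ℝ (z - z') (dir ψ) := by
    simp only [A, A']; rw [← inner_sub_left]; congr 1; abel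
  have hB : B - B' = inner ℝ (z - z') (tau ψ) := by
    simp only [B, B']; rw [← inner_sub_left]; congr 1; abel
  have hn := norm_sq_frame (z - z') ψ
  rw [← hA, ← hB] at hn
  rw [dist_eq_norm]
  have hN := norm_nonneg (z - z')
  have h2 : |B'| - |B| ≤ |B - B'| := by
    have := abs_sub_abs_le_abs_sub B' B
    rwa [abs_sub_comm B' B] at this
  have h3 : σ * (A - A') + γ * |B - B'| ≤ ‖z - z'‖ := by
    have h4 : (σ * (A - A') + γ * |B - B'|) ^ 2 ≤ ‖z - z'‖ ^ 2 := by
      rw [hn]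
      have h5 : |B - B'| ^ 2 = (B - B') ^ 2 := sq_abs _
      nlinarith [sq_nonneg (σ * |B - B'| - γ * (A - A'))]
    exact (abs_le_of_sq_le_sq' h4 hN).2
  nlinarith

lemma depth_add_smul (m : ℕ) (v : E2) (ψ : ℝ) (z : E2) (t : ℝ) :
    depth m v ψ (z + t • dir ψ) = depth m v ψ z + sin (π / m) * t := by
  unfold depth
  have h1 : z + t • dir ψ - v = (z - v) + t • dir ψ := by abel
  rw [h1, inner_add_left, inner_add_left, inner_smul_left, inner_smul_left, inner_dir_dir,
    inner_dir_tau]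
  simp
  ring

/-- the depth function is concave -/
lemma depth_segment {m : ℕ} (hm : 2 ≤ m) (v : E2) (ψ : ℝ) {z z' : E2} {a : ℝ}
    (h : a ≤ depth m v ψ z) (h' : a ≤ depth m v ψ z') {p : E2} (hp : p ∈ segment ℝ z z') :
    a ≤ depth m v ψ p := by
  obtain ⟨s, t, hs, ht, hst, rfl⟩ := hp
  have hc := cos_pi_div_nonneg hm
  unfold depth at *
  have e1 : s • z + t • z' - v = s • (z - v) + t • (z' - v) := by
    have : v = s • v + t • v := by rw [← add_smul, hst, one_smul]
    nth_rewrite 1 [this]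
    rw [smul_sub, smul_sub]; abel
  rw [e1, inner_add_left, inner_smul_left, inner_smul_left, inner_add_left, inner_smul_left,
    inner_smul_left]
  simp only [conj_trivial]
  have h2 := abs_add_le (s * inner ℝ (z - v) (tau ψ)) (t * inner ℝ (z' - v) (tau ψ))
  rw [abs_mul, abs_mul, abs_of_nonneg hs, abs_of_nonneg ht] at h2
  have h3 := mul_le_mul_of_nonneg_left h2 hc
  have h4 := mul_le_mul_of_nonneg_left h hs
  have h5 := mul_le_mul_of_nonneg_left h' ht
  have h6 : a = s * a + t * a := by rw [← add_mul, hst, one_mul]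
  rw [h6]
  nlinarith

lemma odd_trig {m : ℕ} (hm : 1 ≤ m) {x : ℝ} (h1 : π / m ≤ |x|) (h2 : |x| ≤ 2 * π - π / m) :
    sin (π / m) * cos x - cos (π / m) * |sin x| ≤ 0 := by
  have hpm : 0 < π / m := by
    have : (0:ℝ) < m := by exact_mod_cast hm
    positivity
  have hpm1 : π / m ≤ π := by
    have hm' : (1:ℝ) ≤ m := by exact_mod_cast hm
    exact div_le_self pi_pos.le hm'
  have hcos : cos x = cos |x| := (cos_abs x).symm
  have hsin : |sin x| = |sin (|x|)| := by
    rcases abs_cases x with ⟨h, _⟩ | ⟨h, _⟩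
    · rw [h]
    · rw [h, sin_neg, abs_neg]
  rw [hcos, hsin]
  set y := |x|
  rcases le_total y π with hy | hy
  · rw [abs_of_nonneg (sin_nonneg_of_nonneg_of_le_pi (by linarith) hy), ← sin_sub]
    apply sin_nonpos_of_nonpos_of_neg_pi_le <;> linarith
  · have : sin y ≤ 0 := by
      rw [← sin_sub_two_pi]
      apply sin_nonpos_of_nonpos_of_neg_pi_le <;> linarith
    rw [abs_of_nonpos this]
    have e : sin (π / m) * cos y - cos (π / m) * (-sin y) = sin (π / m + y) := by
      rw [sin_add]; ring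
    rw [e, ← sin_sub_two_pi]
    apply sin_nonpos_of_nonpos_of_neg_pi_le <;> linarith

lemma depth_star_nonpos {m : ℕ} (_hm : 2 ≤ m) (v : E2) (θ : ℝ) {k : ℕ} (hk : k < m) {y : E2}
    (hy : y ∈ star m v θ) : depth m v (bis m θ k) y ≤ 0 := by
  obtain ⟨j, hj, s, hs, rfl⟩ := hy
  have hm0 : (0:ℝ) < m := by exact_mod_cast (by omega : 0 < m)
  have e := depth_cpt m v (bis m θ k) hs (θ + 2 * π * j / m)
  unfold cpt at e
  rw [e]
  refine mul_nonpos_of_nonneg_of_nonpos hs (odd_trig (by omega) ?_ ?_)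
  · have e2 : θ + 2 * π * j / m - bis m θ k = π / m * ((2 * (j:ℤ) - 2 * (k:ℤ) - 1 : ℤ) : ℝ) := by
      unfold bis; push_cast; field_simp; ring
    rw [e2, abs_mul, abs_of_pos (by positivity : 0 < π / m)]
    have h1 : (1:ℝ) ≤ |((2 * (j:ℤ) - 2 * (k:ℤ) - 1 : ℤ) : ℝ)| := by
      rw [← Int.cast_abs]
      have h3 : (2 * (j:ℤ) - 2 * (k:ℤ) - 1 : ℤ) ≠ 0 := by omega
      exact_mod_cast Int.one_le_abs h3
    nlinarith [(by positivity : 0 < π / m)]
  · have e2 : θ + 2 * π * j / m - bis m θ k = π / m * ((2 * (j:ℤ) - 2 * (k:ℤ) - 1 : ℤ) : ℝ) := by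
      unfold bis; push_cast; field_simp; ring
    rw [e2, abs_mul, abs_of_pos (by positivity : 0 < π / m)]
    have h1 : |((2 * (j:ℤ) - 2 * (k:ℤ) - 1 : ℤ) : ℝ)| ≤ 2 * m - 1 := by
      rw [← Int.cast_abs]
      have h3 : |(2 * (j:ℤ) - 2 * (k:ℤ) - 1 : ℤ)| ≤ 2 * (m:ℤ) - 1 := by
        rw [abs_le]; constructor <;> omega
      exact_mod_cast h3
    have h2 : 2 * π - π / m = π / m * (2 * m - 1) := by field_simp
    rw [h2]
    exact mul_le_mul_of_nonneg_left h1 (by positivity)

lemma depth_le_dist {m : ℕ} (hm : 2 ≤ m) (v : E2) (θ : ℝ) {k : ℕ} (hk : k < m) {y : E2}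
    (hy : y ∈ star m v θ) (z : E2) : depth m v (bis m θ k) z ≤ dist z y := by
  have h1 := depth_star_nonpos hm v θ hk hy
  have h2 := depth_le_add hm v (bis m θ k) z y
  linarith

/-- every point lies in a (closed) sector, and its distance to the star is at most the depth -/
lemma exists_sector {m : ℕ} (hm : 2 ≤ m) (v : E2) (θ : ℝ) (z : E2) :
    ∃ k < m, ∃ y ∈ star m v θ, dist z y ≤ depth m v (bis m θ k) z := by
  have hm0 : (0:ℝ) < m := by exact_mod_cast (by omega : 0 < m)
  have hm2 : (2:ℝ) ≤ m := by exact_mod_cast hm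
  obtain ⟨r, φ, hr, hφ1, hφ2, rfl⟩ : ∃ r φ : ℝ, 0 ≤ r ∧ θ ≤ φ ∧ φ < θ + 2 * π ∧ z = cpt v r φ := by
    rcases eq_or_ne z v with h | h
    · refine ⟨0, θ, le_refl _, le_refl _, by linarith [pi_pos], ?_⟩
      simp [cpt, h]
    · have hpos : 0 < dist z v := dist_pos.mpr h
      obtain ⟨φ, hφ, he⟩ := exists_cpt_eq hpos (rfl : z ∈ Metric.sphere v (dist z v)) θ
      exact ⟨dist z v, φ, hpos.le, hφ.1, hφ.2, he.symm⟩
  set q := (φ - θ) * m / (2 * π) with hq
  have hq0 : 0 ≤ q := by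
    have : 0 ≤ φ - θ := by linarith
    positivity
  have hqm : q < m := by
    rw [hq, div_lt_iff₀ (by positivity)]
    nlinarith [pi_pos]
  set k := ⌊q⌋₊ with hk
  have hkm : k < m := by
    have := Nat.floor_le hq0
    have h2 : (k:ℝ) < m := lt_of_le_of_lt this hqm
    exact_mod_cast h2
  have hk1 : (k:ℝ) ≤ q := Nat.floor_le hq0
  have hk2 : q < k + 1 := Nat.lt_floor_add_one q
  have hφq : φ - θ = 2 * π / m * q := by rw [hq]; field_simp
  set α := φ - bis m θ k with hα
  have hα1 : -(π / m) ≤ α := by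
    have : α = 2 * π / m * (q - k) - π / m := by
      rw [hα]; unfold bis
      have : φ = θ + 2 * π / m * q := by linarith
      rw [this]; field_simp; ring
    rw [this]
    have : 0 ≤ 2 * π / m * (q - k) := mul_nonneg (by positivity) (by linarith)
    linarith
  have hα2 : α ≤ π / m := by
    have : α = 2 * π / m * (q - k - 1) + π / m := by
      rw [hα]; unfold bis
      have : φ = θ + 2 * π / m * q := by linarith
      rw [this]; field_simp; ring
    rw [this]
    have : 2 * π / m * (q - k - 1) ≤ 0 := mul_nonpos_of_nonneg_of_nonpos (by positivity) (by linarith)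
    linarith
  have hpm : π / m ≤ π / 2 := div_le_div_of_nonneg_left pi_pos.le (by norm_num) hm2
  have hdepth : depth m v (bis m θ k) (cpt v r φ) = r * sin (π / m - |α|) := by
    rw [depth_cpt _ _ _ hr, ← hα]
    have h1 : cos α = cos |α| := (cos_abs α).symm
    have h2 : |sin α| = sin |α| := by
      have hnn : 0 ≤ sin |α| := sin_nonneg_of_nonneg_of_le_pi (abs_nonneg _)
        (by rw [abs_le]; constructor <;> linarith [pi_pos])
      rcases abs_cases α with ⟨h, _⟩ | ⟨h, _⟩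
      · rw [h] at hnn ⊢; exact abs_of_nonneg hnn
      · rw [h] at hnn ⊢; rw [sin_neg] at hnn ⊢
        rw [abs_of_nonpos (by linarith)]
    rw [h1, h2, sin_sub]
  -- the foot of the perpendicular
  have hfoot : ∀ β ω : ℝ, 0 ≤ β → β ≤ π / 2 → (φ - ω = β ∨ φ - ω = -β) →
      dist (cpt v r φ) (v + (r * cos β) • dir ω) ≤ r * sin β := by
    intro β ω hβ0 hβ1 hβ
    rw [dist_eq_norm]
    have hsb : 0 ≤ sin β := sin_nonneg_of_nonneg_of_le_pi hβ0 (by linarith [pi_pos])
    apply le_of_sq_le_sq _ (by positivity)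
    have e1 : cpt v r φ - (v + (r * cos β) • dir ω) = r • dir φ - (r * cos β) • dir ω := by
      unfold cpt; abel
    have hcos : cos (φ - ω) = cos β := by
      rcases hβ with h | h
      · rw [h]
      · rw [h, cos_neg]
    have e2 : ‖r • dir φ - (r * cos β) • dir ω‖ ^ 2 = (r * sin β) ^ 2 := by
      rw [norm_sub_sq_real, norm_smul, norm_smul, inner_smul_left, inner_smul_right,
        inner_dir_dir, norm_dir, norm_dir, hcos]
      simp only [conj_trivial, mul_one, norm_mul, Real.norm_eq_abs, mul_pow, sq_abs]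
      nlinarith [sin_sq_add_cos_sq β]
    rw [e1, e2]
  refine ⟨k, hkm, ?_⟩
  rw [hdepth]
  rcases le_total 0 α with h0 | h0
  · -- the nearest arm is `k+1`
    rw [abs_of_nonneg h0]
    have hβ := hfoot (π / m - α) (θ + 2 * π * (k + 1 : ℕ) / m) (by linarith) (by linarith)
      (Or.inr (by
        rw [hα]; unfold bis; push_cast; field_simp; ring))
    have hcb : 0 ≤ cos (π / m - α) := cos_nonneg_of_neg_pi_div_two_le_of_le
      (by linarith [pi_pos]) (by linarith)
    rcases Nat.lt_or_ge (k + 1) m with hk' | hk'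
    · exact ⟨_, ⟨k + 1, hk', _, mul_nonneg hr hcb, rfl⟩, hβ⟩
    · have hkm' : k + 1 = m := by omega
      refine ⟨_, ⟨0, by omega, _, mul_nonneg hr hcb, rfl⟩, ?_⟩
      have e3 : dir (θ + 2 * π * ((0:ℕ):ℝ) / m) = dir (θ + 2 * π * ((k + 1 : ℕ) : ℝ) / m) := by
        rw [dir_eq_dir_iff]
        refine ⟨-1, ?_⟩
        rw [hkm']; push_cast; field_simp; ring
      rw [e3]; exact hβ
  · rw [abs_of_nonpos h0]
    have hβ := hfoot (π / m - -α) (θ + 2 * π * (k : ℕ) / m) (by linarith) (by linarith)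
      (Or.inl (by
        rw [hα]; unfold bis; field_simp; ring))
    have hcb : 0 ≤ cos (π / m - -α) := cos_nonneg_of_neg_pi_div_two_le_of_le
      (by linarith [pi_pos]) (by linarith)
    exact ⟨_, ⟨k, hkm, _, mul_nonneg hr hcb, rfl⟩, hβ⟩





end Crest.Agent.R135.Phs
end
end

-- ▼ part R135/Phs2
section

/-!
# R135 / PHASE: the chain lemma (helper12)

In the regime where `K` is close to a line or a propeller at all small scales and the Dirichlet
energy is small at all small scales, the value `u z` at any point `z ∉ K` is almost equal to the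
value of `u` at a point at distance `≥ c` from `K`.
-/

set_option autoImplicit false

noncomputable section

open MeasureTheory Set Filter Topology Metric Real
open scoped ENNReal NNReal ContDiff Gradient

namespace Crest.Agent.R135.Phs

/-- nearest points exist -/
lemma exists_nearest {U K : Set E2} (hcl : closure K ∩ U ⊆ K) {z : E2} {r : ℝ}
    (hU : closedBall z r ⊆ U) {y : E2} (hy : y ∈ K) (hyz : dist z y ≤ r) :
    ∃ z' ∈ K, dist z z' = infDist z K := by
  have hclosed : IsClosed (K ∩ closedBall z r) := by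
    rw [← closure_subset_iff_isClosed]
    intro p hp
    have h1 : p ∈ closedBall z r := by
      have := closure_mono (inter_subset_right : K ∩ closedBall z r ⊆ closedBall z r) hp
      rwa [isClosed_closedBall.closure_eq] at this
    exact ⟨hcl ⟨closure_mono inter_subset_left hp, hU h1⟩, h1⟩
  have hcomp : IsCompact (K ∩ closedBall z r) :=
    (isCompact_closedBall z r).of_isClosed_subset hclosed inter_subset_right
  have hne : (K ∩ closedBall z r).Nonempty := ⟨y, hy, by rw [mem_closedBall, dist_comm]; exact hyz⟩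
  obtain ⟨z', hz', he⟩ := hcomp.exists_infDist_eq_dist hne z
  refine ⟨z', hz'.1, ?_⟩
  rw [← he]
  apply le_antisymm
  · rw [Metric.le_infDist ⟨y, hy⟩]
    intro k hk
    by_cases hkr : dist z k ≤ r
    · exact Metric.infDist_le_dist_of_mem ⟨hk, by rw [mem_closedBall, dist_comm]; exact hkr⟩
    · rw [not_le] at hkr
      refine le_trans ?_ hkr.le
      exact le_trans (Metric.infDist_le_dist_of_mem ⟨hy, by
        rw [mem_closedBall, dist_comm]; exact hyz⟩) hyz
  · exact Metric.infDist_le_infDist_of_subset inter_subset_left hne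

/-- the variation of `u` along a segment which stays away from the crack -/
theorem seg_bound : ∃ C : ℝ, 0 < C ∧ ∀ {U K : Set E2} {lam : ℝ} {u : E2 → ℝ},
    IsQM U lam u K → ∀ (z z1 : E2) (R E : ℝ), 0 < R → 0 ≤ E →
    (∀ p ∈ segment ℝ z z1, ball p R ⊆ U \ K ∧ dirE u K (ball p R) ≤ ENNReal.ofReal E) →
    |u z1 - u z| ≤ (C * √E / R + C * lam * R) * dist z z1 := by
  obtain ⟨C, hC, hb⟩ := IsQM.gradient_bound
  refine ⟨C, hC, ?_⟩
  intro U K lam u h z z1 R E hR hE hseg
  have h1 : ∀ p ∈ segment ℝ z z1, HasFDerivWithinAt u (fderiv ℝ u p) (segment ℝ z z1) p := by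
    intro p hp
    have hp2 : p ∈ U \ K := (hseg p hp).1 (mem_ball_self hR)
    exact ((h.contDiffAt hp2).differentiableAt (by norm_num)).hasFDerivAt.hasFDerivWithinAt
  have h2 : ∀ p ∈ segment ℝ z z1, ‖fderiv ℝ u p‖ ≤ C * √E / R + C * lam * R := by
    intro p hp
    have := hb h p R E hR (hseg p hp).1 hE (hseg p hp).2 p (mem_ball_self (by positivity))
    rwa [Crest.Agent.R097.norm_grad] at this
  have h3 := Convex.norm_image_sub_le_of_norm_hasFDerivWithin_le h1 h2
    (convex_segment z z1) (left_mem_segment ℝ z z1) (right_mem_segment ℝ z z1)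
  rw [Real.norm_eq_abs, ← dist_eq_norm, dist_comm] at h3
  exact h3

lemma four_fifths_le_sin {m : ℕ} (hm : m = 2 ∨ m = 3) : 4 / 5 ≤ sin (π / m) := by
  rcases hm with rfl | rfl
  · norm_num
  · norm_num
    have : (8/5:ℝ) ≤ √3 := by
      apply Real.le_sqrt_of_sq_le
      norm_num
    linarith

/-- Escape from the crack: geometric step. -/
lemma escape {K : Set E2} {z z' : E2} {d η : ℝ} (hd : 0 < d) (hz' : z' ∈ K)
    (hzz : dist z z' = d) (hn : ∀ k ∈ K, d ≤ dist z k) (hη : η ≤ 1 / 32)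
    {m : ℕ} (hm : m = 2 ∨ m = 3) {v : E2} {θ : ℝ}
    (hcl : HClose (η * (8 * d)) z' (8 * d) K (star m v θ)) :
    ∃ b : E2, ‖b‖ = 1 ∧ (∀ t, 0 ≤ t → t ≤ 3 * d → ∀ k ∈ K, d / 2 ≤ dist (z + t • b) k) ∧
      ∀ k ∈ K, 2 * d ≤ dist (z + (3 * d) • b) k := by
  have hm2 : 2 ≤ m := by omega
  obtain ⟨k0, hk0, y0, hy0, hdep⟩ := exists_sector hm2 v θ z
  have hs := four_fifths_le_sin hm
  -- the depth of `z`
  have hdz : d - η * (8 * d) ≤ depth m v (bis m θ k0) z := by
    refine le_trans ?_ hdep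
    by_cases hb : y0 ∈ ball z' (8 * d)
    · obtain ⟨k, hk, hyk⟩ := hcl.2 y0 ⟨hy0, hb⟩
      have h1 := hn k hk
      have h2 := dist_triangle z y0 k
      linarith
    · rw [mem_ball, not_lt] at hb
      have h2 := dist_triangle y0 z z'
      rw [dist_comm y0 z] at h2
      have h3 : dist y0 z' ≤ dist z y0 + d := by rw [← hzz]; linarith
      have h4 : 0 ≤ η := by
        by_contra hneg
        push Not at hneg
        obtain ⟨q, _, hq⟩ := hcl.1 z' ⟨hz', mem_ball_self (by positivity)⟩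
        have := dist_nonneg.trans_lt hq
        nlinarith
      nlinarith
  set b := dir (bis m θ k0) with hb
  have hbn : ‖b‖ = 1 := norm_dir _
  have key : ∀ t, 0 ≤ t → ∀ k ∈ K,
      d - 2 * (η * (8 * d)) + 4 / 5 * t ≤ dist (z + t • b) k ∨
      7 * d - t ≤ dist (z + t • b) k := by
    intro t ht k hk
    by_cases hkb : k ∈ ball z' (8 * d)
    · left
      obtain ⟨y1, hy1, hky⟩ := hcl.1 k ⟨hk, hkb⟩
      have h1 := depth_le_dist hm2 v θ hk0 hy1 (z + t • b)
      rw [hb, depth_add_smul] at h1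
      rw [← hb] at h1
      have h2 := dist_triangle (z + t • b) k y1
      have h3 : 4 / 5 * t ≤ sin (π / m) * t := mul_le_mul_of_nonneg_right hs ht
      linarith
    · right
      rw [mem_ball, not_lt] at hkb
      have h2 := dist_triangle k (z + t • b) z'
      have h3 := dist_triangle (z + t • b) z z'
      have h4 : dist (z + t • b) z = t := by
        rw [dist_eq_norm, add_sub_cancel_left, norm_smul, hbn, mul_one, Real.norm_eq_abs,
          abs_of_nonneg ht]
      rw [dist_comm k (z + t • b)] at h2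
      linarith
  refine ⟨b, hbn, ?_, ?_⟩
  · intro t ht ht3 k hk
    rcases key t ht k hk with h | h
    · nlinarith
    · nlinarith
  · intro k hk
    rcases key (3 * d) (by positivity) k hk with h | h
    · nlinarith
    · nlinarith

/-- the regime: all points of `K` near `y`, all scales `≤ R` -/
structure Regime (U : Set E2) (u : E2 → ℝ) (K : Set E2) (y : E2) (R η : ℝ) : Prop where
  sub : closedBall y (3 * R) ⊆ U
  fl : ∀ z ∈ K, dist z y ≤ R → ∀ s, 0 < s → s ≤ R →
    ∃ m : ℕ, (m = 2 ∨ m = 3) ∧ ∃ v θ, HClose (η * s) z s K (star m v θ)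
  dr : ∀ z ∈ K, dist z y ≤ R → ∀ s, 0 < s → s ≤ R → Dr u K z s ≤ η * s

lemma Regime.mono {U : Set E2} {u : E2 → ℝ} {K : Set E2} {y : E2} {R R' η : ℝ}
    (h : Regime U u K y R η) (hR : R' ≤ R) : Regime U u K y R' η where
  sub := by
    intro x hx
    apply h.sub
    rw [mem_closedBall] at hx ⊢
    linarith
  fl := fun z hz hzy s hs hsR => h.fl z hz (hzy.trans hR) s hs (hsR.trans hR)
  dr := fun z hz hzy s hs hsR => h.dr z hz (hzy.trans hR) s hs (hsR.trans hR)

lemma dirE_le_of_Dr {U K : Set E2} {lam : ℝ} {u : E2 → ℝ} (h : IsQM U lam u K) {z : E2} {s E : ℝ}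
    (hU : closedBall z s ⊆ U) (hD : Dr u K z s ≤ E) :
    dirE u K (ball z s) ≤ ENNReal.ofReal E := by
  have hfin : dirE u K (ball z s) < ⊤ := h.dir_fin_ball hU
  unfold Dr at hD
  rw [← ENNReal.ofReal_toReal hfin.ne]
  exact ENNReal.ofReal_le_ofReal hD

lemma dirE_mono {u : E2 → ℝ} {K B B' : Set E2} (h : B ⊆ B') : dirE u K B ≤ dirE u K B' :=
  lintegral_mono_set (sdiff_subset_sdiff_left h)

/-- **One step of the chain.** -/
theorem step : ∃ A : ℝ, 0 < A ∧ ∀ {U K : Set E2} {lam : ℝ} {u : E2 → ℝ}, IsQM U lam u K →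
    ∀ {y : E2} {R η : ℝ}, Regime U u K y R η → y ∈ K → 0 ≤ η → η ≤ 1 / 32 → ∀ z : E2, z ∉ K →
    16 * infDist z K ≤ R → 2 * dist z y ≤ R → 0 < infDist z K →
    ∃ z1, dist z1 z ≤ 3 * infDist z K ∧ 2 * infDist z K ≤ infDist z1 K ∧
      |u z1 - u z| ≤ A * (√η * √(infDist z K) + lam * infDist z K ^ 2) := by
  obtain ⟨C, hC, hb⟩ := seg_bound
  refine ⟨6 * √8 * C + 2 * C, by positivity, ?_⟩
  intro U K lam u h y R η hreg hy hη0 hη z hzK hdR hzR hd
  set d := infDist z K with hdd
  have hR0 : 0 < R := by linarith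
  obtain ⟨z', hz', hzz⟩ : ∃ z' ∈ K, dist z z' = infDist z K := by
    refine exists_nearest (U := U) h.closed (r := R) ?_ hy (by linarith [dist_nonneg (x := z) (y := y)])
    refine (closedBall_subset_closedBall' ?_).trans hreg.sub
    linarith [dist_nonneg (x := z) (y := y)]
  rw [← hdd] at hzz
  have hz'y : dist z' y ≤ R := by
    have := dist_triangle z' z y
    rw [dist_comm z' z, hzz] at this
    linarith
  obtain ⟨m, hm, v, θ, hcl⟩ := hreg.fl z' hz' hz'y (8 * d) (by positivity) (by linarith)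
  have hD := hreg.dr z' hz' hz'y (8 * d) (by positivity) (by linarith)
  obtain ⟨b, hbn, hb1, hb2⟩ := escape hd hz' hzz (fun k hk => infDist_le_dist_of_mem hk) hη hm hcl
  have hUz' : closedBall z' (8 * d) ⊆ U :=
    (closedBall_subset_closedBall' (by linarith)).trans hreg.sub
  refine ⟨z + (3 * d) • b, ?_, ?_, ?_⟩
  · rw [dist_eq_norm, add_sub_cancel_left, norm_smul, hbn, mul_one, Real.norm_eq_abs,
      abs_of_nonneg (by positivity)]
  · exact (Metric.le_infDist ⟨y, hy⟩).2 fun k hk => hb2 k hk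
  · have hE : ∀ p ∈ segment ℝ z (z + (3 * d) • b), ball p (d / 2) ⊆ U \ K ∧
        dirE u K (ball p (d / 2)) ≤ ENNReal.ofReal (η * (8 * d)) := by
      intro p hp
      obtain ⟨t, ht0, ht1, rfl⟩ : ∃ t : ℝ, 0 ≤ t ∧ t ≤ 3 * d ∧ p = z + t • b := by
        rw [segment_eq_image'] at hp
        obtain ⟨s, ⟨hs0, hs1⟩, rfl⟩ := hp
        refine ⟨s * (3 * d), by positivity, by nlinarith, ?_⟩
        simp only [add_sub_cancel_left, smul_smul]
      have hpd : dist (z + t • b) z = t := by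
        rw [dist_eq_norm, add_sub_cancel_left, norm_smul, hbn, mul_one, Real.norm_eq_abs,
          abs_of_nonneg ht0]
      have hsub : ball (z + t • b) (d / 2) ⊆ ball z' (8 * d) := by
        apply ball_subset_ball'
        have := dist_triangle (z + t • b) z z'
        linarith
      refine ⟨fun q hq => ⟨hUz' (ball_subset_closedBall (hsub hq)), fun hqK => ?_⟩, ?_⟩
      · have h1 := hb1 t ht0 ht1 q hqK
        rw [mem_ball, dist_comm] at hq
        linarith
      · exact (dirE_mono hsub).trans (dirE_le_of_Dr h hUz' hD)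
    have h1 := hb h z (z + (3 * d) • b) (d / 2) (η * (8 * d)) (by positivity) (by positivity) hE
    have h2 : dist z (z + (3 * d) • b) = 3 * d := by
      rw [dist_comm, dist_eq_norm, add_sub_cancel_left, norm_smul, hbn, mul_one, Real.norm_eq_abs,
        abs_of_nonneg (by positivity)]
    rw [h2] at h1
    refine h1.trans ?_
    have h3 : √(η * (8 * d)) = √8 * (√η * √d) := by
      rw [Real.sqrt_mul hη0, Real.sqrt_mul (by norm_num)]; ring
    rw [h3]
    have h4 : (C * (√8 * (√η * √d)) / (d / 2) + C * lam * (d / 2)) * (3 * d) =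
        6 * √8 * C * (√η * √d) + 3 / 2 * C * (lam * d ^ 2) := by
      field_simp; ring
    rw [h4]
    have h5 : 0 ≤ √η * √d := by positivity
    have h6 : 0 ≤ lam * d ^ 2 := mul_nonneg h.lam_nonneg (sq_nonneg d)
    have h7 : 0 ≤ √8 * C := by positivity
    nlinarith

/-- **Chain lemma.** -/
theorem chain : ∃ A : ℝ, 0 < A ∧ ∀ {U K : Set E2} {lam : ℝ} {u : E2 → ℝ}, IsQM U lam u K →
    ∀ {y : E2} {R η : ℝ}, Regime U u K y R η → y ∈ K → 0 ≤ η → η ≤ 1 / 32 → 0 < R →
    ∀ z : E2, z ∈ U \ K → 4 * dist z y ≤ R → 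
    ∃ z1, R / 200 ≤ infDist z1 K ∧ dist z1 z ≤ 3 * R / 50 ∧
      |u z1 - u z| ≤ A * (√η + lam * (R * √R)) * √R := by
  obtain ⟨A, hA, hstep⟩ := step
  refine ⟨4 * A, by positivity, ?_⟩
  intro U K lam u h y R η hreg hy hη0 hη hR
  set c := R / 200 with hc
  have hc0 : 0 < c := by positivity
  have hlam := h.lam_nonneg
  -- the induction
  have main : ∀ n : ℕ, ∀ z : E2, z ∉ K → c / 2 ^ n ≤ infDist z K → infDist z K ≤ 4 * c →
      dist z y ≤ R / 4 + 3 * infDist z K →
      ∃ z1, c ≤ infDist z1 K ∧ infDist z1 K ≤ 4 * c ∧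
        dist z1 z ≤ 3 * (infDist z1 K - infDist z K) ∧
        |u z1 - u z| ≤ 4 * A * (√η + lam * (R * √R)) * (√(infDist z1 K) - √(infDist z K)) := by
    intro n
    induction n with
    | zero =>
      intro z hz h1 h2 _
      refine ⟨z, by simpa using h1, h2, by simp, by simp⟩
    | succ n ih =>
      intro z hz h1 h2 h3
      by_cases hbig : c ≤ infDist z K
      · exact ⟨z, hbig, h2, by simp, by simp⟩
      · push Not at hbig
        have hd0 : 0 < infDist z K := lt_of_lt_of_le (by positivity) h1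
        obtain ⟨w, hw1, hw2, hw3⟩ := hstep h hreg hy hη0 hη z hz (by linarith) (by linarith) hd0
        set d := infDist z K with hd
        have hw4 : infDist w K ≤ 4 * d := by
          have := Metric.infDist_le_infDist_add_dist (s := K) (x := w) (y := z)
          linarith
        have hwK : w ∉ K := by
          intro hwK
          rw [infDist_zero_of_mem hwK] at hw2
          linarith
        obtain ⟨z1, g1, g2, g3, g4⟩ := ih w hwK (by
            have : c / 2 ^ (n + 1) = c / 2 ^ n / 2 := by rw [pow_succ]; field_simp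
            rw [this] at h1; linarith) (by linarith) (by
            have := dist_triangle w z y
            linarith)
        refine ⟨z1, g1, g2, ?_, ?_⟩
        · have := dist_triangle z1 w z
          linarith
        · have e1 : |u z1 - u z| ≤ |u z1 - u w| + |u w - u z| := by
            have : u z1 - u z = (u z1 - u w) + (u w - u z) := by ring
            rw [this]; exact abs_add_le _ _
          -- increment
          have hsq : √d * (7 / 5) ≤ √(infDist w K) := by
            have : √d * (7 / 5) = √(d * (49 / 25)) := by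
              rw [Real.sqrt_mul hd0.le, show (49 / 25 : ℝ) = (7 / 5) ^ 2 by norm_num,
                Real.sqrt_sq (by norm_num)]
            rw [this]
            exact Real.sqrt_le_sqrt (by linarith)
          have hinc : A * (√η * √d + lam * d ^ 2) ≤
              4 * A * (√η + lam * (R * √R)) * (√(infDist w K) - √d) := by
            have f1 : √η * √d + lam * d ^ 2 ≤ (√η + lam * (R * √R)) * √d := by
              have : d ^ 2 = d * √d * √d := by
                rw [mul_assoc, Real.mul_self_sqrt hd0.le]; ring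
              rw [this, add_mul]
              have hdR : d ≤ R := by linarith
              have f2 : d * √d ≤ R * √R := by
                gcongr
              have f3 : lam * (d * √d * √d) ≤ lam * (R * √R) * √d := by
                have := mul_le_mul_of_nonneg_right f2 (Real.sqrt_nonneg d)
                nlinarith
              linarith
            have f4 : √d ≤ 4 * (√(infDist w K) - √d) := by
              have := Real.sqrt_nonneg d
              linarith
            have f5 : 0 ≤ √η + lam * (R * √R) := by positivity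
            calc A * (√η * √d + lam * d ^ 2) ≤ A * ((√η + lam * (R * √R)) * √d) := by gcongr
              _ ≤ A * ((√η + lam * (R * √R)) * (4 * (√(infDist w K) - √d))) := by gcongr
              _ = _ := by ring
          have e2 : 4 * A * (√η + lam * (R * √R)) * (√(infDist z1 K) - √d) =
              4 * A * (√η + lam * (R * √R)) * (√(infDist z1 K) - √(infDist w K)) +
              4 * A * (√η + lam * (R * √R)) * (√(infDist w K) - √d) := by ring
          rw [e2]
          linarith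
  intro z hz hzy
  have hf5 : 0 ≤ √η + lam * (R * √R) := by positivity
  by_cases hbig : c ≤ infDist z K
  · refine ⟨z, hbig, by simp; positivity, by simp; positivity⟩
  push Not at hbig
  have hpos : 0 < infDist z K := by
    have hne : K.Nonempty := ⟨y, hy⟩
    rcases (infDist_nonneg (x := z) (s := K)).eq_or_lt' with h0 | h0
    · exact absurd (h.closed ⟨(Metric.mem_closure_iff_infDist_zero hne).2 h0, hz.1⟩) hz.2
    · exact h0
  obtain ⟨n, hn⟩ : ∃ n : ℕ, c / 2 ^ n ≤ infDist z K := by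
    obtain ⟨n, hn⟩ := pow_unbounded_of_one_lt (c / infDist z K) (by norm_num : (1:ℝ) < 2)
    refine ⟨n, ?_⟩
    rw [div_le_iff₀ (by positivity)]
    rw [div_lt_iff₀ hpos] at hn
    linarith
  obtain ⟨z1, g1, g2, g3, g4⟩ := main n z hz.2 hn (by linarith) (by linarith)
  refine ⟨z1, g1, by linarith, g4.trans ?_⟩
  have : √(infDist z1 K) - √(infDist z K) ≤ √R := by
    have h1 : √(infDist z1 K) ≤ √R := Real.sqrt_le_sqrt (by linarith)
    have h2 := Real.sqrt_nonneg (infDist z K)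
    linarith
  gcongr

end Crest.Agent.R135.Phs
end
end

-- ▼ part R135/Phs3
section

/-!
# R135 / PHASE: values of `u` in the sectors (helper12)

`mk m y θ ρ k` is the marker point of the `k`-th sector.  In the regime of `Phs2` every value of `u`
in the ball is almost equal to the value at one of the markers.
-/

set_option autoImplicit false

noncomputable section

open MeasureTheory Set Filter Topology Metric Real
open scoped ENNReal NNReal ContDiff Gradient

namespace Crest.Agent.R135.Phs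

/-- marker point of the `k`-th sector -/
def mk (m : ℕ) (y : E2) (θ ρ : ℝ) (k : ℕ) : E2 := y + ρ • dir (bis m θ k)

lemma dist_mk (m : ℕ) (y : E2) (θ : ℝ) {ρ : ℝ} (hρ : 0 ≤ ρ) (k : ℕ) :
    dist (mk m y θ ρ k) y = ρ := by
  unfold mk
  rw [dist_eq_norm, add_sub_cancel_left, norm_smul, norm_dir, mul_one, Real.norm_eq_abs,
    abs_of_nonneg hρ]

lemma depth_self (m : ℕ) (v : E2) (ψ : ℝ) : depth m v ψ v = 0 := by
  unfold depth; simp

lemma depth_mk (m : ℕ) (y : E2) (θ ρ : ℝ) (k : ℕ) :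
    depth m y (bis m θ k) (mk m y θ ρ k) = sin (π / m) * ρ := by
  unfold mk
  rw [depth_add_smul, depth_self, zero_add]

/-- points which are deep in a sector are away from the crack -/
lemma far_of_depth {K : Set E2} {y : E2} {ρ ε a : ℝ} {m : ℕ} (hm : 2 ≤ m) {θ : ℝ}
    (hcl : HClose ε y (2 * ρ) K (star m y θ)) {k : ℕ} (hk : k < m) {p : E2}
    (hp : dist p y ≤ 3 / 2 * ρ) (ha : a + ε ≤ depth m y (bis m θ k) p) (ha2 : 2 * a ≤ ρ) :
    ∀ q ∈ K, a ≤ dist p q := by
  intro q hq
  by_cases hqb : q ∈ ball y (2 * ρ)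
  · obtain ⟨y1, hy1, hqy⟩ := hcl.1 q ⟨hq, hqb⟩
    have h1 := depth_le_dist hm y θ hk hy1 p
    have h2 := dist_triangle p q y1
    linarith
  · rw [mem_ball, not_lt] at hqb
    have h2 := dist_triangle q p y
    rw [dist_comm q p] at h2
    linarith

/-- two points deep in the same sector -/
theorem same_sector (a : ℝ) (ha : 0 < a) (ha1 : a ≤ 1 / 200) :
    ∃ A : ℝ, 0 < A ∧ ∀ {U K : Set E2} {lam : ℝ} {u : E2 → ℝ}, IsQM U lam u K →
    ∀ {y : E2} {ρ η ε : ℝ}, 0 < ρ → closedBall y (2 * ρ) ⊆ U → 0 ≤ η →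
    Dr u K y (2 * ρ) ≤ η * (2 * ρ) → ∀ {m : ℕ}, 2 ≤ m → ∀ {θ : ℝ},
    HClose ε y (2 * ρ) K (star m y θ) → ε ≤ a * ρ / 5 → ∀ {k : ℕ}, k < m → ∀ {p q : E2},
    dist p y ≤ 3 / 2 * ρ → dist q y ≤ 3 / 2 * ρ →
    a * ρ ≤ depth m y (bis m θ k) p → a * ρ ≤ depth m y (bis m θ k) q →
    |u q - u p| ≤ A * (√η + lam * (ρ * √ρ)) * √ρ := by
  obtain ⟨C, hC, hb⟩ := seg_bound
  refine ⟨15 / (4 * a) * √2 * C + C, by positivity, ?_⟩
  intro U K lam u h y ρ η ε hρ hU hη hD m hm θ hcl hε k hk p q hp hq hpd hqd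
  have hlam := h.lam_nonneg
  have haρ : 0 < a * ρ := by positivity
  have haρ1 : a * ρ ≤ ρ / 200 := by nlinarith
  have h1 := hb h p q (4 / 5 * (a * ρ)) (η * (2 * ρ)) (by positivity) (by positivity) (by
    intro w hw
    have hwd : a * ρ ≤ depth m y (bis m θ k) w := depth_segment hm y _ hpd hqd hw
    have hwy : dist w y ≤ 3 / 2 * ρ := by
      have := (convex_closedBall y (3 / 2 * ρ)).segment_subset
        (mem_closedBall.2 hp) (mem_closedBall.2 hq) hw
      exact mem_closedBall.1 this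
    have hfar := far_of_depth (a := 4 / 5 * (a * ρ)) hm hcl hk hwy (by linarith) (by linarith)
    have hsub : ball w (4 / 5 * (a * ρ)) ⊆ ball y (2 * ρ) := by
      apply ball_subset_ball'
      linarith
    refine ⟨fun z hz => ⟨hU (ball_subset_closedBall (hsub hz)), fun hzK => ?_⟩, ?_⟩
    · have h1 := hfar z hzK
      rw [mem_ball, dist_comm] at hz
      linarith
    · exact (dirE_mono hsub).trans (dirE_le_of_Dr h hU hD))
  refine h1.trans ?_
  have h2 : dist p q ≤ 3 * ρ := by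
    have := dist_triangle_right p q y
    linarith
  have h3 : √(η * (2 * ρ)) = √2 * (√η * √ρ) := by
    rw [Real.sqrt_mul hη, Real.sqrt_mul (by norm_num)]; ring
  rw [h3]
  have h4 : 0 ≤ C * (√2 * (√η * √ρ)) / (4 / 5 * (a * ρ)) + C * lam * (4 / 5 * (a * ρ)) := by
    positivity
  refine (mul_le_mul_of_nonneg_left h2 h4).trans ?_
  have h5 : (C * (√2 * (√η * √ρ)) / (4 / 5 * (a * ρ)) + C * lam * (4 / 5 * (a * ρ))) * (3 * ρ) =
      15 / (4 * a) * √2 * C * (√η * √ρ) + 12 / 5 * a * (C * (lam * (ρ * (√ρ * √ρ)))) := by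
    rw [Real.mul_self_sqrt hρ.le]; field_simp; ring
  rw [h5]
  have h6 : 0 ≤ √η * √ρ := by positivity
  have h7 : 0 ≤ lam * (ρ * (√ρ * √ρ)) := by positivity
  have h8 : 0 ≤ √2 * C := by positivity
  have h9 : (15 / (4 * a) * √2 * C + C) * (√η + lam * (ρ * √ρ)) * √ρ =
      (15 / (4 * a) * √2 * C) * (√η * √ρ) + C * (√η * √ρ)
       + (15 / (4 * a) * √2 * C) * (lam * (ρ * (√ρ * √ρ)))
       + C * (lam * (ρ * (√ρ * √ρ))) := by ring
  rw [h9]
  have h10 : 0 ≤ C * (√η * √ρ) := by positivity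
  have h11 : 0 ≤ (15 / (4 * a) * √2 * C) * (lam * (ρ * (√ρ * √ρ))) := by positivity
  have h12 : 0 ≤ C * (lam * (ρ * (√ρ * √ρ))) := by positivity
  nlinarith

/-- **Values in the ball.** With `ρ = R / 4`: every value of `u` in `ball y ρ` off `K` is almost one
of the marker values; deep points of a sector have the value of their own marker. -/
theorem values (a : ℝ) (ha : 0 < a) (ha1 : a ≤ 1 / 200) :
    ∃ A : ℝ, 0 < A ∧ ∀ {U K : Set E2} {lam : ℝ} {u : E2 → ℝ}, IsQM U lam u K →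
    ∀ {y : E2} {ρ η ε : ℝ}, 0 < ρ → Regime U u K y (4 * ρ) η → y ∈ K → 0 ≤ η → η ≤ 1 / 32 →
    ∀ {m : ℕ}, m = 2 ∨ m = 3 → ∀ {θ : ℝ},
    HClose ε y (2 * ρ) K (star m y θ) → ε ≤ a * ρ / 5 →
    (∀ z ∈ ball y ρ \ K, ∃ k < m,
      |u z - u (mk m y θ ρ k)| ≤ A * (√η + lam * (ρ * √ρ)) * √ρ ∧
      -(ρ / 4) ≤ depth m y (bis m θ k) z) ∧
    (∀ k < m, ∀ z ∈ ball y ρ, a * ρ ≤ depth m y (bis m θ k) z →
      z ∉ K ∧ |u z - u (mk m y θ ρ k)| ≤ A * (√η + lam * (ρ * √ρ)) * √ρ) := by
  obtain ⟨A1, hA1, hch⟩ := chain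
  obtain ⟨A2, hA2, hss⟩ := same_sector a ha ha1
  refine ⟨16 * A1 + A2, by positivity, ?_⟩
  intro U K lam u h y ρ η ε hρ hreg hy hη0 hη m hm θ hcl hε
  have haρ : 0 < a * ρ := by positivity
  have haρ1 : a * ρ ≤ ρ / 200 := by nlinarith
  have hlam := h.lam_nonneg
  have hm2 : 2 ≤ m := by omega
  have hU : closedBall y (2 * ρ) ⊆ U :=
    (closedBall_subset_closedBall (by linarith)).trans hreg.sub
  have hD : Dr u K y (2 * ρ) ≤ η * (2 * ρ) :=
    hreg.dr y hy (by simp; positivity) (2 * ρ) (by positivity) (by linarith)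
  have hs := four_fifths_le_sin hm
  have hmkd : ∀ k, a * ρ ≤ depth m y (bis m θ k) (mk m y θ ρ k) := by
    intro k
    rw [depth_mk]
    nlinarith
  have hmky : ∀ k, dist (mk m y θ ρ k) y ≤ 3 / 2 * ρ := by
    intro k
    rw [dist_mk _ _ _ hρ.le]; linarith
  have hnn : 0 ≤ (√η + lam * (ρ * √ρ)) * √ρ := by positivity
  constructor
  · intro z hz
    have hzy : dist z y < ρ := mem_ball.1 hz.1
    have hzU : z ∈ U \ K := ⟨hU (mem_closedBall.2 (by linarith)), hz.2⟩
    obtain ⟨z1, g1, g2, g3⟩ := hch h hreg hy hη0 hη (by positivity) z hzU (by linarith)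
    obtain ⟨k, hk, y0, hy0, hdep⟩ := exists_sector hm2 y θ z1
    have hz1y : dist z1 y ≤ 3 / 2 * ρ := by
      have := dist_triangle z1 z y
      linarith
    have hz1d : a * ρ ≤ depth m y (bis m θ k) z1 := by
      refine le_trans ?_ hdep
      by_cases hb : y0 ∈ ball y (2 * ρ)
      · obtain ⟨q, hq, hyq⟩ := hcl.2 y0 ⟨hy0, hb⟩
        have h1 := infDist_le_dist_of_mem (x := z1) hq
        have h2 := dist_triangle z1 y0 q
        linarith
      · rw [mem_ball, not_lt] at hb
        have h2 := dist_triangle y0 z1 y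
        rw [dist_comm y0 z1] at h2
        linarith
    refine ⟨k, hk, ?_, ?_⟩
    · have h1 := hss h hρ hU hη0 hD hm2 hcl hε hk (hmky k) hz1y (hmkd k) hz1d
      have h2 : |u z - u (mk m y θ ρ k)| ≤ |u z1 - u z| + |u z1 - u (mk m y θ ρ k)| := by
        have : u z - u (mk m y θ ρ k) = (u z1 - u (mk m y θ ρ k)) - (u z1 - u z) := by ring
        rw [this, add_comm]
        exact abs_sub _ _
      refine h2.trans ?_
      have h3 : √(4 * ρ) = 2 * √ρ := by
        rw [Real.sqrt_mul (by norm_num), show (4:ℝ) = 2 ^ 2 by norm_num,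
          Real.sqrt_sq (by norm_num)]
      rw [h3] at g3
      have h4 : A1 * (√η + lam * (4 * ρ * (2 * √ρ))) * (2 * √ρ) ≤
          16 * A1 * ((√η + lam * (ρ * √ρ)) * √ρ) := by
        have e1 : A1 * (√η + lam * (4 * ρ * (2 * √ρ))) * (2 * √ρ) =
          2 * A1 * (√η * √ρ) + 16 * A1 * (lam * (ρ * √ρ) * √ρ) := by ring
        have e2 : 16 * A1 * ((√η + lam * (ρ * √ρ)) * √ρ) =
          16 * A1 * (√η * √ρ) + 16 * A1 * (lam * (ρ * √ρ) * √ρ) := by ring
        rw [e1, e2]
        have : 0 ≤ A1 * (√η * √ρ) := by positivity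
        linarith
      have h5 : (16 * A1 + A2) * (√η + lam * (ρ * √ρ)) * √ρ =
          16 * A1 * ((√η + lam * (ρ * √ρ)) * √ρ) + A2 * (√η + lam * (ρ * √ρ)) * √ρ := by ring
      rw [h5]
      linarith
    · have h1 := depth_le_add hm2 y (bis m θ k) z1 z
      linarith
  · intro k hk z hz hzd
    have hzy : dist z y ≤ 3 / 2 * ρ := by
      have := mem_ball.1 hz
      linarith
    refine ⟨fun hzK => ?_, ?_⟩
    · have := far_of_depth (a := 4 / 5 * (a * ρ)) hm2 hcl hk hzy (by linarith) (by linarith) z hzK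
      rw [dist_self] at this
      linarith
    · have h1 := hss h hρ hU hη0 hD hm2 hcl hε hk (hmky k) hzy (hmkd k) hzd
      refine h1.trans ?_
      have h5 : (16 * A1 + A2) * (√η + lam * (ρ * √ρ)) * √ρ =
          16 * A1 * ((√η + lam * (ρ * √ρ)) * √ρ) + A2 * (√η + lam * (ρ * √ρ)) * √ρ := by ring
      rw [h5]
      have : 0 ≤ 16 * A1 * ((√η + lam * (ρ * √ρ)) * √ρ) := by positivity
      linarith

end Crest.Agent.R135.Phs
end
end

-- ▼ part R135/Phs4
section

/-!
# R135 / PHASE: the phases near a line or a propeller (helper12)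
-/

set_option autoImplicit false

noncomputable section

open MeasureTheory Set Filter Topology Metric Real
open scoped ENNReal NNReal ContDiff Gradient

namespace Crest.Agent.R135.Phs

/-- selection of a good radius -/
lemma exists_good_radius {U K : Set E2} {lam : ℝ} {u : E2 → ℝ} (h : IsQM U lam u K) {y : E2}
    {r : ℝ} (hr : 0 < r) (hU : closedBall y r ⊆ U) (hlam : lam * r ≤ 1)
    (hD : dirE u K (ball y r) ≤ ENNReal.ofReal (r / 8)) :
    ∃ s ∈ Ioo (r / 2) r, (K ∩ sphere y s).Finite ∧ (K ∩ sphere y s).ncard ≤ 33 ∧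
      ENNReal.ofReal s * ∫⁻ θ in Ioo (-Real.pi) Real.pi, ‖∇ u (cpt y s θ)‖ₑ ^ 2 ≤
        ENNReal.ofReal 1 := by
  have hlam0 := h.lam_nonneg
  set T1 : Set ℝ := {t | t ∈ Ioo 0 r ∧ ((33 : ℕ) : ℕ∞) ≤ ((K ∩ closedBall y r) ∩ sphere y t).encard}
    with hT1
  set T2 : Set ℝ := {t ∈ Ioo 0 r | ENNReal.ofReal 1 ≤
      ENNReal.ofReal t * ∫⁻ θ in Ioo (-Real.pi) Real.pi, ‖∇ u (cpt y t θ)‖ₑ ^ 2} with hT2
  have hlen : len (K ∩ closedBall y r) ≤ ENNReal.ofReal (8 * r) := by
    refine le_trans ?_ ((h.energy_le hr hU).trans (ENNReal.ofReal_le_ofReal ?_))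
    · exact le_add_self
    · have := Real.pi_lt_d2
      nlinarith
  have hv1 : volume T1 ≤ ENNReal.ofReal (8 * r / 33) := by
    have h1 := mul_volume_radii_le (K ∩ closedBall y r) y T1 33 (fun t ht => ht.2)
    have h2 : ((33 : ℕ) : ℝ≥0∞) * volume T1 ≤ ENNReal.ofReal (8 * r) := h1.trans hlen
    rw [ENNReal.ofReal_div_of_pos (by norm_num)]
    rw [ENNReal.le_div_iff_mul_le (by simp) (by simp), mul_comm]
    convert h2 using 2
    norm_num
  have hv2 : volume T2 ≤ ENNReal.ofReal (r / 8 / 1) := by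
    have hm : Measurable (fun z => ‖∇ u z‖ₑ ^ 2) := (measurable_gradient _).enorm.pow_const 2
    refine volume_bad_radii_le hm one_pos ?_
    refine le_trans (le_of_eq ?_) hD
    unfold dirE
    exact setLIntegral_congr (sdiff_null_ae_eq_self h.volume_K).symm
  have hex : ∃ s ∈ Ioo (r / 2) r, s ∉ T1 ∪ T2 := by
    by_contra hcon
    push Not at hcon
    have h1 : volume (Ioo (r / 2) r) ≤ volume (T1 ∪ T2) := measure_mono hcon
    have h2 := (h1.trans (measure_union_le _ _)).trans (add_le_add hv1 hv2)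
    rw [Real.volume_Ioo, ← ENNReal.ofReal_add (by positivity) (by positivity),
      ENNReal.ofReal_le_ofReal_iff (by positivity)] at h2
    linarith
  obtain ⟨s, hs, hsT⟩ := hex
  have hs0 : 0 < s := by have := hs.1; linarith
  have hs1 : s ∉ T1 := fun hc => hsT (Or.inl hc)
  have hs2 : s ∉ T2 := fun hc => hsT (Or.inr hc)
  have he : (K ∩ closedBall y r) ∩ sphere y s = K ∩ sphere y s := by
    ext p
    constructor
    · rintro ⟨⟨h1, _⟩, h2⟩; exact ⟨h1, h2⟩
    · rintro ⟨h1, h2⟩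
      refine ⟨⟨h1, ?_⟩, h2⟩
      rw [mem_closedBall, mem_sphere.1 h2]; exact hs.2.le
  have hcard : (K ∩ sphere y s).encard < ((33 : ℕ) : ℕ∞) := by
    rw [← not_le, ← he]
    exact fun hc => hs1 ⟨⟨hs0, hs.2⟩, hc⟩
  have hfin : (K ∩ sphere y s).Finite := by
    rw [← encard_lt_top_iff]
    exact hcard.trans (by exact_mod_cast ENat.natCast_lt_top 33)
  refine ⟨s, hs, hfin, ?_, ?_⟩
  · rw [← hfin.cast_ncard_eq] at hcard
    have : (K ∩ sphere y s).ncard < 33 := by exact_mod_cast hcard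
    omega
  · by_contra hcon
    exact hs2 ⟨⟨hs0, hs.2⟩, (not_le.1 hcon).le⟩

/-- for two distinct sectors there is an arm which is far from the other sectors -/
lemma exists_arm (y : E2) (θ : ℝ) {ρ : ℝ} (hρ : 0 < ρ) {m : ℕ} (hm : m = 2 ∨ m = 3) {k l : ℕ}
    (hk : k < m) (hl : l < m) (hkl : k ≠ l) :
    ∃ a < m, ∀ j < m, j ≠ k → j ≠ l →
      depth m y (bis m θ j) (y + (ρ / 2) • dir (θ + 2 * π * a / m)) ≤ -(2 / 5 * ρ) := by
  rcases hm with rfl | rfl
  · exact ⟨0, by norm_num, fun j hj h1 h2 => by omega⟩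
  · have hs := four_fifths_le_sin (m := 3) (Or.inr rfl)
    have key : ∀ a j : ℕ, (θ + 2 * π * a / (3:ℕ) - bis 3 θ j = π ∨
        θ + 2 * π * a / (3:ℕ) - bis 3 θ j = -π) →
        depth 3 y (bis 3 θ j) (y + (ρ / 2) • dir (θ + 2 * π * a / (3:ℕ))) ≤ -(2 / 5 * ρ) := by
      intro a j haj
      have e := depth_cpt 3 y (bis 3 θ j) (by positivity : 0 ≤ ρ / 2) (θ + 2 * π * a / (3:ℕ))
      unfold cpt at e
      rw [e]
      have hc : cos (θ + 2 * π * a / (3:ℕ) - bis 3 θ j) = -1 := by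
        rcases haj with h | h <;> rw [h] <;> simp
      have hsn : sin (θ + 2 * π * a / (3:ℕ) - bis 3 θ j) = 0 := by
        rcases haj with h | h <;> rw [h] <;> simp
      rw [hc, hsn, abs_zero, mul_zero]
      nlinarith
    -- the third sector
    have h3 : ∃ a < 3, ∀ j < 3, j ≠ k → j ≠ l → (θ + 2 * π * (a:ℕ) / (3:ℕ) - bis 3 θ j = π ∨
        θ + 2 * π * (a:ℕ) / (3:ℕ) - bis 3 θ j = -π) := by
      by_cases h0 : k ≠ 0 ∧ l ≠ 0
      · refine ⟨2, by norm_num, ?_⟩
        intro j hj h1 h2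
        have : j = 0 := by omega
        subst this
        left; unfold bis; push_cast; ring
      · by_cases h1 : k ≠ 1 ∧ l ≠ 1
        · refine ⟨0, by norm_num, ?_⟩
          intro j hj h1 h2
          have : j = 1 := by omega
          subst this
          right; unfold bis; push_cast; ring
        · refine ⟨1, by norm_num, ?_⟩
          intro j hj h1 h2
          have : j = 2 := by omega
          subst this
          right; unfold bis; push_cast; ring
    obtain ⟨a, ha, h⟩ := h3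
    exact ⟨a, ha, fun j hj h1 h2 => key a j (h j hj h1 h2)⟩

/-- **Jumps between the sectors.** -/
theorem jump_values : ∃ κ : ℝ, 0 < κ ∧ ∃ η0 : ℝ, 0 < η0 ∧
    ∀ {U K : Set E2} {lam : ℝ} {u : E2 → ℝ}, IsSQM U lam u K →
    ∀ {y : E2} {ρ ε : ℝ}, 0 < ρ → ρ ≤ 1 → lam * ρ ≤ η0 → Regime U u K y (4 * ρ) η0 → y ∈ K →
    ∀ {m : ℕ}, m = 2 ∨ m = 3 → ∀ {θ : ℝ},
    HClose ε y (2 * ρ) K (star m y θ) → ε ≤ ρ / 1000 → ∀ k < m, ∀ l < m, k ≠ l →
      κ * √ρ ≤ |u (mk m y θ ρ k) - u (mk m y θ ρ l)| := by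
  obtain ⟨κ0, hκ0, l0, hl0, hj⟩ := jump 33 1 zero_le_one
  obtain ⟨A, hA, hval⟩ := values (1 / 200) (by norm_num) le_rfl
  set δ := κ0 / 24 with hδ
  have hδ0 : 0 < δ := by positivity
  obtain ⟨η0, hη0, hη1, hη2, hη3, hη4⟩ : ∃ η0 : ℝ, 0 < η0 ∧ η0 ≤ 1 / 32 ∧ η0 ≤ l0 ∧
      A * √η0 ≤ δ / 2 ∧ A * η0 ≤ δ / 2 := by
    refine ⟨min (min (1 / 32) l0) (min ((δ / (2 * A)) ^ 2) (δ / (2 * A))), by positivity,
      (min_le_left _ _).trans (min_le_left _ _), (min_le_left _ _).trans (min_le_right _ _), ?_, ?_⟩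
    · have h1 : √(min (min (1 / 32) l0) (min ((δ / (2 * A)) ^ 2) (δ / (2 * A)))) ≤ δ / (2 * A) := by
        rw [Real.sqrt_le_left (by positivity)]
        exact (min_le_right _ _).trans (min_le_left _ _)
      calc _ ≤ A * (δ / (2 * A)) := by gcongr
        _ = δ / 2 := by field_simp
    · have h1 : min (min (1 / 32) l0) (min ((δ / (2 * A)) ^ 2) (δ / (2 * A))) ≤ δ / (2 * A) :=
        (min_le_right _ _).trans (min_le_right _ _)
      calc _ ≤ A * (δ / (2 * A)) := by gcongr
        _ = δ / 2 := by field_simp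
  refine ⟨δ, hδ0, η0, hη0, ?_⟩
  intro U K lam u h y ρ ε hρ hρ1 hlam hreg hy m hm θ hcl hε k hk l hl hkl
  have hm2 : 2 ≤ m := by omega
  have hm0 : (0:ℝ) < m := by exact_mod_cast (by omega : 0 < m)
  have hlam0 := h.lam_nonneg
  obtain ⟨hv1, _⟩ := hval h.toIsQM hρ hreg hy hη0.le hη1 hm hcl (by linarith)
  have hδρ : A * (√η0 + lam * (ρ * √ρ)) * √ρ ≤ δ * √ρ := by
    gcongr
    have h1 : √ρ ≤ 1 := by
      rw [Real.sqrt_le_one]; exact hρ1
    have h2 : lam * (ρ * √ρ) ≤ η0 := by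
      have : lam * ρ * √ρ ≤ lam * ρ * 1 := by gcongr
      nlinarith
    nlinarith
  by_contra hcon
  push Not at hcon
  obtain ⟨a, ha, harm⟩ := exists_arm y θ hρ hm hk hl hkl
  set P := y + (ρ / 2) • dir (θ + 2 * π * a / m) with hP
  have hPs : P ∈ star m y θ := ⟨a, ha, ρ / 2, by positivity, rfl⟩
  have hPy : dist P y = ρ / 2 := by
    rw [hP, dist_eq_norm, add_sub_cancel_left, norm_smul, norm_dir, mul_one, Real.norm_eq_abs,
      abs_of_nonneg (by positivity)]
  obtain ⟨y', hy', hPy'⟩ := hcl.2 P ⟨hPs, by rw [mem_ball, hPy]; linarith⟩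
  have hy'y : dist y' y ≤ 3 / 5 * ρ := by
    have := dist_triangle y' P y
    rw [dist_comm y' P] at this
    linarith
  have hUy' : closedBall y' (ρ / 16) ⊆ U :=
    (closedBall_subset_closedBall' (by linarith)).trans hreg.sub
  have hD := hreg.dr y' hy' (by linarith) (ρ / 16) (by positivity) (by linarith)
  have hD2 : dirE u K (ball y' (ρ / 16)) ≤ ENNReal.ofReal (ρ / 16 / 8) :=
    dirE_le_of_Dr h.toIsQM hUy' (hD.trans (by nlinarith))
  obtain ⟨s, hs, hfin, hN, hE⟩ := exists_good_radius h.toIsQM (by positivity : 0 < ρ / 16) hUy'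
    (by nlinarith) hD2
  have hs0 : 0 < s := by have := hs.1; linarith
  have hmain := hj h y' hy' s hs0 (by have := hs.2; linarith)
    ((closedBall_subset_closedBall hs.2.le).trans hUy')
    (by
      have h1 : lam * s ≤ lam * ρ := mul_le_mul_of_nonneg_left (by have := hs.2; linarith) hlam0
      linarith) hfin hN hE
    (u (mk m y θ ρ k)) (12 * δ) ?_ (by positivity)
  · rw [hδ] at hmain
    linarith
  · intro z hz
    have hzs : dist z y' = s := mem_sphere.1 hz.1
    have hzP : dist z P ≤ ρ / 16 + ρ / 1000 := by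
      have := dist_triangle z y' P
      rw [dist_comm y' P] at this
      have := hs.2
      linarith
    have hzy : z ∈ ball y ρ \ K := by
      refine ⟨?_, hz.2⟩
      rw [mem_ball]
      have := dist_triangle z P y
      linarith
    obtain ⟨j, hj1, hj2, hj3⟩ := hv1 z hzy
    have hjkl : j = k ∨ j = l := by
      by_contra hne
      push Not at hne
      have h1 := harm j hj1 hne.1 hne.2
      have h2 := depth_le_add hm2 y (bis m θ j) z P
      linarith
    have h5 : |u z - u (mk m y θ ρ k)| ≤ 2 * δ * √ρ := by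
      rcases hjkl with rfl | rfl
      · have : 0 ≤ δ * √ρ := by positivity
        linarith
      · have e : u z - u (mk m y θ ρ k) = (u z - u (mk m y θ ρ j)) +
            -(u (mk m y θ ρ k) - u (mk m y θ ρ j)) := by ring
        rw [e]
        refine (abs_add_le _ _).trans ?_
        rw [abs_neg]
        linarith
    have h6 : √ρ ≤ 6 * √s := by
      have : √ρ ≤ √(36 * s) := Real.sqrt_le_sqrt (by have := hs.1; linarith)
      rwa [Real.sqrt_mul (by norm_num), show (36:ℝ) = 6 ^ 2 by norm_num,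
        Real.sqrt_sq (by norm_num)] at this
    calc |u z - u (mk m y θ ρ k)| ≤ 2 * δ * √ρ := h5
      _ ≤ 2 * δ * (6 * √s) := by gcongr
      _ = 12 * δ * √s := by ring

/-- **PHASE.** Near a line (`m = 2`) or a propeller (`m = 3`) the complement of the crack splits
into `m` separated phases (general thresholds `δ` for the values and `a` for the depth). -/
theorem phase_gen : ∃ κ : ℝ, 0 < κ ∧ ∀ δ a : ℝ, 0 < δ → 0 < a → a ≤ 1 / 200 → ∃ η0 : ℝ, 0 < η0 ∧
    ∀ {U K : Set E2} {lam : ℝ} {u : E2 → ℝ}, IsSQM U lam u K →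
    ∀ {y : E2} {ρ ε : ℝ}, 0 < ρ → ρ ≤ 1 → lam * ρ ≤ η0 → Regime U u K y (4 * ρ) η0 → y ∈ K →
    ∀ {m : ℕ}, m = 2 ∨ m = 3 → ∀ {θ : ℝ},
    HClose ε y (2 * ρ) K (star m y θ) → ε ≤ a * ρ / 5 →
    ∃ (χ : E2 → ℝ) (c : ℕ → ℝ), LocConstOn (ball y ρ \ K) χ ∧
      (∀ z ∈ ball y ρ \ K, ∃ k < m, χ z = (k : ℝ) ∧ |u z - c k| ≤ δ * √ρ) ∧
      (∀ k < m, ∀ z ∈ ball y ρ, a * ρ ≤ depth m y (bis m θ k) z → z ∉ K ∧ χ z = (k : ℝ)) ∧
      (∀ k < m, ∀ l < m, k ≠ l → κ * √ρ ≤ |c k - c l|) := by
  obtain ⟨κ, hκ, η1, hη1, hjv⟩ := jump_values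
  refine ⟨κ, hκ, ?_⟩
  intro δ' a hδ' ha ha1
  obtain ⟨A, hA, hval⟩ := values a ha ha1
  set δ := min δ' (κ / 8) with hδ
  have hδ0 : 0 < δ := by positivity
  have hδκ : δ ≤ κ / 8 := min_le_right _ _
  obtain ⟨η0, hη0, hη01, hη2, hη3, hη4⟩ : ∃ η0 : ℝ, 0 < η0 ∧ η0 ≤ 1 / 32 ∧ η0 ≤ η1 ∧
      A * √η0 ≤ δ / 2 ∧ A * η0 ≤ δ / 2 := by
    refine ⟨min (min (1 / 32) η1) (min ((δ / (2 * A)) ^ 2) (δ / (2 * A))), by positivity,
      (min_le_left _ _).trans (min_le_left _ _), (min_le_left _ _).trans (min_le_right _ _), ?_, ?_⟩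
    · have h1 : √(min (min (1 / 32) η1) (min ((δ / (2 * A)) ^ 2) (δ / (2 * A)))) ≤ δ / (2 * A) := by
        rw [Real.sqrt_le_left (by positivity)]
        exact (min_le_right _ _).trans (min_le_left _ _)
      calc _ ≤ A * (δ / (2 * A)) := by gcongr
        _ = δ / 2 := by field_simp
    · have h1 : min (min (1 / 32) η1) (min ((δ / (2 * A)) ^ 2) (δ / (2 * A))) ≤ δ / (2 * A) :=
        (min_le_right _ _).trans (min_le_right _ _)
      calc _ ≤ A * (δ / (2 * A)) := by gcongr
        _ = δ / 2 := by field_simp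
  refine ⟨η0, hη0, ?_⟩
  intro U K lam u h y ρ ε hρ hρ1 hlam hreg hy m hm θ hcl hε
  have hlam0 := h.lam_nonneg
  have hreg1 : Regime U u K y (4 * ρ) η1 := by
    refine ⟨hreg.sub, ?_, ?_⟩
    · intro z hz hzy s hs hsR
      obtain ⟨m, hm, v, θ, hc⟩ := hreg.fl z hz hzy s hs hsR
      have hle : η0 * s ≤ η1 * s := mul_le_mul_of_nonneg_right hη2 hs.le
      refine ⟨m, hm, v, θ, ?_, ?_⟩
      · intro w hw
        obtain ⟨q, hq, hd⟩ := hc.1 w hw
        exact ⟨q, hq, hd.trans_le hle⟩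
      · intro w hw
        obtain ⟨q, hq, hd⟩ := hc.2 w hw
        exact ⟨q, hq, hd.trans_le hle⟩
    · intro z hz hzy s hs hsR
      exact (hreg.dr z hz hzy s hs hsR).trans (mul_le_mul_of_nonneg_right hη2 hs.le)
  obtain ⟨hv1, hv2⟩ := hval h.toIsQM hρ hreg hy hη0.le hη01 hm hcl hε
  have hjmp := hjv h hρ hρ1 (hlam.trans hη2) hreg1 hy hm hcl (by nlinarith)
  have hδρ : A * (√η0 + lam * (ρ * √ρ)) * √ρ ≤ δ * √ρ := by
    gcongr
    have h1 : √ρ ≤ 1 := by
      rw [Real.sqrt_le_one]; exact hρ1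
    have h2 : lam * (ρ * √ρ) ≤ η0 := by
      have : lam * ρ * √ρ ≤ lam * ρ * 1 := by gcongr
      nlinarith
    nlinarith
  have hsρ : 0 < √ρ := Real.sqrt_pos.2 hρ
  set c : ℕ → ℝ := fun k => u (mk m y θ ρ k) with hc
  have hex : ∀ z ∈ ball y ρ \ K, ∃ k < m, |u z - c k| ≤ δ * √ρ := by
    intro z hz
    obtain ⟨k, hk, h1, _⟩ := hv1 z hz
    exact ⟨k, hk, h1.trans hδρ⟩
  -- uniqueness
  have huniq : ∀ a b : ℝ, ∀ k < m, ∀ l < m, |a - c k| ≤ δ * √ρ → |b - c l| ≤ δ * √ρ →
      |a - b| ≤ 4 * δ * √ρ → k = l := by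
    intro a b k hk l hl h1 h2 h3
    by_contra hkl
    have h4 := hjmp k hk l hl hkl
    have h5 : |c k - c l| ≤ 6 * δ * √ρ := by
      have e : c k - c l = -(a - c k) + (a - b) + (b - c l) := by ring
      rw [e]
      refine (abs_add_three _ _ _).trans ?_
      rw [abs_neg]
      linarith
    have h6 : κ * √ρ ≤ 6 * δ * √ρ := h4.trans h5
    have h7 : κ ≤ 6 * δ := le_of_mul_le_mul_right h6 hsρ
    linarith
  classical
  set χ : E2 → ℝ := fun z => if hz : z ∈ ball y ρ \ K then ((hex z hz).choose : ℝ) else 0 with hχ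
  have hχ1 : ∀ z ∈ ball y ρ \ K, ∃ k < m, χ z = (k : ℝ) ∧ |u z - c k| ≤ δ * √ρ := by
    intro z hz
    refine ⟨(hex z hz).choose, (hex z hz).choose_spec.1, ?_, (hex z hz).choose_spec.2⟩
    simp only [hχ, dif_pos hz]
  have hUball : ball y ρ ⊆ U :=
    (ball_subset_closedBall.trans (closedBall_subset_closedBall (by linarith))).trans hreg.sub
  have hopen : IsOpen (ball y ρ \ K) := by
    have : ball y ρ \ K = ball y ρ ∩ (U \ K) := by
      ext z
      exact ⟨fun hz => ⟨hz.1, hUball hz.1, hz.2⟩, fun hz => ⟨hz.1, hz.2.2⟩⟩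
    rw [this]
    exact isOpen_ball.inter h.toIsQM.isOpen_diff
  refine ⟨χ, c, ?_, ?_, ?_, ?_⟩
  · intro z hz
    have hcont : ContinuousAt u z := (h.toIsQM.contDiffAt ⟨hUball hz.1, hz.2⟩).continuousAt
    have h1 : ∀ᶠ w in 𝓝 z, dist (u w) (u z) < δ * √ρ :=
      hcont.eventually (Metric.ball_mem_nhds (u z) (by positivity))
    filter_upwards [h1, hopen.mem_nhds hz] with w hw1 hw2
    obtain ⟨k, hk, e1, h2⟩ := hχ1 w hw2
    obtain ⟨l, hl, e2, h3⟩ := hχ1 z hz
    rw [e1, e2]
    rw [Real.dist_eq] at hw1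
    have : k = l := huniq (u w) (u z) k hk l hl h2 h3 (by
      have : 0 ≤ δ * √ρ := by positivity
      linarith)
    rw [this]
  · intro z hz
    obtain ⟨k, hk, e1, h2⟩ := hχ1 z hz
    exact ⟨k, hk, e1, h2.trans (by gcongr; exact min_le_left _ _)⟩
  · intro k hk z hz hzd
    obtain ⟨hzK, h1⟩ := hv2 k hk z hz hzd
    refine ⟨hzK, ?_⟩
    obtain ⟨l, hl, e2, h3⟩ := hχ1 z ⟨hz, hzK⟩
    rw [e2]
    have : l = k := huniq (u z) (u z) l hl k hk h3 (h1.trans hδρ) (by simp; positivity)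
    rw [this]
  · exact hjmp


end Crest.Agent.R135.Phs
end
end

-- ▼ part R135/Phs5

/-!
# R135 / PHASE: interface form (helper12)
-/

set_option autoImplicit false

noncomputable section

open MeasureTheory Set Filter Topology Metric Real
open scoped ENNReal NNReal ContDiff Gradient

namespace Crest.Agent.R135.Phs

lemma J_dir (θ : ℝ) : Arc.J (dir θ) = tau θ := by
  apply ext_E2 <;> simp

lemma star_two (v : E2) (θ : ℝ) : star 2 v θ = ray v (dir θ) ∪ ray v (-dir θ) := by
  have e1 : dir (θ + 2 * π * ((1:ℕ):ℝ) / (2:ℕ)) = -dir θ := by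
    apply ext_E2 <;> simp [cos_add, sin_add]
  ext y
  simp only [star, mem_ofPred_eq, mem_union]
  constructor
  · rintro ⟨k, hk, hy⟩
    interval_cases k
    · left; simpa using hy
    · right; rwa [e1] at hy
  · rintro (hy | hy)
    · exact ⟨0, by norm_num, by simpa using hy⟩
    · exact ⟨1, by norm_num, by rwa [e1]⟩

lemma add_smul_mem_star_two (v : E2) (θ t : ℝ) : v + t • dir θ ∈ star 2 v θ := by
  rw [star_two]
  rcases le_total 0 t with h | h
  · exact Or.inl ⟨t, h, rfl⟩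
  · exact Or.inr ⟨-t, by linarith, by simp⟩

lemma hclose_of_flat {K : Set E2} {y : E2} {θ ρ E E' : ℝ} (h : Arc.Flat K y (dir θ) ρ E)
    (hE : E < E') : HClose E' y ρ K (star 2 y θ) := by
  obtain ⟨_, h1, h2⟩ := h
  constructor
  · intro w hw
    refine ⟨y + (inner ℝ (w - y) (dir θ)) • dir θ, add_smul_mem_star_two _ _ _, ?_⟩
    refine lt_of_le_of_lt ?_ hE
    have h3 := h1 w hw.1 (mem_ball.1 hw.2).le
    rw [J_dir] at h3
    refine le_trans (le_of_eq ?_) h3
    rw [dist_eq_norm]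
    have e : w - (y + (inner ℝ (w - y) (dir θ)) • dir θ) =
        (w - y) - (inner ℝ (w - y) (dir θ)) • dir θ := by abel
    rw [e]
    generalize w - y = v
    have h4 := norm_sq_frame (v - (inner ℝ v (dir θ)) • dir θ) θ
    rw [inner_sub_left, inner_sub_left, inner_smul_left, inner_smul_left, inner_dir_dir,
      inner_dir_tau] at h4
    simp only [conj_trivial, sub_self, cos_zero, mul_one, mul_zero, sub_zero] at h4
    rw [zero_pow two_ne_zero, zero_add] at h4
    rw [sq_eq_sq_iff_abs_eq_abs] at h4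
    simpa using h4
  · intro q hq
    obtain ⟨hq1, hq2⟩ := hq
    obtain ⟨t, ht, rfl⟩ : ∃ t : ℝ, |t| ≤ ρ ∧ q = y + t • dir θ := by
      rw [star_two] at hq1
      rw [mem_ball] at hq2
      rcases hq1 with ⟨t, ht, rfl⟩ | ⟨t, ht, rfl⟩
      · refine ⟨t, ?_, rfl⟩
        rw [dist_eq_norm, add_sub_cancel_left, norm_smul, norm_dir, mul_one,
          Real.norm_eq_abs] at hq2
        exact hq2.le
      · refine ⟨-t, ?_, by simp⟩
        rw [dist_eq_norm, add_sub_cancel_left, norm_smul, norm_neg, norm_dir, mul_one,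
          Real.norm_eq_abs] at hq2
        rw [abs_neg]
        exact hq2.le
    obtain ⟨z, hz, hd⟩ := h2 t ht
    exact ⟨z, hz, by rw [dist_comm]; exact hd.trans_lt hE⟩

lemma rt_dir (θ : ℝ) (k : Fin 3) :
    Arc.rt (Arc.a3 k) (Arc.b3 k) (dir θ) = dir (θ + 2 * π * ((k : ℕ) : ℝ) / (3:ℕ)) := by
  have c1 : cos (2 * π / 3) = -(1 / 2) := by
    have : 2 * π / 3 = π - π / 3 := by ring
    rw [this, cos_pi_sub, cos_pi_div_three]
  have s1 : sin (2 * π / 3) = √3 / 2 := by
    have : 2 * π / 3 = π - π / 3 := by ring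
    rw [this, sin_pi_sub, sin_pi_div_three]
  have c2 : cos (2 * π * 2 / 3) = -(1 / 2) := by
    have : 2 * π * 2 / 3 = π / 3 + π := by ring
    rw [this, cos_add_pi, cos_pi_div_three]
  have s2 : sin (2 * π * 2 / 3) = -(√3 / 2) := by
    have : 2 * π * 2 / 3 = π / 3 + π := by ring
    rw [this, sin_add_pi, sin_pi_div_three]
  unfold Arc.rt
  rw [J_dir]
  fin_cases k
  · simp [Arc.a3, Arc.b3]
  · apply ext_E2
    · simp only [Arc.a3, Arc.b3, PiLp.add_apply, PiLp.smul_apply, smul_eq_mul, dir_zero, tau_zero]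
      simp [cos_add, c1, s1]
      ring
    · simp only [Arc.a3, Arc.b3, PiLp.add_apply, PiLp.smul_apply, smul_eq_mul, dir_one, tau_one]
      simp [sin_add, c1, s1]
      ring
  · apply ext_E2
    · simp only [Arc.a3, Arc.b3, PiLp.add_apply, PiLp.smul_apply, smul_eq_mul, dir_zero, tau_zero]
      simp [cos_add, c2, s2]
      ring
    · simp only [Arc.a3, Arc.b3, PiLp.add_apply, PiLp.smul_apply, smul_eq_mul, dir_one, tau_one]
      simp [sin_add, c2, s2]
      ring

lemma hclose_of_starAt {K : Set E2} {y : E2} {θ ρ E E' : ℝ}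
    (h : Arc.StarAt Arc.a3 Arc.b3 K y (dir θ) ρ E) (hE : E < E') :
    HClose E' y ρ K (star 3 y θ) := by
  obtain ⟨_, h1, h2⟩ := h
  constructor
  · intro w hw
    obtain ⟨k, t, ht, hd⟩ := h1 w hw.1 (mem_ball.1 hw.2).le
    rw [rt_dir] at hd
    exact ⟨_, ⟨k, k.2, t, ht, rfl⟩, hd.trans_lt hE⟩
  · rintro q ⟨⟨k, hk, t, ht, rfl⟩, hq⟩
    rw [mem_ball, dist_eq_norm, add_sub_cancel_left, norm_smul, norm_dir, mul_one,
          Real.norm_eq_abs, abs_of_nonneg ht] at hq
    obtain ⟨z, hz, hd⟩ := h2 ⟨k, hk⟩ t ht hq.le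
    rw [rt_dir] at hd
    exact ⟨z, hz, by rw [dist_comm]; exact hd.trans_lt hE⟩

lemma Regime.weaken {U : Set E2} {u : E2 → ℝ} {K : Set E2} {y : E2} {R η η' : ℝ}
    (h : Regime U u K y R η) (hη : η ≤ η') : Regime U u K y R η' := by
  refine ⟨h.sub, ?_, ?_⟩
  · intro z hz hzy s hs hsR
    obtain ⟨m, hm, v, θ, hc⟩ := h.fl z hz hzy s hs hsR
    have hle : η * s ≤ η' * s := mul_le_mul_of_nonneg_right hη hs.le
    refine ⟨m, hm, v, θ, ?_, ?_⟩
    · intro w hw
      obtain ⟨q, hq, hd⟩ := hc.1 w hw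
      exact ⟨q, hq, hd.trans_le hle⟩
    · intro w hw
      obtain ⟨q, hq, hd⟩ := hc.2 w hw
      exact ⟨q, hq, hd.trans_le hle⟩
  · intro z hz hzy s hs hsR
    exact (h.dr z hz hzy s hs hsR).trans (mul_le_mul_of_nonneg_right hη hs.le)

lemma regime_of_lineReg {ε : ℝ} {U : Set E2} {lam : ℝ} {u : E2 → ℝ} {K : Set E2} {y : E2} {r : ℝ}
    (hε : 0 < ε) (h : LineReg ε U lam u K y r) {z : E2} (hzy : dist z y ≤ r / 2)
    {R : ℝ} (hR : R ≤ r / 4) : Regime U u K z R (2 * ε) := by
  have hr := h.pos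
  refine ⟨?_, ?_, ?_⟩
  · refine (closedBall_subset_closedBall' ?_).trans h.sub
    linarith
  · intro w hw hwz s hs hsR
    have hwy : dist w y < r := by
      have := dist_triangle w z y
      linarith
    obtain ⟨e, he⟩ := h.flat w hw hwy s hs (by linarith)
    obtain ⟨θ, _, rfl⟩ := exists_dir_eq e he.1 0
    exact ⟨2, Or.inl rfl, w, θ, hclose_of_flat he (by nlinarith)⟩
  · intro w hw hwz s hs hsR
    have hwy : dist w y < r := by
      have := dist_triangle w z y
      linarith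
    refine (h.en w hw hwy s hs (by linarith)).trans ?_
    nlinarith

lemma regime_of_propReg {ε : ℝ} {U : Set E2} {lam : ℝ} {u : E2 → ℝ} {K : Set E2} {x : E2} {r : ℝ}
    (hε : 0 < ε) (h : PropReg ε U lam u K x r) {R : ℝ} (hR : R ≤ r / 4) :
    Regime U u K x R (4 * ε) := by
  have hr := h.pos
  refine ⟨?_, ?_, ?_⟩
  · refine (closedBall_subset_closedBall ?_).trans h.sub
    linarith
  · intro w hw hwx s hs hsR
    have hwxr : dist w x < r := by linarith
    by_cases hc : 0 < dist w x ∧ s ≤ dist w x / 2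
    · obtain ⟨⟨e, he⟩, _⟩ := h.line w hw hc.1 hwxr s hs hc.2
      obtain ⟨θ, _, rfl⟩ := exists_dir_eq e he.1 0
      exact ⟨2, Or.inl rfl, w, θ, hclose_of_flat he (by nlinarith)⟩
    · have hsw : dist w x ≤ 2 * s := by
        rcases not_and_or.1 hc with h1 | h1
        · linarith [dist_nonneg (x := w) (y := x)]
        · push Not at h1; linarith
      obtain ⟨e, he⟩ := h.prop (s + dist w x) (by linarith [dist_nonneg (x := w) (y := x)])
        (by linarith)
      obtain ⟨θ, _, rfl⟩ := exists_dir_eq e he.1 0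
      have h1 := hclose_of_starAt (E' := 4 * ε * s) he (by nlinarith)
      have hsub : ball w s ⊆ ball x (s + dist w x) := ball_subset_ball' le_rfl
      exact ⟨3, Or.inr rfl, x, θ, fun p hp => h1.1 p ⟨hp.1, hsub hp.2⟩,
        fun p hp => h1.2 p ⟨hp.1, hsub hp.2⟩⟩
  · intro w hw hwx s hs hsR
    refine (h.en w hw (by linarith) s hs (by linarith)).trans ?_
    nlinarith

/-- the phase function from the label function -/
lemma isPhase_of {δ : ℝ} {u : E2 → ℝ} {K : Set E2} {z : E2} {s : ℝ} {χ : E2 → ℝ} {c : ℕ → ℝ}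
    {m : ℕ} (h1 : LocConstOn (ball z s \ K) χ)
    (h2 : ∀ w ∈ ball z s \ K, ∃ k < m, χ w = (k : ℝ) ∧ |u w - c k| ≤ δ * √s) :
    IsPhase δ u K z s (fun w => c ⌊χ w⌋₊) := by
  refine ⟨?_, ?_, ?_⟩
  · intro w hw
    filter_upwards [h1 w hw] with p hp
    rw [hp]
  · refine ((finite_Iio m).image c).subset ?_
    rintro _ ⟨w, hw, rfl⟩
    obtain ⟨k, hk, e, _⟩ := h2 w hw
    exact ⟨k, hk, by simp only [e, Nat.floor_natCast]⟩
  · intro w hw
    obtain ⟨k, hk, e, h3⟩ := h2 w hw
    simp only [e, Nat.floor_natCast]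
    exact h3

theorem phase_line' (δ : ℝ) (hδ : 0 < δ) : ∃ ε : ℝ, 0 < ε ∧
    ∀ {U : Set E2} {lam : ℝ} {u : E2 → ℝ} {K : Set E2} {y : E2} {r : ℝ}, IsSQM U lam u K →
      LineReg ε U lam u K y r → ∀ z ∈ K, dist z y ≤ r / 2 → ∀ s : ℝ, 0 < s → s ≤ r / 16 →
        LinePhase δ u K z s := by
  obtain ⟨κ, hκ, hgen⟩ := phase_gen
  set a : ℝ := min δ (1 / 200) with ha
  have ha0 : 0 < a := lt_min hδ (by norm_num)
  obtain ⟨η0, hη0, H⟩ := hgen δ a hδ ha0 (min_le_right _ _)
  refine ⟨min (η0 / 2) (a / 11), lt_min (by positivity) (by positivity), ?_⟩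
  set ε := min (η0 / 2) (a / 11) with hε
  have hε0 : 0 < ε := lt_min (by positivity) (by positivity)
  have hε1 : ε ≤ η0 / 2 := min_le_left _ _
  have hε2 : ε ≤ a / 11 := min_le_right _ _
  have haδ : a ≤ δ := min_le_left _ _
  intro U lam u K y r h hreg z hz hzy s hs hsr
  have hr := hreg.pos
  have hlam0 := h.lam_nonneg
  have hR : Regime U u K z (4 * s) η0 :=
    (regime_of_lineReg hε0 hreg hzy (by linarith)).weaken (by linarith)
  obtain ⟨e, he⟩ := hreg.flat z hz (by linarith) (2 * s) (by positivity) (by linarith)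
  obtain ⟨θ, _, rfl⟩ := exists_dir_eq e he.1 0
  have hcl : HClose (a * s / 5) z (2 * s) K (star 2 z θ) := hclose_of_flat he (by nlinarith)
  have hlam : lam * s ≤ η0 := by
    have := hreg.lam_le
    have h1 : lam * s ≤ lam * r := mul_le_mul_of_nonneg_left (by linarith) hlam0
    linarith
  obtain ⟨χ, c, h1, h2, h3, h4⟩ := H h hs (by linarith [hreg.le_one]) hlam hR hz (Or.inl rfl) hcl
    le_rfl
  have hb0 : dir (bis 2 θ 0) = tau θ := by
    unfold bis
    apply ext_E2 <;> simp [cos_add, sin_add]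
  have hb1 : dir (bis 2 θ 1) = -tau θ := by
    have e : bis 2 θ 1 = θ + π / 2 + π := by unfold bis; push_cast; ring
    rw [e]
    apply ext_E2 <;> simp [cos_add, sin_add]
  have hdep : ∀ ψ w, depth 2 z ψ w = inner ℝ (w - z) (dir ψ) := by
    intro ψ w
    unfold depth
    norm_num
  refine ⟨fun w => c ⌊χ w⌋₊, dir θ, c 0, c 1, isPhase_of h1 h2, ?_, ?_, ?_, ?_⟩
  · exact he.mono (by linarith) (by nlinarith)
  · intro hc
    have := h4 0 (by norm_num) 1 (by norm_num) (by norm_num)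
    rw [hc, sub_self, abs_zero] at this
    have : 0 < κ * √s := mul_pos hκ (Real.sqrt_pos.2 hs)
    linarith
  · intro w hw hwd
    have h5 := h3 0 (by norm_num) w hw (by
      rw [hdep, hb0, ← J_dir]
      nlinarith)
    simp only [h5.2, Nat.floor_natCast]
  · intro w hw hwd
    have h5 := h3 1 (by norm_num) w hw (by
      rw [hdep, hb1, inner_neg_right, ← J_dir]
      nlinarith)
    simp only [h5.2, Nat.floor_natCast]

theorem phase_prop' (δ : ℝ) (hδ : 0 < δ) : ∃ ε : ℝ, 0 < ε ∧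
    ∀ {U : Set E2} {lam : ℝ} {u : E2 → ℝ} {K : Set E2} {x : E2} {r : ℝ}, IsSQM U lam u K →
      PropReg ε U lam u K x r → ∀ s : ℝ, 0 < s → s ≤ r / 16 → PropPhase δ u K x s := by
  obtain ⟨κ, hκ, hgen⟩ := phase_gen
  set a : ℝ := min δ (1 / 200) with ha
  have ha0 : 0 < a := lt_min hδ (by norm_num)
  obtain ⟨η0, hη0, H⟩ := hgen δ a hδ ha0 (min_le_right _ _)
  refine ⟨min (η0 / 4) (a / 11), lt_min (by positivity) (by positivity), ?_⟩
  set ε := min (η0 / 4) (a / 11) with hε
  have hε0 : 0 < ε := lt_min (by positivity) (by positivity)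
  have hε1 : ε ≤ η0 / 4 := min_le_left _ _
  have hε2 : ε ≤ a / 11 := min_le_right _ _
  have haδ : a ≤ δ := min_le_left _ _
  intro U lam u K x r h hreg s hs hsr
  have hr := hreg.pos
  have hlam0 := h.lam_nonneg
  have hR : Regime U u K x (4 * s) η0 :=
    (regime_of_propReg hε0 hreg (by linarith)).weaken (by linarith)
  obtain ⟨e, he⟩ := hreg.prop (2 * s) (by positivity) (by linarith)
  obtain ⟨θ, _, rfl⟩ := exists_dir_eq e he.1 0
  have hcl : HClose (a * s / 5) x (2 * s) K (star 3 x θ) := hclose_of_starAt he (by nlinarith)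
  have hlam : lam * s ≤ η0 := by
    have := hreg.lam_le
    have h1 : lam * s ≤ lam * r := mul_le_mul_of_nonneg_left (by linarith) hlam0
    linarith
  obtain ⟨χ, c, h1, h2, h3, h4⟩ := H h hs (by linarith [hreg.le_one]) hlam hR hreg.mem (Or.inr rfl)
    hcl le_rfl
  have hsmono : Arc.StarAt Arc.a3 Arc.b3 K x (dir θ) s (δ * s) := by
    obtain ⟨g0, g1, g2⟩ := he
    refine ⟨g0, ?_, ?_⟩
    · intro w hw hwd
      obtain ⟨k, t, ht, hd⟩ := g1 w hw (by linarith)
      exact ⟨k, t, ht, hd.trans (by nlinarith)⟩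
    · intro k t ht hts
      obtain ⟨w, hw, hd⟩ := g2 k t ht (by linarith)
      exact ⟨w, hw, hd.trans (by nlinarith)⟩
  refine ⟨fun w => c ⌊χ w⌋₊, θ, fun k => c k, isPhase_of h1 h2, hsmono, ?_, ?_⟩
  · intro k l hkl
    by_contra hne
    have hne' : (k : ℕ) ≠ (l : ℕ) := fun hc => hne (Fin.ext hc)
    have := h4 k k.2 l l.2 hne'
    simp only at hkl
    rw [hkl, sub_self, abs_zero] at this
    have : 0 < κ * √s := mul_pos hκ (Real.sqrt_pos.2 hs)
    linarith
  · intro k t ht1 ht2 φ hφ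
    have ht0 : 0 ≤ t := by linarith
    have hmem : cpt x t φ ∈ ball x s := by
      rw [mem_ball, cpt, dist_eq_norm, add_sub_cancel_left, norm_smul, norm_dir, mul_one,
          Real.norm_eq_abs, abs_of_nonneg ht0]
      exact ht2
    have hbis : θ + (2 * ((k : ℕ) : ℝ) + 1) * π / 3 = bis 3 θ k := by
      unfold bis; push_cast; ring
    rw [hbis] at hφ
    set α := |φ - bis 3 θ k| with hα
    have hα0 : 0 ≤ α := abs_nonneg _
    have hdep : depth 3 x (bis 3 θ k) (cpt x t φ) = t * sin (π / 3 - α) := by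
      rw [depth_cpt _ _ _ ht0]
      have e1 : cos (φ - bis 3 θ k) = cos α := (cos_abs _).symm
      have e2 : |sin (φ - bis 3 θ k)| = sin α := by
        have hnn : 0 ≤ sin α := sin_nonneg_of_nonneg_of_le_pi hα0 (by linarith [pi_pos])
        rcases abs_cases (φ - bis 3 θ k) with ⟨h, _⟩ | ⟨h, _⟩
        · rw [← hα] at h
          rw [← h]; exact abs_of_nonneg hnn
        · rw [← hα] at h
          have : φ - bis 3 θ k = -α := by linarith
          rw [this, sin_neg, abs_neg, abs_of_nonneg hnn]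
      rw [e1, e2, sin_sub]
      push_cast
      ring
    have hsin : 2 / π * (8 * δ) ≤ sin (π / 3 - α) := by
      refine le_trans ?_ (mul_le_sin (by linarith) (by linarith [pi_pos]))
      gcongr
      linarith
    have hpi : 5 / 10 ≤ 2 / π := by
      rw [div_le_div_iff₀ (by norm_num) pi_pos]
      linarith [pi_lt_d2]
    have hd : a * s ≤ depth 3 x (bis 3 θ k) (cpt x t φ) := by
      rw [hdep]
      have h5 : 4 * δ ≤ sin (π / 3 - α) := by nlinarith
      nlinarith
    obtain ⟨h6, h7⟩ := h3 k k.2 (cpt x t φ) hmem hd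
    refine ⟨h6, ?_⟩
    simp only [h7, Nat.floor_natCast]

end Crest.Agent.R135.Phs
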