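import Crest.Agent.R135.IFDefs2
import Crest.Agent.R135.LSh3
import Crest.Agent.R135.Phs5
import Crest.Agent.R135.Dcy_Mg
import Crest.Agent.R135.EpsLoc3
import Crest.Agent.R135.EpsExc1
import Crest.Agent.R135.DLS
import Crest.Agent.R135.IF_cone_competitor

-- ▼ part R135/IF_line_reg
section

/-! INTERFACE line_reg: complete (helper288, LSh3.lean). -/

set_option autoImplicit false

open MeasureTheory Set Filter Topology Metric
open scoped ENNReal NNReal ContDiff Gradient
open Crest.AnalysisR.PDE.OnePhase Crest.AnalysisR.PDE.MumfordShah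

namespace Crest.Agent.R135

/-- (2.4) line-like at one scale with small density: line-like regime -/
theorem line_reg (ε : ℝ) (hε : 0 < ε) : ∃ ε₀ c : ℝ, 0 < ε₀ ∧ 0 < c ∧ c ≤ 1 / 4 ∧
    ∀ {U : Set E2} {lam : ℝ} {u : E2 → ℝ} {K : Set E2}, IsQM U lam u K →
      ∀ y ∈ K, ∀ r : ℝ, 0 < r → r ≤ 1 → closedBall y r ⊆ U → lam * r ≤ ε₀ →
        Dr u K y r ≤ ε₀ * r → LineLike ε₀ K y r → LineReg ε U lam u K y (c * r) :=
  line_reg' ε hε

end Crest.Agent.R135
end

-- ▼ part R135/IF_phase_line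
section

/-! INTERFACE phase_line: proved in Phs5.lean (helper12). -/

set_option autoImplicit false

open MeasureTheory Set Filter Topology Metric
open scoped ENNReal NNReal ContDiff Gradient
open Crest.AnalysisR.PDE.OnePhase Crest.AnalysisR.PDE.MumfordShah

namespace Crest.Agent.R135

theorem phase_line (δ : ℝ) (hδ : 0 < δ) : ∃ ε : ℝ, 0 < ε ∧
    ∀ {U : Set E2} {lam : ℝ} {u : E2 → ℝ} {K : Set E2} {y : E2} {r : ℝ}, IsSQM U lam u K →
      LineReg ε U lam u K y r → ∀ z ∈ K, dist z y ≤ r / 2 → ∀ s : ℝ, 0 < s → s ≤ r / 16 →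
        LinePhase δ u K z s :=
  Phs.phase_line' δ hδ

end Crest.Agent.R135
end

-- ▼ part R135/IF_decay_line
section

/-! INTERFACE decay_line (helper427). -/

set_option autoImplicit false

open MeasureTheory Set Filter Topology Metric
open scoped ENNReal NNReal ContDiff Gradient
open Crest.AnalysisR.PDE.OnePhase Crest.AnalysisR.PDE.MumfordShah

namespace Crest.Agent.R135

theorem decay_line : ∃ ε C γ : ℝ, 0 < ε ∧ 0 < C ∧ 0 < γ ∧ γ ≤ 1 / 4 ∧
    ∀ {U : Set E2} {lam : ℝ} {u : E2 → ℝ} {K : Set E2} {y : E2} {r : ℝ}, IsSQM U lam u K →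
      LineReg ε U lam u K y r → ∀ z ∈ K, dist z y ≤ r / 2 → ∀ s : ℝ, 0 < s → s ≤ r / 16 →
        Dr u K z s ≤ C * s * (s / r) ^ (2 * γ) := by
  obtain ⟨ε₁, hε₁, hph⟩ := phase_line (1 / 100) (by norm_num)
  refine ⟨min ε₁ (1 / 100), Dcy.decC 2, 1 / 4, lt_min hε₁ (by norm_num), Dcy.decC_pos 2,
    by norm_num, le_rfl, ?_⟩
  intro U lam u K y r hS hreg z hz hzy s hs hsr
  have hr := hreg.pos
  have hreg1 := Asm.lineReg_mono hreg (min_le_left _ _)
  have hreg2 := Asm.lineReg_mono hreg (min_le_right _ _)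
  have hzr : dist z y < r := by linarith
  have hπ := Real.pi_gt_three
  refine Dcy.decay_final hS.toIsQM le_rfl (by push_cast; linarith) hr hreg.le_one
    (hreg2.lam_le.trans (by norm_num)) ((closedBall_subset_closedBall' (by linarith)).trans
      hreg.sub) ?_ ?_ ?_ hs hsr
  · intro ρ hρ hρr
    exact Dcy.sect_of_linePhase hρ (hph hS hreg1 z hz hzy ρ hρ hρr)
  · intro ρ hρ hρr
    have := hreg2.len_le z hz hzr ρ hρ (by linarith)
    push_cast
    exact this
  · intro ρ hρ hρr
    have := hreg2.en z hz hzr ρ hρ (by linarith)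
    linarith

end Crest.Agent.R135
end

-- ▼ part R135/EpsLoc4
section

/-!
# R135, block EPS (helper983): one-scale flatness in the line-like regime (`exc_line`)
-/

set_option autoImplicit false

open MeasureTheory Set Filter Topology Metric
open scoped ENNReal NNReal ContDiff Gradient

namespace Crest.Agent.R135.EpsLoc

open Crest.Agent.R135

lemma mem_closedBall_of_line {z y : E2} {r t : ℝ} (h : dist z y + 10 * t ≤ r) (hr : 0 < r) {U : Set E2}
    (hU : closedBall y (2 * r) ⊆ U) : closedBall z (10 * t) ⊆ U := by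
  apply Subset.trans _ hU
  apply closedBall_subset_closedBall'
  linarith

/-- the two sides in the regime `LineReg` -/
theorem line_sides {U : Set E2} {lam ε : ℝ} {u : E2 → ℝ} {K : Set E2} {y z : E2} {r t : ℝ}
    (hε : 0 < ε) (hε' : ε ≤ 1 / 200) (hq : IsQM U lam u K) (hL : LineReg ε U lam u K y r)
    (hz : z ∈ K) (ht : 0 < t) (hzt : dist z y + 10 * t ≤ r) :
    ∃ e : E2, Arc.Flat K z e (10 * t) (t / 20) ∧
      (∃ p ∈ K ∩ sphere z t, 0 < (inner ℝ (p - z) e : ℝ)) ∧
      (∃ q ∈ K ∩ sphere z t, (inner ℝ (q - z) e : ℝ) < 0) := by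
  have hr := hL.pos
  have h10 : 5 * (2 * t) = 10 * t := by ring
  obtain ⟨e, he⟩ := hL.flat z hz (by linarith) (10 * t) (by positivity)
    (by have : 0 ≤ dist z y := dist_nonneg; linarith)
  have hF : Arc.Flat K z e (10 * t) (t / 20) := he.mono le_rfl (by nlinarith)
  have hconn : ∀ b ∈ K, dist b z ≤ 2 * t → b ∈ connectedComponentIn (K ∩ closedBall z (10 * t)) z := by
    intro b hb hbz
    have := conn_line_aux hε hε' hq hL (s := 2 * t) (z := z) (by positivity) (by linarith) hz hb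
      (by rw [dist_self]; positivity) hbz
    rwa [h10] at this
  exact ⟨e, hF, exists_pos_side ht hF hconn hz, exists_neg_side ht hF hconn hz⟩

theorem line_two_le {U : Set E2} {lam ε : ℝ} {u : E2 → ℝ} {K : Set E2} {y z : E2} {r t : ℝ}
    (hε : 0 < ε) (hε' : ε ≤ 1 / 200) (hq : IsQM U lam u K) (hL : LineReg ε U lam u K y r)
    (hz : z ∈ K) (ht : 0 < t) (hzt : dist z y + 10 * t ≤ r) :
    ((2 : ℕ) : ℕ∞) ≤ (K ∩ sphere z t).encard := by
  obtain ⟨e, -, ⟨p, hp, hpe⟩, ⟨q, hq', hqe⟩⟩ := line_sides hε hε' hq hL hz ht hzt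
  have hne : p ≠ q := by
    rintro rfl
    linarith
  have h1 : ({p, q} : Set E2) ⊆ K ∩ sphere z t := by
    rintro w (rfl | rfl)
    · exact hp
    · exact hq'
  have h2 := encard_le_encard h1
  rw [encard_pair hne] at h2
  exact_mod_cast h2

/-- two crossings: the ball is connected -/
theorem line_preconnected {U : Set E2} {lam ε : ℝ} {u : E2 → ℝ} {K : Set E2} {y z : E2} {r t : ℝ}
    (hε : 0 < ε) (hε' : ε ≤ 1 / 200) (hq : IsQM U lam u K) (hL : LineReg ε U lam u K y r)
    (hz : z ∈ K) (ht : 0 < t) (hzt : dist z y + 10 * t ≤ r)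
    (h2 : (K ∩ sphere z t).encard = 2) :
    ∃ p q : E2, p ≠ q ∧ K ∩ sphere z t = {p, q} ∧ IsPreconnected (K ∩ closedBall z t) ∧
      dist (midpoint ℝ p q) z ≤ t / 2 := by
  obtain ⟨e, hF, ⟨p, hp, hpe⟩, ⟨q, hq', hqe⟩⟩ := line_sides hε hε' hq hL hz ht hzt
  have hne : p ≠ q := by
    rintro rfl
    linarith
  obtain ⟨a, b, hab, hKab⟩ := encard_eq_two.1 h2
  have hKpq : K ∩ sphere z t = {p, q} := by
    have hpab : p = a ∨ p = b := by
      have : p ∈ ({a, b} : Set E2) := hKab ▸ hp
      simpa using this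
    have hqab : q = a ∨ q = b := by
      have : q ∈ ({a, b} : Set E2) := hKab ▸ hq'
      simpa using this
    rw [hKab]
    rcases hpab with rfl | rfl
    · rcases hqab with rfl | rfl
      · exact absurd rfl hne
      · rfl
    · rcases hqab with rfl | rfl
      · rw [pair_comm]
      · exact absurd rfl hne
  have hr := hL.pos
  have hsub : closedBall z (10 * t) ⊆ U := mem_closedBall_of_line hzt hr hL.sub
  have h10 : 5 * (2 * t) = 10 * t := by ring
  refine ⟨p, q, hne, hKpq, ?_, ?_⟩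
  · refine preconnected_of_two ht (hq.isCompact_inter_closedBall hsub) hF ?_ hKpq hpe hqe
    intro a ha haz b hb hbz
    have := conn_line_aux hε hε' hq hL (s := 2 * t) (z := z) (by positivity) (by linarith) ha hb
      (by linarith) (by linarith)
    rwa [h10] at this
  · obtain ⟨he, h1, -⟩ := hF
    have hpt : dist p z = t := hp.2
    have hqt : dist q z = t := hq'.2
    have hbp := h1 p hp.1 (by linarith)
    have hbq := h1 q hq'.1 (by linarith)
    set a1 := (inner ℝ (p - z) e : ℝ) with ha1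
    set b1 := (inner ℝ (p - z) (Arc.J e) : ℝ) with hb1
    set a2 := (inner ℝ (q - z) e : ℝ) with ha2
    set b2 := (inner ℝ (q - z) (Arc.J e) : ℝ) with hb2
    have e1 : a1 ^ 2 + b1 ^ 2 = t ^ 2 := by
      rw [← Arc.norm_sq_frame he, ← Arc.frame_eq he, ← dist_eq_norm, hpt]
    have e2 : a2 ^ 2 + b2 ^ 2 = t ^ 2 := by
      rw [← Arc.norm_sq_frame he, ← Arc.frame_eq he, ← dist_eq_norm, hqt]
    have e3 : (midpoint ℝ p q : E2) - z = ((a1 + a2) / 2) • e + ((b1 + b2) / 2) • Arc.J e := by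
      have h5 : (midpoint ℝ p q : E2) - z = (1 / 2 : ℝ) • ((p - z) + (q - z)) := by
        rw [midpoint_eq_smul_add]
        have : z = (1 / 2 : ℝ) • (z + z) := by
          rw [← two_smul ℝ z, smul_smul]; norm_num
        nth_rewrite 1 [this]
        rw [invOf_eq_inv, ← one_div, ← smul_sub]
        congr 1
        abel
      rw [h5, Arc.frame_eq he (p - z), Arc.frame_eq he (q - z)]
      module
    have hb1s : b1 ^ 2 ≤ (t / 20) ^ 2 := sq_le_sq' (by linarith [(abs_le.1 hbp).1]) (abs_le.1 hbp).2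
    have hb2s : b2 ^ 2 ≤ (t / 20) ^ 2 := sq_le_sq' (by linarith [(abs_le.1 hbq).1]) (abs_le.1 hbq).2
    have ha1l : 9 / 10 * t ≤ a1 := by
      by_contra hcon
      push Not at hcon
      nlinarith
    have ha1u : a1 ≤ t := by nlinarith
    have ha2l : a2 ≤ - (9 / 10 * t) := by
      by_contra hcon
      push Not at hcon
      nlinarith
    have ha2u : -t ≤ a2 := by nlinarith
    have h6 : dist (midpoint ℝ p q) z ^ 2 ≤ (t / 2) ^ 2 := by
      rw [dist_eq_norm, e3, Arc.norm_sq_frame he]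
      have h7 : ((a1 + a2) / 2) ^ 2 ≤ (t / 20) ^ 2 := sq_le_sq' (by linarith) (by linarith)
      have h8 : ((b1 + b2) / 2) ^ 2 ≤ (t / 20) ^ 2 := by
        apply sq_le_sq'
        · linarith [(abs_le.1 hbp).1, (abs_le.1 hbq).1]
        · linarith [(abs_le.1 hbp).2, (abs_le.1 hbq).2]
      nlinarith
    exact abs_le_of_sq_le_sq' h6 (by positivity) |>.2

/-- IF_LOC `exc_line` -/
theorem exc_line' : ∃ ε C : ℝ, 0 < ε ∧ 0 < C ∧
    ∀ {U : Set E2} {lam : ℝ} {u : E2 → ℝ} {K : Set E2} {y : E2} {r : ℝ}, IsSQM U lam u K →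
      LineReg ε U lam u K y r → ∀ z ∈ K, dist z y ≤ r / 4 → ∀ s : ℝ, 0 < s → s ≤ r / 64 →
        ∃ e : E2, Arc.Flat K z e s (C * s * Real.sqrt (Dr u K z (4 * s) / s + lam * s)) := by
  obtain ⟨c0, hc0, hdens⟩ := density_lower_small
  obtain ⟨CC, hCC, hcone⟩ := cone_competitor
  -- the constants
  set A : ℝ := 4 * CC + 16 with hA
  have hA0 : 0 < A := by positivity
  set ε : ℝ := min (1 / 200) (min (1 / (500 * A)) (c0 / (100 * A))) with hε
  have hε0 : 0 < ε := by positivity
  have hε1 : ε ≤ 1 / 200 := min_le_left _ _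
  have hε2 : ε * A ≤ 1 / 500 := by
    have : ε ≤ 1 / (500 * A) := (min_le_right _ _).trans (min_le_left _ _)
    calc ε * A ≤ 1 / (500 * A) * A := by gcongr
      _ = 1 / 500 := by field_simp
  have hε3 : ε * A ≤ c0 / 100 := by
    have : ε ≤ c0 / (100 * A) := (min_le_right _ _).trans (min_le_right _ _)
    calc ε * A ≤ c0 / (100 * A) * A := by gcongr
      _ = c0 / 100 := by field_simp
  refine ⟨ε, 8 * (A + 1) + 4 * A / c0, hε0, by positivity, ?_⟩
  intro U lam u K y r hq hL z hz hzy s hs hsr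
  have hr := hL.pos
  have hqm := hq.toIsQM
  have hsubs : closedBall z (4 * s) ⊆ U := by
    apply Subset.trans _ hL.sub
    apply closedBall_subset_closedBall'
    linarith
  -- good radius
  have hN2 : ∀ t ∈ Ioo 0 (4 * s), ((2 : ℕ) : ℕ∞) ≤ (K ∩ sphere z t).encard := fun t ht =>
    line_two_le hε0 hε1 hqm hL hz ht.1 (by linarith [ht.2])
  have hLr : Lr K z (4 * s) < (4 * ((2 : ℕ) : ℝ) + 1) * s := by
    have h1 := hL.len_le z hz (by linarith) (4 * s) (by positivity) (by linarith)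
    push_cast
    nlinarith
  obtain ⟨t, ht, htN, htG, htc⟩ := exists_good_radius hqm hs hsubs 2 hN2 hLr
  have ht0 : 0 < t := by linarith [ht.1]
  obtain ⟨p, q, hpq, hKpq, hconn, hmid⟩ := line_preconnected hε0 hε1 hqm hL hz ht0
    (by linarith [ht.2]) htN
  have hpK : p ∈ K ∩ sphere z t := by rw [hKpq]; simp
  have hqK : q ∈ K ∩ sphere z t := by rw [hKpq]; simp
  have hsubt : closedBall z t ⊆ U := (closedBall_subset_closedBall ht.2.le).trans hsubs
  -- the competitor
  set D : ℝ := Dr u K z (4 * s) / s + lam * s with hD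
  have hDr0 : 0 ≤ Dr u K z (4 * s) := QMC.Dr_nonneg _ _ _ _
  have hlam : 0 ≤ lam := hqm.lam_nonneg
  have hD0 : 0 ≤ D := by positivity
  have hD1 : D ≤ 5 * ε := by
    have h1 := hL.en z hz (by linarith) (4 * s) (by positivity) (by linarith)
    have h2 : Dr u K z (4 * s) / s ≤ 4 * ε := by
      rw [div_le_iff₀ hs]; linarith
    have h3 : lam * s ≤ lam * r := mul_le_mul_of_nonneg_left (by linarith) hlam
    have := hL.lam_le
    linarith
  set E : ℝ := CC * (t * cirE u z t) + lam * t ^ 2 with hE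
  have hcir0 : 0 ≤ cirE u z t := QMC.cirE_nonneg _ _ ht0.le
  have hE0 : 0 ≤ E := by positivity
  have hEA : E ≤ A * (s * D) := by
    have h1 : t * cirE u z t ≤ 4 * s * (Dr u K z (4 * s) / s) := by
      apply mul_le_mul ht.2.le htc hcir0 (by positivity)
    have h2 : lam * t ^ 2 ≤ lam * (4 * s) ^ 2 := by
      apply mul_le_mul_of_nonneg_left _ hlam
      exact pow_le_pow_left₀ ht0.le ht.2.le 2
    have h3 : s * D = Dr u K z (4 * s) + lam * s ^ 2 := by
      rw [hD]; field_simp
    have h4 : 4 * s * (Dr u K z (4 * s) / s) = 4 * Dr u K z (4 * s) := by field_simp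
    rw [h4] at h1
    rw [h3, hE, hA]
    have h5 : CC * (t * cirE u z t) ≤ CC * (4 * Dr u K z (4 * s)) :=
      mul_le_mul_of_nonneg_left h1 hCC.le
    have h6 : 0 ≤ lam * s ^ 2 := by positivity
    nlinarith [mul_nonneg hCC.le h6, hDr0]
  have hEs : E ≤ A * (s * (5 * ε)) := hEA.trans (by gcongr)
  have hLup : Lr K z t ≤ dist p q + E := by
    classical
    have h1 := hcone hq z t ht0 hsubt {p, q} (by rw [hKpq]; simp) htG.int (midpoint ℝ p q)
      (mem_closedBall.2 hmid)
    rw [Finset.sum_pair hpq] at h1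
    have h2 : dist p (midpoint ℝ p q) = dist p q / 2 := by
      rw [dist_left_midpoint]; simp; ring
    have h3 : dist q (midpoint ℝ p q) = dist p q / 2 := by
      rw [dist_comm, dist_midpoint_right]; simp; ring
    rw [h2, h3] at h1
    have h4 : 0 ≤ Dr u K z t := QMC.Dr_nonneg _ _ _ _
    rw [hE]
    linarith
  have hlenfin : len (K ∩ closedBall z t) ≠ ⊤ := (hqm.len_fin z t hsubt).ne
  have hlow : ENNReal.ofReal (2 * t) ≤ len (K ∩ closedBall z t) := by
    have h1 := ofReal_mul_le_len (K := K) (z := z) (R := t) 2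
      (fun τ hτ => hN2 τ ⟨hτ.1, hτ.2.trans ht.2⟩)
    have h2 := h1.trans (measure_mono (inter_subset_inter_right _ ball_subset_closedBall))
    exact_mod_cast h2
  have hup : len (K ∩ closedBall z t) ≤ ENNReal.ofReal (dist p q + E) := by
    rw [← ENNReal.ofReal_toReal hlenfin]
    exact ENNReal.ofReal_le_ofReal hLup
  obtain ⟨e, he⟩ := exc_line_geo (K := K) (Q := K ∩ closedBall z t) (y := z) (p := p) (q := q)
    (s := t) (E := E) (c0 := c0 / 2) ht0 hE0 (by nlinarith [ht.1]) (by positivity)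
    (by nlinarith [ht.1]) hpK.2 hqK.2 hconn Subset.rfl ⟨hpK.1, sphere_subset_closedBall hpK.2⟩
    ⟨hqK.1, sphere_subset_closedBall hqK.2⟩ hlow hup (by
      intro w hw τ hτ hwz hτt
      have hwU : closedBall w (τ / 2) ⊆ U := by
        apply Subset.trans _ hsubt
        apply closedBall_subset_closedBall'
        linarith
      have h1 := hdens hqm w hw (τ / 2) (by positivity)
        (by have := hL.le_one; linarith [ht.2]) hwU (by
          have h2 : lam * (τ / 2) ≤ lam * r := mul_le_mul_of_nonneg_left (by linarith [ht.2]) hlam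
          have := hL.lam_le
          linarith)
      have h3 : c0 * (τ / 2) = c0 / 2 * τ := by ring
      rw [h3] at h1
      exact h1.trans (measure_mono (inter_subset_inter_right _
        (closedBall_subset_ball (by linarith)))))
  refine ⟨e, he.mono (by linarith [ht.1]) ?_⟩
  -- the bound
  have hS0 : 0 ≤ Real.sqrt D := Real.sqrt_nonneg _
  have hS2 : Real.sqrt D ^ 2 = D := Real.sq_sqrt hD0
  have hS1 : Real.sqrt D ≤ 1 := by
    apply Real.sqrt_le_iff.2
    constructor
    · norm_num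
    · linarith
  have h1 : Real.sqrt (t * E) ≤ 2 * (A + 1) * (s * Real.sqrt D) := by
    apply Real.sqrt_le_iff.2
    refine ⟨by positivity, ?_⟩
    have h2 : t * E ≤ 4 * s * (A * (s * D)) := mul_le_mul ht.2.le hEA hE0 (by positivity)
    calc t * E ≤ 4 * s * (A * (s * D)) := h2
      _ = 4 * A * (s ^ 2 * Real.sqrt D ^ 2) := by rw [hS2]; ring
      _ ≤ 4 * (A + 1) ^ 2 * (s ^ 2 * Real.sqrt D ^ 2) := by
          apply mul_le_mul_of_nonneg_right _ (by positivity)
          nlinarith
      _ = (2 * (A + 1) * (s * Real.sqrt D)) ^ 2 := by ring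
  have h2 : 2 * E / (c0 / 2) ≤ 4 * A / c0 * (s * Real.sqrt D) := by
    have h3 : E ≤ A * (s * Real.sqrt D) := by
      refine hEA.trans ?_
      have : D ≤ Real.sqrt D := by
        calc D = Real.sqrt D * Real.sqrt D := by rw [← sq, hS2]
          _ ≤ Real.sqrt D * 1 := mul_le_mul_of_nonneg_left hS1 hS0
          _ = Real.sqrt D := mul_one _
      gcongr
    have h4 : 2 * E / (c0 / 2) = 4 / c0 * E := by field_simp; ring
    rw [h4]
    calc 4 / c0 * E ≤ 4 / c0 * (A * (s * Real.sqrt D)) := by gcongr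
      _ = _ := by ring
  calc 4 * Real.sqrt (t * E) + 2 * E / (c0 / 2)
      ≤ 4 * (2 * (A + 1) * (s * Real.sqrt D)) + 4 * A / c0 * (s * Real.sqrt D) := by gcongr
    _ = (8 * (A + 1) + 4 * A / c0) * s * Real.sqrt D := by ring

end Crest.Agent.R135.EpsLoc
end

-- ▼ part R135/IF_exc_line

/-! INTERFACE exc_line (proved by helper983 in EpsLoc4). -/

set_option autoImplicit false

open MeasureTheory Set Filter Topology Metric
open scoped ENNReal NNReal ContDiff Gradient
open Crest.AnalysisR.PDE.OnePhase Crest.AnalysisR.PDE.MumfordShah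

namespace Crest.Agent.R135

/-- one-scale flatness in the line-like regime -/
theorem exc_line : ∃ ε C : ℝ, 0 < ε ∧ 0 < C ∧
    ∀ {U : Set E2} {lam : ℝ} {u : E2 → ℝ} {K : Set E2} {y : E2} {r : ℝ}, IsSQM U lam u K →
      LineReg ε U lam u K y r → ∀ z ∈ K, dist z y ≤ r / 4 → ∀ s : ℝ, 0 < s → s ≤ r / 64 →
        ∃ e : E2, Arc.Flat K z e s (C * s * Real.sqrt (Dr u K z (4 * s) / s + lam * s)) := EpsLoc.exc_line'

end Crest.Agent.R135
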