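import Crest.Agent.R135.IFDefs2
import Crest.Agent.R135.LSh3
import Crest.Agent.R135.Phs5
import Crest.Agent.R135.Dcy_Mg
import Crest.Agent.R135.EpsExc1
import Crest.Agent.R135.EpsLoc3
import Crest.Agent.R135.IF_cone_competitor

-- ▼ part R135/IF_local_shape
section

/-! INTERFACE local_shape: complete (helper288, LSh3.lean). -/

set_option autoImplicit false

open MeasureTheory Set Filter Topology Metric
open scoped ENNReal NNReal ContDiff Gradient
open Crest.AnalysisR.PDE.OnePhase Crest.AnalysisR.PDE.MumfordShah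

namespace Crest.Agent.R135

/-- (2.4) small density at one scale: line-like regime or propeller-like regime -/
theorem local_shape (ε : ℝ) (hε : 0 < ε) : ∃ ε₀ : ℝ, 0 < ε₀ ∧
    ∀ {U : Set E2} {lam : ℝ} {u : E2 → ℝ} {K : Set E2}, IsQM U lam u K →
      ∀ x ∈ K, ∀ r : ℝ, 0 < r → r ≤ 1 → closedBall x r ⊆ U → lam * r ≤ ε₀ →
        Dr u K x r ≤ ε₀ * r →
        ∃ ρ₀ : ℝ, LineReg ε U lam u K x ρ₀ ∨ PropReg ε U lam u K x ρ₀ :=
  local_shape' ε hε

end Crest.Agent.R135
end

-- ▼ part R135/IF_phase_prop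
section

/-! INTERFACE phase_prop: proved in Phs5.lean (helper12). -/

set_option autoImplicit false

open MeasureTheory Set Filter Topology Metric
open scoped ENNReal NNReal ContDiff Gradient
open Crest.AnalysisR.PDE.OnePhase Crest.AnalysisR.PDE.MumfordShah

namespace Crest.Agent.R135

theorem phase_prop (δ : ℝ) (hδ : 0 < δ) : ∃ ε : ℝ, 0 < ε ∧
    ∀ {U : Set E2} {lam : ℝ} {u : E2 → ℝ} {K : Set E2} {x : E2} {r : ℝ}, IsSQM U lam u K →
      PropReg ε U lam u K x r → ∀ s : ℝ, 0 < s → s ≤ r / 16 → PropPhase δ u K x s :=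
  Phs.phase_prop' δ hδ

end Crest.Agent.R135
end

-- ▼ part R135/IF_decay_prop
section

/-! INTERFACE decay_prop (helper427). -/

set_option autoImplicit false

open MeasureTheory Set Filter Topology Metric
open scoped ENNReal NNReal ContDiff Gradient
open Crest.AnalysisR.PDE.OnePhase Crest.AnalysisR.PDE.MumfordShah

namespace Crest.Agent.R135

theorem decay_prop : ∃ ε C γ : ℝ, 0 < ε ∧ 0 < C ∧ 0 < γ ∧ γ ≤ 1 / 4 ∧
    ∀ {U : Set E2} {lam : ℝ} {u : E2 → ℝ} {K : Set E2} {x : E2} {r : ℝ}, IsSQM U lam u K →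
      PropReg ε U lam u K x r → ∀ s : ℝ, 0 < s → s ≤ r / 16 →
        Dr u K x s ≤ C * s * (s / r) ^ (2 * γ) := by
  obtain ⟨ε₁, hε₁, hph⟩ := phase_prop (1 / 100) (by norm_num)
  refine ⟨min ε₁ (1 / 100), Dcy.decC 3, 1 / 4, lt_min hε₁ (by norm_num), Dcy.decC_pos 3,
    by norm_num, le_rfl, ?_⟩
  intro U lam u K x r hS hreg s hs hsr
  have hr := hreg.pos
  have hreg1 := Asm.propReg_mono hreg (min_le_left _ _)
  have hreg2 := Asm.propReg_mono hreg (min_le_right _ _)
  have hzr : dist x x < r := by rw [dist_self]; exact hr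
  have hπ := Real.pi_gt_three
  refine Dcy.decay_final hS.toIsQM (by norm_num) (by push_cast; linarith) hr hreg.le_one
    (hreg2.lam_le.trans (by norm_num)) ((closedBall_subset_closedBall (by linarith)).trans
      hreg.sub) ?_ ?_ ?_ hs hsr
  · intro ρ hρ hρr
    exact Dcy.sect_of_propPhase (hph hS hreg1 ρ hρ hρr)
  · intro ρ hρ hρr
    have := hreg2.len_le ρ hρ (by linarith)
    push_cast
    exact this
  · intro ρ hρ hρr
    have := hreg2.en x hreg.mem hzr ρ hρ (by linarith)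
    linarith

end Crest.Agent.R135
end

-- ▼ part R135/StarProp1
section

/-!
# R135, star_prop, part 1: three directions with almost vanishing sum (helper560)
-/

set_option autoImplicit false

open MeasureTheory Set Filter Topology Metric
open scoped ENNReal NNReal

namespace Crest.Agent.R135.StarP

open Arc

theorem sqrt3_bounds : (17 / 10 : ℝ) ≤ Real.sqrt 3 ∧ Real.sqrt 3 ≤ 18 / 10 ∧
    Real.sqrt 3 * Real.sqrt 3 = 3 := by
  refine ⟨?_, ?_, Real.mul_self_sqrt (by norm_num)⟩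
  · apply Real.le_sqrt_of_sq_le; norm_num
  · rw [Real.sqrt_le_left (by norm_num)]; norm_num

theorem norm_rt3 (k : Fin 3) (v : E2) : ‖rt (a3 k) (b3 k) v‖ = ‖v‖ :=
  norm_rt (rotGroup3.unit k) v

/-- sum of the distances to the centre of mass -/
theorem sum_dist_le {x : E2} {t : ℝ} (ht : 0 ≤ t) {d : Fin 3 → E2} (hd : ∀ j, ‖d j‖ = 1) :
    ∑ j, dist (x + t • d j) (x + (t / 3) • ∑ j, d j) ≤ 3 * t - t * ‖∑ j, d j‖ ^ 2 / 6 := by
  set S := ∑ j, d j with hS
  have h1 : ∀ j, dist (x + t • d j) (x + (t / 3) • S) ≤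
      t * (1 - inner ℝ (d j) S / 3 + ‖S‖ ^ 2 / 18) := by
    intro j
    have e1 : x + t • d j - (x + (t / 3) • S) = t • (d j - (1 / 3 : ℝ) • S) := by
      rw [smul_sub, smul_smul]
      have : t * (1 / 3 : ℝ) = t / 3 := by ring
      rw [this]; abel
    rw [dist_eq_norm, e1, norm_smul, Real.norm_eq_abs, abs_of_nonneg ht]
    apply mul_le_mul_of_nonneg_left _ ht
    have h2 : ‖d j - (1 / 3 : ℝ) • S‖ ^ 2 = 1 - 2 / 3 * inner ℝ (d j) S + ‖S‖ ^ 2 / 9 := by
      rw [@norm_sub_sq ℝ, hd j, inner_smul_right, norm_smul, Real.norm_eq_abs,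
        abs_of_pos (by norm_num : (0:ℝ) < 1 / 3)]
      simp
      ring
    nlinarith [sq_nonneg (‖d j - (1 / 3 : ℝ) • S‖ - 1)]
  have h2 : ∑ j, inner ℝ (d j) S = ‖S‖ ^ 2 := by
    rw [← sum_inner, ← hS, real_inner_self_eq_norm_sq]
  calc ∑ j, dist (x + t • d j) (x + (t / 3) • S)
      ≤ ∑ j, t * (1 - inner ℝ (d j) S / 3 + ‖S‖ ^ 2 / 18) := Finset.sum_le_sum fun j _ => h1 j
    _ = 3 * t - t * ‖S‖ ^ 2 / 6 := by
        rw [← Finset.mul_sum]
        simp only [Finset.sum_add_distrib, Finset.sum_sub_distrib, ← Finset.sum_div]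
        rw [h2]
        simp
        ring

/-- coordinate version of the 120 degree lemma -/
theorem coord_120 {c₁ s₁ c₂ s₂ s : ℝ} (h1 : c₁ ^ 2 + s₁ ^ 2 = 1) (h2 : c₂ ^ 2 + s₂ ^ 2 = 1)
    (hs1 : s ≤ 3 / 100) (hS1 : |1 + c₁ + c₂| ≤ s) (hS2 : |s₁ + s₂| ≤ s)
    (hc1 : |c₁ + 1 / 2| ≤ 1 / 50) (hs1' : |s₁ - Real.sqrt 3 / 2| ≤ 1 / 50)
    (_hc2 : |c₂ + 1 / 2| ≤ 1 / 50) (hs2' : |s₂ + Real.sqrt 3 / 2| ≤ 1 / 50) :
    (c₁ + 1 / 2) ^ 2 + (s₁ - Real.sqrt 3 / 2) ^ 2 ≤ (2 * s) ^ 2 := by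
  obtain ⟨h3a, h3b, h3c⟩ := sqrt3_bounds
  have hs0 : 0 ≤ s := (abs_nonneg _).trans hS1
  rw [abs_le] at hS1 hS2 hc1 hs1' hs2'
  -- `D (1 - S1) = T * S2`
  have hD : (c₁ - c₂) * (1 - (1 + c₁ + c₂)) = (s₁ - s₂) * (s₁ + s₂) := by
    linear_combination h2 - h1
  have hT : |s₁ - s₂| ≤ 19 / 10 := by rw [abs_le]; constructor <;> linarith
  have hD2 : |c₁ - c₂| * (97 / 100) ≤ 19 / 10 * s := by
    calc |c₁ - c₂| * (97 / 100) ≤ |c₁ - c₂| * |1 - (1 + c₁ + c₂)| := by
          apply mul_le_mul_of_nonneg_left _ (abs_nonneg _)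
          rw [le_abs]; left; linarith
      _ = |s₁ - s₂| * |s₁ + s₂| := by rw [← abs_mul, hD, abs_mul]
      _ ≤ 19 / 10 * s := by
          apply mul_le_mul hT (by rw [abs_le]; constructor <;> linarith) (abs_nonneg _) (by norm_num)
  have hD3 : |c₁ - c₂| ≤ 2 * s := by linarith
  rw [abs_le] at hD3
  have hc : |c₁ + 1 / 2| ≤ 3 / 2 * s := by rw [abs_le]; constructor <;> linarith
  have hq : |(s₁ - Real.sqrt 3 / 2) * (s₁ + Real.sqrt 3 / 2)| ≤ 8 / 5 * s := by
    have e1 : (s₁ - Real.sqrt 3 / 2) * (s₁ + Real.sqrt 3 / 2) = (1 / 2 - c₁) * (c₁ + 1 / 2) := by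
      linear_combination h1 - h3c / 4
    rw [e1, abs_mul]
    have h5 : |1 / 2 - c₁| ≤ 16 / 15 := by rw [abs_le]; constructor <;> linarith
    calc |1 / 2 - c₁| * |c₁ + 1 / 2| ≤ 16 / 15 * (3 / 2 * s) :=
          mul_le_mul h5 hc (abs_nonneg _) (by norm_num)
      _ = 8 / 5 * s := by ring
  have hs' : |s₁ - Real.sqrt 3 / 2| ≤ s := by
    rw [abs_mul] at hq
    have h5 : (8 / 5 : ℝ) ≤ |s₁ + Real.sqrt 3 / 2| := by rw [le_abs]; left; linarith
    have h6 : |s₁ - Real.sqrt 3 / 2| * (8 / 5) ≤ 8 / 5 * s :=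
      (mul_le_mul_of_nonneg_left h5 (abs_nonneg _)).trans hq
    linarith
  rw [← sq_abs (c₁ + 1 / 2), ← sq_abs (s₁ - Real.sqrt 3 / 2)]
  have h7 : |c₁ + 1 / 2| ^ 2 ≤ (3 / 2 * s) ^ 2 := by gcongr
  have h8 : |s₁ - Real.sqrt 3 / 2| ^ 2 ≤ s ^ 2 := by gcongr
  nlinarith [sq_nonneg s]

theorem norm_sub_rt_sq {e d : E2} (he : ‖e‖ = 1) (c s : ℝ) :
    ‖d - rt c s e‖ ^ 2 = (inner ℝ d e - c) ^ 2 + (inner ℝ d (J e) - s) ^ 2 := by
  have h1 := frame_eq he d
  have h2 : d - rt c s e = (inner ℝ d e - c) • e + (inner ℝ d (J e) - s) • J e := by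
    conv_lhs => rw [h1]
    simp only [rt, sub_smul]; abel
  rw [h2, Arc.norm_sq_frame he]

/-- **Three unit vectors with small sum**: they are close to three directions at 120 degrees. -/
theorem three_dirs {e0 : E2} {d : Fin 3 → E2} (hd : ∀ j, ‖d j‖ = 1)
    (hrough : ∀ j, ‖d j - rt (a3 j) (b3 j) e0‖ ≤ 1 / 100) {s : ℝ} (hs : ‖∑ j, d j‖ ≤ s)
    (hs1 : s ≤ 3 / 100) (j : Fin 3) : ‖d j - rt (a3 j) (b3 j) (d 0)‖ ≤ 2 * s := by
  have hs0 : 0 ≤ s := (norm_nonneg _).trans hs
  have h0 := hd 0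
  have hrough' : ∀ j, ‖d j - rt (a3 j) (b3 j) (d 0)‖ ≤ 1 / 50 := by
    intro j
    have e1 : d j - rt (a3 j) (b3 j) (d 0) =
        (d j - rt (a3 j) (b3 j) e0) + (rt (a3 j) (b3 j) e0 - rt (a3 j) (b3 j) (d 0)) := by abel
    rw [e1, rt_sub]
    refine (norm_add_le _ _).trans ?_
    rw [norm_rt3, norm_sub_rev e0]
    have h2 := hrough 0
    have h3 : rt (a3 0) (b3 0) e0 = e0 := by simp [a3, b3, rt_one]
    rw [h3] at h2
    linarith [hrough j]
  have hin : ∀ j, |inner ℝ (d j) (d 0) - a3 j| ≤ 1 / 50 ∧ |inner ℝ (d j) (J (d 0)) - b3 j| ≤ 1 / 50 := by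
    intro j
    have h1 := norm_sub_rt_sq (d := d j) h0 (a3 j) (b3 j)
    have h2 : ‖d j - rt (a3 j) (b3 j) (d 0)‖ ^ 2 ≤ (1 / 50) ^ 2 := by
      have := hrough' j
      gcongr
    constructor
    · exact abs_le_of_sq_le_sq (by nlinarith [sq_nonneg (inner ℝ (d j) (J (d 0)) - b3 j : ℝ)])
        (by norm_num)
    · exact abs_le_of_sq_le_sq (by nlinarith [sq_nonneg (inner ℝ (d j) (d 0) - a3 j : ℝ)])
        (by norm_num)
  have hunit : ∀ j, (inner ℝ (d j) (d 0) : ℝ) ^ 2 + (inner ℝ (d j) (J (d 0)) : ℝ) ^ 2 = 1 := by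
    intro j
    have h1 := Arc.norm_sq_frame h0 (inner ℝ (d j) (d 0)) (inner ℝ (d j) (J (d 0)))
    rw [← frame_eq h0 (d j), hd j] at h1
    linarith
  have hS1 : |1 + inner ℝ (d 1) (d 0) + inner ℝ (d 2) (d 0)| ≤ s := by
    have h1 : (1 : ℝ) + inner ℝ (d 1) (d 0) + inner ℝ (d 2) (d 0) = inner ℝ (∑ j, d j) (d 0) := by
      rw [sum_inner, Fin.sum_univ_three, real_inner_self_eq_norm_sq, h0]; norm_num
    rw [h1]
    have h2 := abs_real_inner_le_norm (∑ j, d j) (d 0)
    rw [h0, mul_one] at h2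
    exact h2.trans hs
  have hS2 : |inner ℝ (d 1) (J (d 0)) + inner ℝ (d 2) (J (d 0))| ≤ s := by
    have h1 : (inner ℝ (d 1) (J (d 0)) : ℝ) + inner ℝ (d 2) (J (d 0)) =
        inner ℝ (∑ j, d j) (J (d 0)) := by
      rw [sum_inner, Fin.sum_univ_three, inner_J_self]; ring
    rw [h1]
    have h2 := abs_real_inner_le_norm (∑ j, d j) (J (d 0))
    rw [norm_J, h0, mul_one] at h2
    exact h2.trans hs
  obtain ⟨h1a, h1b⟩ := hin 1
  obtain ⟨h2a, h2b⟩ := hin 2
  have ea1 : a3 1 = -(1 / 2) := by simp [a3]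
  have ea2 : a3 2 = -(1 / 2) := by simp [a3]
  have eb1 : b3 1 = Real.sqrt 3 / 2 := by simp [b3]
  have eb2 : b3 2 = -(Real.sqrt 3 / 2) := by simp [b3]
  rw [ea1, sub_neg_eq_add] at h1a
  rw [ea2, sub_neg_eq_add] at h2a
  rw [eb1] at h1b
  rw [eb2, sub_neg_eq_add] at h2b
  refine abs_le_of_sq_le_sq' ?_ (by positivity) |>.2
  rw [norm_sub_rt_sq h0]
  fin_cases j
  · simp only [Fin.zero_eta, a3, b3, Matrix.cons_val_zero, real_inner_self_eq_norm_sq, h0, inner_J_self]
    nlinarith [sq_nonneg s]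
  · simp only [Fin.mk_one]
    rw [ea1, eb1, sub_neg_eq_add]
    exact coord_120 (hunit 1) (hunit 2) hs1 hS1 hS2 h1a h1b h2a h2b
  · simp only [Fin.reduceFinMk]
    rw [ea2, eb2, sub_neg_eq_add, sub_neg_eq_add]
    have h := coord_120 (c₁ := inner ℝ (d 2) (d 0)) (s₁ := -inner ℝ (d 2) (J (d 0)))
      (c₂ := inner ℝ (d 1) (d 0)) (s₂ := -inner ℝ (d 1) (J (d 0))) (s := s)
      (by rw [neg_sq]; exact hunit 2) (by rw [neg_sq]; exact hunit 1) hs1
      (by rw [add_right_comm]; exact hS1)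
      (by rw [← neg_add, abs_neg, add_comm]; exact hS2) h2a
      (by rw [← abs_neg]; convert h2b using 2; ring) h1a
      (by rw [← abs_neg]; convert h1b using 2; ring)
    refine le_of_eq_of_le ?_ h
    ring

end Crest.Agent.R135.StarP
end

-- ▼ part R135/StarProp2
section

/-!
# R135, star_prop, part 2: annular two-sided closeness at a good scale (helper560)
-/

set_option autoImplicit false

open MeasureTheory Set Filter Topology Metric
open scoped ENNReal NNReal

namespace Crest.Agent.R135.StarP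

open Arc

/-- closeness to the star in the annulus `σ/3 ≤ |z - x| ≤ σ` -/
def AnnStar {ι : Type*} (a b : ι → ℝ) (K : Set E2) (x e : E2) (σ E : ℝ) : Prop :=
  ‖e‖ = 1 ∧
  (∀ z ∈ K, σ / 3 ≤ dist z x → dist z x ≤ σ →
    ∃ k, dist z (x + dist z x • rt (a k) (b k) e) ≤ E) ∧
  (∀ k, ∀ t : ℝ, σ / 3 ≤ t → t ≤ σ → ∃ z ∈ K, dist z (x + t • rt (a k) (b k) e) ≤ E)

/-- the data at a good scale `t` -/
structure GoodScale (K : Set E2) (x : E2) (t E : ℝ) (e0 : E2) (p : Fin 3 → E2) : Prop where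
  ht : 0 < t
  hE : 0 < E
  hEt : E ≤ t / 10000
  mem : x ∈ K
  he0 : ‖e0‖ = 1
  sph : K ∩ sphere x t = Set.range p
  rough : ∀ k, dist (p k) (x + t • rt (a3 k) (b3 k) e0) ≤ t / 100
  conn : IsPreconnected (K ∩ closedBall x t)
  low : ∀ ρ, 0 < ρ → ρ ≤ t → ENNReal.ofReal (3 * ρ) ≤ len (K ∩ ball x ρ)
  up : ∀ p₀ ∈ closedBall x (t / 2),
    len (K ∩ closedBall x t) ≤ ENNReal.ofReal (∑ j, dist (p j) p₀ + E)

/-- a point with small excess of the sum of the distances is close to the ray -/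
theorem near_ray {x d w : E2} {t h : ℝ} (hd : ‖d‖ = 1)
    (hw : dist w x + dist w (x + t • d) ≤ t + h) :
    dist w (x + dist w x • d) ^ 2 ≤ 2 * dist w x * h := by
  set A := dist w x with hA
  have hA' : ‖w - x‖ = A := by rw [hA, dist_eq_norm]
  have h1 : dist w (x + A • d) ^ 2 = 2 * A * (A - inner ℝ (w - x) d) := by
    have e1 : w - (x + A • d) = (w - x) - A • d := by abel
    rw [dist_eq_norm, e1, norm_sub_sq_real, norm_smul, hd, hA', inner_smul_right, Real.norm_eq_abs,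
      mul_one, sq_abs]
    ring
  have h2 : t - inner ℝ (w - x) d ≤ dist w (x + t • d) := by
    have e1 : w - (x + t • d) = (w - x) - t • d := by abel
    have h3 := abs_real_inner_le_norm ((w - x) - t • d) d
    rw [hd, mul_one, inner_sub_left, inner_smul_left, real_inner_self_eq_norm_sq, hd] at h3
    rw [dist_eq_norm, e1]
    have h4 := neg_abs_le (inner ℝ (w - x) d - (starRingEnd ℝ) t * 1 ^ 2)
    simp only [conj_trivial] at h3 h4
    linarith
  have h5 : A - inner ℝ (w - x) d ≤ h := by linarith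
  rw [h1]
  exact mul_le_mul_of_nonneg_left h5 (by positivity)

namespace GoodScale

variable {K : Set E2} {x : E2} {t E : ℝ} {e0 : E2} {p : Fin 3 → E2}

theorem mem_p (G : GoodScale K x t E e0 p) (j : Fin 3) : p j ∈ K ∧ dist (p j) x = t := by
  have : p j ∈ K ∩ sphere x t := by rw [G.sph]; exact mem_range_self j
  exact ⟨this.1, this.2⟩

theorem mem_p' (G : GoodScale K x t E e0 p) (j : Fin 3) : p j ∈ K ∩ closedBall x t :=
  ⟨(G.mem_p j).1, (G.mem_p j).2.le⟩

theorem mem_x (G : GoodScale K x t E e0 p) : x ∈ K ∩ closedBall x t :=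
  ⟨G.mem, mem_closedBall_self G.ht.le⟩

/-- the points on the sphere are far from each other -/
theorem sep (G : GoodScale K x t E e0 p) {i j : Fin 3} (hij : i ≠ j) :
    168 / 100 * t ≤ dist (p i) (p j) := by
  have ht := G.ht
  obtain ⟨h3a, -, h3c⟩ := sqrt3_bounds
  have h1 : dist (x + t • rt (a3 i) (b3 i) e0) (x + t • rt (a3 j) (b3 j) e0) ^ 2 = 3 * t ^ 2 := by
    rw [dist_eq_norm, add_sub_add_left_eq_sub, ← smul_sub, norm_smul, Real.norm_eq_abs,
      abs_of_pos ht, mul_pow, norm_sub_sq_real, norm_rt3, norm_rt3, G.he0, inner_rt G.he0,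
      sep3 i j hij]
    ring
  have h2 : 17 / 10 * t ≤ dist (x + t • rt (a3 i) (b3 i) e0) (x + t • rt (a3 j) (b3 j) e0) := by
    refine (abs_le_of_sq_le_sq' ?_ dist_nonneg).2
    rw [h1]; nlinarith [sq_nonneg t]
  have h3 := G.rough i
  have h4 := G.rough j
  have h5 := dist_triangle4 (x + t • rt (a3 i) (b3 i) e0) (p i) (p j)
    (x + t • rt (a3 j) (b3 j) e0)
  rw [dist_comm (x + t • rt (a3 i) (b3 i) e0) (p i)] at h5
  linarith

/-- **far**: a point of `K` outside the core has small excess with respect to one of the rays -/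
theorem far (G : GoodScale K x t E e0 p) {w : E2} (hw : w ∈ K) (hw1 : t / 6 ≤ dist w x)
    (hw2 : dist w x ≤ t) : ∃ j, dist w x + dist w (p j) ≤ t + 4 * E := by
  classical
  have ht := G.ht
  have hE := G.hE
  have hEt := G.hEt
  by_contra hcon
  push Not at hcon
  set Q := K ∩ closedBall x t with hQ
  set r0 := dist w x - 2 * E with hr0
  have hr0p : 0 < r0 := by rw [hr0]; linarith
  have hr0t : r0 < t := by rw [hr0]; linarith
  have hwQ : w ∈ Q := ⟨hw, hw2⟩
  let B : Option (Option (Fin 3)) → Set E2 := fun o => match o with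
    | none => ball w (2 * E)
    | some none => ball x r0
    | some (some j) => ball (p j) (t - r0)
  have hdwx : Disjoint (ball w (2 * E)) (ball x r0) :=
    ball_disjoint_ball (by rw [hr0]; linarith)
  have hdwp : ∀ j, Disjoint (ball w (2 * E)) (ball (p j) (t - r0)) := fun j =>
    ball_disjoint_ball (by have := hcon j; rw [hr0]; linarith)
  have hdxp : ∀ j, Disjoint (ball x r0) (ball (p j) (t - r0)) := fun j =>
    ball_disjoint_ball (by rw [dist_comm, (G.mem_p j).2]; linarith)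
  have hdpp : ∀ i j, i ≠ j → Disjoint (ball (p i) (t - r0)) (ball (p j) (t - r0)) :=
    fun i j hij => ball_disjoint_ball (by have := G.sep hij; rw [hr0]; linarith)
  have hsum := sum_measure_inter_le (Measure.hausdorffMeasure 1) Q
    (Finset.univ : Finset (Option (Option (Fin 3)))) B
    (by
      rintro (_ | _ | j) _ <;> exact measurableSet_ball)
    (by
      rintro (_ | _ | i) _ (_ | _ | j) _ hij
      · exact absurd rfl hij
      · exact hdwx
      · exact hdwp j
      · exact hdwx.symm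
      · exact absurd rfl hij
      · exact hdxp j
      · exact (hdwp i).symm
      · exact (hdxp i).symm
      · exact hdpp i j (fun h => hij (by rw [h])))
  rw [Fintype.sum_option, Fintype.sum_option, Fin.sum_univ_three] at hsum
  have hB1 : ENNReal.ofReal (2 * E) ≤ Measure.hausdorffMeasure 1 (Q ∩ B none) :=
    le_hausdorff_inter_ball_of_isPreconnected Q G.conn hwQ G.mem_x (by linarith)
  have hB2 : ENNReal.ofReal (3 * r0) ≤ Measure.hausdorffMeasure 1 (Q ∩ B (some none)) := by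
    have h1 := G.low r0 hr0p hr0t.le
    refine h1.trans (measure_mono ?_)
    rintro z ⟨hz1, hz2⟩
    exact ⟨⟨hz1, (mem_ball.1 hz2).le.trans hr0t.le⟩, hz2⟩
  have hB3 : ∀ j, ENNReal.ofReal (t - r0) ≤ Measure.hausdorffMeasure 1 (Q ∩ B (some (some j))) :=
    fun j => le_hausdorff_inter_ball_of_isPreconnected Q G.conn (G.mem_p' j) G.mem_x
      (by rw [(G.mem_p j).2]; linarith)
  have hup := G.up x (mem_closedBall_self (by positivity))
  have hup2 : ∑ j, dist (p j) x = 3 * t := by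
    rw [Fin.sum_univ_three, (G.mem_p 0).2, (G.mem_p 1).2, (G.mem_p 2).2]; ring
  rw [hup2] at hup
  have h := (add_le_add hB1 (add_le_add hB2 (add_le_add (add_le_add (hB3 0) (hB3 1)) (hB3 2)))).trans
    (hsum.trans hup)
  have ht0 : 0 ≤ t - r0 := by linarith
  rw [← ENNReal.ofReal_add ht0 ht0, ← ENNReal.ofReal_add (by positivity) ht0,
    ← ENNReal.ofReal_add (by positivity) (by positivity),
    ← ENNReal.ofReal_add (by positivity) (by positivity),
    ENNReal.ofReal_le_ofReal_iff (by positivity)] at h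
  linarith

/-- the directions of the points on the sphere -/
noncomputable def dr (_G : GoodScale K x t E e0 p) (j : Fin 3) : E2 := t⁻¹ • (p j - x)

theorem p_eq (G : GoodScale K x t E e0 p) (j : Fin 3) : p j = x + t • G.dr j := by
  rw [dr, smul_smul, mul_inv_cancel₀ G.ht.ne', one_smul]; abel

theorem norm_dr (G : GoodScale K x t E e0 p) (j : Fin 3) : ‖G.dr j‖ = 1 := by
  rw [dr, norm_smul, ← dist_eq_norm, (G.mem_p j).2, norm_inv, Real.norm_eq_abs, abs_of_pos G.ht,
    inv_mul_cancel₀ G.ht.ne']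

theorem rough_dr (G : GoodScale K x t E e0 p) (j : Fin 3) :
    ‖G.dr j - rt (a3 j) (b3 j) e0‖ ≤ 1 / 100 := by
  have h := G.rough j
  rw [G.p_eq j, dist_eq_norm, add_sub_add_left_eq_sub, ← smul_sub, norm_smul, Real.norm_eq_abs,
    abs_of_pos G.ht] at h
  have ht := G.ht
  rw [← mul_le_mul_iff_right₀ ht]
  linarith

theorem sum_rt3 (v : E2) : ∑ j, rt (a3 j) (b3 j) v = 0 := by
  rw [Fin.sum_univ_three]
  ext i; fin_cases i <;> simp [rt, a3, b3] <;> ring

theorem norm_sum_dr_rough (G : GoodScale K x t E e0 p) : ‖∑ j, G.dr j‖ ≤ 3 / 100 := by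
  have h1 : ∑ j, G.dr j = ∑ j, (G.dr j - rt (a3 j) (b3 j) e0) := by
    rw [Finset.sum_sub_distrib, sum_rt3, sub_zero]
  rw [h1]
  refine (norm_sum_le _ _).trans ?_
  rw [Fin.sum_univ_three]
  linarith [G.rough_dr 0, G.rough_dr 1, G.rough_dr 2]

/-- the sum of the directions is small -/
theorem norm_sum_dr (G : GoodScale K x t E e0 p) : t * ‖∑ j, G.dr j‖ ^ 2 ≤ 6 * E := by
  have ht := G.ht
  have hE := G.hE
  have h1 := sum_dist_le (x := x) ht.le G.norm_dr
  have h2 : x + (t / 3) • ∑ j, G.dr j ∈ closedBall x (t / 2) := by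
    rw [mem_closedBall, dist_eq_norm, add_sub_cancel_left, norm_smul, Real.norm_eq_abs,
      abs_of_pos (by positivity)]
    have := G.norm_sum_dr_rough
    nlinarith
  have h3 := G.up _ h2
  have h4 : ENNReal.ofReal (3 * t) ≤ len (K ∩ closedBall x t) :=
    (G.low t ht le_rfl).trans (measure_mono (inter_subset_inter_right _ ball_subset_closedBall))
  have h5 := h4.trans h3
  rw [ENNReal.ofReal_le_ofReal_iff (by positivity)] at h5
  have h6 : ∑ j, dist (p j) (x + (t / 3) • ∑ j, G.dr j) =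
      ∑ j, dist (x + t • G.dr j) (x + (t / 3) • ∑ j, G.dr j) :=
    Finset.sum_congr rfl fun j _ => by rw [← G.p_eq j]
  rw [h6] at h5
  linarith

theorem inner_dr (G : GoodScale K x t E e0 p) {i j : Fin 3} (hij : i ≠ j) :
    (inner ℝ (G.dr i) (G.dr j) : ℝ) ≤ 0 := by
  have h1 := G.sep hij
  have ht := G.ht
  rw [G.p_eq i, G.p_eq j, dist_eq_norm, add_sub_add_left_eq_sub, ← smul_sub, norm_smul,
    Real.norm_eq_abs, abs_of_pos ht] at h1
  have h2 : 168 / 100 ≤ ‖G.dr i - G.dr j‖ := by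
    rw [← mul_le_mul_iff_right₀ ht]; linarith
  have h3 := norm_sub_sq_real (G.dr i) (G.dr j)
  rw [G.norm_dr, G.norm_dr] at h3
  nlinarith

/-- **The annular star at a good scale.** -/
theorem annStar (G : GoodScale K x t E e0 p) {σ : ℝ} (h1 : σ ≤ t) (h2 : t ≤ 2 * σ) :
    AnnStar a3 b3 K x (G.dr 0) σ (9 * Real.sqrt (E * t)) := by
  have ht := G.ht
  have hE := G.hE
  have hEt := G.hEt
  set M := Real.sqrt (E * t) with hM
  have hM0 : 0 < M := Real.sqrt_pos.2 (by positivity)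
  have hM2 : M ^ 2 = E * t := Real.sq_sqrt (by positivity)
  have hMt : M ≤ t / 100 := by
    refine (abs_le_of_sq_le_sq' ?_ (by positivity)).2
    rw [hM2]; nlinarith
  have hEM : E ≤ M / 100 := by
    refine (abs_le_of_sq_le_sq' ?_ (by positivity)).2
    rw [div_pow, hM2]; nlinarith
  -- the angles
  have hang : ∀ j, t * ‖G.dr j - rt (a3 j) (b3 j) (G.dr 0)‖ ≤ 5 * M := by
    intro j
    have h3 := three_dirs G.norm_dr G.rough_dr le_rfl G.norm_sum_dr_rough j
    have h4 : t * ‖∑ j, G.dr j‖ ≤ 5 / 2 * M := by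
      refine (abs_le_of_sq_le_sq' ?_ (by positivity)).2
      have := G.norm_sum_dr
      rw [mul_pow, mul_pow, hM2]
      nlinarith
    nlinarith
  -- far in the form needed
  have hfar : ∀ w ∈ K, t / 6 ≤ dist w x → dist w x ≤ t →
      ∃ j, dist w x + dist w (p j) ≤ t + 4 * E ∧ dist w (x + dist w x • G.dr j) ≤ 3 * M := by
    intro w hw hw1 hw2
    obtain ⟨j, hj⟩ := G.far hw hw1 hw2
    refine ⟨j, hj, ?_⟩
    rw [G.p_eq j] at hj
    have h3 := near_ray (G.norm_dr j) hj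
    refine (abs_le_of_sq_le_sq' ?_ (by positivity)).2
    rw [mul_pow, hM2]
    have h4 : 2 * dist w x * (4 * E) ≤ 2 * t * (4 * E) := by gcongr
    nlinarith
  have hconv : ∀ (j : Fin 3) (s : ℝ), 0 ≤ s → s ≤ t →
      dist (x + s • G.dr j) (x + s • rt (a3 j) (b3 j) (G.dr 0)) ≤ 5 * M := by
    intro j s hs hst
    rw [dist_eq_norm, add_sub_add_left_eq_sub, ← smul_sub, norm_smul, Real.norm_eq_abs,
      abs_of_nonneg hs]
    exact (mul_le_mul_of_nonneg_right hst (norm_nonneg _)).trans (hang j)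
  refine ⟨G.norm_dr 0, ?_, ?_⟩
  · intro z hz hz1 hz2
    obtain ⟨j, -, hj⟩ := hfar z hz (by linarith) (by linarith)
    refine ⟨j, ?_⟩
    have h3 := hconv j (dist z x) dist_nonneg (by linarith)
    have h4 := dist_triangle z (x + dist z x • G.dr j) (x + dist z x • rt (a3 j) (b3 j) (G.dr 0))
    linarith
  · intro j ρ hρ1 hρ2
    -- a point at distance `t - ρ` from `p j`
    have hcont : ContinuousOn (fun v : E2 => dist v (p j)) (K ∩ closedBall x t) := by fun_prop
    have hiv := G.conn.intermediate_value (G.mem_p' j) G.mem_x hcont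
    have hmem : t - ρ ∈ Icc (dist (p j) (p j)) (dist x (p j)) := by
      rw [dist_self, dist_comm x, (G.mem_p j).2]
      constructor <;> linarith
    obtain ⟨z, hz, hzd⟩ := hiv hmem
    simp only at hzd
    have hz1 : ρ ≤ dist z x := by
      have h3 := dist_triangle_left (p j) x z
      rw [(G.mem_p j).2] at h3
      linarith
    obtain ⟨i, hi1, hi2⟩ := hfar z hz.1 (by linarith) hz.2
    have hij : i = j := by
      by_contra hij
      have h3 : t ≤ dist (x + dist z x • G.dr i) (p j) := by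
        refine (abs_le_of_sq_le_sq' ?_ dist_nonneg).2
        rw [G.p_eq j, dist_eq_norm, add_sub_add_left_eq_sub, norm_sub_sq_real, norm_smul, norm_smul,
          G.norm_dr, G.norm_dr, inner_smul_left, inner_smul_right, Real.norm_eq_abs,
          Real.norm_eq_abs, mul_one, mul_one, sq_abs, sq_abs]
        simp only [conj_trivial]
        have h4 := G.inner_dr hij
        have h5 : dist z x * (t * inner ℝ (G.dr i) (G.dr j)) ≤ 0 := by
          apply mul_nonpos_of_nonneg_of_nonpos dist_nonneg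
          exact mul_nonpos_of_nonneg_of_nonpos ht.le h4
        nlinarith [sq_nonneg (dist z x)]
      have h4 := dist_triangle_left (x + dist z x • G.dr i) (p j) z
      linarith
    subst hij
    refine ⟨z, hz.1, ?_⟩
    have h3 : dist (x + dist z x • G.dr i) (x + ρ • G.dr i) ≤ 4 * E := by
      rw [dist_eq_norm, add_sub_add_left_eq_sub, ← sub_smul, norm_smul, G.norm_dr, mul_one,
        Real.norm_eq_abs, abs_of_nonneg (by linarith)]
      linarith
    have h4 := hconv i ρ (by linarith) (by linarith)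
    have h5 := dist_triangle4 z (x + dist z x • G.dr i) (x + ρ • G.dr i)
      (x + ρ • rt (a3 i) (b3 i) (G.dr 0))
    linarith

end GoodScale

end Crest.Agent.R135.StarP
end

-- ▼ part R135/StarProp3
section

/-!
# R135, star_prop, part 3: dyadic chain of annular stars (helper560)
-/

set_option autoImplicit false

open MeasureTheory Set Filter Topology Metric
open scoped ENNReal NNReal

namespace Crest.Agent.R135.StarP

open Arc

variable {ι : Type*} {a b : ι → ℝ} {K : Set E2} {x : E2}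

theorem AnnStar.rot (hG : RotGroup a b) {e : E2} {ρ E : ℝ} (h : AnnStar a b K x e ρ E) (k : ι) :
    AnnStar a b K x (rt (a k) (b k) e) ρ E := by
  obtain ⟨h0, h1, h2⟩ := h
  refine ⟨by rw [norm_rt (hG.unit k), h0], ?_, ?_⟩
  · intro z hz hd1 hd2
    obtain ⟨j, hd'⟩ := h1 z hz hd1 hd2
    obtain ⟨k', hk1, hk2⟩ := hG.inv k
    obtain ⟨l, hl1, hl2⟩ := hG.mul j k'
    refine ⟨l, ?_⟩
    have : rt (a l) (b l) (rt (a k) (b k) e) = rt (a j) (b j) e := by
      rw [rt_rt, hl1, hl2, hk1, hk2]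
      have hu := hG.unit k
      congr 1
      · linear_combination (a j) * hu
      · linear_combination (b j) * hu
    rw [this]; exact hd'
  · intro j t ht htρ
    obtain ⟨l, hl1, hl2⟩ := hG.mul j k
    obtain ⟨z, hz, hd⟩ := h2 l t ht htρ
    refine ⟨z, hz, ?_⟩
    rw [rt_rt, ← hl1, ← hl2]; exact hd

theorem AnnStar.mono {e : E2} {ρ E E' : ℝ} (h : AnnStar a b K x e ρ E) (hE : E ≤ E') :
    AnnStar a b K x e ρ E' := by
  obtain ⟨h0, h1, h2⟩ := h
  refine ⟨h0, fun z hz hd1 hd2 => ?_, fun k t ht1 ht2 => ?_⟩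
  · obtain ⟨k, hk⟩ := h1 z hz hd1 hd2
    exact ⟨k, hk.trans hE⟩
  · obtain ⟨z, hz, hd⟩ := h2 k t ht1 ht2
    exact ⟨z, hz, hd.trans hE⟩

theorem AnnStar.step (hG : RotGroup a b) {e e' : E2} {σ E E' : ℝ} (h : AnnStar a b K x e σ E)
    (h' : AnnStar a b K x e' (σ / 2) E') (hσ : 0 < σ) (hE' : E' ≤ σ / 12) :
    ∃ e'', AnnStar a b K x e'' (σ / 2) E' ∧ dist e'' e ≤ 12 / 5 * (E + 2 * E') / σ := by
  obtain ⟨i, hi1, hi2⟩ := hG.one
  set ρ := 5 / 12 * σ with hρ
  have hρ0 : 0 < ρ := by positivity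
  obtain ⟨z, hz, hd⟩ := h'.2.2 i ρ (by rw [hρ]; linarith) (by rw [hρ]; linarith)
  rw [hi1, hi2, rt_one] at hd
  have h0 : dist (x + ρ • e') x = ρ := by
    rw [dist_eq_norm, add_sub_cancel_left, norm_smul, h'.1, mul_one, Real.norm_eq_abs,
      abs_of_pos hρ0]
  have hz1 : dist z x ≤ ρ + E' := by linarith [dist_triangle z (x + ρ • e') x]
  have hz2 : ρ - E' ≤ dist z x := by linarith [dist_triangle_left (x + ρ • e') x z]
  obtain ⟨k, hd2⟩ := h.2.1 z hz (by rw [hρ] at hz2; linarith) (by rw [hρ] at hz1; linarith)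
  set s := dist z x with hs
  have hη : ‖ρ • e' - s • rt (a k) (b k) e‖ ≤ E + E' := by
    have h3 := dist_triangle_left (x + ρ • e') (x + s • rt (a k) (b k) e) z
    rw [dist_eq_norm, add_sub_add_left_eq_sub] at h3
    linarith
  have hnr : ‖rt (a k) (b k) e‖ = 1 := by rw [norm_rt (hG.unit k), h.1]
  have hst : |ρ - s| ≤ E' := by rw [abs_le]; constructor <;> linarith
  have h5 : ‖ρ • (e' - rt (a k) (b k) e)‖ ≤ E + 2 * E' := by
    have : ρ • (e' - rt (a k) (b k) e) =
        (ρ • e' - s • rt (a k) (b k) e) - (ρ - s) • rt (a k) (b k) e := by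
      rw [smul_sub, sub_smul]; abel
    rw [this]
    refine (norm_sub_le _ _).trans ?_
    rw [norm_smul, hnr, mul_one, Real.norm_eq_abs]
    linarith
  rw [norm_smul, Real.norm_eq_abs, abs_of_pos hρ0] at h5
  obtain ⟨k', hk1, hk2⟩ := hG.inv k
  refine ⟨rt (a k') (b k') e', h'.rot hG k', ?_⟩
  have h6 : rt (a k') (b k') (rt (a k) (b k) e) = e := by
    rw [rt_rt, hk1, hk2]
    have hu := hG.unit k
    have e1 : a k * a k - -b k * b k = 1 := by linear_combination hu
    have e2 : a k * b k + -b k * a k = 0 := by ring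
    rw [e1, e2, rt_one]
  have h7 : dist (rt (a k') (b k') e') e = ‖e' - rt (a k) (b k) e‖ := by
    conv_lhs => rw [← h6]
    rw [dist_eq_norm, rt_sub, norm_rt (hG.unit k')]
  rw [h7, le_div_iff₀ hσ]
  rw [hρ] at h5
  linarith

/-- **Dyadic chain.** -/
theorem starAt_of_annStar (hG : RotGroup a b) {A γ r R0 : ℝ} (hx : x ∈ K) (hγ : 0 < γ)
    (hA : 0 < A) (hr : 0 < r) (hsmall : A * (R0 / r) ^ γ ≤ 1 / 12)
    (h : ∀ σ, 0 < σ → σ ≤ R0 → ∃ e, AnnStar a b K x e σ (A * σ * (σ / r) ^ γ))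
    {σ : ℝ} (hσ : 0 < σ) (hσR : σ ≤ R0) :
    ∃ e, StarAt a b K x e σ ((A + 8 * A / (1 - (2 : ℝ) ^ (-γ))) * σ * (σ / r) ^ γ) := by
  set q : ℝ := (2:ℝ) ^ (-γ) with hq
  have hq0 : 0 < q := by positivity
  have hq1 : q < 1 := by
    rw [hq]; exact Real.rpow_lt_one_of_one_lt_of_neg (by norm_num) (by linarith)
  have h1q : 0 < 1 - q := by linarith
  set R : ℕ → ℝ := fun n => σ * (1/2 : ℝ) ^ n with hR
  have hR0 : ∀ n, 0 < R n := fun n => by positivity
  have hRs : ∀ n, R (n+1) = R n / 2 := fun n => by simp only [hR, pow_succ]; ring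
  have hRle : ∀ n, R n ≤ σ := fun n => by
    have : (1/2:ℝ) ^ n ≤ 1 := pow_le_one₀ (by norm_num) (by norm_num)
    simp only [hR]; nlinarith
  set B : ℝ := (σ / r) ^ γ with hB
  have hB0 : 0 < B := by positivity
  have hRγ : ∀ n, (R n / r) ^ γ = B * q ^ n := by
    intro n
    have e1 : R n / r = (σ / r) * (1 / 2 : ℝ) ^ n := by simp only [hR]; ring
    rw [e1, Real.mul_rpow (by positivity) (by positivity)]
    congr 1
    rw [hq, ← Real.rpow_natCast, ← Real.rpow_natCast, ← Real.rpow_mul (by norm_num),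
      ← Real.rpow_mul (by norm_num), one_div, Real.inv_rpow (by norm_num),
      ← Real.rpow_neg (by norm_num)]
    congr 1; ring
  have hABle : A * B ≤ 1 / 12 := by
    refine le_trans ?_ hsmall
    have : B ≤ (R0 / r) ^ γ := by
      rw [hB]
      exact Real.rpow_le_rpow (by positivity) (by gcongr) hγ.le
    gcongr
  have hqn : ∀ n : ℕ, q ^ n ≤ 1 := fun n => pow_le_one₀ hq0.le hq1.le
  obtain ⟨e0, he0⟩ := h σ hσ hσR
  have hR00 : R 0 = σ := by simp [hR]
  obtain ⟨s, hs1, hs2⟩ := exists_seq_dep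
    (P := fun n e => AnnStar a b K x e (R n) (A * R n * (B * q ^ n)))
    (Q := fun n e e' => dist e' e ≤ (8 * A * B) * q ^ n)
    (x := e0) (by rw [hR00, pow_zero, mul_one]; exact he0) (by
      intro n e he
      obtain ⟨e', he'⟩ := h (R (n+1)) (hR0 _) ((hRle _).trans hσR)
      rw [hRγ, hRs] at he'
      have hq' := hqn (n + 1)
      have hqp : 0 < q ^ n := by positivity
      have hqs : q ^ (n + 1) ≤ q ^ n := by rw [pow_succ]; nlinarith
      have hRn := hR0 n
      obtain ⟨e'', h1, h2⟩ := he.step hG he' hRn (by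
        have : A * (R n / 2) * (B * q ^ (n + 1)) = (A * B) * q ^ (n + 1) * (R n / 2) := by ring
        rw [this]
        have h3 : (A * B) * q ^ (n + 1) ≤ 1 / 12 * 1 := by gcongr
        nlinarith)
      rw [hRs]
      refine ⟨e'', h1, h2.trans ?_⟩
      rw [div_le_iff₀ hRn]
      have h4 : A * (R n / 2) * (B * q ^ (n + 1)) ≤ A * (R n / 2) * (B * q ^ n) := by gcongr
      have h5 : 0 < A * R n * (B * q ^ n) := by positivity
      linarith)
  have hgeo : ∀ n, dist (s n) (s (n+1)) ≤ (8 * A * B) * q ^ n := fun n => by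
    rw [dist_comm]; exact hs2 n
  have hbd : ∀ n, dist (s n) (s 0) ≤ 8 * A * B / (1 - q) := by
    intro n
    rw [dist_comm]
    have h1 : dist (s 0) (s n) ≤ ∑ i ∈ Finset.range n, (8 * A * B) * q ^ i :=
      dist_le_range_sum_of_dist_le n (fun {k} _ => hgeo k)
    refine h1.trans ?_
    rw [← Finset.mul_sum, div_eq_mul_inv]
    apply mul_le_mul_of_nonneg_left _ (by positivity)
    rw [← tsum_geometric_of_lt_one hq0.le hq1]
    exact (summable_geometric_of_lt_one hq0.le hq1).sum_le_tsum _ (fun i _ => by positivity)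
  set D : ℝ := 8 * A / (1 - q) with hD
  have hD0 : 0 < D := by positivity
  have hbd2 : ∀ n, dist (s n) (s 0) ≤ D * B := fun n => (hbd n).trans (le_of_eq (by rw [hD]; ring))
  have hAn : ∀ n, A * R n * (B * q ^ n) ≤ A * σ * B := by
    intro n
    have h1 := hRle n
    have h2 := hqn n
    calc A * R n * (B * q ^ n) ≤ A * σ * (B * 1) := by gcongr
      _ = A * σ * B := by ring
  -- every `t ∈ (0,σ]` is in some annulus
  have hann : ∀ t, 0 < t → t ≤ σ → ∃ n, R n / 3 ≤ t ∧ t ≤ R n := by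
    intro t ht htσ
    obtain ⟨n, hn1, hn2⟩ := exists_nat_pow_near_of_lt_one (y := (1/2:ℝ)) (x := t / σ)
      (by positivity) (by rw [div_le_one hσ]; exact htσ) (by norm_num) (by norm_num)
    refine ⟨n, ?_, ?_⟩
    · rw [lt_div_iff₀ hσ, pow_succ] at hn1
      simp only [hR]; linarith
    · rw [div_le_iff₀ hσ] at hn2
      simp only [hR]; linarith
  have hmove : ∀ (k : ι) (n : ℕ) (t : ℝ), 0 ≤ t → t ≤ σ →
      dist (x + t • rt (a k) (b k) (s n)) (x + t • rt (a k) (b k) (s 0)) ≤ σ * (D * B) := by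
    intro k n t ht htσ
    rw [dist_eq_norm, add_sub_add_left_eq_sub, ← smul_sub, rt_sub, norm_smul,
      norm_rt (hG.unit k), Real.norm_eq_abs, abs_of_nonneg ht, ← dist_eq_norm]
    have := hbd2 n
    gcongr
  refine ⟨s 0, (hs1 0).1, ?_, ?_⟩
  · intro z hz hd
    rcases (dist_nonneg : 0 ≤ dist z x).eq_or_lt with h0 | h0
    · obtain ⟨i, hi⟩ := hG.one
      refine ⟨i, 0, le_rfl, ?_⟩
      rw [zero_smul, add_zero, ← h0]
      positivity
    · obtain ⟨n, hn1, hn2⟩ := hann _ h0 hd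
      obtain ⟨k, hk⟩ := (hs1 n).2.1 z hz hn1 hn2
      refine ⟨k, dist z x, h0.le, ?_⟩
      have h1 := hmove k n (dist z x) h0.le hd
      have h2 := dist_triangle z (x + dist z x • rt (a k) (b k) (s n))
        (x + dist z x • rt (a k) (b k) (s 0))
      have h3 := hAn n
      calc _ ≤ A * σ * B + σ * (D * B) := by linarith
        _ = _ := by ring
  · intro k t ht htσ
    rcases ht.eq_or_lt with h0 | h0
    · refine ⟨x, hx, ?_⟩
      rw [← h0, zero_smul, add_zero, dist_self]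
      positivity
    · obtain ⟨n, hn1, hn2⟩ := hann _ h0 htσ
      obtain ⟨z, hz, hk⟩ := (hs1 n).2.2 k t hn1 hn2
      refine ⟨z, hz, ?_⟩
      have h1 := hmove k n t ht htσ
      have h2 := dist_triangle z (x + t • rt (a k) (b k) (s n))
        (x + t • rt (a k) (b k) (s 0))
      have h3 := hAn n
      calc _ ≤ A * σ * B + σ * (D * B) := by linarith
        _ = _ := by ring

end Crest.Agent.R135.StarP
end

-- ▼ part R135/EpsProp1
section

/-!
# R135, block EPS (helper983): the propeller regime, sectors, connectedness, good radii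
-/

set_option autoImplicit false

open MeasureTheory Set Filter Topology Metric
open scoped ENNReal NNReal ContDiff Gradient

namespace Crest.Agent.R135.EpsLoc

open Crest.Agent.R135

/-- the three directions of a propeller -/
noncomputable def d3 (e : E2) (k : Fin 3) : E2 := Arc.rt (Arc.a3 k) (Arc.b3 k) e

lemma norm_d3 {e : E2} (he : ‖e‖ = 1) (k : Fin 3) : ‖d3 e k‖ = 1 := by
  rw [d3, Arc.norm_rt (Arc.rotGroup3.unit k), he]

lemma inner_rt {e : E2} (he : ‖e‖ = 1) (a b a' b' : ℝ) :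
    (inner ℝ (Arc.rt a b e) (Arc.rt a' b' e) : ℝ) = a * a' + b * b' := by
  have h : e 0 ^ 2 + e 1 ^ 2 = 1 := by rw [← Arc.norm_sq_eq, he]; norm_num
  rw [Arc.inner_eq]
  simp only [Arc.rt, PiLp.add_apply, PiLp.smul_apply, smul_eq_mul, Arc.J_zero', Arc.J_one']
  linear_combination (a * a' + b * b') * h

lemma inner_d3 {e : E2} (he : ‖e‖ = 1) {j k : Fin 3} (h : j ≠ k) :
    (inner ℝ (d3 e j) (d3 e k) : ℝ) = -(1 / 2) := by
  have h3 : Real.sqrt 3 * Real.sqrt 3 = 3 := Real.mul_self_sqrt (by norm_num)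
  rw [d3, d3, inner_rt he]
  fin_cases j <;> fin_cases k <;> first | exact absurd rfl h | (simp [Arc.a3, Arc.b3]; try nlinarith)

lemma inner_d3_self {e : E2} (he : ‖e‖ = 1) (k : Fin 3) :
    (inner ℝ (d3 e k) (d3 e k) : ℝ) = 1 := by
  rw [real_inner_self_eq_norm_sq, norm_d3 he]; norm_num

/-- a point near the arm `j`, outside `ball x t`: its position with respect to the directions -/
lemma arm_pos {x v e : E2} {t τ : ℝ} (he : ‖e‖ = 1) (ht : 0 < t) {j : Fin 3} (hτ : 0 ≤ τ)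
    (hd : dist v (x + τ • d3 e j) ≤ t / 200) (hv : t ≤ dist v x) :
    |dist v x - τ| ≤ t / 200 ∧ 0 < (inner ℝ (v - x) (d3 e j) : ℝ) ∧
      ∀ k, k ≠ j → (inner ℝ (v - x) (d3 e k) : ℝ) < 0 := by
  have h1 : dist (x + τ • d3 e j) x = τ := by
    rw [dist_eq_norm, add_sub_cancel_left, norm_smul, norm_d3 he, mul_one, Real.norm_eq_abs,
      abs_of_nonneg hτ]
  have h2 := dist_triangle v (x + τ • d3 e j) x
  have h3 := dist_triangle_left (x + τ • d3 e j) x v
  rw [h1] at h2 h3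
  have h4 : ∀ k, |(inner ℝ (v - (x + τ • d3 e j)) (d3 e k) : ℝ)| ≤ t / 200 := by
    intro k
    have := abs_real_inner_le_norm (v - (x + τ • d3 e j)) (d3 e k)
    rw [norm_d3 he, mul_one, ← dist_eq_norm] at this
    linarith
  have h5 : ∀ k, (inner ℝ (v - x) (d3 e k) : ℝ)
      = inner ℝ (v - (x + τ • d3 e j)) (d3 e k) + τ * inner ℝ (d3 e j) (d3 e k) := by
    intro k
    have : v - x = (v - (x + τ • d3 e j)) + τ • d3 e j := by abel
    rw [this, inner_add_left, inner_smul_left]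
    simp
  refine ⟨abs_le.2 ⟨by linarith, by linarith⟩, ?_, ?_⟩
  · rw [h5 j, inner_d3_self he]
    have := (abs_le.1 (h4 j)).1
    linarith
  · intro k hk
    rw [h5 k, inner_d3 he (Ne.symm hk)]
    have := (abs_le.1 (h4 k)).2
    linarith

/-- the sphere `sphere x t` meets `K` near each arm -/
theorem exists_arm_point {K : Set E2} {x e : E2} {t : ℝ} (ht : 0 < t)
    (hF : Arc.StarAt Arc.a3 Arc.b3 K x e (10 * t) (t / 200))
    (hconn : ∀ b ∈ K, dist b x ≤ 2 * t → b ∈ connectedComponentIn (K ∩ closedBall x (10 * t)) x)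
    (hx : x ∈ K) (k : Fin 3) : ∃ p ∈ K ∩ sphere x t, dist p (x + t • d3 e k) ≤ t / 100 := by
  obtain ⟨he, h1, h2⟩ := hF
  obtain ⟨w, hw, hwd⟩ := h2 k (3 / 2 * t) (by positivity) (by linarith)
  have hwd' : dist w (x + (3 / 2 * t) • d3 e k) ≤ t / 200 := hwd
  have hd1 : dist (x + (3 / 2 * t) • d3 e k) x = 3 / 2 * t := by
    rw [dist_eq_norm, add_sub_cancel_left, norm_smul, norm_d3 he, mul_one, Real.norm_eq_abs,
      abs_of_pos (by positivity)]
  have hwx : dist w x ≤ 2 * t := by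
    have := dist_triangle w (x + (3 / 2 * t) • d3 e k) x
    linarith
  have hwx' : t ≤ dist w x := by
    have := dist_triangle_left (x + (3 / 2 * t) • d3 e k) x w
    linarith
  have hwe : 0 ≤ (inner ℝ (w - x) (d3 e k) : ℝ) :=
    (arm_pos he ht (by positivity) hwd' hwx').2.1.le
  set C := connectedComponentIn (K ∩ closedBall x (10 * t)) x with hC
  have hCp : IsPreconnected C := isPreconnected_connectedComponentIn
  have hCK : C ⊆ K ∩ closedBall x (10 * t) := connectedComponentIn_subset _ _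
  have hxC : x ∈ C := mem_connectedComponentIn ⟨hx, mem_closedBall_self (by positivity)⟩
  have hwC : w ∈ C := hconn w hw hwx
  rw [isPreconnected_closed_iff] at hCp
  obtain ⟨v, hvC, hvA, hvB⟩ := hCp
    ({v | t ≤ dist v x} ∩ {v | 0 ≤ (inner ℝ (v - x) (d3 e k) : ℝ)})
    (closedBall x t ∪ {v | (inner ℝ (v - x) (d3 e k) : ℝ) ≤ 0})
    ((isClosed_le continuous_const (continuous_id.dist continuous_const)).inter
      (isClosed_le continuous_const (continuous_inner_sub x _)))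
    (isClosed_closedBall.union (isClosed_le (continuous_inner_sub x _) continuous_const))
    (by
      intro v _
      by_cases hv : dist v x ≤ t
      · exact Or.inr (Or.inl hv)
      · rcases le_total 0 (inner ℝ (v - x) (d3 e k) : ℝ) with h | h
        · exact Or.inl ⟨(not_le.1 hv).le, h⟩
        · exact Or.inr (Or.inr h))
    ⟨w, hwC, hwx', hwe⟩
    ⟨x, hxC, Or.inl (mem_closedBall_self ht.le)⟩
  have hvK := hCK hvC
  obtain ⟨j, τ, hτ, hvj⟩ := h1 v hvK.1 hvK.2
  have hvj' : dist v (x + τ • d3 e j) ≤ t / 200 := hvj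
  obtain ⟨h3, h4, h5⟩ := arm_pos he ht hτ hvj' hvA.1
  have hjk : j = k := by
    by_contra hne
    have := h5 k (fun h => hne h.symm)
    exact absurd this (not_lt.2 hvA.2)
  subst hjk
  rcases hvB with hvB | hvB
  · have hvs : dist v x = t := le_antisymm hvB hvA.1
    refine ⟨v, ⟨hvK.1, hvs⟩, ?_⟩
    rw [hvs] at h3
    have h6 : dist (x + τ • d3 e j) (x + t • d3 e j) = |t - τ| := by
      rw [dist_add_left, dist_eq_norm, ← sub_smul, norm_smul, norm_d3 he, mul_one,
        Real.norm_eq_abs, abs_sub_comm]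
    have h7 := dist_triangle v (x + τ • d3 e j) (x + t • d3 e j)
    rw [h6] at h7
    linarith
  · exact absurd h4 (not_lt.2 hvB)

/-- choice of the three crossing points -/
theorem exists_three {K : Set E2} {x e : E2} {t : ℝ} (ht : 0 < t)
    (hF : Arc.StarAt Arc.a3 Arc.b3 K x e (10 * t) (t / 200))
    (hconn : ∀ b ∈ K, dist b x ≤ 2 * t → b ∈ connectedComponentIn (K ∩ closedBall x (10 * t)) x)
    (hx : x ∈ K) : ∃ p : Fin 3 → E2, Function.Injective p ∧
      ∀ k, p k ∈ K ∩ sphere x t ∧ dist (p k) (x + t • d3 e k) ≤ t / 100 := by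
  choose p hp hpd using exists_arm_point ht hF hconn hx
  refine ⟨p, ?_, fun k => ⟨hp k, hpd k⟩⟩
  intro j k hjk
  by_contra hne
  have he := hF.1
  have h1 := dist_triangle_left (x + t • d3 e j) (x + t • d3 e k) (p j)
  have h2 : dist (x + t • d3 e j) (x + t • d3 e k) ^ 2 = 3 * t ^ 2 := by
    rw [dist_add_left, dist_eq_norm, ← smul_sub, norm_smul, mul_pow, norm_sub_sq_real,
      norm_d3 he, norm_d3 he, inner_d3 he hne, Real.norm_eq_abs, sq_abs]
    ring
  have h3 := hpd j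
  have h4 := hpd k
  rw [← hjk] at h4
  have h5 : dist (x + t • d3 e j) (x + t • d3 e k) ≤ t / 50 := by linarith
  have h6 : dist (x + t • d3 e j) (x + t • d3 e k) ^ 2 ≤ (t / 50) ^ 2 :=
    pow_le_pow_left₀ dist_nonneg h5 2
  nlinarith

theorem three_le_encard {S : Set E2} {p : Fin 3 → E2} (hp : Function.Injective p)
    (hS : ∀ k, p k ∈ S) : ((3 : ℕ) : ℕ∞) ≤ S.encard := by
  have h1 : range p ⊆ S := by
    rintro _ ⟨k, rfl⟩
    exact hS k
  have h2 : (range p).encard = ((3 : ℕ) : ℕ∞) := by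
    rw [← image_univ, hp.encard_image, encard_univ]
    simp
  rw [← h2]
  exact encard_le_encard h1

/-- if the sphere meets `K` in exactly three points, `K ∩ closedBall x t` is connected -/
theorem preconnected_of_three {K : Set E2} {x e : E2} {t : ℝ} {p : Fin 3 → E2} (ht : 0 < t)
    (hK : IsCompact (K ∩ closedBall x (10 * t)))
    (hF : Arc.StarAt Arc.a3 Arc.b3 K x e (10 * t) (t / 200))
    (hconn : ∀ a ∈ K, dist a x ≤ t → ∀ b ∈ K, dist b x ≤ t →
      b ∈ connectedComponentIn (K ∩ closedBall x (10 * t)) a)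
    (hpK : K ∩ sphere x t = range p) (hp : ∀ k, dist (p k) (x + t • d3 e k) ≤ t / 100) :
    IsPreconnected (K ∩ closedBall x t) := by
  obtain ⟨he, h1, h2⟩ := hF
  have hpm : ∀ k, p k ∈ K ∩ sphere x t := fun k => by rw [hpK]; exact mem_range_self k
  have hR : t ≤ 10 * t := by linarith
  -- positions of the points `p k`
  have hpos : ∀ j k, (inner ℝ (p j - x) (d3 e k) : ℝ)
      = inner ℝ (p j - (x + t • d3 e j)) (d3 e k) + t * inner ℝ (d3 e j) (d3 e k) := by
    intro j k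
    have : p j - x = (p j - (x + t • d3 e j)) + t • d3 e j := by abel
    rw [this, inner_add_left, inner_smul_left]
    simp
  have hsm : ∀ j k, |(inner ℝ (p j - (x + t • d3 e j)) (d3 e k) : ℝ)| ≤ t / 100 := by
    intro j k
    have := abs_real_inner_le_norm (p j - (x + t • d3 e j)) (d3 e k)
    rw [norm_d3 he, mul_one, ← dist_eq_norm] at this
    linarith [hp j]
  have hpp : ∀ k, 0 < (inner ℝ (p k - x) (d3 e k) : ℝ) := by
    intro k
    rw [hpos k k, inner_d3_self he]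
    have := (abs_le.1 (hsm k k)).1
    linarith
  have hpn : ∀ j k, j ≠ k → (inner ℝ (p j - x) (d3 e k) : ℝ) < 0 := by
    intro j k hjk
    rw [hpos j k, inner_d3 he hjk]
    have := (abs_le.1 (hsm j k)).2
    linarith
  have hopen : (K ∩ closedBall x (10 * t)) \ ball x t =
      (K ∩ closedBall x (10 * t)) ∩ {v | t ≤ dist v x} := by
    ext v
    simp only [Set.mem_sdiff, mem_ball, not_lt, mem_inter_iff, mem_ofPred_eq]
  have hout : IsClosed ((K ∩ closedBall x (10 * t)) ∩ {v | t ≤ dist v x}) :=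
    hK.isClosed.inter (isClosed_le continuous_const (continuous_id.dist continuous_const))
  let P : Fin 3 → Set E2 := fun k => ((K ∩ closedBall x (10 * t)) ∩ {v | t ≤ dist v x}) ∩
    {v | 0 ≤ (inner ℝ (v - x) (d3 e k) : ℝ)}
  refine isPreconnected_inter_closedBall hR hK (fun a ha b hb => hconn a ha.1 ha.2 b hb.1 hb.2)
    P p ?_ ?_ ?_ ?_ ?_
  · intro k
    exact hout.inter (isClosed_le continuous_const (continuous_inner_sub x _))
  · intro i j hij
    rw [Set.disjoint_left]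
    intro v hv hv'
    obtain ⟨m, τ, hτ, hvm⟩ := h1 v hv.1.1.1 hv.1.1.2
    obtain ⟨-, -, h5⟩ := arm_pos he ht hτ (show dist v (x + τ • d3 e m) ≤ t / 200 from hvm) hv.1.2
    have hi : i = m := by
      by_contra hne
      exact absurd (h5 i hne) (not_lt.2 hv.2)
    have hj : j = m := by
      by_contra hne
      exact absurd (h5 j hne) (not_lt.2 hv'.2)
    exact hij (hi.trans hj.symm)
  · rw [hopen]
    intro v hv
    obtain ⟨m, τ, hτ, hvm⟩ := h1 v hv.1.1 hv.1.2
    obtain ⟨-, h4, -⟩ := arm_pos he ht hτ (show dist v (x + τ • d3 e m) ≤ t / 200 from hvm) hv.2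
    exact mem_iUnion.2 ⟨m, hv, h4.le⟩
  · intro k v hv
    exact hv.1.1
  · intro k
    ext v
    constructor
    · rintro ⟨hv, hvt⟩
      have hvs : v ∈ K ∩ sphere x t := ⟨hv.1.1.1, le_antisymm hvt hv.1.2⟩
      rw [hpK] at hvs
      obtain ⟨j, rfl⟩ := hvs
      have : j = k := by
        by_contra hne
        exact absurd (hpn j k hne) (not_lt.2 hv.2)
      rw [this]
      exact mem_singleton _
    · intro hv
      rw [mem_singleton_iff] at hv
      subst hv
      have hd : dist (p k) x = t := (hpm k).2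
      refine ⟨⟨⟨⟨(hpm k).1, ?_⟩, ?_⟩, ?_⟩, ?_⟩
      · rw [mem_closedBall]; linarith
      · exact hd.ge
      · exact (hpp k).le
      · rw [mem_closedBall]; linarith

/-! ### the regime `PropReg` -/

theorem conn_prop_aux' {U : Set E2} {lam ε : ℝ} {u : E2 → ℝ} {K : Set E2} {x : E2} {r t : ℝ}
    (hε : 0 < ε) (hε' : ε ≤ 1 / 2000) (hq : IsQM U lam u K) (hP : PropReg ε U lam u K x r)
    (ht : 0 < t) (h10 : 10 * t ≤ r) {a b : E2} (ha : a ∈ K) (hb : b ∈ K)
    (hax : dist a x ≤ 2 * t) (hbx : dist b x ≤ 2 * t) :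
    b ∈ connectedComponentIn (K ∩ closedBall x (10 * t)) a := by
  have hr := hP.pos
  have h5 : 5 * (2 * t) = 10 * t := by ring
  have hsub : closedBall x (5 * (2 * t)) ⊆ U := by
    apply Subset.trans _ hP.sub
    exact closedBall_subset_closedBall (by linarith)
  rw [← h5]
  refine connected_of_flat (hq.isCompact_inter_closedBall hsub) ?_ (by positivity) ha hb hax hbx
  intro w hw hwz σ hσ hσ2
  exact (fl_of_propReg hε hP hw hσ (by linarith)).mono (by linarith) hσ.le

theorem prop_isCompact {U : Set E2} {lam ε : ℝ} {u : E2 → ℝ} {K : Set E2} {x : E2} {r t : ℝ}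
    (hq : IsQM U lam u K) (hP : PropReg ε U lam u K x r) (h10 : 10 * t ≤ r) :
    IsCompact (K ∩ closedBall x (10 * t)) := by
  have hr := hP.pos
  exact hq.isCompact_inter_closedBall
    ((closedBall_subset_closedBall (by linarith)).trans hP.sub)

/-- closeness to the propeller at scale `10 t` -/
theorem prop_star {U : Set E2} {lam ε : ℝ} {u : E2 → ℝ} {K : Set E2} {x : E2} {r t : ℝ}
    (hε' : ε ≤ 1 / 2000) (hP : PropReg ε U lam u K x r)
    (ht : 0 < t) (h10 : 10 * t ≤ r) :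
    ∃ e : E2, Arc.StarAt Arc.a3 Arc.b3 K x e (10 * t) (t / 200) := by
  obtain ⟨e, he⟩ := hP.prop (10 * t) (by positivity) h10
  exact ⟨e, he.mono (by nlinarith)⟩

/-- (i) the three crossing points, for every direction `e` of a propeller close to `K` -/
theorem prop_three {U : Set E2} {lam ε : ℝ} {u : E2 → ℝ} {K : Set E2} {x e : E2} {r t : ℝ}
    (hε : 0 < ε) (hε' : ε ≤ 1 / 2000) (hq : IsQM U lam u K) (hP : PropReg ε U lam u K x r)
    (ht : 0 < t) (h10 : 10 * t ≤ r) (hF : Arc.StarAt Arc.a3 Arc.b3 K x e (10 * t) (t / 200)) :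
    ∃ p : Fin 3 → E2, Function.Injective p ∧
      ∀ k, p k ∈ K ∩ sphere x t ∧
        dist (p k) (x + t • Arc.rt (Arc.a3 k) (Arc.b3 k) e) ≤ t / 100 :=
  exists_three ht hF (fun b hb hbx => conn_prop_aux' hε hε' hq hP ht h10 hP.mem hb
    (by rw [dist_self]; positivity) hbx) hP.mem

theorem prop_three_le {U : Set E2} {lam ε : ℝ} {u : E2 → ℝ} {K : Set E2} {x : E2} {r t : ℝ}
    (hε : 0 < ε) (hε' : ε ≤ 1 / 2000) (hq : IsQM U lam u K) (hP : PropReg ε U lam u K x r)
    (ht : 0 < t) (h10 : 10 * t ≤ r) : ((3 : ℕ) : ℕ∞) ≤ (K ∩ sphere x t).encard := by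
  obtain ⟨e, he⟩ := prop_star hε' hP ht h10
  obtain ⟨p, hp, h⟩ := prop_three hε hε' hq hP ht h10 he
  exact three_le_encard hp fun k => (h k).1

/-- (ii) with exactly three crossing points the ball is connected; the crossing points are those
of (i) -/
theorem prop_preconnected {U : Set E2} {lam ε : ℝ} {u : E2 → ℝ} {K : Set E2} {x e : E2} {r t : ℝ}
    (hε : 0 < ε) (hε' : ε ≤ 1 / 2000) (hq : IsQM U lam u K) (hP : PropReg ε U lam u K x r)
    (ht : 0 < t) (h10 : 10 * t ≤ r) (h3 : (K ∩ sphere x t).encard = 3)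
    (hF : Arc.StarAt Arc.a3 Arc.b3 K x e (10 * t) (t / 200)) :
    IsPreconnected (K ∩ closedBall x t) ∧ ∃ p : Fin 3 → E2, Function.Injective p ∧
      K ∩ sphere x t = range p ∧
      ∀ k, dist (p k) (x + t • Arc.rt (Arc.a3 k) (Arc.b3 k) e) ≤ t / 100 := by
  obtain ⟨p, hp, h⟩ := prop_three hε hε' hq hP ht h10 hF
  have hrange : K ∩ sphere x t = range p := by
    have h1 : range p ⊆ K ∩ sphere x t := by
      rintro _ ⟨k, rfl⟩
      exact (h k).1
    have h2 : (range p).encard = 3 := by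
      rw [← image_univ, hp.encard_image, encard_univ]
      simp
    exact ((finite_range p).eq_of_subset_of_encard_le h1 (by rw [h2, h3])).symm
  refine ⟨?_, p, hp, hrange, fun k => (h k).2⟩
  exact preconnected_of_three ht (prop_isCompact hq hP h10) hF
    (fun a ha hax b hb hbx => conn_prop_aux' hε hε' hq hP ht h10 ha hb (by linarith)
      (by linarith)) hrange (fun k => (h k).2)

/-- (iii) good radii -/
theorem prop_good_radius {U : Set E2} {lam ε : ℝ} {u : E2 → ℝ} {K : Set E2} {x : E2} {r s : ℝ}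
    (hε : 0 < ε) (hε' : ε ≤ 1 / 2000) (hq : IsQM U lam u K) (hP : PropReg ε U lam u K x r)
    (hs : 0 < s) (hsr : 40 * s ≤ r) :
    ∃ t ∈ Ioo (2 * s) (4 * s), (K ∩ sphere x t).encard = 3 ∧
      GoodCirc K (fun y => gradient u y) x t ∧ cirE u x t ≤ Dr u K x (4 * s) / s := by
  have hr := hP.pos
  have hsub : closedBall x (4 * s) ⊆ U :=
    (closedBall_subset_closedBall (by linarith)).trans hP.sub
  have hLr : Lr K x (4 * s) < (4 * ((3 : ℕ) : ℝ) + 1) * s := by
    have h1 := hP.len_le (4 * s) (by positivity) (by linarith)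
    push_cast
    nlinarith
  obtain ⟨t, ht, h1, h2, h3⟩ := exists_good_radius hq hs hsub 3
    (fun t ht => prop_three_le hε hε' hq hP ht.1 (by linarith [ht.2])) hLr
  exact ⟨t, ht, h1, h2, h3⟩

/-- lower bound for the length at the centre -/
theorem prop_len_ge {U : Set E2} {lam ε : ℝ} {u : E2 → ℝ} {K : Set E2} {x : E2} {r t : ℝ}
    (hε : 0 < ε) (hε' : ε ≤ 1 / 2000) (hq : IsQM U lam u K) (hP : PropReg ε U lam u K x r)
    (h10 : 10 * t ≤ r) : ENNReal.ofReal (3 * t) ≤ len (K ∩ ball x t) := by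
  have h1 := ofReal_mul_le_len (K := K) (z := x) (R := t) 3
    (fun τ hτ => prop_three_le hε hε' hq hP hτ.1 (by linarith [hτ.2]))
  exact_mod_cast h1

end Crest.Agent.R135.EpsLoc
end

-- ▼ part R135/StarProp4
section

/-!
# R135, star_prop, part 4: assembly (helper560)
-/

set_option autoImplicit false

open MeasureTheory Set Filter Topology Metric
open scoped ENNReal NNReal ContDiff Gradient
open Crest.AnalysisR.PDE.OnePhase Crest.AnalysisR.PDE.MumfordShah

namespace Crest.Agent.R135.StarP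

open Arc

/-- the annular star at the scale `σ`, for small `σ / r` -/
theorem annStar_of_propReg {Cc : ℝ} (hCc : 0 < Cc)
    (hcc : ∀ {U : Set E2} {lam : ℝ} {u : E2 → ℝ} {K : Set E2}, IsSQM U lam u K →
      ∀ (y : E2) (s : ℝ), 0 < s → closedBall y s ⊆ U →
        ∀ F : Finset E2, K ∩ sphere y s = F →
        IntegrableOn (fun θ => ‖gradient u (cpt y s θ)‖ ^ 2) (Ioo (-Real.pi) Real.pi) →
        ∀ p₀ ∈ closedBall y (s / 2),
          Dr u K y s + Lr K y s ≤
            ∑ p ∈ F, dist p p₀ + Cc * (s * cirE u y s) + lam * s ^ 2)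
    {C₀ γ : ℝ} (hC₀ : 0 < C₀) (hγ : 0 < γ) (hγ1 : γ ≤ 1 / 4)
    {U : Set E2} {lam : ℝ} {u : E2 → ℝ} {K : Set E2} {x : E2} {r : ℝ} (hq : IsSQM U lam u K)
    (hP : PropReg (1 / 2000) U lam u K x r)
    (hD : ∀ s : ℝ, 0 < s → s ≤ r / 16 → Dr u K x s ≤ C₀ * s * (s / r) ^ (2 * γ))
    {σ : ℝ} (hσ : 0 < σ) (hσr : σ ≤ r / 32)
    (hsm : (16 * Cc * C₀ + 4) * (σ / r) ^ (2 * γ) ≤ 1 / 100000) :
    ∃ e, AnnStar a3 b3 K x e σ (9 * Real.sqrt (2 * (16 * Cc * C₀ + 4)) * σ * (σ / r) ^ γ) := by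
  classical
  have hr := hP.pos
  have hε : (0:ℝ) < 1 / 2000 := by norm_num
  set C₁ := 16 * Cc * C₀ + 4 with hC₁
  have hC₁0 : 0 < C₁ := by positivity
  set B := (σ / r) ^ (2 * γ) with hB
  have hB0 : 0 < B := by positivity
  have hσr1 : σ / r ≤ 1 := by rw [div_le_one hr]; linarith
  obtain ⟨t, ht, h3, hgc, hcir⟩ := EpsLoc.prop_good_radius (s := σ / 2) hε le_rfl hq.toIsQM hP
    (by positivity) (by linarith)
  have ht1 : σ < t := by have := ht.1; linarith
  have ht2 : t < 2 * σ := by have := ht.2; linarith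
  have ht0 : 0 < t := hσ.trans ht1
  have h10 : 10 * t ≤ r := by linarith
  obtain ⟨e0, he0⟩ := EpsLoc.prop_star (ε := 1 / 2000) le_rfl hP ht0 h10
  obtain ⟨hconn, p, hpi, hps, hpr⟩ := EpsLoc.prop_preconnected hε le_rfl hq.toIsQM hP ht0 h10 h3 he0
  have hsub : closedBall x t ⊆ U := (closedBall_subset_closedBall (by linarith)).trans hP.sub
  -- the error term
  have hDr : Dr u K x (2 * σ) ≤ 4 * C₀ * σ * B := by
    have h1 := hD (2 * σ) (by positivity) (by linarith)
    have h2 : (2 * σ / r) ^ (2 * γ) ≤ 2 * B := by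
      have e1 : 2 * σ / r = 2 * (σ / r) := by ring
      rw [e1, Real.mul_rpow (by norm_num) (by positivity)]
      apply mul_le_mul_of_nonneg_right _ hB0.le
      calc (2:ℝ) ^ (2 * γ) ≤ (2:ℝ) ^ (1:ℝ) :=
            Real.rpow_le_rpow_of_exponent_le (by norm_num) (by linarith)
        _ = 2 := Real.rpow_one 2
    calc Dr u K x (2 * σ) ≤ C₀ * (2 * σ) * (2 * σ / r) ^ (2 * γ) := h1
      _ ≤ C₀ * (2 * σ) * (2 * B) := by gcongr
      _ = 4 * C₀ * σ * B := by ring
  have hcir2 : cirE u x t ≤ 8 * C₀ * B := by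
    have e1 : 4 * (σ / 2) = 2 * σ := by ring
    rw [e1] at hcir
    refine hcir.trans ?_
    rw [div_le_iff₀ (by positivity)]
    linarith
  have hlam : lam * t ^ 2 ≤ 4 * σ * B := by
    have h1 := hP.lam_le
    have h2 := hq.lam_nonneg
    have h3 : σ / r ≤ B := by
      have := Real.rpow_le_rpow_of_exponent_ge (x := σ / r) (y := 1) (z := 2 * γ) (by positivity)
        hσr1 (by linarith)
      rwa [Real.rpow_one] at this
    have h4 : lam * t ^ 2 ≤ lam * (2 * σ) ^ 2 := by gcongr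
    have h5 : lam * (2 * σ) ^ 2 = 4 * σ * ((lam * r) * (σ / r)) := by
      field_simp; ring
    rw [h5] at h4
    refine h4.trans ?_
    have h6 : lam * r * (σ / r) ≤ 1 * B := by
      apply mul_le_mul (by linarith) h3 (by positivity) (by norm_num)
    nlinarith
  set E := C₁ * σ * B with hE
  have hE0 : 0 < E := by positivity
  have hEt : E ≤ t / 10000 := by
    have h1 : C₁ * B ≤ 1 / 100000 := hsm
    have h2 : E = C₁ * B * σ := by rw [hE]; ring
    rw [h2]
    nlinarith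
  have G : GoodScale K x t E e0 p := by
    refine ⟨ht0, hE0, hEt, hP.mem, he0.1, hps, hpr, hconn, ?_, ?_⟩
    · intro ρ _ hρt
      exact EpsLoc.prop_len_ge hε le_rfl hq.toIsQM hP (by linarith)
    · intro p₀ hp₀
      have h1 := hcc hq x t ht0 hsub (Finset.univ.image p)
        (by rw [hps, Finset.coe_image, Finset.coe_univ, image_univ]) hgc.int p₀ hp₀
      rw [Finset.sum_image (fun i _ j _ hij => hpi hij)] at h1
      have h2 : 0 ≤ Dr u K x t := ENNReal.toReal_nonneg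
      have h3 : Lr K x t ≤ ∑ j, dist (p j) p₀ + E := by
        have h4 : Cc * (t * cirE u x t) ≤ 16 * Cc * C₀ * σ * B := by
          have h5 : t * cirE u x t ≤ 2 * σ * (8 * C₀ * B) := by
            calc t * cirE u x t ≤ t * (8 * C₀ * B) := by gcongr
              _ ≤ 2 * σ * (8 * C₀ * B) := by gcongr
          nlinarith
        have h6 : E = 16 * Cc * C₀ * σ * B + 4 * σ * B := by rw [hE, hC₁]; ring
        rw [h6]
        linarith
      rw [← ENNReal.ofReal_toReal (hq.len_fin x t hsub).ne]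
      exact ENNReal.ofReal_le_ofReal h3
  refine ⟨G.dr 0, (G.annStar ht1.le ht2.le).mono ?_⟩
  have h7 : Real.sqrt (E * t) ≤ Real.sqrt (2 * C₁) * (σ * (σ / r) ^ γ) := by
    apply Real.sqrt_le_iff.2
    refine ⟨by positivity, ?_⟩
    rw [mul_pow, Real.sq_sqrt (by positivity), mul_pow]
    have h8 : ((σ / r) ^ γ) ^ 2 = B := by
      rw [hB, ← Real.rpow_natCast, ← Real.rpow_mul (by positivity)]
      congr 1; push_cast; ring
    rw [h8]
    calc E * t ≤ E * (2 * σ) := by gcongr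
      _ = 2 * C₁ * (σ ^ 2 * B) := by rw [hE]; ring
  calc 9 * Real.sqrt (E * t) ≤ 9 * (Real.sqrt (2 * C₁) * (σ * (σ / r) ^ γ)) := by gcongr
    _ = _ := by ring

theorem star_prop_proof : ∃ ε : ℝ, 0 < ε ∧ ∀ C₀ γ : ℝ, 0 < C₀ → 0 < γ → γ ≤ 1 / 4 →
    ∃ C c : ℝ, 0 < C ∧ 0 < c ∧
    ∀ {U : Set E2} {lam : ℝ} {u : E2 → ℝ} {K : Set E2} {x : E2} {r : ℝ}, IsSQM U lam u K →
      PropReg ε U lam u K x r →
      (∀ s : ℝ, 0 < s → s ≤ r / 16 → Dr u K x s ≤ C₀ * s * (s / r) ^ (2 * γ)) →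
      ∀ s : ℝ, 0 < s → s ≤ c * r →
        ∃ e : E2, Arc.StarAt Arc.a3 Arc.b3 K x e s (C * s * (s / r) ^ γ) := by
  obtain ⟨Cc, hCc, hcc⟩ := cone_competitor
  refine ⟨1 / 2000, by norm_num, ?_⟩
  intro C₀ γ hC₀ hγ hγ1
  set C₁ := 16 * Cc * C₀ + 4 with hC₁
  have hC₁0 : 0 < C₁ := by positivity
  set A := 9 * Real.sqrt (2 * C₁) with hA
  have hA0 : 0 < A := by positivity
  set c := min (1 / 32) ((1 / (100000 * C₁)) ^ (1 / (2 * γ))) with hc
  have hc0 : 0 < c := lt_min (by norm_num) (by positivity)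
  have hc1 : c ≤ 1 / 32 := min_le_left _ _
  have hcγ : c ^ (2 * γ) ≤ 1 / (100000 * C₁) := by
    have h1 : c ≤ (1 / (100000 * C₁)) ^ (1 / (2 * γ)) := min_le_right _ _
    have h2 := Real.rpow_le_rpow hc0.le h1 (by positivity : 0 ≤ 2 * γ)
    rwa [← Real.rpow_mul (by positivity), one_div_mul_cancel (by positivity), Real.rpow_one] at h2
  have hcγ1 : C₁ * c ^ (2 * γ) ≤ 1 / 100000 := by
    calc C₁ * c ^ (2 * γ) ≤ C₁ * (1 / (100000 * C₁)) := by gcongr
      _ = 1 / 100000 := by field_simp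
  have hAc : A * c ^ γ ≤ 1 / 12 := by
    refine (abs_le_of_sq_le_sq' ?_ (by norm_num)).2
    have h8 : (c ^ γ) ^ 2 = c ^ (2 * γ) := by
      rw [← Real.rpow_natCast, ← Real.rpow_mul hc0.le]
      congr 1; push_cast; ring
    rw [mul_pow, hA, mul_pow, Real.sq_sqrt (by positivity), h8]
    nlinarith
  have hq1 : (2:ℝ) ^ (-γ) < 1 := Real.rpow_lt_one_of_one_lt_of_neg (by norm_num) (by linarith)
  have h1q : 0 < 1 - (2:ℝ) ^ (-γ) := by linarith
  refine ⟨A + 8 * A / (1 - (2:ℝ) ^ (-γ)), c, by positivity, hc0, ?_⟩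
  intro U lam u K x r hq hP hD s hs hsc
  have hr := hP.pos
  refine starAt_of_annStar rotGroup3 (R0 := c * r) hP.mem hγ hA0 hr ?_ ?_ hs hsc
  · rw [mul_div_assoc, div_self hr.ne', mul_one]; exact hAc
  · intro σ hσ hσc
    have hσr : σ / r ≤ c := by rw [div_le_iff₀ hr]; exact hσc
    refine annStar_of_propReg hCc hcc hC₀ hγ hγ1 hq hP hD hσ (by nlinarith) ?_
    refine le_trans ?_ hcγ1
    have : (σ / r) ^ (2 * γ) ≤ c ^ (2 * γ) :=
      Real.rpow_le_rpow (by positivity) hσr (by positivity)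
    gcongr

end Crest.Agent.R135.StarP
end

-- ▼ part R135/IF_star_prop

/-! INTERFACE star_prop: proved in StarProp1-4.lean (helper560). -/

set_option autoImplicit false

open MeasureTheory Set Filter Topology Metric
open scoped ENNReal NNReal ContDiff Gradient
open Crest.AnalysisR.PDE.OnePhase Crest.AnalysisR.PDE.MumfordShah

namespace Crest.Agent.R135

/-- star with decay in the propeller-like regime -/
theorem star_prop : ∃ ε : ℝ, 0 < ε ∧ ∀ C₀ γ : ℝ, 0 < C₀ → 0 < γ → γ ≤ 1 / 4 →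
    ∃ C c : ℝ, 0 < C ∧ 0 < c ∧
    ∀ {U : Set E2} {lam : ℝ} {u : E2 → ℝ} {K : Set E2} {x : E2} {r : ℝ}, IsSQM U lam u K →
      PropReg ε U lam u K x r →
      (∀ s : ℝ, 0 < s → s ≤ r / 16 → Dr u K x s ≤ C₀ * s * (s / r) ^ (2 * γ)) →
      ∀ s : ℝ, 0 < s → s ≤ c * r →
        ∃ e : E2, Arc.StarAt Arc.a3 Arc.b3 K x e s (C * s * (s / r) ^ γ) :=
  StarP.star_prop_proof

end Crest.Agent.R135
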