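import Crest.Agent.R135.Inner2
import Crest.Agent.R135.PolarE
import Crest.Agent.R135.LocLip
import Crest.Agent.R135.PolarA
import Crest.Agent.R135.GMT2
import Crest.Agent.R135.CrackODE
import Crest.Agent.R135.CrackAlg
import Crest.Agent.R135.PolarF
import Crest.Agent.R135.PolarC

-- ▼ part R135/Inner3
section

/-!
# R135, block INNER (helper828), part 3: expansion of the Dirichlet energy
-/

set_option autoImplicit false

open MeasureTheory Set Filter Topology Metric
open scoped ENNReal NNReal ContDiff Gradient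

noncomputable section

namespace Crest.Agent.R135

namespace Inner

variable {b : ℝ → E2} {r1 r2 : ℝ}

theorem abs_inner_nu_le (h : RadDens b r1 r2) (x₀ y : E2) :
    |inner ℝ (nu x₀ y) (b ‖y - x₀‖)| ≤ 1 := by
  refine (abs_real_inner_le_norm _ _).trans ?_
  have h1 := norm_nu_le x₀ y
  have h2 := h.bdd ‖y - x₀‖
  calc ‖nu x₀ y‖ * ‖b ‖y - x₀‖‖ ≤ 1 * 1 := by gcongr
    _ = 1 := one_mul 1

theorem one_add_ge (h : RadDens b r1 r2) (x₀ y : E2) {t : ℝ} (ht : |t| ≤ 1/2) :
    1/2 ≤ 1 + t * inner ℝ (nu x₀ y) (b ‖y - x₀‖) := by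
  have h1 := abs_inner_nu_le h x₀ y
  have h2 : |t * inner ℝ (nu x₀ y) (b ‖y - x₀‖)| ≤ 1/2 := by
    rw [abs_mul]
    calc |t| * |inner ℝ (nu x₀ y) (b ‖y - x₀‖)| ≤ (1/2) * 1 := by gcongr
      _ = 1/2 := mul_one _
  have := (abs_le.1 h2).1
  linarith

/-- gradient of the push-forward -/
theorem hasGradientAt_push (h : RadDens b r1 r2) (x₀ : E2) {t : ℝ} (ht : |t| ≤ 1/2) {u : E2 → ℝ}
    {p y : E2} (hu : HasGradientAt u p y) :
    HasGradientAt (u ∘ (rhomeo h x₀ ht).symm)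
      (p - (t / (1 + t * inner ℝ (nu x₀ y) (b ‖y - x₀‖)) * inner ℝ p (b ‖y - x₀‖)) • nu x₀ y)
      (rhomeo h x₀ ht y) := by
  set β : ℝ := inner ℝ (nu x₀ y) (b ‖y - x₀‖) with hβ
  have hpos : 1/2 ≤ 1 + t * β := one_add_ge h x₀ y ht
  have hne : 1 + t * β ≠ 0 := by linarith
  set σ : ℝ := t / (1 + t * β) with hσ
  have hσe : σ * (1 + t * β) = t := div_mul_cancel₀ t hne
  -- the inverse of the derivative
  set B : E2 →L[ℝ] E2 := ContinuousLinearMap.id ℝ E2 -
    (σ • innerSL ℝ (nu x₀ y)).smulRight (b ‖y - x₀‖) with hB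
  have hBa : ∀ w, B w = w - (σ * inner ℝ (nu x₀ y) w) • b ‖y - x₀‖ := by
    intro w; simp [hB]
  let A' : E2 ≃L[ℝ] E2 := ContinuousLinearEquiv.equivOfInverse (rder b x₀ t y) B
    (by
      intro v
      rw [hBa, rder_apply, inner_add_right, inner_smul_right, ← hβ]
      have e : σ * (inner ℝ (nu x₀ y) v + t * inner ℝ (nu x₀ y) v * β) =
        t * inner ℝ (nu x₀ y) v := by
        have : σ * (inner ℝ (nu x₀ y) v + t * inner ℝ (nu x₀ y) v * β) =
          (σ * (1 + t * β)) * inner ℝ (nu x₀ y) v := by ring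
        rw [this, hσe]
      rw [e, add_sub_cancel_right])
    (by
      intro w
      rw [hBa, rder_apply, inner_sub_right, inner_smul_right, ← hβ]
      have e : t * (inner ℝ (nu x₀ y) w - σ * inner ℝ (nu x₀ y) w * β) =
        σ * inner ℝ (nu x₀ y) w := by
        have : t * (inner ℝ (nu x₀ y) w - σ * inner ℝ (nu x₀ y) w * β) =
          (t - σ * t * β) * inner ℝ (nu x₀ y) w := by ring
        rw [this]
        congr 1
        linarith [hσe]
      rw [e, sub_add_cancel])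
  have hA' : ((A' : E2 ≃L[ℝ] E2) : E2 →L[ℝ] E2) = rder b x₀ t y := by
    ext v
    rfl
  have hsymm : HasFDerivAt (rhomeo h x₀ ht).symm (A'.symm : E2 →L[ℝ] E2) (rhomeo h x₀ ht y) := by
    apply HasFDerivAt.of_local_left_inverse (f := rhomeo h x₀ ht)
    · exact (rhomeo h x₀ ht).symm.continuous.continuousAt
    · rw [hA', Homeomorph.symm_apply_apply]
      exact hasFDerivAt_rhomeo h x₀ ht y
    · exact Eventually.of_forall fun z => (rhomeo h x₀ ht).apply_symm_apply z
  have hA's : ((A'.symm : E2 ≃L[ℝ] E2) : E2 →L[ℝ] E2) = B := by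
    ext v
    rfl
  rw [hA's] at hsymm
  rw [hasGradientAt_iff_hasFDerivAt] at hu ⊢
  have hu' : HasFDerivAt u ((InnerProductSpace.toDual ℝ E2) p) ((rhomeo h x₀ ht).symm (rhomeo h x₀ ht y)) := by
    rw [Homeomorph.symm_apply_apply]; exact hu
  refine (hu'.comp _ hsymm).congr_fderiv ?_
  ext v
  simp only [ContinuousLinearMap.coe_comp, Function.comp_apply, InnerProductSpace.toDual_apply_apply, hBa,
    inner_sub_right, inner_sub_left, inner_smul_left, inner_smul_right, conj_trivial]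
  ring

/-- the stress field `2 ∂_ν u ∇u - |∇u|² ν` -/
def stress (u : E2 → ℝ) (x₀ y : E2) : E2 :=
  (2 * inner ℝ (∇ u y) (nu x₀ y)) • ∇ u y - ‖∇ u y‖ ^ 2 • nu x₀ y

/-- pointwise expansion -/
theorem push_integrand_le (h : RadDens b r1 r2) (x₀ : E2) {t : ℝ} (ht : |t| ≤ 1/2) {u : E2 → ℝ}
    {y : E2} (hu : DifferentiableAt ℝ u y) :
    ENNReal.ofReal |(rder b x₀ t y).det| *
        ‖∇ (u ∘ (rhomeo h x₀ ht).symm) (rhomeo h x₀ ht y)‖ₑ ^ 2 ≤
      ENNReal.ofReal ((1 + 2 * t^2) * ‖∇ u y‖ ^ 2 - t * inner ℝ (b ‖y - x₀‖) (stress u x₀ y)) := by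
  have hg := hasGradientAt_push h x₀ ht hu.hasGradientAt
  rw [hg.gradient, det_rder]
  set p : E2 := ∇ u y with hp
  set ν : E2 := nu x₀ y with hν
  set B : E2 := b ‖y - x₀‖ with hB
  set β : ℝ := inner ℝ ν B with hβ
  have hpos : 1/2 ≤ 1 + t * β := one_add_ge h x₀ y ht
  have hpos' : 0 < 1 + t * β := by linarith
  rw [abs_of_pos hpos', ← ofReal_norm, ← ENNReal.ofReal_pow (norm_nonneg _),
    ← ENNReal.ofReal_mul hpos'.le]
  apply ENNReal.ofReal_le_ofReal
  have hνn : ‖ν‖ ≤ 1 := norm_nu_le x₀ y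
  have hBn : ‖B‖ ≤ 1 := h.bdd _
  have e1 : ‖p - (t / (1 + t * β) * inner ℝ p B) • ν‖ ^ 2 =
      ‖p‖ ^ 2 - 2 * (t / (1 + t * β) * inner ℝ p B) * inner ℝ p ν +
        (t / (1 + t * β) * inner ℝ p B) ^ 2 * ‖ν‖ ^ 2 := by
    rw [norm_sub_sq_real, inner_smul_right, norm_smul, mul_pow, Real.norm_eq_abs, sq_abs]
    ring
  rw [e1]
  have e2 : inner ℝ B (stress u x₀ y) = 2 * inner ℝ p ν * inner ℝ p B - ‖p‖ ^ 2 * β := by
    simp only [stress, inner_sub_right, inner_smul_right]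
    rw [real_inner_comm (nu x₀ y) (b ‖y - x₀‖), real_inner_comm (∇ u y) (b ‖y - x₀‖)]
  rw [e2]
  have e3 : (1 + t * β) * (‖p‖ ^ 2 - 2 * (t / (1 + t * β) * inner ℝ p B) * inner ℝ p ν +
        (t / (1 + t * β) * inner ℝ p B) ^ 2 * ‖ν‖ ^ 2) =
      (1 + t * β) * ‖p‖ ^ 2 - 2 * t * inner ℝ p B * inner ℝ p ν +
        t ^ 2 / (1 + t * β) * (inner ℝ p B ^ 2 * ‖ν‖ ^ 2) := by
    field_simp
  rw [e3]
  have h4 : t ^ 2 / (1 + t * β) ≤ 2 * t ^ 2 := by
    rw [div_le_iff₀ hpos']
    nlinarith [sq_nonneg t]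
  have h5 : inner ℝ p B ^ 2 * ‖ν‖ ^ 2 ≤ ‖p‖ ^ 2 := by
    have h6 : |inner ℝ p B| ≤ ‖p‖ := by
      refine (abs_real_inner_le_norm p B).trans ?_
      calc ‖p‖ * ‖B‖ ≤ ‖p‖ * 1 := by gcongr
        _ = ‖p‖ := mul_one _
    have h7 : inner ℝ p B ^ 2 ≤ ‖p‖ ^ 2 := by
      rw [← sq_abs (inner ℝ p B)]
      gcongr
    have h8 : ‖ν‖ ^ 2 ≤ 1 := by
      rw [← one_pow 2]
      gcongr
    calc inner ℝ p B ^ 2 * ‖ν‖ ^ 2 ≤ ‖p‖ ^ 2 * 1 := by gcongr
      _ = ‖p‖ ^ 2 := mul_one _
  have h9 : t ^ 2 / (1 + t * β) * (inner ℝ p B ^ 2 * ‖ν‖ ^ 2) ≤ 2 * t ^ 2 * ‖p‖ ^ 2 := by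
    have : 0 ≤ t ^ 2 / (1 + t * β) := by positivity
    exact mul_le_mul h4 h5 (by positivity) (by positivity)
  nlinarith

theorem measurable_nu (x₀ : E2) : Measurable (nu x₀) := by
  unfold nu
  have h1 : Measurable fun y : E2 => y - x₀ := by fun_prop
  exact (h1.norm.inv).smul h1

theorem measurable_stress (u : E2 → ℝ) (x₀ : E2) : Measurable (stress u x₀) := by
  unfold stress
  have hg : Measurable fun y => ∇ u y := measurable_gradient u
  have hn := measurable_nu x₀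
  exact (((hg.inner (𝕜 := ℝ) hn).const_mul 2).smul hg).sub ((hg.norm.pow_const 2).smul hn)

theorem norm_stress_le (u : E2 → ℝ) (x₀ y : E2) : ‖stress u x₀ y‖ ≤ 3 * ‖∇ u y‖ ^ 2 := by
  unfold stress
  have h1 := norm_nu_le x₀ y
  have h2 : |inner ℝ (∇ u y) (nu x₀ y)| ≤ ‖∇ u y‖ := by
    refine (abs_real_inner_le_norm _ _).trans ?_
    calc ‖∇ u y‖ * ‖nu x₀ y‖ ≤ ‖∇ u y‖ * 1 := by gcongr
      _ = ‖∇ u y‖ := mul_one _
  refine (norm_sub_le _ _).trans ?_
  rw [norm_smul, norm_smul, Real.norm_eq_abs, abs_mul, Real.norm_eq_abs, abs_of_nonneg (sq_nonneg ‖∇ u y‖),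
    abs_two]
  have h3 : 2 * |inner ℝ (∇ u y) (nu x₀ y)| * ‖∇ u y‖ ≤ 2 * ‖∇ u y‖ ^ 2 := by
    have := norm_nonneg (∇ u y)
    nlinarith
  have h4 : ‖∇ u y‖ ^ 2 * ‖nu x₀ y‖ ≤ ‖∇ u y‖ ^ 2 := by
    calc ‖∇ u y‖ ^ 2 * ‖nu x₀ y‖ ≤ ‖∇ u y‖ ^ 2 * 1 := by gcongr
      _ = _ := mul_one _
  linarith

/-- the flux of the stress field through the circle of radius `s` (force) -/
def FB (u : E2 → ℝ) (x₀ : E2) (s : ℝ) : E2 := s • circI (stress u x₀) x₀ s

section QM

variable {U K : Set E2} {lam : ℝ} {u : E2 → ℝ} {x₀ : E2} {ρ : ℝ}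

theorem measurableSet_closedBall_diff (h : IsQM U lam u K) (hU : closedBall x₀ ρ ⊆ U) :
    MeasurableSet (closedBall x₀ ρ \ K) := by
  have e : closedBall x₀ ρ \ K = closedBall x₀ ρ ∩ (U \ K) := by
    ext y
    exact ⟨fun hy => ⟨hy.1, hU hy.1, hy.2⟩, fun hy => ⟨hy.1, hy.2.2⟩⟩
  rw [e]
  exact measurableSet_closedBall.inter (isOpen_diff h.isOpen h.closed).measurableSet

theorem volume_K (h : IsQM U lam u K) (hU : closedBall x₀ ρ ⊆ U) :
    volume (K ∩ closedBall x₀ ρ) = 0 :=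
  volume_eq_zero_of_hausdorff_lt_top (h.len_fin x₀ ρ hU)

theorem restrict_eq (h : IsQM U lam u K) (hU : closedBall x₀ ρ ⊆ U) :
    (volume : Measure E2).restrict (closedBall x₀ ρ \ K) = volume.restrict (ball x₀ ρ) := by
  apply Measure.restrict_congr_set
  have h1 : (closedBall x₀ ρ \ K : Set E2) =ᵐ[volume] (closedBall x₀ ρ : Set E2) := by
    rw [← sdiff_inter_self_eq_sdiff (s := closedBall x₀ ρ) (t := K)]
    exact sdiff_null_ae_eq_self (volume_K h hU)
  refine h1.trans ?_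
  by_cases hρ : ρ = 0
  · subst hρ
    rw [closedBall_zero, ball_zero]
    exact ae_eq_empty.2 (measure_singleton x₀)
  · exact (ae_eq_of_subset_of_measure_ge ball_subset_closedBall
      (Measure.addHaar_closedBall_eq_addHaar_ball volume x₀ ρ).le
      measurableSet_ball.nullMeasurableSet measure_closedBall_lt_top.ne).symm

theorem integrableOn_normsq (h : IsQM U lam u K) (hU : closedBall x₀ ρ ⊆ U) :
    IntegrableOn (fun y => ‖∇ u y‖ ^ 2) (ball x₀ ρ) := by
  rw [IntegrableOn, ← restrict_eq h hU]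
  refine ⟨((measurable_gradient u).norm.pow_const 2).aestronglyMeasurable, ?_⟩
  have h1 := h.dir_fin x₀ ρ hU
  unfold dirE at h1
  rw [hasFiniteIntegral_iff_enorm]
  refine lt_of_eq_of_lt (lintegral_congr fun y => ?_) h1
  rw [enorm_pow, enorm_norm]

theorem Dr_eq (h : IsQM U lam u K) (hU : closedBall x₀ ρ ⊆ U) :
    Dr u K x₀ ρ = ∫ y in ball x₀ ρ, ‖∇ u y‖ ^ 2 := by
  have hi := integrableOn_normsq h hU
  unfold Dr dirE
  have h1 : ∫⁻ y in ball x₀ ρ \ K, ‖∇ u y‖ₑ ^ 2 = ∫⁻ y in ball x₀ ρ, ‖∇ u y‖ₑ ^ 2 := by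
    apply setLIntegral_congr
    have : (ball x₀ ρ \ K : Set E2) = ball x₀ ρ \ (K ∩ closedBall x₀ ρ) := by
      ext y
      constructor
      · rintro ⟨hy, hyK⟩; exact ⟨hy, fun hc => hyK hc.1⟩
      · rintro ⟨hy, hyK⟩; exact ⟨hy, fun hc => hyK ⟨hc, ball_subset_closedBall hy⟩⟩
    rw [this]
    exact sdiff_null_ae_eq_self (volume_K h hU)
  rw [h1, integral_eq_lintegral_of_nonneg_ae (Eventually.of_forall fun y => sq_nonneg _) hi.1]
  congr 1
  apply lintegral_congr fun y => ?_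
  rw [← ofReal_norm, ENNReal.ofReal_pow (norm_nonneg _)]

theorem dirE_closedBall (h : IsQM U lam u K) (hU : closedBall x₀ ρ ⊆ U) :
    dirE u K (closedBall x₀ ρ) = ENNReal.ofReal (Dr u K x₀ ρ) := by
  have hi := integrableOn_normsq h hU
  rw [Dr_eq h hU, ofReal_integral_eq_lintegral_ofReal hi
    (Eventually.of_forall fun y => sq_nonneg _)]
  unfold dirE
  rw [restrict_eq h hU]
  apply lintegral_congr fun y => ?_
  rw [← ofReal_norm, ENNReal.ofReal_pow (norm_nonneg _)]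

theorem integrableOn_stress (h : IsQM U lam u K) (hU : closedBall x₀ ρ ⊆ U) :
    IntegrableOn (stress u x₀) (ball x₀ ρ) := by
  refine Integrable.mono' ((integrableOn_normsq h hU).const_mul 3)
    (measurable_stress u x₀).aestronglyMeasurable (Eventually.of_forall fun y => ?_)
  exact norm_stress_le u x₀ y

theorem integrableOn_bstress (h : IsQM U lam u K) (hb : RadDens b r1 r2)
    (hU : closedBall x₀ ρ ⊆ U) :
    IntegrableOn (fun y => inner ℝ (b ‖y - x₀‖) (stress u x₀ y)) (ball x₀ ρ) := by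
  have hm : Measurable fun y : E2 => b ‖y - x₀‖ := by
    have := hb.cont.measurable
    exact this.comp (by fun_prop)
  refine Integrable.mono' ((integrableOn_normsq h hU).const_mul 3)
    (hm.inner (measurable_stress u x₀)).aestronglyMeasurable (Eventually.of_forall fun y => ?_)
  rw [Real.norm_eq_abs]
  refine (abs_real_inner_le_norm _ _).trans ?_
  calc ‖b ‖y - x₀‖‖ * ‖stress u x₀ y‖ ≤ 1 * (3 * ‖∇ u y‖ ^ 2) := by
        gcongr
        · exact hb.bdd _
        · exact norm_stress_le u x₀ y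
    _ = 3 * ‖∇ u y‖ ^ 2 := one_mul _

/-- radial form of the first variation of the Dirichlet energy -/
theorem integral_bstress (h : IsQM U lam u K) (hb : RadDens b r1 r2) (hρ : 0 ≤ ρ)
    (hU : closedBall x₀ ρ ⊆ U) :
    ∫ y in ball x₀ ρ, inner ℝ (b ‖y - x₀‖) (stress u x₀ y) =
      ∫ s in (0:ℝ)..ρ, inner ℝ (b s) (FB u x₀ s) := by
  rw [integral_ball_polar x₀ hρ (integrableOn_bstress h hb hU)]
  apply intervalIntegral.integral_congr_ae
  have h1 := ae_integrableOn_circle_ball x₀ (integrableOn_stress h hU)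
  rw [ae_restrict_iff' measurableSet_Ioo] at h1
  have hne : ∀ᵐ s : ℝ, s ≠ ρ := by
    simp [ae_iff]
  filter_upwards [h1, hne] with s hs hs2 hs3
  rw [uIoc_of_le hρ] at hs3
  have hs4 : s ∈ Ioo 0 ρ := ⟨hs3.1, lt_of_le_of_ne hs3.2 hs2⟩
  have hs5 := hs hs4
  unfold FB circI
  rw [inner_smul_right, smul_eq_mul]
  congr 1
  have e : ∀ θ, inner ℝ (b ‖cpt x₀ s θ - x₀‖) (stress u x₀ (cpt x₀ s θ)) =
      inner ℝ (b s) (stress u x₀ (cpt x₀ s θ)) := by
    intro θ
    have : ‖cpt x₀ s θ - x₀‖ = s := by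
      rw [← dist_eq_norm, dist_cpt, abs_of_pos hs4.1]
    rw [this]
  simp only [e]
  exact (innerSL ℝ (b s)).intervalIntegral_comp_comm hs5

theorem intervalIntegrable_FB (h : IsQM U lam u K) (hρ : 0 ≤ ρ) (hU : closedBall x₀ ρ ⊆ U) :
    IntervalIntegrable (FB u x₀) volume 0 ρ :=
  intervalIntegrable_radial x₀ hρ (integrableOn_stress h hU)

theorem push_nonneg (hb : RadDens b r1 r2) {t : ℝ} (ht : |t| ≤ 1/2) (y : E2) :
    0 ≤ (1 + 2 * t^2) * ‖∇ u y‖ ^ 2 - t * inner ℝ (b ‖y - x₀‖) (stress u x₀ y) := by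
  have h3 : |t * inner ℝ (b ‖y - x₀‖) (stress u x₀ y)| ≤ 1/2 * (1 * ‖stress u x₀ y‖) := by
    rw [abs_mul]
    gcongr
    refine (abs_real_inner_le_norm _ _).trans ?_
    gcongr
    exact hb.bdd _
  -- sharper: the norm of the stress field is at most |∇u|²
  have h4 : ‖stress u x₀ y‖ ≤ ‖∇ u y‖ ^ 2 := by
    have e : ‖stress u x₀ y‖ ^ 2 = 4 * (inner ℝ (∇ u y) (nu x₀ y))^2 * ‖∇ u y‖^2
        - 4 * (inner ℝ (∇ u y) (nu x₀ y))^2 * ‖∇ u y‖^2 + (‖∇ u y‖ ^ 2)^2 * ‖nu x₀ y‖^2 := by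
      unfold stress
      rw [norm_sub_sq_real, norm_smul, norm_smul, inner_smul_left, inner_smul_right, mul_pow,
        mul_pow, Real.norm_eq_abs, Real.norm_eq_abs, sq_abs, sq_abs]
      simp only [conj_trivial]
      ring
    have h5 : ‖stress u x₀ y‖ ^ 2 ≤ (‖∇ u y‖ ^ 2)^2 := by
      rw [e]
      have h8 : ‖nu x₀ y‖ ^ 2 ≤ 1 := by
        rw [← one_pow 2]
        gcongr
        exact norm_nu_le x₀ y
      have : (‖∇ u y‖ ^ 2)^2 * ‖nu x₀ y‖^2 ≤ (‖∇ u y‖ ^ 2)^2 * 1 := by gcongr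
      linarith
    exact le_of_sq_le_sq h5 (sq_nonneg _)
  have h6 := (abs_le.1 h3).2
  have h7 : 0 ≤ t^2 * ‖∇ u y‖^2 := by positivity
  have h8 : 0 ≤ ‖∇ u y‖^2 := by positivity
  nlinarith

theorem push_integral_eq (h : IsQM U lam u K) (hb : RadDens b r1 r2) (hρ : r2 ≤ ρ)
    (hU : closedBall x₀ ρ ⊆ U) (t : ℝ) :
    ∫ y in ball x₀ ρ, ((1 + 2 * t^2) * ‖∇ u y‖ ^ 2 - t * inner ℝ (b ‖y - x₀‖) (stress u x₀ y)) =
      (1 + 2 * t^2) * Dr u K x₀ ρ - t * ∫ s in (0:ℝ)..ρ, inner ℝ (b s) (FB u x₀ s) := by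
  have hρ0 : 0 ≤ ρ := (hb.pos.trans hb.lt).le.trans hρ
  have hi1 := (integrableOn_normsq h hU).const_mul (1 + 2 * t^2)
  have hi2 := (integrableOn_bstress h hb hU).const_mul t
  rw [← integral_bstress h hb hρ0 hU, Dr_eq h hU, ← integral_const_mul, ← integral_const_mul,
    ← integral_sub hi1 hi2]

theorem push_total_nonneg (h : IsQM U lam u K) (hb : RadDens b r1 r2) (hρ : r2 ≤ ρ)
    (hU : closedBall x₀ ρ ⊆ U) {t : ℝ} (ht : |t| ≤ 1/2) :
    0 ≤ (1 + 2 * t^2) * Dr u K x₀ ρ - t * ∫ s in (0:ℝ)..ρ, inner ℝ (b s) (FB u x₀ s) := by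
  rw [← push_integral_eq h hb hρ hU t]
  exact integral_nonneg fun y => push_nonneg hb ht y

/-- **Energy of the deformed pair.** -/
theorem dirE_push_le (h : IsQM U lam u K) (hb : RadDens b r1 r2) (hρ : r2 ≤ ρ)
    (hU : closedBall x₀ ρ ⊆ U) {t : ℝ} (ht : |t| ≤ 1/2) :
    dirE (u ∘ (rhomeo hb x₀ ht).symm) (rhomeo hb x₀ ht '' K) (closedBall x₀ ρ) ≤
      ENNReal.ofReal ((1 + 2 * t^2) * Dr u K x₀ ρ -
        t * ∫ s in (0:ℝ)..ρ, inner ℝ (b s) (FB u x₀ s)) := by
  rw [dirE_homeo (measurableSet_closedBall_diff h hU) (hasFDerivAt_rhomeo hb x₀ ht)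
    (rhomeo_id hb x₀ ht hρ)]
  have h1 : ∫⁻ y in closedBall x₀ ρ \ K, ENNReal.ofReal |(rder b x₀ t y).det| *
        ‖∇ (u ∘ (rhomeo hb x₀ ht).symm) (rhomeo hb x₀ ht y)‖ₑ ^ 2 ≤
      ∫⁻ y in closedBall x₀ ρ \ K,
      ENNReal.ofReal ((1 + 2 * t^2) * ‖∇ u y‖ ^ 2 - t * inner ℝ (b ‖y - x₀‖) (stress u x₀ y)) := by
    apply setLIntegral_mono_ae' (measurableSet_closedBall_diff h hU)
    filter_upwards with y hy
    apply push_integrand_le
    have hV := isOpen_diff h.isOpen h.closed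
    have hyV : y ∈ U \ K := ⟨hU hy.1, hy.2⟩
    exact ((h.c1.differentiableOn (by norm_num)) y hyV).differentiableAt (hV.mem_nhds hyV)
  refine h1.trans ?_
  rw [restrict_eq h hU, ← push_integral_eq h hb hρ hU t]
  have hi1 := (integrableOn_normsq h hU).const_mul (1 + 2 * t^2)
  have hi2 := (integrableOn_bstress h hb hU).const_mul t
  refine (ofReal_integral_eq_lintegral_ofReal (hi1.sub hi2) ?_).ge
  exact Eventually.of_forall fun y => push_nonneg hb ht y

end QM

end Inner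

end Crest.Agent.R135
end
end

-- ▼ part R135/Len
section

/-!
# R135 (helper828): length of absolutely continuous curves

`ACurve γ g a b`: `γ s' - γ s = ∫_s^{s'} g` on `[a,b]`, `g` integrable. Then
`H¹(γ[a,b]) ≤ ∫_a^b |g|`, with equality when `γ` is injective on `[a,b]`.
-/

set_option autoImplicit false

open MeasureTheory Set Filter Topology Metric
open scoped ENNReal NNReal

noncomputable section

namespace Crest.Agent.R135

/-- absolutely continuous curve on `[a,b]` with derivative `g` -/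
structure ACurve (γ g : ℝ → E2) (a b : ℝ) : Prop where
  int : IntervalIntegrable g volume a b
  eq : ∀ s ∈ Icc a b, ∀ s' ∈ Icc a b, γ s' - γ s = ∫ r in s..s', g r

namespace ACurve

variable {γ g : ℝ → E2} {a b : ℝ}

theorem mono (h : ACurve γ g a b) {c d : ℝ} (hac : a ≤ c) (hcd : c ≤ d) (hdb : d ≤ b) :
    ACurve γ g c d where
  int := h.int.mono_set (by
    rw [uIcc_of_le hcd, uIcc_of_le (hac.trans (hcd.trans hdb))]
    exact Icc_subset_Icc hac hdb)
  eq := fun s hs s' hs' => h.eq s ⟨hac.trans hs.1, hs.2.trans hdb⟩ s' ⟨hac.trans hs'.1, hs'.2.trans hdb⟩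

theorem int_sub (h : ACurve γ g a b) {s s' : ℝ} (hs : s ∈ Icc a b) (hs' : s' ∈ Icc a b) :
    IntervalIntegrable g volume s s' := by
  refine h.int.mono_set ?_
  rw [uIcc_of_le (hs.1.trans hs.2)]
  exact uIcc_subset_Icc hs hs'

theorem dist_le (h : ACurve γ g a b) {s s' : ℝ} (hs : s ∈ Icc a b) (hs' : s' ∈ Icc a b)
    (hss : s ≤ s') : dist (γ s) (γ s') ≤ ∫ r in s..s', ‖g r‖ := by
  rw [dist_comm, dist_eq_norm, h.eq s hs s' hs']
  exact intervalIntegral.norm_integral_le_integral_norm hss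

theorem continuousOn_int (h : ACurve γ g a b) (hab : a ≤ b) :
    ContinuousOn (fun s => ∫ r in a..s, ‖g r‖) (Icc a b) := by
  have h1 := h.int.norm
  have h2 := intervalIntegral.continuousOn_primitive_interval (μ := volume)
    (f := fun r => ‖g r‖) (a := a) (b := b) (by
      rw [uIcc_of_le hab]
      rw [intervalIntegrable_iff_integrableOn_Icc_of_le hab] at h1
      exact h1)
  rwa [uIcc_of_le hab] at h2

theorem continuousOn (h : ACurve γ g a b) (hab : a ≤ b) : ContinuousOn γ (Icc a b) := by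
  have h2 := intervalIntegral.continuousOn_primitive_interval (μ := volume)
    (f := g) (a := a) (b := b) (by
      have h1 := h.int
      rw [uIcc_of_le hab]
      rw [intervalIntegrable_iff_integrableOn_Icc_of_le hab] at h1
      exact h1)
  rw [uIcc_of_le hab] at h2
  have h3 : ContinuousOn (fun s => γ a + ∫ r in a..s, g r) (Icc a b) := continuousOn_const.add h2
  refine h3.congr fun s hs => ?_
  simp only
  rw [← h.eq a ⟨le_rfl, hab⟩ s hs]
  abel

end ACurve

/-- uniform partition points -/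
def upt (a b : ℝ) (n : ℕ) (i : ℕ) : ℝ := a + i * ((b - a) / n)

theorem upt_mem {a b : ℝ} (hab : a ≤ b) {n : ℕ} (hn : 0 < n) {i : ℕ} (hi : i ≤ n) :
    upt a b n i ∈ Icc a b := by
  have hn' : (0:ℝ) < n := by exact_mod_cast hn
  have hi' : (i:ℝ) ≤ n := by exact_mod_cast hi
  have h1 : 0 ≤ (b - a) / n := div_nonneg (by linarith) hn'.le
  constructor
  · unfold upt
    have : 0 ≤ (i:ℝ) * ((b - a) / n) := by positivity
    linarith
  · unfold upt
    have : (i:ℝ) * ((b - a) / n) ≤ n * ((b - a) / n) := by gcongr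
    have h2 : (n:ℝ) * ((b - a) / n) = b - a := by field_simp
    linarith

theorem upt_zero (a b : ℝ) (n : ℕ) : upt a b n 0 = a := by simp [upt]

theorem upt_last (a b : ℝ) {n : ℕ} (hn : 0 < n) : upt a b n n = b := by
  have hn' : (n:ℝ) ≠ 0 := by positivity
  unfold upt
  field_simp
  ring

theorem upt_succ (a b : ℝ) (n i : ℕ) : upt a b n (i+1) = upt a b n i + (b - a) / n := by
  unfold upt
  push_cast
  ring

theorem upt_le_succ {a b : ℝ} (hab : a ≤ b) (n i : ℕ) : upt a b n i ≤ upt a b n (i+1) := by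
  rw [upt_succ]
  have : 0 ≤ (b - a) / n := div_nonneg (by linarith) (by positivity)
  linarith

theorem exists_upt_mem {a b : ℝ} (hab : a < b) {n : ℕ} (hn : 0 < n) {s : ℝ} (hs : s ∈ Icc a b) :
    ∃ i, i < n ∧ s ∈ Icc (upt a b n i) (upt a b n (i+1)) := by
  have hn' : (0:ℝ) < n := by exact_mod_cast hn
  have hh : 0 < (b - a) / n := div_pos (by linarith) hn'
  by_cases hsb : s = b
  · refine ⟨n - 1, by omega, ?_⟩
    have e : n - 1 + 1 = n := by omega
    rw [e, upt_last a b hn, hsb]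
    refine ⟨?_, le_rfl⟩
    exact (upt_mem hab.le hn (by omega : n - 1 ≤ n)).2
  · set k := ⌊(s - a) / ((b - a) / n)⌋₊ with hk
    have hnn : 0 ≤ (s - a) / ((b - a) / n) := div_nonneg (by linarith [hs.1]) hh.le
    have h1 := Nat.floor_le hnn
    have h2 := Nat.lt_floor_add_one ((s - a) / ((b - a) / n))
    rw [← hk] at h1 h2
    rw [le_div_iff₀ hh] at h1
    rw [div_lt_iff₀ hh] at h2
    have hsb' : s < b := lt_of_le_of_ne hs.2 hsb
    refine ⟨k, ?_, ?_, ?_⟩
    · have h3 : (k:ℝ) < n := by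
        have h4 : (k:ℝ) * ((b - a) / n) < n * ((b - a) / n) := by
          have h5 : (n:ℝ) * ((b - a) / n) = b - a := by field_simp
          rw [h5]
          linarith
        exact lt_of_mul_lt_mul_right h4 hh.le
      exact_mod_cast h3
    · unfold upt; linarith
    · unfold upt; push_cast; linarith

theorem integral_upt_sum {a b : ℝ} (hab : a ≤ b) {n : ℕ} (hn : 0 < n) {f : ℝ → ℝ}
    (hf : IntervalIntegrable f volume a b) :
    ∑ i ∈ Finset.range n, ∫ r in (upt a b n i)..(upt a b n (i+1)), f r = ∫ r in a..b, f r := by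
  have h := intervalIntegral.sum_integral_adjacent_intervals (μ := volume) (f := f)
    (a := upt a b n) (n := n) (fun i hi => by
      refine hf.mono_set ?_
      rw [uIcc_of_le hab]
      exact uIcc_subset_Icc (upt_mem hab hn hi.le) (upt_mem hab hn hi))
  rw [h, upt_zero, upt_last a b hn]

/-- **Length of a curve, upper bound.** -/
theorem ACurve.hausdorff_image_le {γ g : ℝ → E2} {a b : ℝ} (h : ACurve γ g a b) (hab : a ≤ b) :
    Measure.hausdorffMeasure 1 (γ '' Icc a b) ≤ ENNReal.ofReal (∫ r in a..b, ‖g r‖) := by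
  have := Measure.nullSingletonClass_hausdorff E2 (d := 1) one_pos
  rcases hab.eq_or_lt with rfl | hlt
  · rw [Icc_self, image_singleton, measure_singleton]
    exact bot_le
  apply hausdorff_one_le_of_covers
  intro δ hδ
  -- uniform continuity
  obtain ⟨η, hη, hηδ⟩ : ∃ η : ℝ, 0 < η ∧ ENNReal.ofReal η ≤ δ := by
    rcases eq_or_ne δ ⊤ with rfl | hne
    · exact ⟨1, one_pos, le_top⟩
    · exact ⟨δ.toReal, ENNReal.toReal_pos hδ.ne' hne, by rw [ENNReal.ofReal_toReal hne]⟩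
  have huc := isCompact_Icc.uniformContinuousOn_of_continuous (h.continuousOn_int hab)
  rw [Metric.uniformContinuousOn_iff] at huc
  obtain ⟨ε, hε, huc⟩ := huc η hη
  obtain ⟨n, hn⟩ := exists_nat_gt ((b - a) / ε)
  have hn0 : 0 < n := by
    have : (0:ℝ) < n := lt_of_le_of_lt (by have := sub_pos.2 hlt; positivity) hn
    exact_mod_cast this
  have hn0' : (0:ℝ) < n := by exact_mod_cast hn0
  have hstep : (b - a) / n < ε := by
    rw [div_lt_iff₀ hε] at hn
    rw [div_lt_iff₀ hn0']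
    linarith
  have hI : ∀ i < n, 0 ≤ ∫ r in (upt a b n i)..(upt a b n (i+1)), ‖g r‖ := fun i _ =>
    intervalIntegral.integral_nonneg (upt_le_succ hab n i) fun _ _ => norm_nonneg _
  have hdiam : ∀ i < n, ediam (γ '' Icc (upt a b n i) (upt a b n (i+1))) ≤
      ENNReal.ofReal (∫ r in (upt a b n i)..(upt a b n (i+1)), ‖g r‖) := by
    intro i hi
    have hmi := upt_mem hab hn0 hi.le
    have hmi1 := upt_mem hab hn0 (Nat.succ_le_of_lt hi)
    have hc := h.mono hmi.1 (upt_le_succ hab n i) hmi1.2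
    refine ediam_le ?_
    rintro _ ⟨s, hs, rfl⟩ _ ⟨s', hs', rfl⟩
    rw [edist_dist]
    apply ENNReal.ofReal_le_ofReal
    wlog hss : s ≤ s' generalizing s s'
    · rw [dist_comm]
      exact this s' hs' s hs (le_of_not_ge hss)
    refine (hc.dist_le hs hs' hss).trans ?_
    refine intervalIntegral.integral_mono_interval hs.1 hss hs'.2 ?_ ?_
    · exact Eventually.of_forall fun _ => norm_nonneg _
    · exact hc.int.norm
  refine ⟨fun i => if i < n then γ '' Icc (upt a b n i) (upt a b n (i+1)) else ∅, ?_, ?_, ?_⟩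
  · rintro _ ⟨s, hs, rfl⟩
    obtain ⟨i, hi, hsi⟩ := exists_upt_mem hlt hn0 hs
    rw [mem_iUnion]
    exact ⟨i, by rw [if_pos hi]; exact ⟨s, hsi, rfl⟩⟩
  · intro i
    by_cases hi : i < n
    · simp only [if_pos hi]
      refine (hdiam i hi).trans (le_trans (ENNReal.ofReal_le_ofReal ?_) hηδ)
      have hmi := upt_mem hab hn0 hi.le
      have hmi1 := upt_mem hab hn0 (Nat.succ_le_of_lt hi)
      have h1 := huc _ hmi1 _ hmi (by
        rw [Real.dist_eq, upt_succ, add_sub_cancel_left, abs_of_nonneg (by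
          have := sub_pos.2 hlt; positivity)]
        exact hstep)
      rw [Real.dist_eq, intervalIntegral.integral_interval_sub_left
        ((h.int_sub ⟨le_rfl, hab⟩ hmi1).norm) ((h.int_sub ⟨le_rfl, hab⟩ hmi).norm)] at h1
      exact (le_abs_self _).trans h1.le
    · simp [if_neg hi]
  · rw [tsum_eq_sum (s := Finset.range n) (fun i hi => by
      rw [Finset.mem_range] at hi
      simp [if_neg hi])]
    calc ∑ i ∈ Finset.range n, ediam (if i < n then γ '' Icc (upt a b n i) (upt a b n (i+1)) else ∅)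
        ≤ ∑ i ∈ Finset.range n,
            ENNReal.ofReal (∫ r in (upt a b n i)..(upt a b n (i+1)), ‖g r‖) := by
          apply Finset.sum_le_sum
          intro i hi
          rw [Finset.mem_range] at hi
          rw [if_pos hi]
          exact hdiam i hi
      _ = ENNReal.ofReal (∑ i ∈ Finset.range n, ∫ r in (upt a b n i)..(upt a b n (i+1)), ‖g r‖) := by
          rw [ENNReal.ofReal_sum_of_nonneg]
          intro i hi
          rw [Finset.mem_range] at hi
          exact hI i hi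
      _ = ENNReal.ofReal (∫ r in a..b, ‖g r‖) := by
          rw [integral_upt_sum hab hn0 h.int.norm]

/-- lower bound by the chords of a partition -/
theorem ACurve.sum_chords_le {γ g : ℝ → E2} {a b : ℝ} (h : ACurve γ g a b) (hab : a ≤ b)
    (hinj : InjOn γ (Icc a b)) {n : ℕ} (hn : 0 < n) :
    ENNReal.ofReal (∑ i ∈ Finset.range n, ‖∫ r in (upt a b n i)..(upt a b n (i+1)), g r‖) ≤
      Measure.hausdorffMeasure 1 (γ '' Icc a b) := by
  have := Measure.nullSingletonClass_hausdorff E2 (d := 1) one_pos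
  have hcont := h.continuousOn hab
  rw [ENNReal.ofReal_sum_of_nonneg (fun _ _ => norm_nonneg _)]
  set P : ℕ → Set E2 := fun i => γ '' Icc (upt a b n i) (upt a b n (i+1)) with hP
  have hsub : ∀ i < n, Icc (upt a b n i) (upt a b n (i+1)) ⊆ Icc a b := fun i hi =>
    Icc_subset_Icc (upt_mem hab hn hi.le).1 (upt_mem hab hn (Nat.succ_le_of_lt hi)).2
  have hchord : ∀ i < n, ENNReal.ofReal ‖∫ r in (upt a b n i)..(upt a b n (i+1)), g r‖ ≤
      Measure.hausdorffMeasure 1 (P i) := by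
    intro i hi
    have hmi := upt_mem hab hn hi.le
    have hmi1 := upt_mem hab hn (Nat.succ_le_of_lt hi)
    rw [← h.eq _ hmi _ hmi1, ← dist_eq_norm]
    apply dist_le_hausdorff_of_isPreconnected
    · exact isPreconnected_Icc.image _ (hcont.mono (hsub i hi))
    · exact ⟨_, ⟨upt_le_succ hab n i, le_rfl⟩, rfl⟩
    · exact ⟨_, ⟨le_rfl, upt_le_succ hab n i⟩, rfl⟩
  have hmono : Monotone (upt a b n) := monotone_nat_of_le_succ (upt_le_succ hab n)
  have hdisj : (↑(Finset.range n) : Set ℕ).Pairwise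
      (Function.onFun (AEDisjoint (Measure.hausdorffMeasure 1 : Measure E2)) P) := by
    have key : ∀ i < n, ∀ j < n, i < j → AEDisjoint (Measure.hausdorffMeasure 1 : Measure E2) (P i) (P j) := by
      intro i hi j hj hij
      have hs : P i ∩ P j ⊆ {γ (upt a b n (i+1))} := by
        rintro _ ⟨⟨s, hs, rfl⟩, ⟨s', hs', e⟩⟩
        have e2 : s' = s := hinj (hsub j hj hs') (hsub i hi hs) e
        subst e2
        have h1 : upt a b n (i+1) ≤ upt a b n j := hmono hij
        have h2 : s' = upt a b n (i+1) := le_antisymm hs.2 (h1.trans hs'.1)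
        rw [h2]
        exact mem_singleton _
      unfold AEDisjoint
      exact measure_mono_null hs (measure_singleton _)
    intro i hi j hj hij
    rw [Finset.coe_range, mem_Iio] at hi hj
    rcases lt_or_gt_of_ne hij with hlt | hlt
    · exact key i hi j hj hlt
    · exact (key j hj i hi hlt).symm
  have hmeas : ∀ i ∈ Finset.range n, NullMeasurableSet (P i) (Measure.hausdorffMeasure 1 : Measure E2) := by
    intro i hi
    rw [Finset.mem_range] at hi
    exact (isCompact_Icc.image_of_continuousOn (hcont.mono (hsub i hi))).measurableSet.nullMeasurableSet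
  calc ∑ i ∈ Finset.range n, ENNReal.ofReal ‖∫ r in (upt a b n i)..(upt a b n (i+1)), g r‖
      ≤ ∑ i ∈ Finset.range n, Measure.hausdorffMeasure 1 (P i) := by
        apply Finset.sum_le_sum
        intro i hi
        rw [Finset.mem_range] at hi
        exact hchord i hi
    _ = Measure.hausdorffMeasure 1 (⋃ i ∈ Finset.range n, P i) :=
        (measure_biUnion_finset₀ hdisj hmeas).symm
    _ ≤ Measure.hausdorffMeasure 1 (γ '' Icc a b) := by
        apply measure_mono
        apply iUnion₂_subset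
        intro i hi
        rw [Finset.mem_range] at hi
        exact image_mono (hsub i hi)

/-- **Length of an injective curve, lower bound.** -/
theorem ACurve.le_hausdorff_image {γ g : ℝ → E2} {a b : ℝ} (h : ACurve γ g a b) (hab : a ≤ b)
    (hinj : InjOn γ (Icc a b)) :
    ENNReal.ofReal (∫ r in a..b, ‖g r‖) ≤ Measure.hausdorffMeasure 1 (γ '' Icc a b) := by
  rcases hab.eq_or_lt with rfl | hlt
  · simp
  -- it is enough to prove it up to `ε`
  apply ENNReal.le_of_forall_pos_le_add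
  intro ε hε _
  set ε' : ℝ := (ε : ℝ) / (2 * (b - a) + 2) with hε'
  have hba : 0 < b - a := sub_pos.2 hlt
  have hε'pos : 0 < ε' := by
    have : (0:ℝ) < ε := by exact_mod_cast hε
    positivity
  have hgint : Integrable (indicator (Ioc a b) g) := by
    rw [integrable_indicator_iff measurableSet_Ioc]
    exact (intervalIntegrable_iff_integrableOn_Ioc_of_le hab).1 h.int
  obtain ⟨f, -, hfg, hfc, hfi⟩ := hgint.exists_hasCompactSupport_integral_sub_le hε'pos
  have huc := isCompact_Icc.uniformContinuousOn_of_continuous (hfc.continuousOn (s := Icc a b))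
  rw [Metric.uniformContinuousOn_iff] at huc
  obtain ⟨η, hη, huc⟩ := huc ε' hε'pos
  obtain ⟨n, hn⟩ := exists_nat_gt ((b - a) / η)
  have hn0 : 0 < n := by
    have : (0:ℝ) < n := lt_of_le_of_lt (by positivity) hn
    exact_mod_cast this
  have hn0' : (0:ℝ) < n := by exact_mod_cast hn0
  have hstep : (b - a) / n < η := by
    rw [div_lt_iff₀ hη] at hn
    rw [div_lt_iff₀ hn0']
    linarith
  have hfint : ∀ c d : ℝ, IntervalIntegrable f volume c d := fun c d => hfc.intervalIntegrable c d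
  have hdiff : ∫ r in a..b, ‖g r - f r‖ ≤ ε' := by
    rw [intervalIntegral.integral_of_le hab]
    have e1 : ∫ r in Ioc a b, ‖g r - f r‖ = ∫ r in Ioc a b, ‖indicator (Ioc a b) g r - f r‖ := by
      apply setIntegral_congr_fun measurableSet_Ioc
      intro r hr
      simp only [indicator_of_mem hr]
    rw [e1]
    exact (setIntegral_le_integral (hgint.sub hfi).norm
      (Eventually.of_forall fun _ => norm_nonneg _)).trans hfg
  have hsubint : ∀ i < n, IntervalIntegrable (fun r => ‖g r - f r‖) volume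
      (upt a b n i) (upt a b n (i+1)) := fun i hi =>
    ((h.int_sub (upt_mem hab hn0 hi.le) (upt_mem hab hn0 (Nat.succ_le_of_lt hi))).sub
      (hfint _ _)).norm
  have hpiece : ∀ i ∈ Finset.range n,
      (∫ r in (upt a b n i)..(upt a b n (i+1)), ‖f r‖) - 2 * ε' * ((b - a) / n)
        - (∫ r in (upt a b n i)..(upt a b n (i+1)), ‖g r - f r‖) ≤
      ‖∫ r in (upt a b n i)..(upt a b n (i+1)), g r‖ := by
    intro i hi
    rw [Finset.mem_range] at hi
    have hmi := upt_mem hab hn0 hi.le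
    have hmi1 := upt_mem hab hn0 (Nat.succ_le_of_lt hi)
    have hle := upt_le_succ hab n i
    have hlen : upt a b n (i+1) - upt a b n i = (b - a) / n := by rw [upt_succ]; ring
    set c : E2 := f (upt a b n i) with hc
    have hclose : ∀ r ∈ Icc (upt a b n i) (upt a b n (i+1)), ‖f r - c‖ ≤ ε' := by
      intro r hr
      have := huc r ⟨hmi.1.trans hr.1, hr.2.trans hmi1.2⟩ _ hmi (by
        rw [Real.dist_eq, abs_of_nonneg (by linarith [hr.1])]
        have := hr.2
        linarith)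
      rw [dist_eq_norm] at this
      exact this.le
    have h1 : ‖(∫ r in (upt a b n i)..(upt a b n (i+1)), f r) - ((b - a) / n) • c‖ ≤
        ε' * ((b - a) / n) := by
      have e : (∫ r in (upt a b n i)..(upt a b n (i+1)), f r) - ((b - a) / n) • c =
          ∫ r in (upt a b n i)..(upt a b n (i+1)), (f r - c) := by
        rw [intervalIntegral.integral_sub (hfint _ _) intervalIntegrable_const,
          intervalIntegral.integral_const, hlen]
      rw [e]
      have := intervalIntegral.norm_integral_le_of_norm_le_const (a := upt a b n i)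
        (b := upt a b n (i+1)) (C := ε') (f := fun r => f r - c) (by
          intro r hr
          rw [uIoc_of_le hle] at hr
          exact hclose r ⟨hr.1.le, hr.2⟩)
      rwa [hlen, abs_of_nonneg (by positivity)] at this
    have h2 : ((b - a) / n) * ‖c‖ - ε' * ((b - a) / n) ≤
        ‖∫ r in (upt a b n i)..(upt a b n (i+1)), f r‖ := by
      have h3 : ‖((b - a) / n) • c‖ = ((b - a) / n) * ‖c‖ := by
        rw [norm_smul, Real.norm_eq_abs, abs_of_nonneg (by positivity)]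
      have h4 := norm_sub_norm_le (((b - a) / n) • c)
        (∫ r in (upt a b n i)..(upt a b n (i+1)), f r)
      rw [norm_sub_rev, h3] at h4
      linarith
    have h5 : ∫ r in (upt a b n i)..(upt a b n (i+1)), ‖f r‖ ≤ ((b - a) / n) * (‖c‖ + ε') := by
      have : ∫ r in (upt a b n i)..(upt a b n (i+1)), ‖f r‖ ≤
          ∫ r in (upt a b n i)..(upt a b n (i+1)), (‖c‖ + ε') := by
        apply intervalIntegral.integral_mono_on hle (hfint _ _).norm intervalIntegrable_const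
        intro r hr
        have h6 := hclose r hr
        have h7 := norm_sub_norm_le (f r) c
        linarith
      rwa [intervalIntegral.integral_const, hlen, smul_eq_mul] at this
    have h8 : ‖∫ r in (upt a b n i)..(upt a b n (i+1)), f r‖ -
        (∫ r in (upt a b n i)..(upt a b n (i+1)), ‖g r - f r‖) ≤
        ‖∫ r in (upt a b n i)..(upt a b n (i+1)), g r‖ := by
      have h9 : (∫ r in (upt a b n i)..(upt a b n (i+1)), g r) -
          (∫ r in (upt a b n i)..(upt a b n (i+1)), f r) =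
          ∫ r in (upt a b n i)..(upt a b n (i+1)), (g r - f r) :=
        (intervalIntegral.integral_sub (h.int_sub hmi hmi1) (hfint _ _)).symm
      have h10 := intervalIntegral.norm_integral_le_integral_norm (f := fun r => g r - f r)
        (μ := volume) hle
      have h11 := norm_sub_norm_le (∫ r in (upt a b n i)..(upt a b n (i+1)), f r)
        (∫ r in (upt a b n i)..(upt a b n (i+1)), g r)
      rw [norm_sub_rev, h9] at h11
      linarith
    have h12 : ((b - a) / n) * (‖c‖ + ε') = ((b - a) / n) * ‖c‖ + ε' * ((b - a) / n) := by ring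
    linarith
  have hsum := Finset.sum_le_sum hpiece
  rw [Finset.sum_sub_distrib, Finset.sum_sub_distrib, integral_upt_sum hab hn0 (hfint a b).norm,
    integral_upt_sum hab hn0 (h.int.sub (hfint a b)).norm] at hsum
  rw [Finset.sum_const, Finset.card_range, nsmul_eq_mul] at hsum
  have e3 : (n:ℝ) * (2 * ε' * ((b - a) / n)) = 2 * ε' * (b - a) := by field_simp
  rw [e3] at hsum
  have hfg2 : ∫ r in a..b, ‖g r‖ ≤ (∫ r in a..b, ‖f r‖) + ∫ r in a..b, ‖g r - f r‖ := by
    rw [← intervalIntegral.integral_add (hfint a b).norm (h.int.sub (hfint a b)).norm]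
    apply intervalIntegral.integral_mono_on hab h.int.norm
      ((hfint a b).norm.add (h.int.sub (hfint a b)).norm)
    intro r _
    have := norm_add_le (f r) (g r - f r)
    rwa [add_sub_cancel] at this
  have hfinal : ∫ r in a..b, ‖g r‖ ≤
      (∑ i ∈ Finset.range n, ‖∫ r in (upt a b n i)..(upt a b n (i+1)), g r‖) + ε := by
    have e4 : (ε : ℝ) = 2 * ε' * (b - a) + 2 * ε' := by
      rw [hε']; field_simp
    rw [e4]
    linarith
  calc ENNReal.ofReal (∫ r in a..b, ‖g r‖)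
      ≤ ENNReal.ofReal ((∑ i ∈ Finset.range n,
          ‖∫ r in (upt a b n i)..(upt a b n (i+1)), g r‖) + ε) := ENNReal.ofReal_le_ofReal hfinal
    _ ≤ ENNReal.ofReal (∑ i ∈ Finset.range n,
          ‖∫ r in (upt a b n i)..(upt a b n (i+1)), g r‖) + ENNReal.ofReal ε :=
        ENNReal.ofReal_add_le
    _ ≤ _ := by
        rw [ENNReal.ofReal_coe_nnreal]
        gcongr
        exact h.sum_chords_le hab hinj hn0

/-- **Length of an injective curve.** -/
theorem ACurve.hausdorff_image {γ g : ℝ → E2} {a b : ℝ} (h : ACurve γ g a b) (hab : a ≤ b)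
    (hinj : InjOn γ (Icc a b)) :
    Measure.hausdorffMeasure 1 (γ '' Icc a b) = ENNReal.ofReal (∫ r in a..b, ‖g r‖) :=
  le_antisymm (h.hausdorff_image_le hab) (h.le_hausdorff_image hab hinj)

end Crest.Agent.R135
end
end

-- ▼ part R135/Inner4
section

/-!
# R135, block INNER (helper828), part 4: force balance

If `K` is one curve `γ` parametrised by the radius in the annulus `r₁ ≤ |y - x₀| ≤ r₂`, then for all
admissible radial densities `b` and `|t| ≤ 1/2`
`t ∫ ⟪b, FB - τ⟫ ≤ t² (2 D(ρ) + (r₂ - r₁)/2) + lam ρ²`.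
-/

set_option autoImplicit false

open MeasureTheory Set Filter Topology Metric
open scoped ENNReal NNReal ContDiff Gradient

noncomputable section

namespace Crest.Agent.R135

namespace Inner

/-- `K` is the curve `γ`, parametrised by the radius, in the annulus `r1 ≤ |y - x₀| ≤ r2`. -/
structure RadCurve (K : Set E2) (x₀ : E2) (γ g : ℝ → E2) (r1 r2 : ℝ) : Prop where
  curve : ACurve γ g r1 r2
  rad : ∀ r ∈ Icc r1 r2, ‖γ r - x₀‖ = r
  eqK : K ∩ {y | r1 ≤ ‖y - x₀‖ ∧ ‖y - x₀‖ ≤ r2} = γ '' Icc r1 r2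

theorem RadCurve.mono {K : Set E2} {x₀ : E2} {γ g : ℝ → E2} {r1 r2 : ℝ}
    (h : RadCurve K x₀ γ g r1 r2) {s1 s2 : ℝ} (h1 : r1 ≤ s1) (h12 : s1 ≤ s2) (h2 : s2 ≤ r2) :
    RadCurve K x₀ γ g s1 s2 where
  curve := h.curve.mono h1 h12 h2
  rad := fun r hr => h.rad r ⟨h1.trans hr.1, hr.2.trans h2⟩
  eqK := by
    ext y
    constructor
    · rintro ⟨hy, hy1, hy2⟩
      have : y ∈ γ '' Icc r1 r2 := by
        rw [← h.eqK]
        exact ⟨hy, h1.trans hy1, hy2.trans h2⟩
      obtain ⟨r, hr, rfl⟩ := this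
      rw [h.rad r hr] at hy1 hy2
      exact ⟨r, ⟨hy1, hy2⟩, rfl⟩
    · rintro ⟨r, hr, rfl⟩
      have hr' : r ∈ Icc r1 r2 := ⟨h1.trans hr.1, hr.2.trans h2⟩
      have : γ r ∈ K ∩ {y | r1 ≤ ‖y - x₀‖ ∧ ‖y - x₀‖ ≤ r2} := by
        rw [h.eqK]; exact ⟨r, hr', rfl⟩
      refine ⟨this.1, ?_⟩
      simp only [mem_ofPred_eq, h.rad r hr']
      exact ⟨hr.1, hr.2⟩

theorem RadCurve.injOn {K : Set E2} {x₀ : E2} {γ g : ℝ → E2} {r1 r2 : ℝ}
    (h : RadCurve K x₀ γ g r1 r2) : InjOn γ (Icc r1 r2) := by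
  intro r hr s hs e
  rw [← h.rad r hr, ← h.rad s hs, e]

theorem RadCurve.one_le {K : Set E2} {x₀ : E2} {γ g : ℝ → E2} {r1 r2 : ℝ}
    (h : RadCurve K x₀ γ g r1 r2) (h12 : r1 ≤ r2) :
    ∀ᵐ r ∂(volume.restrict (Ioo r1 r2)), 1 ≤ ‖g r‖ := by
  have hint := h.curve.int.norm
  have h2 := hint.ae_hasDerivAt_integral
  rw [ae_restrict_iff' measurableSet_Ioo]
  filter_upwards [h2] with r hr hrm
  have h3 := hr (by rw [uIcc_of_le h12]; exact ⟨hrm.1.le, hrm.2.le⟩) r
    (by rw [uIcc_of_le h12]; exact ⟨hrm.1.le, hrm.2.le⟩)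
  -- the difference quotients are at least one
  have h4 := h3.tendsto_slope
  have h5 : Tendsto (slope (fun x => ∫ t in r..x, ‖g t‖) r) (𝓝[>] r) (𝓝 ‖g r‖) :=
    h4.mono_left (nhdsWithin_mono _ fun x hx => ne_of_gt hx)
  refine ge_of_tendsto h5 ?_
  filter_upwards [Ioo_mem_nhdsGT hrm.2] with s hs
  have hrs : r < s := hs.1
  have hrm' : r ∈ Icc r1 r2 := ⟨hrm.1.le, hrm.2.le⟩
  have hsm' : s ∈ Icc r1 r2 := ⟨hrm.1.le.trans hrs.le, hs.2.le⟩
  rw [slope_def_field, intervalIntegral.integral_same, sub_zero, le_div_iff₀ (sub_pos.2 hrs), one_mul]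
  have h6 := h.curve.dist_le hrm' hsm' hrs.le
  refine le_trans ?_ h6
  have h7 : s - r = ‖γ s - x₀‖ - ‖γ r - x₀‖ := by rw [h.rad s hsm', h.rad r hrm']
  rw [h7, dist_comm, dist_eq_norm]
  have h8 := norm_sub_norm_le (γ s - x₀) (γ r - x₀)
  rwa [sub_sub_sub_cancel_right] at h8

variable {b : ℝ → E2} {r1 r2 : ℝ}

theorem curve_push {K : Set E2} {x₀ : E2} {γ g : ℝ → E2} (hb : RadDens b r1 r2)
    (h : RadCurve K x₀ γ g r1 r2) {t : ℝ} (ht : |t| ≤ 1/2) :
    ACurve (fun r => rhomeo hb x₀ ht (γ r)) (fun r => g r + t • b r) r1 r2 where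
  int := h.curve.int.add ((hb.cont.intervalIntegrable _ _).smul t)
  eq := by
    intro s hs s' hs'
    have h1 := h.curve.int_sub hs hs'
    have h2 : IntervalIntegrable (fun r => t • b r) volume s s' :=
      (hb.cont.intervalIntegrable _ _).smul t
    rw [intervalIntegral.integral_add h1 h2, ← h.curve.eq s hs s' hs',
      intervalIntegral.integral_smul]
    simp only [rhomeo_apply]
    rw [h.rad s hs, h.rad s' hs']
    have h3 : ∫ r in s..s', b r = psi b r2 s' - psi b r2 s := by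
      unfold psi
      rw [intervalIntegral.integral_interval_sub_left (hb.cont.intervalIntegrable _ _)
        (hb.cont.intervalIntegrable _ _)]
    rw [h3, smul_sub]
    abel

section QM

variable {U K : Set E2} {lam : ℝ} {u : E2 → ℝ} {x₀ : E2} {ρ : ℝ} {γ g : ℝ → E2}

theorem len_split (hρ : r2 ≤ ρ) (h12 : r1 ≤ r2) (h : RadCurve K x₀ γ g r1 r2) :
    len (K ∩ closedBall x₀ ρ) = len (K ∩ ball x₀ r1) + len (γ '' Icc r1 r2) +
      len ((K ∩ closedBall x₀ ρ) \ closedBall x₀ r2) := by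
  unfold len
  rw [← measure_inter_add_sdiff (K ∩ closedBall x₀ ρ) (measurableSet_closedBall (x := x₀) (ε := r2)),
    ← measure_inter_add_sdiff (K ∩ closedBall x₀ ρ ∩ closedBall x₀ r2)
      (measurableSet_ball (x := x₀) (ε := r1))]
  congr 3
  · ext y
    constructor
    · rintro ⟨⟨⟨hy, -⟩, -⟩, hy2⟩
      exact ⟨hy, hy2⟩
    · rintro ⟨hy, hy2⟩
      have h1 : dist y x₀ < r1 := hy2
      refine ⟨⟨⟨hy, ?_⟩, ?_⟩, hy2⟩
      · exact (h1.le.trans (h12.trans hρ))
      · exact h1.le.trans h12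
  · rw [← h.eqK]
    ext y
    simp only [Set.mem_sdiff, mem_inter_iff, mem_closedBall, mem_ball, mem_ofPred_eq, dist_eq_norm, not_lt]
    constructor
    · rintro ⟨⟨⟨hy, -⟩, hy1⟩, hy2⟩
      exact ⟨hy, hy2, hy1⟩
    · rintro ⟨hy, hy2, hy1⟩
      exact ⟨⟨⟨hy, hy1.trans hρ⟩, hy1⟩, hy2⟩

theorem len_push_le (hb : RadDens b r1 r2) (hρ : r2 ≤ ρ) (h : RadCurve K x₀ γ g r1 r2)
    {t : ℝ} (ht : |t| ≤ 1/2) :
    len (rhomeo hb x₀ ht '' K ∩ closedBall x₀ ρ) ≤
      len (K ∩ ball x₀ r1) + ENNReal.ofReal (∫ r in r1..r2, ‖g r + t • b r‖) +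
      len ((K ∩ closedBall x₀ ρ) \ closedBall x₀ r2) := by
  set Φ := rhomeo hb x₀ ht with hΦ
  have hid := rhomeo_id hb x₀ ht hρ
  have hsub : Φ '' K ∩ closedBall x₀ ρ ⊆ (Φ '' (K ∩ ball x₀ r1) ∪
      (fun r => Φ (γ r)) '' Icc r1 r2) ∪ ((K ∩ closedBall x₀ ρ) \ closedBall x₀ r2) := by
    rintro _ ⟨⟨k, hk, rfl⟩, hy⟩
    have hkb : k ∈ closedBall x₀ ρ := (homeo_mem_iff hid k).1 hy
    by_cases h1 : ‖k - x₀‖ < r1
    · exact Or.inl (Or.inl ⟨k, ⟨hk, by rwa [mem_ball, dist_eq_norm]⟩, rfl⟩)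
    · by_cases h2 : ‖k - x₀‖ ≤ r2
      · have : k ∈ γ '' Icc r1 r2 := by
          rw [← h.eqK]
          exact ⟨hk, not_lt.1 h1, h2⟩
        obtain ⟨r, hr, rfl⟩ := this
        exact Or.inl (Or.inr ⟨r, hr, rfl⟩)
      · right
        have e : Φ k = k := by
          rw [hΦ, rhomeo_apply, psi_eq_zero hb (not_le.1 h2).le, smul_zero, add_zero]
        rw [e]
        refine ⟨⟨hk, hkb⟩, ?_⟩
        rw [mem_closedBall, dist_eq_norm]
        exact h2
  have htrans : len (Φ '' (K ∩ ball x₀ r1)) = len (K ∩ ball x₀ r1) := by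
    have e : Φ '' (K ∩ ball x₀ r1) = (fun y => y + t • psi b r2 r1) '' (K ∩ ball x₀ r1) := by
      apply image_congr
      rintro y ⟨-, hy⟩
      rw [hΦ, rhomeo_apply, psi_eq_const hb]
      rw [mem_ball, dist_eq_norm] at hy
      exact hy.le
    unfold len
    rw [e]
    exact (isometry_add_right (t • psi b r2 r1)).hausdorffMeasure_image (Or.inl zero_le_one) _
  have hcurve : len ((fun r => Φ (γ r)) '' Icc r1 r2) ≤
      ENNReal.ofReal (∫ r in r1..r2, ‖g r + t • b r‖) :=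
    (curve_push hb h ht).hausdorff_image_le hb.lt.le
  calc len (Φ '' K ∩ closedBall x₀ ρ)
      ≤ len ((Φ '' (K ∩ ball x₀ r1) ∪ (fun r => Φ (γ r)) '' Icc r1 r2) ∪
          ((K ∩ closedBall x₀ ρ) \ closedBall x₀ r2)) := measure_mono hsub
    _ ≤ len (Φ '' (K ∩ ball x₀ r1)) + len ((fun r => Φ (γ r)) '' Icc r1 r2) +
          len ((K ∩ closedBall x₀ ρ) \ closedBall x₀ r2) :=
        (measure_union_le _ _).trans (add_le_add (measure_union_le _ _) le_rfl)
    _ ≤ _ := by
        rw [htrans]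
        gcongr

/-- **raw inner variation inequality** -/
theorem inner_raw (h : IsQM U lam u K) (hb : RadDens b r1 r2) (hρ : r2 ≤ ρ)
    (hU : closedBall x₀ ρ ⊆ U) (hγ : RadCurve K x₀ γ g r1 r2) {t : ℝ} (ht : |t| ≤ 1/2) :
    t * ∫ s in (0:ℝ)..ρ, inner ℝ (b s) (FB u x₀ s) ≤
      2 * t^2 * Dr u K x₀ ρ + ((∫ r in r1..r2, ‖g r + t • b r‖) - ∫ r in r1..r2, ‖g r‖)
        + lam * ρ^2 := by
  have hρ0 : 0 < ρ := (hb.pos.trans hb.lt).trans_le hρ
  have hcomp := isComp_of_homeo h hU (rhomeo_lip hb x₀ ht) (rhomeo_symm_lip hb x₀ ht)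
    (rhomeo_id hb x₀ ht hρ)
  have hmin := h.min x₀ ρ hρ0 hU _ _ hcomp
  unfold enE at hmin
  have hX0 := push_total_nonneg h hb hρ hU ht
  set X : ℝ := (1 + 2 * t^2) * Dr u K x₀ ρ - t * ∫ s in (0:ℝ)..ρ, inner ℝ (b s) (FB u x₀ s) with hX
  set a : ℝ≥0∞ := len (K ∩ ball x₀ r1) with ha
  set c : ℝ≥0∞ := len ((K ∩ closedBall x₀ ρ) \ closedBall x₀ r2) with hc
  set L0 : ℝ := ∫ r in r1..r2, ‖g r‖ with hL0
  set L1 : ℝ := ∫ r in r1..r2, ‖g r + t • b r‖ with hL1
  have hfin := h.len_fin x₀ ρ hU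
  have hcurve : len (γ '' Icc r1 r2) = ENNReal.ofReal L0 :=
    hγ.curve.hausdorff_image hb.lt.le hγ.injOn
  rw [len_split hρ hb.lt.le hγ, hcurve, ← ha, ← hc] at hfin
  have haf : a ≠ ⊤ := by
    intro e; rw [e] at hfin; simp at hfin
  have hcf : c ≠ ⊤ := by
    intro e; rw [e] at hfin; simp at hfin
  rw [len_split hρ hb.lt.le hγ, hcurve, ← ha, ← hc, dirE_closedBall h hU] at hmin
  have h1 : ENNReal.ofReal (Dr u K x₀ ρ) + (a + ENNReal.ofReal L0 + c) ≤
      ENNReal.ofReal X + (a + ENNReal.ofReal L1 + c) + ENNReal.ofReal (lam * ρ^2) := by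
    refine hmin.trans ?_
    gcongr
    · exact dirE_push_le h hb hρ hU ht
    · exact len_push_le hb hρ hγ ht
  have hD0 : 0 ≤ Dr u K x₀ ρ := ENNReal.toReal_nonneg
  have hL00 : 0 ≤ L0 := intervalIntegral.integral_nonneg hb.lt.le fun _ _ => norm_nonneg _
  have hL10 : 0 ≤ L1 := intervalIntegral.integral_nonneg hb.lt.le fun _ _ => norm_nonneg _
  have hl0 : 0 ≤ lam * ρ^2 := mul_nonneg h.lam_nonneg (sq_nonneg _)
  have h2 := ENNReal.toReal_mono (by finiteness) h1
  rw [ENNReal.toReal_add (by finiteness) (by finiteness), ENNReal.toReal_add (by finiteness) (by finiteness),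
    ENNReal.toReal_add (by finiteness) (by finiteness), ENNReal.toReal_add (by finiteness) (by finiteness),
    ENNReal.toReal_add (by finiteness) (by finiteness), ENNReal.toReal_add (by finiteness) (by finiteness),
    ENNReal.toReal_add (by finiteness) (by finiteness),
    ENNReal.toReal_ofReal hD0, ENNReal.toReal_ofReal hL00, ENNReal.toReal_ofReal hX0,
    ENNReal.toReal_ofReal hL10, ENNReal.toReal_ofReal hl0] at h2
  rw [hX] at h2
  linarith

end QM

end Inner

end Crest.Agent.R135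
end
end

-- ▼ part R135/Inner5
section

/-!
# R135, block INNER (helper828), part 5: force balance in averaged form
-/

set_option autoImplicit false

open MeasureTheory Set Filter Topology Metric
open scoped ENNReal NNReal ContDiff Gradient

noncomputable section

namespace Crest.Agent.R135

namespace Inner

variable {b : ℝ → E2} {r1 r2 : ℝ}

theorem norm_add_smul_le {g v : E2} (hg : 1 ≤ ‖g‖) (hv : ‖v‖ ≤ 1) {t : ℝ} (ht : |t| ≤ 1/2) :
    ‖g + t • v‖ ≤ ‖g‖ + t * inner ℝ v (‖g‖⁻¹ • g) + t^2/2 := by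
  have hpos : 0 < ‖g‖ := by linarith
  set q : ℝ := inner ℝ v (‖g‖⁻¹ • g) with hq
  have hqg : inner ℝ g v = ‖g‖ * q := by
    rw [hq, inner_smul_right, real_inner_comm]
    field_simp
  have hunit : ‖‖g‖⁻¹ • g‖ = 1 := by
    rw [norm_smul, norm_inv, norm_norm, inv_mul_cancel₀ hpos.ne']
  have hq1 : |q| ≤ 1 := by
    refine (abs_real_inner_le_norm _ _).trans ?_
    rw [hunit, mul_one]
    exact hv
  have htq : |t * q| ≤ 1/2 := by
    rw [abs_mul]
    calc |t| * |q| ≤ (1/2) * 1 := by gcongr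
      _ = 1/2 := mul_one _
  have hR : 0 ≤ ‖g‖ + t * q + t^2/2 := by
    have := (abs_le.1 htq).1
    nlinarith [sq_nonneg t]
  apply le_of_sq_le_sq _ hR
  have e : ‖g + t • v‖^2 = ‖g‖^2 + 2 * t * (‖g‖ * q) + t^2 * ‖v‖^2 := by
    rw [norm_add_sq_real, inner_smul_right, norm_smul, mul_pow, Real.norm_eq_abs, sq_abs, hqg]
    ring
  rw [e]
  have h1 : t^2 * ‖v‖^2 ≤ t^2 * 1 := by
    gcongr
    rw [← one_pow 2]
    gcongr
  have h2 : t^2 * 1 ≤ t^2 * ‖g‖ := by gcongr
  nlinarith [sq_nonneg (t * q + t^2/2)]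

/-- the unit tangent -/
def utan (g : ℝ → E2) (r : ℝ) : E2 := ‖g r‖⁻¹ • g r

theorem norm_utan_le (g : ℝ → E2) (r : ℝ) : ‖utan g r‖ ≤ 1 := by
  unfold utan
  rw [norm_smul, norm_inv, norm_norm]
  exact inv_mul_le_one

theorem utan_intervalIntegrable {g : ℝ → E2} {a c : ℝ} (hg : IntervalIntegrable g volume a c) :
    IntervalIntegrable (utan g) volume a c := by
  rw [intervalIntegrable_iff] at hg ⊢
  have h1 : AEMeasurable g (volume.restrict (uIoc a c)) := hg.1.aemeasurable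
  refine Integrable.mono' (g := fun _ => (1:ℝ)) (integrableOn_const (by simp [Real.volume_uIoc])) ?_
    (Eventually.of_forall fun r => norm_utan_le g r)
  exact (h1.norm.inv.smul h1).aestronglyMeasurable

section QM

variable {U K : Set E2} {lam : ℝ} {u : E2 → ℝ} {x₀ : E2} {ρ : ℝ} {γ g : ℝ → E2}

theorem intervalIntegrable_FB' (h : IsQM U lam u K) (h1 : 0 ≤ r1) (h12 : r1 ≤ r2) (hρ : r2 ≤ ρ)
    (hU : closedBall x₀ ρ ⊆ U) : IntervalIntegrable (FB u x₀) volume r1 r2 := by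
  refine (intervalIntegrable_FB h (h1.trans (h12.trans hρ)) hU).mono_set ?_
  rw [uIcc_of_le h12, uIcc_of_le (h1.trans (h12.trans hρ))]
  exact Icc_subset_Icc h1 hρ

theorem inner_intervalIntegrable {v w : ℝ → E2} {a c : ℝ} (hv : Continuous v)
    (hw : IntervalIntegrable w volume a c) :
    IntervalIntegrable (fun r => inner ℝ (v r) (w r)) volume a c := by
  rw [intervalIntegrable_iff] at hw ⊢
  obtain ⟨C, hC⟩ : ∃ C, ∀ r ∈ uIcc a c, ‖v r‖ ≤ C :=
    isCompact_uIcc.exists_bound_of_continuousOn hv.continuousOn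
  refine Integrable.mono' (hw.norm.const_mul C)
    (hv.aestronglyMeasurable.inner hw.1) ?_
  filter_upwards [ae_restrict_mem measurableSet_uIoc] with r hr
  have h1 := hC r (uIoc_subset_uIcc hr)
  refine (norm_inner_le_norm _ _).trans ?_
  gcongr

theorem integral_support_eq (hb : RadDens b r1 r2) (hρ : r2 ≤ ρ) (w : ℝ → E2) :
    ∫ s in (0:ℝ)..ρ, inner ℝ (b s) (w s) = ∫ s in r1..r2, inner ℝ (b s) (w s) := by
  have h0 : 0 ≤ ρ := (hb.pos.trans hb.lt).le.trans hρ
  rw [intervalIntegral.integral_of_le h0, intervalIntegral.integral_of_le hb.lt.le]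
  apply setIntegral_eq_of_subset_of_forall_sdiff_eq_zero measurableSet_Ioc
  · intro s hs
    exact ⟨hb.pos.trans hs.1, hs.2.trans hρ⟩
  · rintro s ⟨-, hs⟩
    rw [hb.supp s (fun hc => hs ⟨hc.1, hc.2.le⟩), inner_zero_left]

/-- **Force balance, tested with a radial density.** -/
theorem inner_tested (h : IsQM U lam u K) (hb : RadDens b r1 r2) (hρ : r2 ≤ ρ)
    (hU : closedBall x₀ ρ ⊆ U) (hγ : RadCurve K x₀ γ g r1 r2) {t : ℝ} (ht : |t| ≤ 1/2) :
    t * ∫ s in r1..r2, inner ℝ (b s) (FB u x₀ s - utan g s) ≤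
      t^2 * (2 * Dr u K x₀ ρ + (r2 - r1) / 2) + lam * ρ^2 := by
  have h12 := hb.lt.le
  have h1 := inner_raw h hb hρ hU hγ ht
  rw [integral_support_eq hb hρ] at h1
  have iFB := intervalIntegrable_FB' h hb.pos.le h12 hρ hU
  have iut := utan_intervalIntegrable hγ.curve.int
  have i1 := inner_intervalIntegrable hb.cont iFB
  have i2 := inner_intervalIntegrable hb.cont iut
  have e1 : ∫ s in r1..r2, inner ℝ (b s) (FB u x₀ s - utan g s) =
      (∫ s in r1..r2, inner ℝ (b s) (FB u x₀ s)) - ∫ s in r1..r2, inner ℝ (b s) (utan g s) := by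
    rw [← intervalIntegral.integral_sub i1 i2]
    simp only [inner_sub_right]
  have h2 : ∫ r in r1..r2, ‖g r + t • b r‖ ≤
      (∫ r in r1..r2, ‖g r‖) + t * (∫ r in r1..r2, inner ℝ (b r) (utan g r)) + (r2 - r1) * (t^2/2) := by
    have e2 : (∫ r in r1..r2, ‖g r‖) + t * (∫ r in r1..r2, inner ℝ (b r) (utan g r)) +
        (r2 - r1) * (t^2/2) =
        ∫ r in r1..r2, (‖g r‖ + t * inner ℝ (b r) (utan g r) + t^2/2) := by
      rw [intervalIntegral.integral_add (hγ.curve.int.norm.add (i2.const_mul t))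
        intervalIntegrable_const, intervalIntegral.integral_add hγ.curve.int.norm (i2.const_mul t),
        intervalIntegral.integral_const_mul, intervalIntegral.integral_const, smul_eq_mul]
    rw [e2]
    apply intervalIntegral.integral_mono_ae_restrict h12
    · exact (hγ.curve.int.add ((hb.cont.intervalIntegrable _ _).smul t)).norm
    · exact (hγ.curve.int.norm.add (i2.const_mul t)).add intervalIntegrable_const
    · have h3 := hγ.one_le h12
      rw [Measure.restrict_congr_set Ioo_ae_eq_Icc] at h3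
      filter_upwards [h3] with r hr
      exact norm_add_smul_le hr (hb.bdd r) ht
  rw [e1]
  have e3 : t^2 * (2 * Dr u K x₀ ρ + (r2 - r1) / 2) =
    2 * t^2 * Dr u K x₀ ρ + (r2 - r1) * (t^2/2) := by ring
  rw [e3, mul_sub]
  linarith

theorem RadDens.neg (hb : RadDens b r1 r2) : RadDens (fun s => - b s) r1 r2 where
  cont := hb.cont.neg
  bdd := fun s => by rw [norm_neg]; exact hb.bdd s
  supp := fun s hs => by rw [hb.supp s hs, neg_zero]
  pos := hb.pos
  lt := hb.lt

theorem inner_tested_le (h : IsQM U lam u K) (hb : RadDens b r1 r2) (hρ : r2 ≤ ρ)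
    (hU : closedBall x₀ ρ ⊆ U) (hγ : RadCurve K x₀ γ g r1 r2) {t : ℝ} (ht0 : 0 < t) (ht : t ≤ 1/2) :
    ∫ s in r1..r2, inner ℝ (b s) (FB u x₀ s - utan g s) ≤
      t * (2 * Dr u K x₀ ρ + (r2 - r1) / 2) + lam * ρ^2 / t := by
  have h1 := inner_tested h hb hρ hU hγ (t := t) (by rwa [abs_of_pos ht0])
  have h2 : t * (t * (2 * Dr u K x₀ ρ + (r2 - r1) / 2) + lam * ρ^2 / t) =
    t^2 * (2 * Dr u K x₀ ρ + (r2 - r1) / 2) + lam * ρ^2 := by field_simp
  rw [← h2] at h1
  exact le_of_mul_le_mul_left h1 ht0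

end QM

/-! ### duality -/

/-- continuous cut-off -/
def cutf (r1 r2 : ℝ) (n : ℕ) (s : ℝ) : ℝ := min 1 (n * max 0 (min (s - r1) (r2 - s)))

theorem cutf_cont (r1 r2 : ℝ) (n : ℕ) : Continuous (cutf r1 r2 n) := by
  unfold cutf
  fun_prop

theorem cutf_nonneg (r1 r2 : ℝ) (n : ℕ) (s : ℝ) : 0 ≤ cutf r1 r2 n s := by
  unfold cutf
  positivity

theorem cutf_le_one (r1 r2 : ℝ) (n : ℕ) (s : ℝ) : cutf r1 r2 n s ≤ 1 := min_le_left _ _

theorem cutf_eq_zero {r1 r2 : ℝ} (n : ℕ) {s : ℝ} (hs : s ∉ Ioo r1 r2) : cutf r1 r2 n s = 0 := by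
  unfold cutf
  have : max 0 (min (s - r1) (r2 - s)) = 0 := by
    apply max_eq_left
    rw [mem_Ioo, not_and_or, not_lt, not_lt] at hs
    rcases hs with hs | hs
    · exact (min_le_left _ _).trans (by linarith)
    · exact (min_le_right _ _).trans (by linarith)
  rw [this, mul_zero]
  simp

theorem cutf_tendsto {r1 r2 s : ℝ} (hs : s ∈ Ioo r1 r2) :
    Tendsto (fun n => cutf r1 r2 n s) atTop (𝓝 1) := by
  have hpos : 0 < min (s - r1) (r2 - s) := lt_min (by linarith [hs.1]) (by linarith [hs.2])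
  apply tendsto_const_nhds.congr'
  obtain ⟨N, hN⟩ := exists_nat_gt (1 / min (s - r1) (r2 - s))
  filter_upwards [eventually_ge_atTop N] with n hn
  unfold cutf
  rw [max_eq_right hpos.le]
  symm
  apply min_eq_left
  rw [div_lt_iff₀ hpos] at hN
  have : (N:ℝ) ≤ n := by exact_mod_cast hn
  nlinarith

/-- **Duality**: the `L¹` norm is attained by admissible radial densities. -/
theorem exists_radDens {r1 r2 : ℝ} (h1 : 0 < r1) (h12 : r1 < r2) {V : ℝ → E2}
    (hV : IntervalIntegrable V volume r1 r2) {δ : ℝ} (hδ : 0 < δ) :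
    ∃ b : ℝ → E2, RadDens b r1 r2 ∧
      ∫ s in r1..r2, ‖V s‖ ≤ (∫ s in r1..r2, inner ℝ (b s) (V s)) + δ := by
  have hVi : Integrable (indicator (Ioc r1 r2) V) := by
    rw [integrable_indicator_iff measurableSet_Ioc]
    exact (intervalIntegrable_iff_integrableOn_Ioc_of_le h12.le).1 hV
  set ε : ℝ := δ / 8 with hε
  have hεpos : 0 < ε := by positivity
  obtain ⟨f, -, hfV, hfc, hfi⟩ := hVi.exists_hasCompactSupport_integral_sub_le hεpos
  -- `∫ χ_n ‖V‖ → ∫ ‖V‖`
  have hlim : Tendsto (fun n => ∫ s in r1..r2, cutf r1 r2 n s * ‖V s‖) atTop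
      (𝓝 (∫ s in r1..r2, 1 * ‖V s‖)) := by
    apply intervalIntegral.tendsto_integral_filter_of_dominated_convergence (fun s => ‖V s‖)
    · filter_upwards with n
      exact ((cutf_cont r1 r2 n).aestronglyMeasurable).mul
        (intervalIntegrable_iff.1 hV.norm).aestronglyMeasurable
    · filter_upwards with n
      filter_upwards with s _
      rw [Real.norm_eq_abs, abs_mul, abs_of_nonneg (cutf_nonneg _ _ _ _), abs_norm]
      exact mul_le_of_le_one_left (norm_nonneg _) (cutf_le_one _ _ _ _)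
    · exact hV.norm
    · have hne : ∀ᵐ s : ℝ, s ≠ r2 := by simp [ae_iff]
      filter_upwards [hne] with s hs hs2
      rw [uIoc_of_le h12.le] at hs2
      exact (cutf_tendsto ⟨hs2.1, lt_of_le_of_ne hs2.2 hs⟩).mul_const _
  simp only [one_mul] at hlim
  obtain ⟨n, hn⟩ := ((tendsto_order.1 hlim).1 ((∫ s in r1..r2, ‖V s‖) - ε) (by linarith)).exists
  set ε' : ℝ := ε / (r2 - r1) with hε'
  have h21 : 0 < r2 - r1 := by linarith
  have hε'pos : 0 < ε' := by positivity
  have hfpos : ∀ s, 0 < ‖f s‖ + ε' := fun s => by positivity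
  set b : ℝ → E2 := fun s => cutf r1 r2 n s • (‖f s‖ + ε')⁻¹ • f s with hb
  have hbcont : Continuous b :=
    (cutf_cont r1 r2 n).smul ((hfc.norm.add continuous_const).inv₀ (fun s => (hfpos s).ne') |>.smul hfc)
  have hbR : RadDens b r1 r2 := by
    refine ⟨hbcont, ?_, ?_, h1, h12⟩
    · intro s
      rw [hb]
      simp only
      rw [norm_smul, norm_smul, Real.norm_eq_abs, abs_of_nonneg (cutf_nonneg _ _ _ _),
        Real.norm_eq_abs, abs_of_pos (inv_pos.2 (hfpos s))]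
      have h3 : (‖f s‖ + ε')⁻¹ * ‖f s‖ ≤ 1 := by
        rw [inv_mul_le_iff₀ (hfpos s)]
        linarith
      calc cutf r1 r2 n s * ((‖f s‖ + ε')⁻¹ * ‖f s‖) ≤ 1 * 1 := by
            apply mul_le_mul (cutf_le_one _ _ _ _) h3 (by have := hfpos s; positivity) zero_le_one
        _ = 1 := one_mul 1
    · intro s hs
      rw [hb]
      simp only [cutf_eq_zero n hs, zero_smul]
  refine ⟨b, hbR, ?_⟩
  have hpt : ∀ s, cutf r1 r2 n s * ‖V s‖ - 2 * ‖V s - f s‖ - ε' ≤ inner ℝ (b s) (V s) := by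
    intro s
    set χ := cutf r1 r2 n s with hχ
    have hχ0 : 0 ≤ χ := cutf_nonneg _ _ _ _
    have hχ1 : χ ≤ 1 := cutf_le_one _ _ _ _
    have hfp := hfpos s
    have e1 : inner ℝ (b s) (V s) = χ * ((‖f s‖ + ε')⁻¹ * inner ℝ (f s) (V s)) := by
      rw [hb]
      simp only [inner_smul_left, conj_trivial, hχ]
    have h3 : ‖f s‖ ^ 2 - ‖f s‖ * ‖V s - f s‖ ≤ inner ℝ (f s) (V s) := by
      have h4 : inner ℝ (f s) (V s) = ‖f s‖ ^ 2 + inner ℝ (f s) (V s - f s) := by
        rw [inner_sub_right, real_inner_self_eq_norm_sq]; ring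
      have h5 := (abs_le.1 (abs_real_inner_le_norm (f s) (V s - f s))).1
      linarith
    have h6 : ‖f s‖ - ε' - ‖V s - f s‖ ≤ (‖f s‖ + ε')⁻¹ * inner ℝ (f s) (V s) := by
      rw [le_inv_mul_iff₀ hfp]
      have h7 : 0 ≤ ‖V s - f s‖ := norm_nonneg _
      have h8 : 0 ≤ ‖f s‖ := norm_nonneg _
      nlinarith [mul_nonneg hε'pos.le h7, sq_nonneg ε']
    have h9 : ‖V s‖ ≤ ‖f s‖ + ‖V s - f s‖ := by
      have := norm_add_le (f s) (V s - f s)
      rwa [add_sub_cancel] at this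
    have h10 : ‖V s‖ - 2 * ‖V s - f s‖ - ε' ≤ (‖f s‖ + ε')⁻¹ * inner ℝ (f s) (V s) := by linarith
    rw [e1]
    have h11 := mul_le_mul_of_nonneg_left h10 hχ0
    have h12 : χ * (2 * ‖V s - f s‖ + ε') ≤ 1 * (2 * ‖V s - f s‖ + ε') := by
      gcongr
    nlinarith
  have iV : IntervalIntegrable (fun s => cutf r1 r2 n s * ‖V s‖) volume r1 r2 :=
    hV.norm.continuousOn_mul (cutf_cont r1 r2 n).continuousOn
  have iVf : IntervalIntegrable (fun s => ‖V s - f s‖) volume r1 r2 :=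
    (hV.sub (hfc.intervalIntegrable _ _)).norm
  have hint := intervalIntegral.integral_mono_on h12.le
    ((iV.sub (iVf.const_mul 2)).sub intervalIntegrable_const)
    (inner_intervalIntegrable hbcont hV) (fun s _ => hpt s)
  rw [intervalIntegral.integral_sub (iV.sub (iVf.const_mul 2)) intervalIntegrable_const,
    intervalIntegral.integral_sub iV (iVf.const_mul 2), intervalIntegral.integral_const_mul,
    intervalIntegral.integral_const, smul_eq_mul] at hint
  have hdiff : ∫ s in r1..r2, ‖V s - f s‖ ≤ ε := by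
    rw [intervalIntegral.integral_of_le h12.le]
    have e1 : ∫ r in Ioc r1 r2, ‖V r - f r‖ = ∫ r in Ioc r1 r2, ‖indicator (Ioc r1 r2) V r - f r‖ := by
      apply setIntegral_congr_fun measurableSet_Ioc
      intro r hr
      simp only [indicator_of_mem hr]
    rw [e1]
    exact (setIntegral_le_integral (hVi.sub hfi).norm
      (Eventually.of_forall fun _ => norm_nonneg _)).trans hfV
  have e5 : (r2 - r1) * ε' = ε := by rw [hε']; field_simp
  rw [e5] at hint
  have e6 : δ = 8 * ε := by rw [hε]; ring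
  rw [e6]
  linarith

end Inner

end Crest.Agent.R135
end
end

-- ▼ part R135/Inner6
section

/-!
# R135, block INNER (helper828), part 6: final form of the force balance, polar form
-/

set_option autoImplicit false

open MeasureTheory Set Filter Topology Metric
open scoped ENNReal NNReal ContDiff Gradient Real

noncomputable section

namespace Crest.Agent.R135

namespace Inner

variable {r1 r2 : ℝ}

section QM

variable {U K : Set E2} {lam : ℝ} {u : E2 → ℝ} {x₀ : E2} {ρ : ℝ} {γ g : ℝ → E2}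

/-- **Force balance** (averaged form, with a free parameter). -/
theorem force_balance (h : IsQM U lam u K) (h1 : 0 < r1) (h12 : r1 < r2) (hρ : r2 ≤ ρ)
    (hU : closedBall x₀ ρ ⊆ U) (hγ : RadCurve K x₀ γ g r1 r2) {t : ℝ} (ht0 : 0 < t) (ht : t ≤ 1/2) :
    ∫ s in r1..r2, ‖FB u x₀ s - utan g s‖ ≤
      t * (2 * Dr u K x₀ ρ + (r2 - r1) / 2) + lam * ρ^2 / t := by
  have hV : IntervalIntegrable (fun s => FB u x₀ s - utan g s) volume r1 r2 :=
    (intervalIntegrable_FB' h h1.le h12.le hρ hU).sub (utan_intervalIntegrable hγ.curve.int)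
  apply le_of_forall_pos_le_add
  intro δ hδ
  obtain ⟨b, hb, hb2⟩ := exists_radDens h1 h12 hV hδ
  have h2 := inner_tested_le h hb hρ hU hγ ht0 ht
  linarith

/-- **Force balance**, power form of the error. -/
theorem force_balance_sqrt (h : IsQM U lam u K) (h1 : 0 < r1) (h12 : r1 < r2) (hρ : r2 ≤ ρ)
    (hU : closedBall x₀ ρ ⊆ U) (hγ : RadCurve K x₀ γ g r1 r2) (hlam : lam * ρ ≤ 1/4) :
    ∫ s in r1..r2, ‖FB u x₀ s - utan g s‖ ≤
      Real.sqrt (lam * ρ) * (2 * Dr u K x₀ ρ + (r2 - r1) / 2 + ρ) := by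
  have hρ0 : 0 < ρ := (h1.trans h12).trans_le hρ
  rcases h.lam_nonneg.eq_or_lt with h0 | h0
  · -- lam = 0
    rw [← h0, zero_mul, Real.sqrt_zero, zero_mul]
    apply le_of_forall_pos_le_add
    intro δ hδ
    set A : ℝ := 2 * Dr u K x₀ ρ + (r2 - r1) / 2 with hA
    have hD0 : 0 ≤ Dr u K x₀ ρ := ENNReal.toReal_nonneg
    have hA0 : 0 < A := by rw [hA]; linarith
    set t : ℝ := min (1/2) (δ / A) with ht
    have ht0 : 0 < t := lt_min (by norm_num) (by positivity)
    have h2 := force_balance h h1 h12 hρ hU hγ ht0 (min_le_left _ _)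
    rw [← h0, zero_mul, zero_div, add_zero, ← hA] at h2
    refine h2.trans ?_
    calc t * A ≤ (δ / A) * A := by
          gcongr
          exact min_le_right _ _
      _ = δ := div_mul_cancel₀ _ hA0.ne'
      _ = 0 + δ := (zero_add δ).symm
  · set t : ℝ := Real.sqrt (lam * ρ) with ht
    have hlr : 0 < lam * ρ := by positivity
    have ht0 : 0 < t := Real.sqrt_pos.2 hlr
    have ht1 : t ≤ 1/2 := by
      rw [ht]
      refine (Real.sqrt_le_sqrt hlam).trans ?_
      rw [show (1:ℝ)/4 = (1/2)^2 by norm_num, Real.sqrt_sq (by norm_num)]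
    have h2 := force_balance h h1 h12 hρ hU hγ ht0 ht1
    have e : lam * ρ^2 / t = t * ρ := by
      rw [div_eq_iff ht0.ne']
      have : t * t = lam * ρ := Real.mul_self_sqrt hlr.le
      calc lam * ρ^2 = (lam * ρ) * ρ := by ring
        _ = t * t * ρ := by rw [this]
        _ = t * ρ * t := by ring
    rw [e] at h2
    refine h2.trans (le_of_eq (by ring))

/-- **Exact force balance** for `lam = 0`. -/
theorem force_balance_zero (h : IsQM U 0 u K) (h1 : 0 < r1) (h12 : r1 < r2) (hρ : r2 ≤ ρ)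
    (hU : closedBall x₀ ρ ⊆ U) (hγ : RadCurve K x₀ γ g r1 r2) :
    ∀ᵐ s, s ∈ Ioo r1 r2 → FB u x₀ s = utan g s := by
  have h2 := force_balance_sqrt h h1 h12 hρ hU hγ (by norm_num)
  rw [zero_mul, Real.sqrt_zero, zero_mul] at h2
  have hV : IntervalIntegrable (fun s => FB u x₀ s - utan g s) volume r1 r2 :=
    (intervalIntegrable_FB' h h1.le h12.le hρ hU).sub (utan_intervalIntegrable hγ.curve.int)
  have h3 : ∫ s in r1..r2, ‖FB u x₀ s - utan g s‖ = 0 :=
    le_antisymm h2 (intervalIntegral.integral_nonneg h12.le fun _ _ => norm_nonneg _)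
  rw [intervalIntegral.integral_of_le h12.le, integral_Ioc_eq_integral_Ioo] at h3
  have h4 := (intervalIntegrable_iff_integrableOn_Ioo_of_le h12.le).1 hV
  rw [integral_eq_zero_iff_of_nonneg (fun s => norm_nonneg _) h4.norm] at h3
  have h5 := (ae_restrict_iff' measurableSet_Ioo).1 h3
  filter_upwards [h5] with s hs hs2
  have := hs hs2
  simp only [Pi.zero_apply, norm_eq_zero] at this
  exact sub_eq_zero.1 this

end QM

/-! ### polar form of the curve -/

theorem ac_comp_lip {f : ℝ → ℝ} {φ : ℝ → ℝ} {a b : ℝ} (hf : AbsolutelyContinuousOnInterval f a b)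
    (hφ : ∀ x y, |φ x - φ y| ≤ |x - y|) : AbsolutelyContinuousOnInterval (fun s => φ (f s)) a b := by
  unfold AbsolutelyContinuousOnInterval at hf ⊢
  refine squeeze_zero (fun E => Finset.sum_nonneg fun _ _ => dist_nonneg) (fun E => ?_) hf
  apply Finset.sum_le_sum
  intro i _
  rw [Real.dist_eq, Real.dist_eq]
  exact hφ _ _

theorem ac_congr {f f' : ℝ → ℝ} {a b : ℝ} (hf : AbsolutelyContinuousOnInterval f a b)
    (h : EqOn f f' (uIcc a b)) : AbsolutelyContinuousOnInterval f' a b := by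
  unfold AbsolutelyContinuousOnInterval at hf ⊢
  refine hf.congr' ?_
  have : AbsolutelyContinuousOnInterval.disjWithin a b ∈
      (AbsolutelyContinuousOnInterval.totalLengthFilter ⊓
        𝓟 (AbsolutelyContinuousOnInterval.disjWithin a b)) :=
    mem_inf_of_right (mem_principal_self _)
  filter_upwards [this] with E hE
  apply Finset.sum_congr rfl
  intro i hi
  rw [h (hE.1 i hi).1, h (hE.1 i hi).2]

theorem isPrim_ac {a b : ℝ} (hab : a ≤ b) {F F1 : ℝ → ℝ} (hF : IsPrim a b F F1) :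
    AbsolutelyContinuousOnInterval F a b := by
  have h1 := hF.1.absolutelyContinuousOnInterval_intervalIntegral (c := a) (by simp)
  have hc : AbsolutelyContinuousOnInterval (fun _ : ℝ => F a) a b := by
    exact ((LipschitzWith.const (F a)).lipschitzOnWith (s := uIcc a b)).absolutelyContinuousOnInterval
  have h2 := hc.add h1
  have h3 : EqOn ((fun _ : ℝ => F a) + fun x => ∫ v in a..x, F1 v) F (uIcc a b) := by
    intro s hs
    rw [uIcc_of_le hab] at hs
    simp only [Pi.add_apply]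
    rw [hF.2 s hs]
  exact ac_congr h2 h3

theorem isPrim_of_ac {a b : ℝ} (hab : a ≤ b) {F F1 : ℝ → ℝ}
    (hF : AbsolutelyContinuousOnInterval F a b)
    (hd : ∀ᵐ s, s ∈ uIcc a b → HasDerivAt F (F1 s) s) : IsPrim a b F F1 := by
  have e : ∀ c d, c ∈ uIcc a b → d ∈ uIcc a b → ∀ᵐ s, s ∈ uIoc c d → deriv F s = F1 s := by
    intro c d hc hdd
    filter_upwards [hd] with s hs hs2
    exact (hs (uIcc_subset_uIcc hc hdd (uIoc_subset_uIcc hs2))).deriv
  have hint := hF.intervalIntegrable_deriv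
  refine ⟨?_, ?_⟩
  · refine hint.congr_ae ?_
    have := e a b left_mem_uIcc right_mem_uIcc
    rwa [← ae_restrict_iff' measurableSet_uIoc] at this
  · intro x hx
    have hx' : x ∈ uIcc a b := by rwa [uIcc_of_le hab]
    have h1 := (hF.mono (c := a) (d := x) (uIcc_subset_uIcc left_mem_uIcc hx')).integral_deriv_eq_sub
    rw [intervalIntegral.integral_congr_ae (e a x left_mem_uIcc hx')] at h1
    linarith

end Inner

end Crest.Agent.R135
end
end

-- ▼ part R135/Inner7

/-!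
# R135, block INNER (helper828), part 7: polar form of the curve, components of the force
-/

set_option autoImplicit false

open MeasureTheory Set Filter Topology Metric
open scoped ENNReal NNReal ContDiff Gradient Real

noncomputable section

namespace Crest.Agent.R135

namespace Inner

theorem ae_ne (a : ℝ) : ∀ᵐ s : ℝ, s ≠ a := by simp [ae_iff]

theorem IsPrim_ae_hasDerivAt {a b : ℝ} (hab : a ≤ b) {F F1 : ℝ → ℝ} (hF : IsPrim a b F F1) :
    ∀ᵐ s, s ∈ uIcc a b → HasDerivAt F (F1 s) s := by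
  filter_upwards [hF.1.ae_hasDerivAt_integral, ae_ne a, ae_ne b] with s hs hsa hsb hsm
  have hsm' := hsm
  rw [uIcc_of_le hab] at hsm
  have hs' : s ∈ Ioo a b := ⟨lt_of_le_of_ne hsm.1 (Ne.symm hsa), lt_of_le_of_ne hsm.2 hsb⟩
  have h1 := (hs hsm' a left_mem_uIcc).const_add (F a)
  refine h1.congr_of_eventuallyEq ?_
  filter_upwards [Icc_mem_nhds hs'.1 hs'.2] with x hx
  exact hF.2 x hx

theorem IsPrim_cos {a b : ℝ} (hab : a ≤ b) {θ θ1 : ℝ → ℝ} (h : IsPrim a b θ θ1) :
    IsPrim a b (fun s => Real.cos (θ s)) (fun s => -Real.sin (θ s) * θ1 s) := by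
  apply isPrim_of_ac hab (ac_comp_lip (isPrim_ac hab h) Real.abs_cos_sub_cos_le)
  filter_upwards [IsPrim_ae_hasDerivAt hab h] with s hs hsm
  exact (hs hsm).cos

theorem IsPrim_sin {a b : ℝ} (hab : a ≤ b) {θ θ1 : ℝ → ℝ} (h : IsPrim a b θ θ1) :
    IsPrim a b (fun s => Real.sin (θ s)) (fun s => Real.cos (θ s) * θ1 s) := by
  apply isPrim_of_ac hab (ac_comp_lip (isPrim_ac hab h) Real.abs_sin_sub_sin_le)
  filter_upwards [IsPrim_ae_hasDerivAt hab h] with s hs hsm
  exact (hs hsm).sin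

theorem isPrim_id {a b : ℝ} (hab : a ≤ b) : IsPrim a b (fun s => s) (fun _ => 1) :=
  isPrim_of_hasDerivAt hab (fun x _ => hasDerivAt_id x) continuousOn_const

/-- derivative of the curve in polar form -/
def pder (θ θ1 : ℝ → ℝ) (r : ℝ) : E2 := dir (θ r) + (r * θ1 r) • tau (θ r)

theorem isPrim_sub {a b : ℝ} {F F1 : ℝ → ℝ} (hF : IsPrim a b F F1) {s s' : ℝ}
    (hs : s ∈ Icc a b) (hs' : s' ∈ Icc a b) : F s' - F s = ∫ r in s..s', F1 r := by
  have i1 : IntervalIntegrable F1 volume a s := hF.1.mono_set (by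
    rw [uIcc_of_le hs.1, uIcc_of_le (hs.1.trans hs.2)]; exact Icc_subset_Icc le_rfl hs.2)
  have i2 : IntervalIntegrable F1 volume a s' := hF.1.mono_set (by
    rw [uIcc_of_le hs'.1, uIcc_of_le (hs.1.trans hs.2)]; exact Icc_subset_Icc le_rfl hs'.2)
  rw [hF.2 s hs, hF.2 s' hs', ← intervalIntegral.integral_interval_sub_left i2 i1]
  ring

theorem aCurve_of_comp {a b : ℝ} (hab : a ≤ b) {γ g : ℝ → E2}
    (h0 : IsPrim a b (fun r => γ r 0) (fun r => g r 0))
    (h1 : IsPrim a b (fun r => γ r 1) (fun r => g r 1)) : ACurve γ g a b := by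
  have hint : IntervalIntegrable g volume a b := by
    have e : g = fun r => (g r 0) • (EuclideanSpace.single 0 1 : E2) +
        (g r 1) • (EuclideanSpace.single 1 1 : E2) := by
      funext r
      apply ext_E2 <;> simp
    rw [e]
    have j0 : IntervalIntegrable (fun r => (g r 0) • (EuclideanSpace.single 0 1 : E2)) volume a b :=
      ⟨Integrable.smul_const h0.1.1 _, Integrable.smul_const h0.1.2 _⟩
    have j1 : IntervalIntegrable (fun r => (g r 1) • (EuclideanSpace.single 1 1 : E2)) volume a b :=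
      ⟨Integrable.smul_const h1.1.1 _, Integrable.smul_const h1.1.2 _⟩
    exact j0.add j1
  refine ⟨hint, ?_⟩
  intro s hs s' hs'
  have is : IntervalIntegrable g volume s s' := hint.mono_set (by
    rw [uIcc_of_le hab]; exact uIcc_subset_Icc hs hs')
  have hc : ∀ i : Fin 2, (∫ r in s..s', g r) i = ∫ r in s..s', g r i := by
    intro i
    exact ((EuclideanSpace.proj i : E2 →L[ℝ] ℝ).intervalIntegral_comp_comm is).symm
  apply ext_E2
  · rw [hc 0, PiLp.sub_apply]
    exact isPrim_sub h0 hs hs'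
  · rw [hc 1, PiLp.sub_apply]
    exact isPrim_sub h1 hs hs'

theorem curve_polar (x₀ : E2) {a b : ℝ} (hab : a ≤ b) {θ θ1 : ℝ → ℝ} (h : IsPrim a b θ θ1) :
    ACurve (fun r => cpt x₀ r (θ r)) (pder θ θ1) a b := by
  have hc := ((IsPrim_cos hab h).mul hab (isPrim_id hab)).add_const (x₀ 0)
  have hs := ((IsPrim_sin hab h).mul hab (isPrim_id hab)).add_const (x₀ 1)
  apply aCurve_of_comp hab
  · convert! hc using 2 with r r
    · simp [cpt]; ring
    · simp [pder]; ring
  · convert! hs using 2 with r r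
    · simp [cpt]; ring
    · simp [pder]; ring

theorem norm_sq_pder (θ θ1 : ℝ → ℝ) (r : ℝ) : ‖pder θ θ1 r‖ ^ 2 = 1 + (r * θ1 r) ^ 2 := by
  unfold pder
  rw [norm_add_sq_real, inner_smul_right, inner_dir_tau, norm_smul, norm_dir, norm_tau,
    Real.norm_eq_abs, mul_one, sq_abs]
  ring

theorem norm_pder (θ θ1 : ℝ → ℝ) (r : ℝ) : ‖pder θ θ1 r‖ = Real.sqrt (1 + (r * θ1 r) ^ 2) := by
  rw [← norm_sq_pder, Real.sqrt_sq (norm_nonneg _)]

theorem inner_utan_dir (θ θ1 : ℝ → ℝ) (r : ℝ) :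
    inner ℝ (utan (pder θ θ1) r) (dir (θ r)) = 1 / Real.sqrt (1 + (r * θ1 r) ^ 2) := by
  unfold utan
  rw [inner_smul_left, norm_pder]
  unfold pder
  rw [inner_add_left, inner_smul_left, real_inner_comm (dir (θ r)) (tau (θ r)), inner_dir_tau,
    real_inner_self_eq_norm_sq, norm_dir]
  simp

theorem inner_utan_tau (θ θ1 : ℝ → ℝ) (r : ℝ) :
    inner ℝ (utan (pder θ θ1) r) (tau (θ r)) = (r * θ1 r) / Real.sqrt (1 + (r * θ1 r) ^ 2) := by
  unfold utan
  rw [inner_smul_left, norm_pder]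
  unfold pder
  rw [inner_add_left, inner_smul_left, inner_dir_tau,
    real_inner_self_eq_norm_sq, norm_tau]
  simp
  ring

/-- `K` as a polar graph in the annulus -/
theorem radCurve_polar {K : Set E2} {x₀ : E2} {r1 r2 : ℝ} (h1 : 0 < r1) (h12 : r1 ≤ r2)
    {θ θ1 : ℝ → ℝ} (hθ : IsPrim r1 r2 θ θ1)
    (hK : K ∩ {y | r1 ≤ ‖y - x₀‖ ∧ ‖y - x₀‖ ≤ r2} = (fun r => cpt x₀ r (θ r)) '' Icc r1 r2) :
    RadCurve K x₀ (fun r => cpt x₀ r (θ r)) (pder θ θ1) r1 r2 where
  curve := curve_polar x₀ h12 hθ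
  rad := fun r hr => by
    rw [← dist_eq_norm, dist_cpt, abs_of_pos (h1.trans_le hr.1)]
  eqK := hK

/-! ### components of the force -/

/-- tangential derivative on the circle, cut at the angle `α`, scaled -/
def cF1 (u : E2 → ℝ) (x₀ : E2) (r α : ℝ) (φ : ℝ) : ℝ :=
  Real.sqrt r * inner ℝ (∇ u (cpt x₀ r (α + φ))) (tau (α + φ))

/-- normal derivative on the circle, cut at the angle `α`, scaled -/
def cH (u : E2 → ℝ) (x₀ : E2) (r α : ℝ) (φ : ℝ) : ℝ :=
  Real.sqrt r * inner ℝ (∇ u (cpt x₀ r (α + φ))) (dir (α + φ))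

theorem inner_tau_dir (θ α : ℝ) : inner ℝ (tau θ) (dir α) = - Real.sin (θ - α) := by
  rw [inner_E2, Real.sin_sub]; simp; ring

theorem inner_dir_tau' (θ α : ℝ) : inner ℝ (dir θ) (tau α) = Real.sin (θ - α) := by
  rw [inner_E2, Real.sin_sub]; simp; ring

theorem inner_tau_tau (θ α : ℝ) : inner ℝ (tau θ) (tau α) = Real.cos (θ - α) := by
  rw [inner_E2, Real.cos_sub]; simp; ring

theorem frame_decomp (v : E2) (θ : ℝ) :
    v = (inner ℝ v (dir θ)) • dir θ + (inner ℝ v (tau θ)) • tau θ := by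
  have h := Real.sin_sq_add_cos_sq θ
  apply ext_E2
  · rw [inner_E2, inner_E2]
    simp
    linear_combination (- v 0) * h
  · rw [inner_E2, inner_E2]
    simp
    linear_combination (- v 1) * h

theorem stress_dir (u : E2 → ℝ) (x₀ : E2) {r : ℝ} (hr : 0 < r) (α φ : ℝ) :
    r * inner ℝ (stress u x₀ (cpt x₀ r (α + φ))) (dir α) =
      (cH u x₀ r α φ ^ 2 - cF1 u x₀ r α φ ^ 2) * Real.cos φ -
        2 * cH u x₀ r α φ * cF1 u x₀ r α φ * Real.sin φ := by
  have hs : Real.sqrt r ^ 2 = r := Real.sq_sqrt hr.le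
  unfold stress cH cF1
  rw [nu_cpt x₀ hr, inner_sub_left, inner_smul_left, inner_smul_left, inner_dir_dir]
  set p := ∇ u (cpt x₀ r (α + φ)) with hp
  have e1 : inner ℝ p (dir α) = inner ℝ p (dir (α + φ)) * Real.cos φ
      - inner ℝ p (tau (α + φ)) * Real.sin φ := by
    conv_lhs => rw [frame_decomp p (α + φ)]
    rw [inner_add_left, inner_smul_left, inner_smul_left, inner_dir_dir, inner_tau_dir,
      add_sub_cancel_left]
    simp only [conj_trivial]
    ring
  rw [e1, norm_sq_frame p (α + φ), add_sub_cancel_left]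
  simp only [conj_trivial]
  linear_combination (-(inner ℝ p (dir (α + φ)) ^ 2 - inner ℝ p (tau (α + φ)) ^ 2) * Real.cos φ +
    2 * inner ℝ p (dir (α + φ)) * inner ℝ p (tau (α + φ)) * Real.sin φ) * hs

theorem stress_tau (u : E2 → ℝ) (x₀ : E2) {r : ℝ} (hr : 0 < r) (α φ : ℝ) :
    r * inner ℝ (stress u x₀ (cpt x₀ r (α + φ))) (tau α) =
      (cH u x₀ r α φ ^ 2 - cF1 u x₀ r α φ ^ 2) * Real.sin φ +
        2 * cH u x₀ r α φ * cF1 u x₀ r α φ * Real.cos φ := by
  have hs : Real.sqrt r ^ 2 = r := Real.sq_sqrt hr.le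
  unfold stress cH cF1
  rw [nu_cpt x₀ hr, inner_sub_left, inner_smul_left, inner_smul_left, inner_dir_tau']
  set p := ∇ u (cpt x₀ r (α + φ)) with hp
  have e1 : inner ℝ p (tau α) = inner ℝ p (dir (α + φ)) * Real.sin φ
      + inner ℝ p (tau (α + φ)) * Real.cos φ := by
    conv_lhs => rw [frame_decomp p (α + φ)]
    rw [inner_add_left, inner_smul_left, inner_smul_left, inner_dir_tau', inner_tau_tau,
      add_sub_cancel_left]
    simp only [conj_trivial]
  rw [e1, norm_sq_frame p (α + φ), add_sub_cancel_left]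
  simp only [conj_trivial]
  linear_combination (-(inner ℝ p (dir (α + φ)) ^ 2 - inner ℝ p (tau (α + φ)) ^ 2) * Real.sin φ -
    2 * inner ℝ p (dir (α + φ)) * inner ℝ p (tau (α + φ)) * Real.cos φ) * hs

theorem inner_FB (u : E2 → ℝ) (x₀ : E2) {r : ℝ} (_hr : 0 < r) (α : ℝ) (v : E2)
    (hi : IntervalIntegrable (fun θ => stress u x₀ (cpt x₀ r θ)) volume (-π) π) :
    inner ℝ (FB u x₀ r) v = ∫ φ in (0:ℝ)..(2*π), r * inner ℝ (stress u x₀ (cpt x₀ r (α + φ))) v := by
  have h1 : inner ℝ (FB u x₀ r) v = r * ∫ θ in (-π)..π, inner ℝ (stress u x₀ (cpt x₀ r θ)) v := by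
    unfold FB circI
    rw [inner_smul_left, conj_trivial, real_inner_comm]
    congr 1
    have := (innerSL ℝ v).intervalIntegral_comp_comm hi
    simp only [innerSL_apply_apply] at this
    rw [← this]
    congr 1
    funext θ
    rw [real_inner_comm]
  rw [h1, intervalIntegral.integral_const_mul]
  congr 1
  have h2 := circI_eq_shift (fun y => inner ℝ (stress u x₀ y) v) x₀ r α
  unfold circI at h2
  rw [h2, intervalIntegral.integral_comp_add_left (fun θ => inner ℝ (stress u x₀ (cpt x₀ r θ)) v) α,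
    add_zero]

/-- radial component of the force -/
theorem FB_dir (u : E2 → ℝ) (x₀ : E2) {r : ℝ} (hr : 0 < r) (α : ℝ)
    (hi : IntervalIntegrable (fun θ => stress u x₀ (cpt x₀ r θ)) volume (-π) π) :
    inner ℝ (FB u x₀ r) (dir α) = CrackAlg.cR (cF1 u x₀ r α) (cH u x₀ r α) := by
  rw [inner_FB u x₀ hr α _ hi]
  unfold CrackAlg.cR
  apply intervalIntegral.integral_congr
  intro φ _
  exact stress_dir u x₀ hr α φ

/-- tangential component of the force -/
theorem FB_tau (u : E2 → ℝ) (x₀ : E2) {r : ℝ} (hr : 0 < r) (α : ℝ)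
    (hi : IntervalIntegrable (fun θ => stress u x₀ (cpt x₀ r θ)) volume (-π) π) :
    inner ℝ (FB u x₀ r) (tau α) = CrackAlg.cT (cF1 u x₀ r α) (cH u x₀ r α) := by
  rw [inner_FB u x₀ hr α _ hi]
  unfold CrackAlg.cT
  apply intervalIntegral.integral_congr
  intro φ _
  exact stress_tau u x₀ hr α φ

section QM

variable {U K : Set E2} {lam : ℝ} {u : E2 → ℝ} {x₀ : E2} {ρ : ℝ}

theorem ae_stress_integrable (h : IsQM U lam u K) (hU : closedBall x₀ ρ ⊆ U) :
    ∀ᵐ r, r ∈ Ioo 0 ρ →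
      IntervalIntegrable (fun θ => stress u x₀ (cpt x₀ r θ)) volume (-π) π := by
  have h1 := ae_integrableOn_circle_ball x₀ (integrableOn_stress h hU)
  rwa [ae_restrict_iff' measurableSet_Ioo] at h1

/-- the force error -/
def ferr (u : E2 → ℝ) (x₀ : E2) (θ θ1 : ℝ → ℝ) (s : ℝ) : ℝ := ‖FB u x₀ s - utan (pder θ θ1) s‖


/-- **radial and tangential force balance at almost every radius**, with error `ferr`. -/
theorem force_components (h : IsQM U lam u K) (hU : closedBall x₀ ρ ⊆ U) (θ θ1 : ℝ → ℝ) :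
    ∀ᵐ r, r ∈ Ioo 0 ρ →
      |CrackAlg.cR (cF1 u x₀ r (θ r)) (cH u x₀ r (θ r)) - 1 / Real.sqrt (1 + (r * θ1 r)^2)| ≤
          ferr u x₀ θ θ1 r ∧
      |CrackAlg.cT (cF1 u x₀ r (θ r)) (cH u x₀ r (θ r)) - (r * θ1 r) / Real.sqrt (1 + (r * θ1 r)^2)| ≤
          ferr u x₀ θ θ1 r := by
  filter_upwards [ae_stress_integrable h hU] with r hr hrm
  have hi := hr hrm
  have hr0 : 0 < r := hrm.1
  constructor
  · rw [← FB_dir u x₀ hr0 (θ r) hi, ← inner_utan_dir θ θ1 r, ← inner_sub_left]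
    refine (abs_real_inner_le_norm _ _).trans ?_
    rw [norm_dir, mul_one]
    exact le_rfl
  · rw [← FB_tau u x₀ hr0 (θ r) hi, ← inner_utan_tau θ θ1 r, ← inner_sub_left]
    refine (abs_real_inner_le_norm _ _).trans ?_
    rw [norm_tau, mul_one]
    exact le_rfl

/-- the force error is interval integrable on compact subintervals -/
theorem ferr_intervalIntegrable {r1 r2 : ℝ} (h : IsQM U lam u K) (h1 : 0 < r1) (h12 : r1 ≤ r2)
    (hρ : r2 ≤ ρ) (hU : closedBall x₀ ρ ⊆ U) {θ θ1 : ℝ → ℝ} (hθ : IsPrim r1 r2 θ θ1) :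
    IntervalIntegrable (ferr u x₀ θ θ1) volume r1 r2 :=
  ((intervalIntegrable_FB' h h1.le h12 hρ hU).sub
    (utan_intervalIntegrable (curve_polar x₀ h12 hθ).int)).norm

/-- **averaged force balance for a polar graph** -/
theorem ferr_integral_le {r1 r2 : ℝ} (h : IsQM U lam u K) (h1 : 0 < r1) (h12 : r1 < r2)
    (hρ : r2 ≤ ρ) (hU : closedBall x₀ ρ ⊆ U) {θ θ1 : ℝ → ℝ} (hθ : IsPrim r1 r2 θ θ1)
    (hK : K ∩ {y | r1 ≤ ‖y - x₀‖ ∧ ‖y - x₀‖ ≤ r2} = (fun r => cpt x₀ r (θ r)) '' Icc r1 r2)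
    (hlam : lam * ρ ≤ 1/4) :
    ∫ s in r1..r2, ferr u x₀ θ θ1 s ≤
      Real.sqrt (lam * ρ) * (2 * Dr u K x₀ ρ + (r2 - r1) / 2 + ρ) :=
  force_balance_sqrt h h1 h12 hρ hU (radCurve_polar h1 h12.le hθ hK) hlam

/-- exact force balance for `lam = 0` -/
theorem force_components_zero {r1 r2 : ℝ} (h : IsQM U 0 u K) (h1 : 0 < r1) (h12 : r1 < r2)
    (hρ : r2 ≤ ρ) (hU : closedBall x₀ ρ ⊆ U) {θ θ1 : ℝ → ℝ} (hθ : IsPrim r1 r2 θ θ1)
    (hK : K ∩ {y | r1 ≤ ‖y - x₀‖ ∧ ‖y - x₀‖ ≤ r2} = (fun r => cpt x₀ r (θ r)) '' Icc r1 r2) :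
    ∀ᵐ r, r ∈ Ioo r1 r2 →
      CrackAlg.cR (cF1 u x₀ r (θ r)) (cH u x₀ r (θ r)) = 1 / Real.sqrt (1 + (r * θ1 r)^2) ∧
      CrackAlg.cT (cF1 u x₀ r (θ r)) (cH u x₀ r (θ r)) =
        (r * θ1 r) / Real.sqrt (1 + (r * θ1 r)^2) := by
  filter_upwards [ae_stress_integrable h hU,
    force_balance_zero h h1 h12 hρ hU (radCurve_polar h1 h12.le hθ hK)] with r hr hr2 hrm
  have hr0 : 0 < r := h1.trans hrm.1
  have hi := hr ⟨hr0, hrm.2.trans_le hρ⟩
  have e := hr2 hrm
  constructor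
  · rw [← FB_dir u x₀ hr0 (θ r) hi, ← inner_utan_dir θ θ1 r, e]
  · rw [← FB_tau u x₀ hr0 (θ r) hi, ← inner_utan_tau θ θ1 r, e]

end QM

end Inner

end Crest.Agent.R135
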