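import Mathlib
import Crest.Agent.R135.QMCirc4

/-!
R135 block B4, part 5 (helper980): Bonnet inequalities on good circles.
-/

set_option autoImplicit false

open MeasureTheory Set Filter Topology Metric
open scoped ENNReal NNReal ContDiff Gradient RealInnerProductSpace

namespace Crest.Agent.R135.QMC

variable {U : Set E2} {lam : ℝ} {u : E2 → ℝ} {K : Set E2} {x : E2} {R : ℝ} {f φ c : E2 → ℝ}


/-- One arc without crack points. -/
theorem arc_bound {G : E2 → E2} {v : E2 → ℝ} {t : ℝ} (hg : GoodCirc K G x t) {a b : ℝ}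
    (hab : a < b) (hv : ∀ θ ∈ Ioo a b, HasGradientAt v (G (cpt x t θ)) (cpt x t θ)) {M δ : ℝ}
    (hM : ∀ θ ∈ Ioo a b, |v (cpt x t θ)| ≤ M)
    (hδ : |t * ∫ θ in a..b, ⟪G (cpt x t θ), dir θ⟫| ≤ δ) :
    IntervalIntegrable (fun θ => v (cpt x t θ) * ⟪G (cpt x t θ), dir θ⟫) volume a b ∧
    t * ∫ θ in a..b, v (cpt x t θ) * ⟪G (cpt x t θ), dir θ⟫
      ≤ (1/2) * ((b - a) / Real.pi) * (t ^ 2 * ∫ θ in a..b, ‖G (cpt x t θ)‖ ^ 2) + M * δ := by
  obtain ⟨F, hF, hFe⟩ := hg.exists_isPrim hab hv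
  set H : ℝ → ℝ := fun θ => t * ⟪G (cpt x t θ), dir θ⟫ with hH
  have hHL : IsL2 a b H := (hg.isL2_dir a b).const_mul t
  have hF1 : IsL2 a b (fun θ => t * ⟪G (cpt x t θ), tau θ⟫) := (hg.isL2_tau a b).const_mul t
  have hba : 0 < b - a := by linarith
  set hb : ℝ := (b - a)⁻¹ * ∫ θ in a..b, H θ with hhb
  have hconst : IsL2 a b (fun _ => hb) := isL2_of_continuousOn continuousOn_const
  have hH' : IsL2 a b (fun θ => H θ - hb) := hHL.sub hconst
  have hHi := hHL.intervalIntegrable hab.le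
  have hFi := (hF.isL2 hab.le).intervalIntegrable hab.le
  have hmean : ∫ θ in a..b, (H θ - hb) = 0 := by
    rw [intervalIntegral.integral_sub hHi intervalIntegrable_const,
      intervalIntegral.integral_const, hhb, smul_eq_mul]
    field_simp
    ring
  have key := arc_ineq hab hF hF1 hH' hmean
  -- `∫ (H - hb)² ≤ ∫ H²`
  have hsq : ∫ θ in a..b, (H θ - hb) ^ 2 ≤ ∫ θ in a..b, H θ ^ 2 := by
    have e1 : ∫ θ in a..b, (H θ - hb) ^ 2
        = (∫ θ in a..b, H θ ^ 2) - 2 * hb * (∫ θ in a..b, H θ) + (b - a) * hb ^ 2 := by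
      have e2 : (fun θ => (H θ - hb) ^ 2) = fun θ => (H θ ^ 2 - 2 * hb * H θ) + hb ^ 2 := by
        funext θ; ring
      rw [e2, intervalIntegral.integral_add ((hHL.sq hab.le).sub (hHi.const_mul _))
        intervalIntegrable_const, intervalIntegral.integral_sub (hHL.sq hab.le) (hHi.const_mul _),
        intervalIntegral.integral_const_mul, intervalIntegral.integral_const, smul_eq_mul]
    have e3 : ∫ θ in a..b, H θ = (b - a) * hb := by
      rw [hhb]; field_simp
    rw [e1, e3]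
    nlinarith [mul_nonneg hba.le (sq_nonneg hb)]
  -- `∫ F`
  have hFb : |∫ θ in a..b, F θ| ≤ M * (b - a) := by
    have h1 := intervalIntegral.norm_integral_le_of_norm_le_const_ae (a := a) (b := b) (C := M)
      (f := F) (by
        have h2 : ∀ᵐ θ : ℝ, θ ≠ b := by
          simp [ae_iff, measure_singleton]
        filter_upwards [h2] with θ hθ hm
        rw [uIoc_of_le hab.le] at hm
        have h3 : θ ∈ Ioo a b := ⟨hm.1, lt_of_le_of_ne hm.2 hθ⟩
        rw [hFe h3, Real.norm_eq_abs]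
        exact hM θ h3)
    rwa [Real.norm_eq_abs, abs_of_pos hba] at h1
  have hM0 : 0 ≤ M := (abs_nonneg _).trans (hM ((a + b) / 2) ⟨by linarith, by linarith⟩)
  have hHint : ∫ θ in a..b, H θ = t * ∫ θ in a..b, ⟪G (cpt x t θ), dir θ⟫ :=
    intervalIntegral.integral_const_mul _ _
  have hbF : |hb * ∫ θ in a..b, F θ| ≤ M * δ := by
    rw [abs_mul, hhb, abs_mul, abs_of_pos (inv_pos.2 hba), hHint]
    calc (b - a)⁻¹ * |t * ∫ θ in a..b, ⟪G (cpt x t θ), dir θ⟫| * |∫ θ in a..b, F θ|
        ≤ (b - a)⁻¹ * δ * (M * (b - a)) := by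
          apply mul_le_mul _ hFb (abs_nonneg _)
          · exact mul_nonneg (inv_pos.2 hba).le ((abs_nonneg _).trans hδ)
          · exact mul_le_mul_of_nonneg_left hδ (inv_pos.2 hba).le
      _ = M * δ := by field_simp
  have hFH := (hF.isL2 hab.le).mul hab.le hH'
  have hFHH := (hF.isL2 hab.le).mul hab.le hHL
  have e4 : ∫ θ in a..b, F θ * H θ = (∫ θ in a..b, F θ * (H θ - hb)) + hb * ∫ θ in a..b, F θ := by
    rw [← intervalIntegral.integral_const_mul, ← intervalIntegral.integral_add hFH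
      (hFi.const_mul _)]
    refine intervalIntegral.integral_congr fun θ _ => ?_
    ring
  have e5 : EqOn (fun θ => F θ * H θ)
      (fun θ => v (cpt x t θ) * (t * ⟪G (cpt x t θ), dir θ⟫)) (Ioo a b) := by
    intro θ hθ
    simp only [hFe hθ, hH]
  have e6 : ∫ θ in a..b, F θ * H θ = t * ∫ θ in a..b, v (cpt x t θ) * ⟪G (cpt x t θ), dir θ⟫ := by
    rw [← intervalIntegral.integral_const_mul]
    rw [intervalIntegral.integral_of_le hab.le, intervalIntegral.integral_of_le hab.le,
      integral_Ioc_eq_integral_Ioo, integral_Ioc_eq_integral_Ioo]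
    refine setIntegral_congr_fun measurableSet_Ioo fun θ hθ => ?_
    have := e5 hθ
    simp only at this
    rw [this]; ring
  have e7 : (∫ θ in a..b, (t * ⟪G (cpt x t θ), tau θ⟫) ^ 2) + (∫ θ in a..b, H θ ^ 2)
      = t ^ 2 * ∫ θ in a..b, ‖G (cpt x t θ)‖ ^ 2 := by
    rw [hg.integral_sq_split hab.le]
    simp only [hH, mul_pow]
    rw [intervalIntegral.integral_const_mul, intervalIntegral.integral_const_mul]
    ring
  constructor
  · have h1 : IntervalIntegrable (fun θ => v (cpt x t θ) * (t * ⟪G (cpt x t θ), dir θ⟫))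
        volume a b := by
      rw [intervalIntegrable_iff_integrableOn_Ioo_of_le hab.le] at hFHH ⊢
      exact hFHH.congr_fun e5 measurableSet_Ioo
    have h2 := h1.const_mul t⁻¹
    refine h2.congr ?_
    intro θ _
    have := hg.pos.ne'
    field_simp
  · rw [← e6, e4]
    have k1 := (abs_le.1 key).2
    have k2 := (abs_le.1 hbF).2
    have hc : 0 ≤ (1/2 : ℝ) * ((b - a) / Real.pi) := by positivity
    have k3 := mul_le_mul_of_nonneg_left hsq hc
    have k4 : (1/2 : ℝ) * ((b - a) / Real.pi) * (t ^ 2 * ∫ θ in a..b, ‖G (cpt x t θ)‖ ^ 2)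
        = (1/2 : ℝ) * ((b - a) / Real.pi) * (∫ θ in a..b, ((t * ⟪G (cpt x t θ), tau θ⟫) ^ 2))
          + (1/2 : ℝ) * ((b - a) / Real.pi) * ∫ θ in a..b, H θ ^ 2 := by
      rw [← e7]; ring
    rw [k4]
    rw [mul_add] at k1
    linarith

/-- Sum over the arcs of a good circle which meets `K`. -/
theorem circle_bound {G : E2 → E2} {v : E2 → ℝ} {t : ℝ} (hg : GoodCirc K G x t)
    (hne : (K ∩ sphere x t).Nonempty)
    (hv : ∀ y ∈ sphere x t \ K, HasGradientAt v (G y) y) {M δ A : ℝ}
    (hM : ∀ y ∈ sphere x t \ K, |v y| ≤ M)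
    (hδ : ∀ a b, IsArc K x t a b → |t * ∫ θ in a..b, ⟪G (cpt x t θ), dir θ⟫| ≤ δ)
    (hA : ∀ a b, IsArc K x t a b → b - a ≤ A) :
    t * ∫ θ in (-Real.pi)..Real.pi, v (cpt x t θ) * ⟪G (cpt x t θ), dir θ⟫
      ≤ A / (2 * Real.pi) * (t ^ 2 * circI (fun y => ‖G y‖ ^ 2) x t)
        + M * δ * (K ∩ sphere x t).ncard := by
  obtain ⟨n, θ, hn, hcard, hlt, hend, hwin, hKi, hfree, -⟩ := exists_arcs hg.pos hg.fin hne
  have hmono : ∀ i j, i ≤ j → j ≤ n → θ i ≤ θ j := by
    intro i j hij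
    induction j, hij using Nat.le_induction with
    | base => intro _; exact le_rfl
    | succ j hij ih =>
      intro hj
      exact (ih (by omega)).trans (hlt j (by omega)).le
  have harc : ∀ i < n, IsArc K x t (θ i) (θ (i + 1)) := by
    intro i hi
    refine ⟨hlt i hi, ?_, hKi i hi.le, hKi (i + 1) hi, hfree i hi⟩
    have h1 := hmono (i + 1) n hi le_rfl
    have h2 := hmono 0 i (Nat.zero_le _) hi.le
    linarith
  have hfree' : ∀ i < n, ∀ φ ∈ Ioo (θ i) (θ (i + 1)), cpt x t φ ∈ sphere x t \ K :=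
    fun i hi φ hφ => ⟨cpt_mem_sphere hg.pos.le, hfree i hi φ hφ⟩
  have hb : ∀ i < n, _ := fun i hi => arc_bound (M := M) (δ := δ) hg (hlt i hi)
    (fun φ hφ => hv _ (hfree' i hi φ hφ)) (fun φ hφ => hM _ (hfree' i hi φ hφ))
    (hδ _ _ (harc i hi))
  have hM0 : 0 ≤ M := by
    have h0 := hlt 0 hn
    exact (abs_nonneg _).trans (hM _ (hfree' 0 hn ((θ 0 + θ (0 + 1)) / 2)
      ⟨by linarith, by linarith⟩))
  -- sum of the left-hand sides
  have hper : Function.Periodic (fun θ => v (cpt x t θ) * ⟪G (cpt x t θ), dir θ⟫)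
      (2 * Real.pi) := by
    intro φ
    simp only [cpt_periodic x t φ, dir_periodic φ]
  have s1 : ∑ i ∈ Finset.range n, ∫ φ in θ i..θ (i + 1), v (cpt x t φ) * ⟪G (cpt x t φ), dir φ⟫
      = ∫ φ in (-Real.pi)..Real.pi, v (cpt x t φ) * ⟪G (cpt x t φ), dir φ⟫ := by
    rw [intervalIntegral.sum_integral_adjacent_intervals (fun k hk => (hb k hk).1), hend,
      hper.intervalIntegral_add_eq (θ 0) (-Real.pi)]
    congr 1
    ring
  have s2 : ∑ i ∈ Finset.range n, ∫ φ in θ i..θ (i + 1), ‖G (cpt x t φ)‖ ^ 2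
      = circI (fun y => ‖G y‖ ^ 2) x t :=
    sum_arcs_circI (f := fun y => ‖G y‖ ^ 2) (fun a b => hg.intervalIntegrable_sq a b) hend
  rw [← s1, Finset.mul_sum]
  calc ∑ i ∈ Finset.range n, t * ∫ φ in θ i..θ (i + 1), v (cpt x t φ) * ⟪G (cpt x t φ), dir φ⟫
      ≤ ∑ i ∈ Finset.range n, (A / (2 * Real.pi)
          * (t ^ 2 * ∫ φ in θ i..θ (i + 1), ‖G (cpt x t φ)‖ ^ 2) + M * δ) := by
        refine Finset.sum_le_sum fun i hi => ?_
        rw [Finset.mem_range] at hi
        refine (hb i hi).2.trans ?_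
        have h1 : (1/2 : ℝ) * ((θ (i + 1) - θ i) / Real.pi) ≤ A / (2 * Real.pi) := by
          have h3 := hA _ _ (harc i hi)
          have h4 : A / (2 * Real.pi) = 1 / 2 * (A / Real.pi) := by
            have := Real.pi_pos.ne'
            field_simp
          rw [h4]
          have hpi := Real.pi_pos
          gcongr
        have h2 : 0 ≤ t ^ 2 * ∫ φ in θ i..θ (i + 1), ‖G (cpt x t φ)‖ ^ 2 :=
          mul_nonneg (sq_nonneg _) (intervalIntegral.integral_nonneg (hlt i hi).le
            fun φ _ => by positivity)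
        have := mul_le_mul_of_nonneg_right h1 h2
        linarith
    _ = A / (2 * Real.pi) * (t ^ 2 * circI (fun y => ‖G y‖ ^ 2) x t)
        + M * δ * (K ∩ sphere x t).ncard := by
        rw [Finset.sum_add_distrib, ← Finset.mul_sum, ← Finset.mul_sum, s2, Finset.sum_const,
          Finset.card_range, nsmul_eq_mul, ← hcard]
        ring

/-- periodic Wirtinger inequality (constant one), for some constant `m` -/
theorem wirt_periodic {v v1 : ℝ → ℝ} (hper : Function.Periodic v (2 * Real.pi))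
    (hv : ∀ θ, HasDerivAt v (v1 θ) θ) (hc : Continuous v1) :
    ∃ m θ0 : ℝ, ∫ θ in θ0..(θ0 + 2 * Real.pi), (v θ - m) ^ 2
      ≤ ∫ θ in θ0..(θ0 + 2 * Real.pi), v1 θ ^ 2 := by
  have hvc : Continuous v := continuous_iff_continuousAt.2 fun θ => (hv θ).continuousAt
  have hpi := Real.pi_pos
  -- antipodal points with the same value
  obtain ⟨θ0, -, hθ0⟩ : ∃ θ0 ∈ Icc 0 Real.pi, v θ0 - v (θ0 + Real.pi) = 0 := by
    have hg : ContinuousOn (fun θ => v θ - v (θ + Real.pi)) (Icc 0 Real.pi) := by fun_prop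
    have h0 : v (0 + Real.pi) = v Real.pi := by rw [zero_add]
    have h1 : v (Real.pi + Real.pi) = v 0 := by
      have := hper 0
      rw [zero_add] at this
      rw [← this]; congr 1; ring
    rcases le_total (v 0 - v (0 + Real.pi)) 0 with h | h
    · have := intermediate_value_Icc hpi.le hg
      obtain ⟨θ, hθ, h2⟩ := this (show (0:ℝ) ∈ Icc _ _ from ⟨h, by
        simp only [h1]; rw [h0] at h; linarith⟩)
      exact ⟨θ, hθ, h2⟩
    · have := intermediate_value_Icc' hpi.le hg
      obtain ⟨θ, hθ, h2⟩ := this (show (0:ℝ) ∈ Icc _ _ from ⟨by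
        simp only [h1]; rw [h0] at h; linarith, h⟩)
      exact ⟨θ, hθ, h2⟩
  set m := v θ0 with hm
  have hm1 : v (θ0 + Real.pi) = m := by linarith
  have hm2 : v (θ0 + 2 * Real.pi) = m := hper θ0
  refine ⟨m, θ0, ?_⟩
  have hd : ∀ θ, HasDerivAt (fun θ => v θ - m) (v1 θ) θ := fun θ => (hv θ).sub_const m
  have w1 := wirt_dirichlet (a := θ0) (b := θ0 + Real.pi) (by linarith) (P := fun θ => v θ - m)
    (P1 := v1) (fun θ _ => hd θ) hc.continuousOn (by simp [hm]) (by simp [hm1])
  have w2 := wirt_dirichlet (a := θ0 + Real.pi) (b := θ0 + 2 * Real.pi) (by linarith)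
    (P := fun θ => v θ - m)
    (P1 := v1) (fun θ _ => hd θ) hc.continuousOn (by simp [hm1]) (by simp [hm2])
  have c1 : ((θ0 + Real.pi - θ0) / Real.pi) ^ 2 = 1 := by
    rw [add_sub_cancel_left, div_self hpi.ne']; norm_num
  have c2 : ((θ0 + 2 * Real.pi - (θ0 + Real.pi)) / Real.pi) ^ 2 = 1 := by
    have : θ0 + 2 * Real.pi - (θ0 + Real.pi) = Real.pi := by ring
    rw [this, div_self hpi.ne']; norm_num
  rw [c1, one_mul] at w1
  rw [c2, one_mul] at w2
  have i1 : ∀ a b, IntervalIntegrable (fun θ => (v θ - m) ^ 2) volume a b := fun a b =>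
    (by fun_prop : Continuous fun θ => (v θ - m) ^ 2).intervalIntegrable a b
  have i2 : ∀ a b, IntervalIntegrable (fun θ => v1 θ ^ 2) volume a b := fun a b =>
    (by fun_prop : Continuous fun θ => v1 θ ^ 2).intervalIntegrable a b
  rw [← intervalIntegral.integral_add_adjacent_intervals (i1 θ0 (θ0 + Real.pi)) (i1 _ _),
    ← intervalIntegral.integral_add_adjacent_intervals (i2 θ0 (θ0 + Real.pi)) (i2 _ _)]
  exact add_le_add w1 w2

theorem continuousOn_gradient (h : IsQM U lam u K) :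
    ContinuousOn (fun y => gradient u y) (U \ K) := by
  unfold gradient
  exact (InnerProductSpace.toDual ℝ E2).symm.continuous.comp_continuousOn
    (h.c1.continuousOn_fderiv_of_isOpen (isOpen_off h) le_rfl)

/-- A circle which does not meet the crack. -/
theorem circle_bound_empty (h : IsQM U lam u K) (hx : closedBall x R ⊆ U) {t : ℝ} (ht0 : 0 < t)
    (htR : t ≤ R) (he : K ∩ sphere x t = ∅)
    (hflux : t * ∫ θ in (-Real.pi)..Real.pi, ⟪gradient u (cpt x t θ), dir θ⟫ = 0) :
    t * ∫ θ in (-Real.pi)..Real.pi, u (cpt x t θ) * ⟪gradient u (cpt x t θ), dir θ⟫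
      ≤ 1 / 2 * (t ^ 2 * circI (fun y => ‖gradient u y‖ ^ 2) x t) := by
  have hmem : ∀ θ, cpt x t θ ∈ U \ K := fun θ => by
    have hs : cpt x t θ ∈ sphere x t := cpt_mem_sphere ht0.le
    refine ⟨hx ((mem_sphere.1 hs).le.trans htR), fun hK => ?_⟩
    have : cpt x t θ ∈ K ∩ sphere x t := ⟨hK, hs⟩
    rw [he] at this
    exact this
  have hcpt : Continuous (fun θ => cpt x t θ) :=
    (continuous_cpt x).comp (by fun_prop : Continuous (fun θ : ℝ => (t, θ)))
  have hG : Continuous (fun θ => gradient u (cpt x t θ)) :=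
    (continuousOn_gradient h).comp_continuous hcpt hmem
  have hGt : Continuous (fun θ => t * ⟪gradient u (cpt x t θ), tau θ⟫) :=
    continuous_const.mul (hG.inner continuous_tau)
  have hGd : Continuous (fun θ => ⟪gradient u (cpt x t θ), dir θ⟫) := hG.inner continuous_dir
  have hd : ∀ θ, HasDerivAt (fun θ => u (cpt x t θ)) (t * ⟪gradient u (cpt x t θ), tau θ⟫) θ :=
    fun θ => hasDerivAt_circle (hasGradientAt h (hmem θ))
  have hvc : Continuous (fun θ => u (cpt x t θ)) :=
    continuous_iff_continuousAt.2 fun θ => (hd θ).continuousAt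
  have hper : Function.Periodic (fun θ => u (cpt x t θ)) (2 * Real.pi) := fun θ => by
    simp only [cpt_periodic x t θ]
  obtain ⟨m, θ0, hw⟩ := wirt_periodic hper hd hGt
  set I : ℝ := θ0 + 2 * Real.pi with hI
  have hle : θ0 ≤ I := by rw [hI]; linarith [Real.two_pi_pos]
  -- shift windows
  have sh : ∀ g : ℝ → ℝ, Function.Periodic g (2 * Real.pi) →
      ∫ θ in (-Real.pi)..Real.pi, g θ = ∫ θ in θ0..I, g θ := by
    intro g hgp
    have := hgp.intervalIntegral_add_eq (-Real.pi) θ0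
    rw [hI, ← this]
    congr 1
    ring
  have hdirp : Function.Periodic (fun θ => ⟪gradient u (cpt x t θ), dir θ⟫) (2 * Real.pi) :=
    fun θ => by simp only [cpt_periodic x t θ, dir_periodic θ]
  have hup : Function.Periodic (fun θ => u (cpt x t θ) * ⟪gradient u (cpt x t θ), dir θ⟫)
      (2 * Real.pi) := fun θ => by simp only [cpt_periodic x t θ, dir_periodic θ]
  have hnp : Function.Periodic (fun θ => ‖gradient u (cpt x t θ)‖ ^ 2) (2 * Real.pi) :=
    fun θ => by simp only [cpt_periodic x t θ]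
  rw [circI, sh _ hup, sh _ hnp]
  rw [sh _ hdirp] at hflux
  have e1 : t * ∫ θ in θ0..I, u (cpt x t θ) * ⟪gradient u (cpt x t θ), dir θ⟫
      = ∫ θ in θ0..I, (u (cpt x t θ) - m) * (t * ⟪gradient u (cpt x t θ), dir θ⟫) := by
    have e2 : ∫ θ in θ0..I, (u (cpt x t θ) - m) * (t * ⟪gradient u (cpt x t θ), dir θ⟫)
        = ∫ θ in θ0..I, (t * (u (cpt x t θ) * ⟪gradient u (cpt x t θ), dir θ⟫)
          - (m * t) * ⟪gradient u (cpt x t θ), dir θ⟫) := by
      refine intervalIntegral.integral_congr fun θ _ => ?_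
      ring
    rw [e2, intervalIntegral.integral_sub, intervalIntegral.integral_const_mul,
      intervalIntegral.integral_const_mul, mul_assoc m t, hflux]
    · ring
    · exact (continuous_const.mul (hvc.mul hGd)).intervalIntegrable _ _
    · exact (continuous_const.mul hGd).intervalIntegrable _ _
  rw [e1]
  have c1 : Continuous (fun θ => (u (cpt x t θ) - m) ^ 2) := (hvc.sub continuous_const).pow 2
  have c2 : Continuous (fun θ => (t * ⟪gradient u (cpt x t θ), dir θ⟫) ^ 2) :=
    (continuous_const.mul hGd).pow 2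
  have e3 : ∫ θ in θ0..I, (u (cpt x t θ) - m) * (t * ⟪gradient u (cpt x t θ), dir θ⟫)
      ≤ ∫ θ in θ0..I, (1/2 * (u (cpt x t θ) - m) ^ 2
        + 1/2 * (t * ⟪gradient u (cpt x t θ), dir θ⟫) ^ 2) := by
    refine intervalIntegral.integral_mono_on hle ?_ ?_ fun θ _ => ?_
    · exact ((hvc.sub continuous_const).mul (continuous_const.mul hGd)).intervalIntegrable _ _
    · exact ((continuous_const.mul c1).add (continuous_const.mul c2)).intervalIntegrable _ _
    · nlinarith [sq_nonneg ((u (cpt x t θ) - m) - t * ⟪gradient u (cpt x t θ), dir θ⟫)]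
  refine e3.trans ?_
  have i1 : IntervalIntegrable (fun θ => 1/2 * (u (cpt x t θ) - m) ^ 2) volume θ0 I :=
    (continuous_const.mul c1).intervalIntegrable _ _
  have i2 : IntervalIntegrable (fun θ => 1/2 * (t * ⟪gradient u (cpt x t θ), dir θ⟫) ^ 2)
    volume θ0 I := (continuous_const.mul c2).intervalIntegrable _ _
  rw [intervalIntegral.integral_add i1 i2, intervalIntegral.integral_const_mul,
    intervalIntegral.integral_const_mul]
  have e4 : t ^ 2 * ∫ θ in θ0..I, ‖gradient u (cpt x t θ)‖ ^ 2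
      = (∫ θ in θ0..I, (t * ⟪gradient u (cpt x t θ), tau θ⟫) ^ 2)
        + ∫ θ in θ0..I, (t * ⟪gradient u (cpt x t θ), dir θ⟫) ^ 2 := by
    have i3 : IntervalIntegrable (fun θ => (t * ⟪gradient u (cpt x t θ), tau θ⟫) ^ 2)
      volume θ0 I := (hGt.pow 2).intervalIntegrable _ _
    have i4 : IntervalIntegrable (fun θ => (t * ⟪gradient u (cpt x t θ), dir θ⟫) ^ 2)
      volume θ0 I := c2.intervalIntegrable _ _
    rw [← intervalIntegral.integral_const_mul, ← intervalIntegral.integral_add i3 i4]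
    refine intervalIntegral.integral_congr fun θ _ => ?_
    simp only [norm_sq_frame (gradient u (cpt x t θ)) θ]
    ring
  rw [e4]
  have : ∫ θ in θ0..I, (u (cpt x t θ) - m) ^ 2
      ≤ ∫ θ in θ0..I, (t * ⟪gradient u (cpt x t θ), tau θ⟫) ^ 2 := hw
  linarith

end Crest.Agent.R135.QMC
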