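import Crest.Agent.R135.IFDefs2
import Crest.Agent.R135.TipBlow
import Crest.Agent.R135.EpsLoc1
import Crest.Agent.R135.Dcy_Mg
import Crest.Agent.R135.IF_exc_line_Mg
import Crest.Agent.R135.IF_star_prop_Mg
import Crest.Agent.R135.CrackCirc
import Crest.Agent.R135.PolarB
import Crest.Agent.R135.TipCurve
import Crest.Agent.R135.PolarD
import Crest.Agent.R135.QMCirc5
import Crest.Agent.R135.Inner7
import Crest.Agent.R135.QMBasic
import Crest.Agent.R135.IF_tip_blowup
import Crest.Agent.R135.LSh3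
import Crest.Agent.R135.IF_jump_lower
import Crest.Agent.R135.IF_cone_competitor
import Crest.Agent.R135.IF_A1
import Crest.Agent.R135.FlatLine

-- ▼ part R135/IF_tip_annulus
section

/-! `tip_annulus` is proved in TipBlow.lean (helper804). -/
end

-- ▼ part R135/IF_line_flat
section

/-! INTERFACE line_flat: replace the sorry here (import your own files), keep the statement. -/

set_option autoImplicit false

open MeasureTheory Set Filter Topology Metric
open scoped ENNReal NNReal ContDiff Gradient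
open Crest.AnalysisR.PDE.OnePhase Crest.AnalysisR.PDE.MumfordShah

namespace Crest.Agent.R135

/-- epsilon-regularity at line-like points, scale invariant -/
theorem line_flat : ∃ ε c C γ : ℝ, 0 < ε ∧ 0 < c ∧ 0 < C ∧ 0 < γ ∧
    ∀ {U : Set E2} {lam : ℝ} {u : E2 → ℝ} {K : Set E2}, IsSQM U lam u K →
      ∀ y ∈ K, ∀ r : ℝ, 0 < r → r ≤ 1 → closedBall y r ⊆ U → lam * r ≤ ε →
        Dr u K y r ≤ ε * r → LineLike ε K y r →
        ∀ z ∈ K, dist z y ≤ c * r → ∀ ρ : ℝ, 0 < ρ → ρ ≤ c * r →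
          ∃ e : E2, Arc.Flat K z e ρ (C * ρ * (ρ / r) ^ γ) := by
  exact Asm.line_flat_of line_reg decay_line exc_line

end Crest.Agent.R135
end

-- ▼ part R135/IF_arc_or_triple
section

/-! INTERFACE arc_or_triple: replace the sorry here (import your own files), keep the statement. -/

set_option autoImplicit false

open MeasureTheory Set Filter Topology Metric
open scoped ENNReal NNReal ContDiff Gradient
open Crest.AnalysisR.PDE.OnePhase Crest.AnalysisR.PDE.MumfordShah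

namespace Crest.Agent.R135

/-- small density at one scale: arc point or triple junction -/
theorem arc_or_triple : ∃ ε₀ : ℝ, 0 < ε₀ ∧
    ∀ {U : Set E2} {lam : ℝ} {u : E2 → ℝ} {K : Set E2}, IsSQM U lam u K →
      ∀ x ∈ K, ∀ r : ℝ, 0 < r → r ≤ 1 → closedBall x r ⊆ U → lam * r ≤ ε₀ →
        Dr u K x r ≤ ε₀ * r → IsArcInteriorPoint U K x ∨ IsTripleJunctionPoint U K x := by
  exact Asm.arc_or_triple_of line_flat decay_line exc_line local_shape decay_prop star_prop

end Crest.Agent.R135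
end

-- ▼ part R135/TipAux
section

/-!
# R135 (TIP): auxiliary one-dimensional lemmas (helper633)
-/

set_option autoImplicit false

open MeasureTheory Set Filter Topology
open scoped Real Interval

noncomputable section

namespace Crest.Agent.R135

theorem IsPrim.shift {a b c : ℝ} {F F1 : ℝ → ℝ} (h : IsPrim (c + a) (c + b) F F1) :
    IsPrim a b (fun x => F (c + x)) (fun x => F1 (c + x)) := by
  refine ⟨?_, fun x hx => ?_⟩
  · have := h.1.comp_add_left c
    simpa using this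
  · have h1 := h.2 (c + x) ⟨by linarith [hx.1], by linarith [hx.2]⟩
    simp only
    rw [intervalIntegral.integral_comp_add_left (fun t => F1 t) c]
    exact h1

theorem IsL2.shift {a b c : ℝ} {f : ℝ → ℝ} (h : IsL2 (c + a) (c + b) f) :
    IsL2 a b (fun x => f (c + x)) := by
  unfold IsL2 at h ⊢
  have hp : MeasurePreserving (fun x : ℝ => c + x) (volume.restrict (Ioc a b))
      (volume.restrict (Ioc (c + a) (c + b))) := by
    have h1 := (measurePreserving_add_left (volume : Measure ℝ) c).restrict_preimage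
      (measurableSet_Ioc (a := c + a) (b := c + b))
    have h2 : (fun x : ℝ => c + x) ⁻¹' (Ioc (c + a) (c + b)) = Ioc a b := by
      ext x; simp
    rw [h2] at h1
    exact h1
  exact h.comp_measurePreserving hp

theorem IsPrim.congr_ae {a b : ℝ} (hab : a ≤ b) {F F1 F2 : ℝ → ℝ} (h : IsPrim a b F F1)
    (he : ∀ᵐ s, s ∈ Ioo a b → F1 s = F2 s) : IsPrim a b F F2 := by
  have hres : ∀ x, x ≤ b → F1 =ᵐ[volume.restrict (Ioc a x)] F2 := by
    intro x hx
    have e : (volume.restrict (Ioc a x) : Measure ℝ) = volume.restrict (Ioo a x) :=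
      (Measure.restrict_congr_set Ioo_ae_eq_Ioc).symm
    rw [Filter.EventuallyEq, e, ae_restrict_iff' measurableSet_Ioo]
    filter_upwards [he] with s hs hs'
    exact hs ⟨hs'.1, hs'.2.trans_le hx⟩
  refine ⟨?_, fun x hx => ?_⟩
  · have h1 := h.1
    rw [intervalIntegrable_iff_integrableOn_Ioc_of_le hab] at h1 ⊢
    exact h1.congr (hres b le_rfl)
  · rw [h.2 x hx, intervalIntegral.integral_of_le hx.1, intervalIntegral.integral_of_le hx.1]
    congr 1
    exact integral_congr_ae (hres x hx.2)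


theorem integral_shift_period {g : ℝ → ℝ} (hg : Function.Periodic g (2 * π)) (a : ℝ) :
    ∫ φ in (0:ℝ)..(2*π), g (a + φ) = ∫ θ in (-π)..π, g θ := by
  rw [intervalIntegral.integral_comp_add_left (fun t => g t) a, add_zero]
  have h := hg.intervalIntegral_add_eq a (-π)
  rw [h]
  congr 1
  ring

/-- primitive of `e(t)/t` from zero, if `∫_0^ρ e = O(ρ^{3/2})` -/
theorem exists_P {r0 C : ℝ} (hr0 : 0 < r0) (hC : 0 ≤ C) {e : ℝ → ℝ} (he : ∀ s, 0 ≤ e s)
    (hint : ∀ a b, 0 < a → a ≤ b → b ≤ r0 → IntervalIntegrable e volume a b)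
    (hbd : ∀ a b, 0 < a → a ≤ b → b ≤ r0 → ∫ s in a..b, e s ≤ C * b ^ (3/2 : ℝ)) :
    ∃ P : ℝ → ℝ, LocPrim r0 P (fun s => e s / s) ∧ (∀ s, 0 < s → s ≤ r0 → 0 ≤ P s) ∧
      ∀ s, 0 < s → s ≤ r0 → P s ≤ (3 * C) * s ^ (1/2 : ℝ) := by
  set f : ℝ → ℝ := fun s => e s / s with hf
  have hinv : ∀ a b : ℝ, 0 < a → a ≤ b → ContinuousOn (fun s : ℝ => s⁻¹) (uIcc a b) := by
    intro a b ha hab
    apply continuousOn_inv₀.mono
    intro s hs
    rw [uIcc_of_le hab] at hs
    exact (ha.trans_le hs.1).ne'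
  have hfint : ∀ a b, 0 < a → a ≤ b → b ≤ r0 → IntervalIntegrable f volume a b := by
    intro a b ha hab hb
    have := (hint a b ha hab hb).mul_continuousOn (hinv a b ha hab)
    exact this
  -- bound on `[a,b]`
  have hfbd : ∀ a b, 0 < a → a ≤ b → b ≤ r0 → ∫ s in a..b, f s ≤ 3 * C * b ^ (1/2 : ℝ) := by
    intro a b ha hab hb
    have hb0 : 0 < b := ha.trans_le hab
    -- `E(s) = ∫_a^s e`
    set E : ℝ → ℝ := fun s => ∫ t in a..s, e t with hE
    have hEp : IsPrim a b E e := by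
      refine ⟨hint a b ha hab hb, fun x hx => ?_⟩
      simp only [hE, intervalIntegral.integral_same, zero_add]
    have hq : IsPrim a b (fun s => s ^ (-1:ℝ)) (fun s => (-1) * s ^ ((-1:ℝ) - 1)) :=
      isPrim_rpow ha hab (-1)
    have hibp := hEp.mul hab hq
    have h1 := hibp.sub_eq hab
    have hEa : E a = 0 := by simp [hE]
    have i1 : IntervalIntegrable (fun s => s ^ (-1:ℝ) * e s) volume a b := by
      have := hfint a b ha hab hb
      refine this.congr ?_
      intro s hs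
      rw [uIoc_of_le hab] at hs
      simp only [hf]
      rw [Real.rpow_neg_one]; ring
    have i2 : IntervalIntegrable (fun s => (-1) * s ^ ((-1:ℝ) - 1) * E s) volume a b := by
      have h3 := hq.1
      exact h3.mul_continuousOn (by rw [uIcc_of_le hab]; exact hEp.continuousOn hab)
    rw [intervalIntegral.integral_add i2 i1, hEa, mul_zero, sub_zero] at h1
    have h2 : ∫ s in a..b, f s = ∫ s in a..b, s ^ (-1:ℝ) * e s := by
      apply intervalIntegral.integral_congr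
      intro s hs
      simp only [hf]
      rw [Real.rpow_neg_one]; ring
    have h4 : ∫ s in a..b, (-1) * s ^ ((-1:ℝ) - 1) * E s ≥ ∫ s in a..b, -(C * s ^ ((1/2:ℝ) - 1)) := by
      have i3 : IntervalIntegrable (fun s : ℝ => -(C * s ^ ((1/2:ℝ) - 1))) volume a b := by
        have := ((isPrim_rpow_div ha hab (k := 1/2) (by norm_num)).const_mul C).neg.1
        exact this
      apply intervalIntegral.integral_mono_on hab i3 i2
      intro s hs
      have hs0 : 0 < s := ha.trans_le hs.1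
      have g1 : E s ≤ C * s ^ (3/2:ℝ) := hbd a s ha hs.1 (hs.2.trans hb)
      have g2 : s ^ ((-1:ℝ) - 1) * s ^ (3/2:ℝ) = s ^ ((1/2:ℝ) - 1) := by
        rw [← Real.rpow_add hs0]; norm_num
      have g3 : 0 < s ^ ((-1:ℝ) - 1) := Real.rpow_pos_of_pos hs0 _
      have g4 := mul_le_mul_of_nonneg_left g1 g3.le
      have g5 : s ^ ((-1:ℝ) - 1) * (C * s ^ (3/2:ℝ)) = C * s ^ ((1/2:ℝ) - 1) := by
        rw [← g2]; ring
      rw [g5] at g4
      linarith
    have h5 : ∫ s in a..b, -(C * s ^ ((1/2:ℝ) - 1)) ≥ -(2 * C * b ^ (1/2:ℝ)) := by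
      have p := ((isPrim_rpow_div ha hab (k := 1/2) (by norm_num)).const_mul C).neg
      have := p.sub_eq hab
      rw [← this]
      have ha' : 0 ≤ a ^ (1/2:ℝ) := Real.rpow_nonneg ha.le _
      have : 0 ≤ C * (a ^ (1/2:ℝ) / (1/2)) := by positivity
      have e1 : C * (b ^ (1/2:ℝ) / (1/2)) = 2 * C * b ^ (1/2:ℝ) := by ring
      linarith
    have h6 : b ^ (-1:ℝ) * E b ≤ C * b ^ (1/2:ℝ) := by
      have g1 : E b ≤ C * b ^ (3/2:ℝ) := hbd a b ha hab hb
      have g2 : b ^ (-1:ℝ) * b ^ (3/2:ℝ) = b ^ (1/2:ℝ) := by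
        rw [← Real.rpow_add hb0]; norm_num
      have g3 : 0 < b ^ (-1:ℝ) := Real.rpow_pos_of_pos hb0 _
      calc b ^ (-1:ℝ) * E b ≤ b ^ (-1:ℝ) * (C * b ^ (3/2:ℝ)) := mul_le_mul_of_nonneg_left g1 g3.le
        _ = C * b ^ (1/2:ℝ) := by rw [← g2]; ring
    have h7 : ∫ s in a..b, s ^ (-1:ℝ) * e s
        = b ^ (-1:ℝ) * E b - ∫ s in a..b, (-1) * s ^ ((-1:ℝ) - 1) * E s := by
      rw [h1]; ring
    rw [h2, h7]
    have h8 := h5.le.trans h4.le
    calc b ^ (-1:ℝ) * E b - ∫ s in a..b, (-1) * s ^ ((-1:ℝ) - 1) * E s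
        ≤ C * b ^ (1/2:ℝ) - (-(2 * C * b ^ (1/2:ℝ))) := sub_le_sub h6 h8
      _ = 3 * C * b ^ (1/2:ℝ) := by ring
  -- integrability up to zero
  have hfnn : ∀ s, 0 ≤ s → 0 ≤ f s := fun s hs => div_nonneg (he s) hs
  have hint0 : IntegrableOn f (Ioc 0 r0) := by
    have hlim : Tendsto (fun n : ℕ => r0 / ((n:ℝ) + 1)) atTop (𝓝 0) := by
      have := (tendsto_one_div_add_atTop_nhds_zero_nat (𝕜 := ℝ)).const_mul r0
      simpa [div_eq_mul_inv] using this
    have hpos : ∀ n : ℕ, 0 < r0 / ((n:ℝ) + 1) := fun n => by positivity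
    have hle : ∀ n : ℕ, r0 / ((n:ℝ) + 1) ≤ r0 := fun n => by
      rw [div_le_iff₀ (by positivity)]
      have : (0:ℝ) ≤ n := Nat.cast_nonneg n
      nlinarith
    refine integrableOn_Ioc_of_intervalIntegral_norm_bounded_left (I := 3 * C * r0 ^ (1/2:ℝ))
      (l := atTop) (a := fun n : ℕ => r0 / ((n:ℝ) + 1)) (fun n => ?_) hlim ?_
    · exact (intervalIntegrable_iff_integrableOn_Ioc_of_le (hle n)).1
        (hfint _ r0 (hpos n) (hle n) le_rfl)
    · refine Eventually.of_forall fun n => ?_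
      have h1 := hfbd _ r0 (hpos n) (hle n) le_rfl
      rw [intervalIntegral.integral_of_le (hle n)] at h1
      refine (le_of_eq ?_).trans h1
      apply setIntegral_congr_fun measurableSet_Ioc
      intro s hs
      simp only
      rw [Real.norm_of_nonneg (hfnn s ((hpos n).le.trans hs.1.le))]
  have hI0 : ∀ b, 0 ≤ b → b ≤ r0 → IntervalIntegrable f volume 0 b := by
    intro b hb hbr
    rw [intervalIntegrable_iff_integrableOn_Ioc_of_le hb]
    exact hint0.mono_set (Ioc_subset_Ioc_right hbr)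
  refine ⟨fun s => ∫ t in (0:ℝ)..s, f t, ?_, ?_, ?_⟩
  · intro a b ha hab hb
    refine ⟨hfint a b ha hab hb, fun x hx => ?_⟩
    simp only
    rw [intervalIntegral.integral_add_adjacent_intervals (hI0 a ha.le (hab.trans hb))
      (hfint a x ha hx.1 (hx.2.trans hb))]
  · intro s hs _
    exact intervalIntegral.integral_nonneg hs.le (fun t ht => hfnn t ht.1)
  · intro s hs hsr
    have hc : Tendsto (fun a => ∫ t in a..s, f t) (𝓝[>] 0) (𝓝 (∫ t in (0:ℝ)..s, f t)) := by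
      have hp : IsPrim 0 s (fun x => ∫ t in (0:ℝ)..x, f t) f :=
        ⟨hI0 s hs.le hsr, fun x hx => by simp⟩
      have h1 := (hp.continuousOn hs.le) 0 ⟨le_rfl, hs.le⟩
      have h2 : Tendsto (fun x => ∫ t in (0:ℝ)..x, f t) (𝓝[>] 0) (𝓝 0) := by
        have h3 : Tendsto (fun x => ∫ t in (0:ℝ)..x, f t) (𝓝[Icc 0 s] 0) (𝓝 0) := by
          have := h1.tendsto
          simpa using this
        refine h3.mono_left ?_
        rw [← nhdsWithin_Ioo_eq_nhdsGT hs]
        exact nhdsWithin_mono _ Ioo_subset_Icc_self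
      have h4 : Tendsto (fun a => (∫ t in (0:ℝ)..s, f t) - ∫ t in (0:ℝ)..a, f t) (𝓝[>] 0)
          (𝓝 ((∫ t in (0:ℝ)..s, f t) - 0)) := tendsto_const_nhds.sub h2
      rw [sub_zero] at h4
      refine h4.congr' ?_
      filter_upwards [Ioc_mem_nhdsGT hs] with a ha
      rw [intervalIntegral.integral_interval_sub_left (hI0 s hs.le hsr)
        (hI0 a ha.1.le (ha.2.trans hsr))]
    refine le_of_tendsto hc ?_
    filter_upwards [Ioc_mem_nhdsGT hs] with a ha
    exact hfbd a s ha.1 ha.2 hsr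

end Crest.Agent.R135
end
end

-- ▼ part R135/TipC1
section

/-!
# R135 (TIP): the crack near a tip is a `C¹` curve (helper633)
-/

set_option autoImplicit false

open Set Filter Topology Metric MeasureTheory
open scoped RealInnerProductSpace

namespace Crest.Agent.R135.Tip

open Crest.Agent.R135.Arc

variable {K : Set E2} {x0 : E2} {r0 C c α c2 η r1 : ℝ}

/-- a selection of the crack points on the circles -/
structure IsCurve (K : Set E2) (x0 : E2) (r2 : ℝ) (γ : ℝ → E2) : Prop where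
  mem : ∀ s ∈ Ioo 0 r2, γ s ∈ K
  dist_eq : ∀ s ∈ Ioo 0 r2, dist (γ s) x0 = s
  uniq : ∀ z ∈ K, 0 < dist z x0 → dist z x0 < r2 → z = γ (dist z x0)

theorem TipConst.exists_curve (T : TipConst K x0 r0 C c α c2 η r1) (H : TipHyp K x0 r0 C c α) :
    ∃ γ, IsCurve K x0 (r1/2) γ := by
  have h : ∀ s, ∃ y : E2, s ∈ Ioo 0 (r1/2) → y ∈ K ∧ dist y x0 = s := by
    intro s
    by_cases hs : s ∈ Ioo 0 (r1/2)
    · obtain ⟨y, hy, hd⟩ := T.exists_point H hs.1 hs.2
      exact ⟨y, fun _ => ⟨hy, hd⟩⟩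
    · exact ⟨x0, fun h => absurd h hs⟩
  choose γ hγ using h
  refine ⟨γ, ⟨fun s hs => (hγ s hs).1, fun s hs => (hγ s hs).2, ?_⟩⟩
  intro z hz h0 h1
  have := hγ (dist z x0) ⟨h0, h1⟩
  exact T.unique_point H h0 h1 this.1 hz this.2 rfl

theorem radial_unit {x0 y : E2} {s : ℝ} (hs : 0 < s) (hy : dist y x0 = s) :
    ‖s⁻¹ • (y - x0)‖ = 1 ∧ y - x0 = s • (s⁻¹ • (y - x0)) := by
  constructor
  · have hyx : y ≠ x0 := by rw [← dist_pos, hy]; exact hs
    have := norm_unit hyx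
    rwa [hy] at this
  · rw [smul_smul, mul_inv_cancel₀ hs.ne', one_smul]

/-- local Lipschitz estimate for the curve -/
theorem TipConst.curve_lip (T : TipConst K x0 r0 C c α c2 η r1) (H : TipHyp K x0 r0 C c α)
    {γ : ℝ → E2} (hγ : IsCurve K x0 (r1/2) γ) {s s' : ℝ} (hs : s ∈ Ioo 0 (r1/2))
    (hs' : s' ∈ Ioo 0 (r1/2)) (h : |s' - s| ≤ c2 * s / 4) :
    dist (γ s') (γ s) ≤ 11/10 * |s' - s| ∧ dist (γ s') (γ s) ≤ c2 * s := by
  have hc20 := T.c2pos
  have hc2s := T.c2small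
  have hη := T.η_eq
  have hs0 := hs.1
  have hc2s0 : 0 < c2 * s := by positivity
  have hc2s' : c2 * s ≤ s/10 := by
    have := mul_le_mul_of_nonneg_right hc2s hs0.le
    linarith
  obtain ⟨hl, hu⟩ := abs_le.1 h
  obtain ⟨e, he, hr, _⟩ := T.rays (2*s) (by linarith) (by linarith [hs.2])
  have h1 := (hr (γ s) (hγ.mem s hs) (by rw [hγ.dist_eq s hs]; linarith)).2
  have h2 := (hr (γ s') (hγ.mem s' hs') (by rw [hγ.dist_eq s' hs']; linarith)).2
  rw [hγ.dist_eq s hs] at h1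
  rw [hγ.dist_eq s' hs'] at h2
  have h3 : dist (x0 + s' • e) (x0 + s • e) = |s' - s| := by
    rw [dist_eq_norm, show x0 + s' • e - (x0 + s • e) = (s' - s) • e by rw [sub_smul]; abel,
      norm_smul, he, mul_one, Real.norm_eq_abs]
  have h4 : dist (γ s') (γ s) ≤ |s' - s| + 8 * η * s := by
    have g1 := dist_triangle (γ s') (x0 + s' • e) (γ s)
    have g2 := dist_triangle_right (x0 + s' • e) (γ s) (x0 + s • e)
    linarith
  have h5 : dist (γ s') (γ s) ≤ c2 * s := by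
    have : 8 * η * s = 8 * (c2 * s) / 1000 := by rw [hη]; ring
    linarith
  refine ⟨?_, h5⟩
  obtain ⟨hn1, hyn⟩ := radial_unit hs0 (hγ.dist_eq s hs)
  have hcone := T.cone H (hγ.mem s hs) hs0 (by linarith [hs.2]) hn1 hyn (hγ.mem s' hs') h5
  have := cone_dist hs0 hn1 hyn (by linarith) hcone
  rwa [hγ.dist_eq s' hs'] at this

/-- the curve is affine at scale `ρ` up to `C ρ (ρ/x)^α` -/
theorem TipConst.curve_affine (T : TipConst K x0 r0 C c α c2 η r1) (H : TipHyp K x0 r0 C c α)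
    (hα1 : α ≤ 1) {γ : ℝ → E2} (hγ : IsCurve K x0 (r1/2) γ) {x ρ : ℝ} (hx : x ∈ Ioo 0 (r1/2))
    (hρ : 0 < ρ) (hρc : ρ ≤ c2 * x / 4) :
    ∃ m : E2, ∀ h : ℝ, |h| ≤ ρ → x + h ∈ Ioo 0 (r1/2) →
      ‖γ (x + h) - γ x - h • m‖ ≤ (2 + 9 * C) * ρ * (ρ / x) ^ α := by
  have hc20 := T.c2pos
  have hc2s := T.c2small
  have hC := H.Cpos
  have hα := H.αpos
  have hx0 := hx.1
  have hc2x0 : 0 < c2 * x := by positivity
  have hc2x' : c2 * x ≤ x/10 := by
    have := mul_le_mul_of_nonneg_right hc2s hx0.le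
    linarith
  obtain ⟨hn1, hyn⟩ := radial_unit hx0 (hγ.dist_eq x hx)
  have hyx : γ x ≠ x0 := by rw [← dist_pos, hγ.dist_eq x hx]; exact hx0
  obtain ⟨v, hv⟩ := H.flat (γ x) (hγ.mem x hx) hyx (by
    rw [hγ.dist_eq x hx]; linarith [hx.2, T.r1r0, T.r1pos]) (2*ρ) (by linarith) (by
    rw [hγ.dist_eq x hx]
    have := mul_le_mul_of_nonneg_right T.c2c hx0.le
    linarith)
  have hdir := T.dirs (γ x) (hγ.mem x hx) hyx (by
    rw [hγ.dist_eq x hx]; linarith [hx.2, T.r1pos]) (2*ρ) v (by linarith) (by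
    rw [hγ.dist_eq x hx]; linarith) hv
  rw [hγ.dist_eq x hx] at hdir hv
  set n : E2 := x⁻¹ • (γ x - x0) with hn
  clear_value n
  have hvn : 99/100 ≤ |⟪v, n⟫| := by
    have h1 := norm_sq_split hn1 v
    rw [hv.1] at h1
    have h2 : ⟪v, J n⟫ ^ 2 ≤ (1/20)^2 := by
      rw [← sq_abs]; exact pow_le_pow_left₀ (abs_nonneg _) hdir 2
    apply abs_le_of_sq_le_sq' _ (abs_nonneg _) |>.2
    rw [sq_abs]; linarith
  have hvn0 : ⟪v, n⟫ ≠ 0 := by
    intro h0; rw [h0, abs_zero] at hvn; linarith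
  refine ⟨(⟪v, n⟫)⁻¹ • v, ?_⟩
  intro h hh hxh
  set X : ℝ := (ρ/x)^α with hX
  have hρx0 : 0 < ρ/x := by positivity
  have hρx1 : ρ/x ≤ 1 := by rw [div_le_one hx0]; linarith
  have hX0 : 0 < X := by positivity
  have hXρ : ρ/x ≤ X := by
    calc ρ/x = (ρ/x)^(1:ℝ) := (Real.rpow_one _).symm
      _ ≤ X := Real.rpow_le_rpow_of_exponent_ge hρx0 hρx1 hα1
  set E : ℝ := C * (2*ρ) * (2*ρ/x)^α with hE
  have hE1 : E ≤ 4 * C * ρ * X := by
    have h2 : (2*ρ/x)^α ≤ 2 * X := by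
      rw [show 2*ρ/x = 2 * (ρ/x) by ring, Real.mul_rpow (by norm_num) hρx0.le]
      have : (2:ℝ)^α ≤ 2^(1:ℝ) := Real.rpow_le_rpow_of_exponent_le (by norm_num) hα1
      rw [Real.rpow_one] at this
      exact mul_le_mul_of_nonneg_right this hX0.le
    calc E ≤ C * (2*ρ) * (2*X) := by rw [hE]; gcongr
      _ = 4 * C * ρ * X := by ring
  obtain ⟨hd1, hd2⟩ := T.curve_lip H hγ hx hxh (by
    rw [show x + h - x = h by ring]; linarith)
  rw [show x + h - x = h by ring] at hd1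
  have hd3 : dist (γ (x+h)) (γ x) ≤ 11/10 * ρ := by linarith
  have hb := hv.2.1 (γ (x+h)) (hγ.mem _ hxh) (by linarith)
  change |⟪γ (x+h) - γ x, J v⟫| ≤ E at hb
  set w : E2 := γ (x+h) - γ x with hw
  have hrc := rad_compare (z := γ (x+h)) hx0 hn1 hyn
  rw [hγ.dist_eq _ hxh, show x + h - x = h by ring] at hrc
  change |⟪w, n⟫ - h| ≤ _ at hrc
  have hq : (dist (γ (x+h)) (γ x))^2/(2*x) ≤ ρ * X := by
    have h1 : (dist (γ (x+h)) (γ x))^2 ≤ (11/10*ρ)^2 := pow_le_pow_left₀ dist_nonneg hd3 2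
    calc (dist (γ (x+h)) (γ x))^2/(2*x) ≤ (11/10*ρ)^2/(2*x) := by gcongr
      _ = (121/200) * (ρ * (ρ/x)) := by field_simp; ring
      _ ≤ 1 * (ρ * (ρ/x)) := by
        apply mul_le_mul_of_nonneg_right (by norm_num) (by positivity)
      _ ≤ ρ * X := by rw [one_mul]; exact mul_le_mul_of_nonneg_left hXρ hρ.le
  have hexp := inner_expand hv.1 w n
  have hframe : w = ⟪w, v⟫ • v + ⟪w, J v⟫ • J v := frame_eq hv.1 w
  have hdec : w - h • (⟪v, n⟫)⁻¹ • v =
      ((⟪w, n⟫ - h + ⟪w, J v⟫ * ⟪v, J n⟫) / ⟪v, n⟫) • v + ⟪w, J v⟫ • J v := by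
    have e1 : (⟪w, n⟫ - h + ⟪w, J v⟫ * ⟪v, J n⟫) / ⟪v, n⟫ = ⟪w, v⟫ - h * (⟪v, n⟫)⁻¹ := by
      rw [hexp]; field_simp; ring
    rw [e1, sub_smul, smul_smul]
    nth_rewrite 1 [hframe]
    abel
  have hnorm : ‖w - h • (⟪v, n⟫)⁻¹ • v‖ ≤
      |(⟪w, n⟫ - h + ⟪w, J v⟫ * ⟪v, J n⟫) / ⟪v, n⟫| + |⟪w, J v⟫| := by
    rw [hdec]
    refine (norm_add_le _ _).trans ?_
    rw [norm_smul, norm_smul, norm_J, hv.1, mul_one, mul_one, Real.norm_eq_abs, Real.norm_eq_abs]
  have hnum : |⟪w, n⟫ - h + ⟪w, J v⟫ * ⟪v, J n⟫| ≤ ρ * X + E * (1/20) := by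
    refine (abs_add_le _ _).trans ?_
    rw [abs_mul]
    have h1 : |⟪w, J v⟫| * |⟪v, J n⟫| ≤ E * (1/20) := by
      apply mul_le_mul hb hdir (abs_nonneg _)
      exact (abs_nonneg _).trans hb
    linarith
  have hE0 : 0 ≤ E := (abs_nonneg _).trans hb
  have hquot : |(⟪w, n⟫ - h + ⟪w, J v⟫ * ⟪v, J n⟫) / ⟪v, n⟫| ≤ 2 * (ρ * X + E * (1/20)) := by
    rw [abs_div, div_le_iff₀ (by linarith)]
    have h0 : 0 ≤ ρ * X + E * (1/20) := by positivity
    have h1 : (ρ * X + E * (1/20)) * 1 ≤ (ρ * X + E * (1/20)) * (2 * |⟪v, n⟫|) :=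
      mul_le_mul_of_nonneg_left (by linarith) h0
    linarith
  calc ‖w - h • (⟪v, n⟫)⁻¹ • v‖ ≤ 2 * (ρ * X + E * (1/20)) + E := by linarith
    _ = 2 * (ρ * X) + 11/10 * E := by ring
    _ ≤ 2 * (ρ * X) + 11/10 * (4 * C * ρ * X) := by linarith
    _ ≤ (2 + 9 * C) * ρ * X := by
      have : 0 < C * ρ * X := by positivity
      nlinarith

theorem norm_le_of_abs_coord (w : E2) (i : Fin 2) : |w i| ≤ ‖w‖ := by
  have := PiLp.norm_apply_le w i
  rwa [Real.norm_eq_abs] at this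

/-- the curve is continuously differentiable -/
theorem TipConst.curve_c1 (T : TipConst K x0 r0 C c α c2 η r1) (H : TipHyp K x0 r0 C c α)
    (hα1 : α ≤ 1) {γ : ℝ → E2} (hγ : IsCurve K x0 (r1/2) γ) :
    (∀ s ∈ Ioo 0 (r1/2), HasDerivAt γ (deriv γ s) s) ∧ ContinuousOn (deriv γ) (Ioo 0 (r1/2)) := by
  have hc20 := T.c2pos
  have hc2s := T.c2small
  have hC := H.Cpos
  have hα := H.αpos
  have loc : ∀ s ∈ Ioo 0 (r1/2), ∃ a b : ℝ, a < s ∧ s < b ∧ Icc a b ⊆ Ioo 0 (r1/2) ∧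
      ∃ D : ℝ → E2, (∀ x ∈ Ioo a b, HasDerivAt γ (D x) x) ∧ ContinuousOn D (Ioo a b) := by
    intro s hs
    have hs0 := hs.1
    obtain ⟨δ, hδ0, hδ1, hδ2⟩ : ∃ δ : ℝ, 0 < δ ∧ δ ≤ c2 * s / 16 ∧ δ < r1/2 - s := by
      refine ⟨min (c2 * s / 16) ((r1/2 - s)/2), lt_min (by positivity) (by linarith [hs.2]),
        min_le_left _ _, lt_of_le_of_lt (min_le_right _ _) (by linarith [hs.2])⟩
    have hc2s' : c2 * s ≤ s/10 := by
      have := mul_le_mul_of_nonneg_right hc2s hs0.le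
      linarith
    set a := s - δ with ha
    set b := s + δ with hb
    have hsub : Icc a b ⊆ Ioo 0 (r1/2) := by
      intro x hx
      exact ⟨by linarith [hx.1], by linarith [hx.2]⟩
    have hab : a < b := by linarith
    have ha0 : 0 < a := by linarith
    set C1 : ℝ := (2 + 9 * C) * a ^ (-α) with hC1
    have hC10 : 0 ≤ C1 := by positivity
    have camp : ∀ i : Fin 2, Camp (fun x => γ x i) a b C1 α := by
      intro i x hx ρ hρ hρb
      have hxI := hsub hx
      have hρc : ρ ≤ c2 * x / 4 := by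
        have h1 : c2 * (s/2) ≤ c2 * x := mul_le_mul_of_nonneg_left (by linarith [hx.1]) hc20.le
        linarith
      obtain ⟨m, hm⟩ := T.curve_affine H hα1 hγ hxI hρ hρc
      refine ⟨m i, fun h hh hxh => ?_⟩
      have h1 := hm h hh (hsub hxh)
      have h2 := norm_le_of_abs_coord (γ (x + h) - γ x - h • m) i
      have h3 : (γ (x + h) - γ x - h • m) i = γ (x+h) i - γ x i - m i * h := by
        simp [mul_comm]
      rw [h3] at h2
      refine h2.trans (h1.trans ?_)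
      have h4 : (ρ/x)^α ≤ ρ^α * a^(-α) := by
        rw [Real.div_rpow hρ.le hxI.1.le, Real.rpow_neg ha0.le, div_eq_mul_inv]
        apply mul_le_mul_of_nonneg_left _ (by positivity)
        apply inv_anti₀ (by positivity)
        exact Real.rpow_le_rpow ha0.le hx.1 hα.le
      have h5 : ρ ^ (1 + α) = ρ * ρ ^ α := by rw [Real.rpow_add hρ, Real.rpow_one]
      rw [h5]
      calc (2 + 9 * C) * ρ * (ρ/x)^α ≤ (2 + 9 * C) * ρ * (ρ^α * a^(-α)) := by gcongr
        _ = C1 * (ρ * ρ^α) := by rw [hC1]; ring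
    obtain ⟨f0, D0, -, -, h0, h0'⟩ := camp_c1 hab hC10 hα (camp 0)
    obtain ⟨f1, D1, -, -, h1, h1'⟩ := camp_c1 hab hC10 hα (camp 1)
    have cont : ∀ (f : ℝ → ℝ) (D : ℝ), (∀ x ∈ Icc a b, ∀ y ∈ Icc a b, |f x - f y| ≤ D * |x - y| ^ α) →
        ContinuousOn f (Icc a b) := by
      intro f D hf x hx
      rw [ContinuousWithinAt, tendsto_iff_dist_tendsto_zero]
      have hlim : Tendsto (fun y => D * |y - x| ^ α) (𝓝[Icc a b] x) (𝓝 0) := by
        have h1 : Tendsto (fun y => |y - x|) (𝓝 x) (𝓝 0) := by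
          have : ContinuousAt (fun y => |y - x|) x := by fun_prop
          simpa [ContinuousAt] using this
        have h2 : Tendsto (fun y => |y - x| ^ α) (𝓝 x) (𝓝 0) := by
          have := (Real.continuousAt_rpow_const 0 α (Or.inr hα.le)).tendsto.comp h1
          rwa [Real.zero_rpow hα.ne'] at this
        simpa using (h2.const_mul D).mono_left nhdsWithin_le_nhds
      refine squeeze_zero' (Eventually.of_forall fun _ => dist_nonneg) ?_ hlim
      filter_upwards [self_mem_nhdsWithin] with y hy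
      rw [Real.dist_eq]
      exact hf y hy x hx
    refine ⟨a, b, by linarith, by linarith, hsub,
      fun x => WithLp.toLp 2 ![f0 x, f1 x], ?_, ?_⟩
    · intro x hx
      have hxI : x ∈ Icc a b := Ioo_subset_Icc_self hx
      have hnb : Icc a b ∈ 𝓝 x := Icc_mem_nhds hx.1 hx.2
      have g0 := (h0 x hxI).hasDerivAt hnb
      have g1 := (h1 x hxI).hasDerivAt hnb
      have : HasDerivAt (fun y => (![γ y 0, γ y 1] : Fin 2 → ℝ)) (![f0 x, f1 x]) x := by
        rw [hasDerivAt_pi]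
        intro i
        fin_cases i
        · exact g0
        · exact g1
      have h2 : HasDerivAt (fun y => (WithLp.toLp 2 ![γ y 0, γ y 1] : E2))
          (WithLp.toLp 2 ![f0 x, f1 x]) x := by
        have h3 := ((PiLp.continuousLinearEquiv 2 ℝ (fun _ : Fin 2 => ℝ)).symm :
          (Fin 2 → ℝ) →L[ℝ] PiLp 2 (fun _ : Fin 2 => ℝ)).hasFDerivAt.comp_hasDerivAt x this
        exact h3
      have e : (fun y => (WithLp.toLp 2 ![γ y 0, γ y 1] : E2)) = γ := by
        funext y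
        ext i
        fin_cases i <;> simp
      rwa [e] at h2
    · have c0 := (cont f0 D0 h0').mono (Ioo_subset_Icc_self)
      have c1 := (cont f1 D1 h1').mono (Ioo_subset_Icc_self)
      have : ContinuousOn (fun x => (![f0 x, f1 x] : Fin 2 → ℝ)) (Ioo a b) := by
        rw [continuousOn_pi]
        intro i
        fin_cases i
        · exact c0
        · exact c1
      exact (PiLp.continuous_toLp 2 _).comp_continuousOn this
  constructor
  · intro s hs
    obtain ⟨a, b, h1, h2, -, D, hD, -⟩ := loc s hs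
    exact (hD s ⟨h1, h2⟩).differentiableAt.hasDerivAt
  · intro s hs
    obtain ⟨a, b, h1, h2, -, D, hD, hDc⟩ := loc s hs
    have hc : ContinuousAt D s := hDc.continuousAt (Ioo_mem_nhds h1 h2)
    have he : deriv γ =ᶠ[𝓝 s] D := by
      filter_upwards [Ioo_mem_nhds h1 h2] with x hx
      exact (hD x hx).deriv
    exact (hc.congr he.symm).continuousWithinAt

end Crest.Agent.R135.Tip
end

-- ▼ part R135/TipTheta
section

/-!
# R135 (TIP): the polar angle of the crack near a tip (helper633)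
-/

set_option autoImplicit false

open Set Filter Topology Metric MeasureTheory
open scoped RealInnerProductSpace

namespace Crest.Agent.R135.Tip

open Crest.Agent.R135.Arc

variable {K : Set E2} {x0 : E2} {r0 C c α : ℝ}

theorem J_dir (θ : ℝ) : J (dir θ) = tau θ := by
  ext i; fin_cases i <;> simp

theorem rot_cancel (a d : E2) (k : ℝ) : ⟪a, k • J d⟫ + ⟪k • J a, d⟫ = 0 := by
  simp only [Arc.inner_eq, PiLp.smul_apply, smul_eq_mul, J_zero', J_one']; ring

/-- the conclusion of the geometric part: the crack is `s ↦ cpt x0 s (θ s)` near the tip -/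
structure TipCurve (K : Set E2) (x0 : E2) (r2 : ℝ) (θ θ1 : ℝ → ℝ) : Prop where
  pos : 0 < r2
  der : ∀ s ∈ Ioo 0 r2, HasDerivAt θ (θ1 s) s
  cont : ContinuousOn θ1 (Ioo 0 r2)
  slope : ∀ s ∈ Ioo 0 r2, |s * θ1 s| ≤ 1
  mem : ∀ s ∈ Ioo 0 r2, cpt x0 s (θ s) ∈ K
  uniq : ∀ z ∈ K, 0 < dist z x0 → dist z x0 < r2 → z = cpt x0 (dist z x0) (θ (dist z x0))

theorem exists_tipCurve_aux (H : TipHyp K x0 r0 C c α) (hα1 : α ≤ 1) :
    ∃ r2, r2 < r0 ∧ ∃ θ θ1, TipCurve K x0 r2 θ θ1 := by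
  obtain ⟨c2, η, r1, T⟩ := H.const
  obtain ⟨γ, hγ⟩ := T.exists_curve H
  obtain ⟨hder, hcont⟩ := T.curve_c1 H hα1 hγ
  have hc20 := T.c2pos
  set r2 := r1/2 with hr2
  have hr20 : 0 < r2 := by have := T.r1pos; rw [hr2]; linarith
  -- derivative bound
  have hlipd : ∀ s ∈ Ioo 0 r2, ‖deriv γ s‖ ≤ 11/10 := by
    intro s hs
    have hs0 := hs.1
    apply (hder s hs).le_of_lip' (by norm_num)
    have h1 : ∀ᶠ x in 𝓝 s, x ∈ Ioo 0 r2 := Ioo_mem_nhds hs.1 hs.2
    have h2 : ∀ᶠ x in 𝓝 s, |x - s| < c2 * s / 4 := by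
      have : Tendsto (fun x => |x - s|) (𝓝 s) (𝓝 0) := by
        have : ContinuousAt (fun y => |y - s|) s := by fun_prop
        simpa [ContinuousAt] using this
      exact this.eventually (gt_mem_nhds (by positivity))
    filter_upwards [h1, h2] with x hx1 hx2
    have := (T.curve_lip H hγ hs hx1 hx2.le).1
    rwa [dist_eq_norm, ← Real.norm_eq_abs] at this
  -- unit vector
  set n : ℝ → E2 := fun s => s⁻¹ • (γ s - x0) with hn
  set n' : ℝ → E2 := fun s => s⁻¹ • deriv γ s + (-(s^2)⁻¹) • (γ s - x0) with hn'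
  have hn1 : ∀ s ∈ Ioo 0 r2, ‖n s‖ = 1 := fun s hs => (radial_unit hs.1 (hγ.dist_eq s hs)).1
  have hγn : ∀ s ∈ Ioo 0 r2, γ s - x0 = s • n s := fun s hs =>
    (radial_unit hs.1 (hγ.dist_eq s hs)).2
  have hnd : ∀ s ∈ Ioo 0 r2, HasDerivAt n (n' s) s := by
    intro s hs
    have h1 : HasDerivAt (fun s : ℝ => s⁻¹) (-(s^2)⁻¹) s := hasDerivAt_inv hs.1.ne'
    exact h1.fun_smul ((hder s hs).sub_const x0)
  have hγc : ContinuousOn γ (Ioo 0 r2) := fun s hs => (hder s hs).continuousAt.continuousWithinAt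
  have hinv : ContinuousOn (fun s : ℝ => s⁻¹) (Ioo 0 r2) :=
    continuousOn_inv₀.mono (fun s hs => hs.1.ne')
  have hinv2 : ContinuousOn (fun s : ℝ => -(s^2)⁻¹) (Ioo 0 r2) := by
    apply ContinuousOn.neg
    apply ContinuousOn.inv₀ (by fun_prop)
    intro s hs
    exact pow_ne_zero 2 hs.1.ne'
  have hnc : ContinuousOn n (Ioo 0 r2) := hinv.smul (hγc.sub continuousOn_const)
  have hn'c : ContinuousOn n' (Ioo 0 r2) :=
    (hinv.smul hcont).add (hinv2.smul (hγc.sub continuousOn_const))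
  -- orthogonality
  have horth : ∀ s ∈ Ioo 0 r2, ⟪n' s, n s⟫ = 0 := by
    intro s hs
    have h1 : HasDerivAt (fun t => ⟪n t, n t⟫) (⟪n s, n' s⟫ + ⟪n' s, n s⟫) s :=
      (hnd s hs).inner ℝ (hnd s hs)
    have h2 : (fun t => ⟪n t, n t⟫) =ᶠ[𝓝 s] fun _ => (1:ℝ) := by
      filter_upwards [Ioo_mem_nhds hs.1 hs.2] with t ht
      rw [real_inner_self_eq_norm_sq, hn1 t ht]; norm_num
    have h3 : HasDerivAt (fun t => ⟪n t, n t⟫) 0 s :=
      (hasDerivAt_const s (1:ℝ)).congr_of_eventuallyEq h2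
    have h4 := h1.unique h3
    rw [real_inner_comm (n' s) (n s)] at h4
    have h5 : ⟪n' s, n s⟫ = ⟪n s, n' s⟫ := real_inner_comm _ _
    linarith
  set θ1 : ℝ → ℝ := fun s => ⟪n' s, J (n s)⟫ with hθ1
  have hn'J : ∀ s ∈ Ioo 0 r2, n' s = θ1 s • J (n s) := by
    intro s hs
    have := frame_eq (hn1 s hs) (n' s)
    rw [horth s hs, zero_smul, zero_add] at this
    exact this
  have hJc : Continuous J := by
    have : J = fun v : E2 => (WithLp.toLp 2 ![-(v 1), v 0] : E2) := rfl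
    rw [this]
    refine (PiLp.continuous_toLp 2 _).comp ?_
    refine continuous_pi fun i => ?_
    fin_cases i
    · simp only [Fin.zero_eta, Matrix.cons_val_zero]; fun_prop
    · simp only [Fin.mk_one, Matrix.cons_val_one]; fun_prop
  have hθ1c : ContinuousOn θ1 (Ioo 0 r2) := hn'c.inner (hJc.comp_continuousOn hnc)
  -- slope
  have hslope : ∀ s ∈ Ioo 0 r2, |s * θ1 s| ≤ 1 := by
    intro s hs
    have hs0 := hs.1
    have e1 : deriv γ s = n s + s • n' s := by
      have : s • n' s = deriv γ s - n s := by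
        simp only [hn', hn, smul_add, smul_smul]
        rw [mul_inv_cancel₀ hs0.ne', one_smul,
          show s * -(s^2)⁻¹ = -s⁻¹ by field_simp, neg_smul]
        abel
      rw [this]; abel
    have e2 : ‖deriv γ s‖^2 = 1 + (s * θ1 s)^2 := by
      rw [e1, norm_add_sq_real, hn1 s hs, real_inner_smul_right, real_inner_comm, horth s hs,
        hn'J s hs, norm_smul, norm_smul, norm_J, hn1 s hs, Real.norm_eq_abs, Real.norm_eq_abs,
        mul_one, mul_pow, sq_abs, sq_abs]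
      ring
    have e3 := hlipd s hs
    have e4 : ‖deriv γ s‖^2 ≤ (11/10)^2 := pow_le_pow_left₀ (norm_nonneg _) e3 2
    rw [abs_le_one_iff_mul_self_le_one]
    nlinarith
  -- the angle
  set s0 := r2/2 with hs0
  have hs0I : s0 ∈ Ioo 0 r2 := ⟨by rw [hs0]; linarith, by rw [hs0]; linarith⟩
  obtain ⟨t0, -, ht0⟩ := exists_dir_eq (n s0) (hn1 s0 hs0I) 0
  set θ : ℝ → ℝ := fun s => t0 + ∫ t in s0..s, θ1 t with hθ
  have hθd : ∀ s ∈ Ioo 0 r2, HasDerivAt θ (θ1 s) s := by
    intro s hs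
    have hint : IntervalIntegrable θ1 volume s0 s := by
      apply ContinuousOn.intervalIntegrable
      apply hθ1c.mono
      intro t ht
      rw [mem_uIcc] at ht
      rcases ht with ht | ht
      · exact ⟨by linarith [hs0I.1, ht.1], by linarith [hs.2, ht.2]⟩
      · exact ⟨by linarith [hs.1, ht.1], by linarith [hs0I.2, ht.2]⟩
    have := intervalIntegral.integral_hasDerivAt_right hint
      (hθ1c.stronglyMeasurableAtFilter isOpen_Ioo s hs)
      (hθ1c.continuousAt (Ioo_mem_nhds hs.1 hs.2))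
    exact this.const_add t0
  -- `n = dir θ`
  have hA : ∀ s ∈ Ioo 0 r2, HasDerivAt (fun s => ⟪n s, dir (θ s)⟫) 0 s := by
    intro s hs
    have h1 : HasDerivAt (fun s => dir (θ s)) (θ1 s • tau (θ s)) s :=
      (hasDerivAt_dir (θ s)).scomp s (hθd s hs)
    have h2 := (hnd s hs).inner ℝ h1
    refine h2.congr_deriv ?_
    rw [hn'J s hs, ← J_dir]
    exact rot_cancel _ _ _
  have hconst : ∀ s ∈ Ioo 0 r2, ⟪n s, dir (θ s)⟫ = 1 := by
    intro s hs
    have h1 := isOpen_Ioo.is_const_of_deriv_eq_zero (isPreconnected_Ioo)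
      (f := fun s => ⟪n s, dir (θ s)⟫) (s := Ioo 0 r2)
      (fun t ht => (hA t ht).differentiableAt.differentiableWithinAt)
      (fun t ht => (hA t ht).deriv) hs hs0I
    rw [h1, hθ]
    simp only [intervalIntegral.integral_same, add_zero]
    rw [ht0, real_inner_self_eq_norm_sq, hn1 s0 hs0I]; norm_num
  have hneq : ∀ s ∈ Ioo 0 r2, n s = dir (θ s) := by
    intro s hs
    exact (inner_eq_one_iff_of_norm_eq_one (𝕜 := ℝ) (hn1 s hs) (norm_dir _)).1 (hconst s hs)
  have hγcpt : ∀ s ∈ Ioo 0 r2, γ s = cpt x0 s (θ s) := by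
    intro s hs
    rw [cpt, ← hneq s hs, ← hγn s hs]; abel
  refine ⟨r2, by rw [hr2]; linarith [T.r1r0, T.r1pos], θ, θ1, hr20, hθd, hθ1c, hslope, ?_, ?_⟩
  · intro s hs
    rw [← hγcpt s hs]
    exact hγ.mem s hs
  · intro z hz h0 h1
    rw [← hγcpt _ ⟨h0, h1⟩]
    exact hγ.uniq z hz h0 h1

/-- **The crack near a tip is a `C¹` curve transversal to the circles.** -/
theorem exists_tipCurve (H : TipHyp K x0 r0 C c α) :
    ∃ r2, r2 < r0 ∧ ∃ θ θ1, TipCurve K x0 r2 θ θ1 := by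
  have H' : TipHyp K x0 r0 C (min c 1) (min α 1) := by
    refine ⟨H.r0pos, H.Cpos, lt_min H.cpos one_pos, lt_min H.αpos one_pos, H.mem, H.closed,
      H.ray, ?_⟩
    intro y hy hyx hyr ρ hρ hρc
    have hd : 0 < dist y x0 := dist_pos.2 hyx
    obtain ⟨v, hv⟩ := H.flat y hy hyx hyr ρ hρ
      (hρc.trans (mul_le_mul_of_nonneg_right (min_le_left _ _) hd.le))
    have h1 : ρ / dist y x0 ≤ 1 := by
      rw [div_le_one hd]
      exact hρc.trans ((mul_le_mul_of_nonneg_right (min_le_right _ _) hd.le).trans (by rw [one_mul]))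
    have h0 : 0 < ρ / dist y x0 := by positivity
    have h2 : (ρ / dist y x0)^α ≤ (ρ / dist y x0)^(min α 1) :=
      Real.rpow_le_rpow_of_exponent_ge h0 h1 (min_le_left _ _)
    have hC := H.Cpos
    have h3 : C * ρ * (ρ / dist y x0)^α ≤ C * ρ * (ρ / dist y x0)^(min α 1) := by gcongr
    refine ⟨v, hv.1, fun z hz hd => (hv.2.1 z hz hd).trans h3, fun t ht => ?_⟩
    obtain ⟨z, hz, hd⟩ := hv.2.2 t ht
    exact ⟨z, hz, hd.trans h3⟩
  exact exists_tipCurve_aux H' (min_le_right _ _)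

end Crest.Agent.R135.Tip
end

-- ▼ part R135/TipData
section

/-!
# R135 (TIP): the hypotheses of `crack_decay` on almost every circle around a tip (helper633)
-/

set_option autoImplicit false

open MeasureTheory Set Filter Topology Metric
open scoped Real Interval RealInnerProductSpace ENNReal NNReal Gradient

noncomputable section

namespace Crest.Agent.R135.Tip

open CrackAlg

variable {U : Set E2} {lam : ℝ} {u : E2 → ℝ} {K : Set E2} {x : E2} {r0 : ℝ} {θ θ1 : ℝ → ℝ}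

/-- tangential derivative in the shifted angle, scaled -/
def tF1 (u : E2 → ℝ) (x : E2) (θ : ℝ → ℝ) (s φ : ℝ) : ℝ :=
  Real.sqrt s * ⟪gradient u (cpt x s (θ s + φ)), tau (θ s + φ)⟫
/-- normal derivative in the shifted angle, scaled -/
def tH (u : E2 → ℝ) (x : E2) (θ : ℝ → ℝ) (s φ : ℝ) : ℝ :=
  Real.sqrt s * ⟪gradient u (cpt x s (θ s + φ)), dir (θ s + φ)⟫

theorem periodic_dir (u : E2 → ℝ) (x : E2) (s : ℝ) :
    Function.Periodic (fun θ => ⟪gradient u (cpt x s θ), dir θ⟫) (2 * π) := by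
  intro θ
  simp only
  rw [cpt_periodic x s θ, dir_periodic θ]

theorem periodic_u_dir (u : E2 → ℝ) (x : E2) (s : ℝ) :
    Function.Periodic (fun θ => u (cpt x s θ) * ⟪gradient u (cpt x s θ), dir θ⟫) (2 * π) := by
  intro θ
  simp only
  rw [cpt_periodic x s θ, dir_periodic θ]

theorem periodic_norm (u : E2 → ℝ) (x : E2) (s : ℝ) :
    Function.Periodic (fun θ => ‖gradient u (cpt x s θ)‖ ^ 2) (2 * π) := by
  intro θ
  simp only
  rw [cpt_periodic x s θ]

/-- off the crack point the circle does not meet `K` -/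
theorem TipCurve.off (T : TipCurve K x r0 θ θ1) {s φ : ℝ} (hs : s ∈ Ioo 0 r0)
    (hφ : φ ∈ Ioo (θ s) (θ s + 2 * π)) : cpt x s φ ∉ K := by
  intro hK
  have hd : dist (cpt x s φ) x = s := by rw [dist_cpt, abs_of_pos hs.1]
  have h1 := T.uniq _ hK (by rw [hd]; exact hs.1) (by rw [hd]; exact hs.2)
  rw [hd] at h1
  have h2 : φ = θ s := by
    apply cpt_injOn (x := x) hs.1.ne' (θ s) ⟨hφ.1.le, hφ.2⟩ ⟨le_rfl, by linarith [Real.two_pi_pos]⟩ h1
  exact absurd h2 hφ.1.ne'

/-- the two energies agree on good circles -/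
theorem cE_eq (hg : GoodCirc K (fun y => gradient u y) x r0) (θ : ℝ → ℝ) :
    cE (tF1 u x θ r0) (tH u x θ r0) = cirE u x r0 := by
  have hle : (0:ℝ) ≤ 2 * π := by positivity
  set a := θ r0 with ha
  have h0 : a + 0 ≤ a + 2 * π := by linarith
  have h1 := (hg.isL2_tau (a + 0) (a + 2 * π)).shift (a := 0) (b := 2 * π)
  have h2 := (hg.isL2_dir (a + 0) (a + 2 * π)).shift (a := 0) (b := 2 * π)
  have s1 := h1.sq hle
  have s2 := h2.sq hle
  have hr := hg.pos
  unfold cE tF1 tH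
  have e1 : ∀ φ, (Real.sqrt r0 * ⟪gradient u (cpt x r0 (θ r0 + φ)), tau (θ r0 + φ)⟫) ^ 2
      = r0 * ⟪gradient u (cpt x r0 (a + φ)), tau (a + φ)⟫ ^ 2 := fun φ => by
    rw [mul_pow, Real.sq_sqrt hr.le]
  have e2 : ∀ φ, (Real.sqrt r0 * ⟪gradient u (cpt x r0 (θ r0 + φ)), dir (θ r0 + φ)⟫) ^ 2
      = r0 * ⟪gradient u (cpt x r0 (a + φ)), dir (a + φ)⟫ ^ 2 := fun φ => by
    rw [mul_pow, Real.sq_sqrt hr.le]
  simp only [e1, e2]
  rw [intervalIntegral.integral_const_mul, intervalIntegral.integral_const_mul, ← mul_add,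
    ← intervalIntegral.integral_add s1 s2]
  rw [cirE, circI]
  congr 1
  rw [← integral_shift_period (periodic_norm u x r0) a]
  apply intervalIntegral.integral_congr
  intro φ _
  simp only
  rw [norm_sq_frame _ (a + φ)]
  ring

/-- **TipCircle data on almost every circle** (all but the force balance). -/
theorem ae_tipCircle (h : IsQM U lam u K) {M : ℝ} (hM : ∀ y ∈ U \ K, |u y| ≤ M)
    (hr0 : 0 < r0) (hU : closedBall x r0 ⊆ U) (T : TipCurve K x r0 θ θ1)
    {e : ℝ → ℝ} {N : ℝ} (hN1 : lam * π ≤ N) (hN2 : 2 * π * M ≤ N) (hN3 : lam * M * π ≤ N)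
    (hN4 : 1 ≤ N) (hND : ∀ s ∈ Ioo 0 r0, Dr u K x s ≤ N * s)
    (hforce : ∀ᵐ s, s ∈ Ioo 0 r0 →
      |cR (tF1 u x θ s) (tH u x θ s) - 1 / Real.sqrt (1 + (s * θ1 s)^2)| ≤ e s ∧
      |cT (tF1 u x θ s) (tH u x θ s) - (s * θ1 s) / Real.sqrt (1 + (s * θ1 s)^2)| ≤ e s) :
    ∃ F : ℝ → ℝ → ℝ, ∀ᵐ s, s ∈ Ioo 0 r0 →
      TipCircle N s (s ^ (-1:ℝ) * Dr u K x s) (s * θ1 s) (e s) (F s) (tF1 u x θ s) (tH u x θ s) := by
  obtain ⟨f, hf⟩ := QMC.exists_EL h
  have hc : LocConstOn (U \ K) (fun _ : E2 => (0:ℝ)) := fun y _ => Eventually.of_forall fun _ => rfl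
  have main : ∀ᵐ s, s ∈ Ioo 0 r0 → ∃ F : ℝ → ℝ,
      TipCircle N s (s ^ (-1:ℝ) * Dr u K x s) (s * θ1 s) (e s) F (tF1 u x θ s) (tH u x θ s) := by
    filter_upwards [hforce, QMC.ae_goodCirc_qm h hU, QMC.total_flux h hf hr0.le hU,
      QMC.energy_identity_bdd h hf hr0.le hU hc] with s hforce hgood hflux hen hs
    have hs0 := hs.1
    have hg := hgood hs
    set a := θ s with ha
    have hsq : 0 < Real.sqrt s := Real.sqrt_pos.2 hs0
    have hsq2 : Real.sqrt s * Real.sqrt s = s := Real.mul_self_sqrt hs0.le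
    have hle : (0:ℝ) ≤ 2 * π := by positivity
    have hpi := Real.pi_pos
    have hsub : closedBall x s ⊆ U := (closedBall_subset_closedBall hs.2.le).trans hU
    -- the primitive
    obtain ⟨P, hP, hPe⟩ := hg.exists_isPrim (u := u) (a := a + 0) (b := a + 2 * π)
      (by linarith) (fun φ hφ => by
        have hφ' : φ ∈ Ioo (θ s) (θ s + 2 * π) := by
          rw [← ha]; exact ⟨by linarith [hφ.1], hφ.2⟩
        exact QMC.hasGradientAt h ⟨hsub (by
          rw [mem_closedBall, dist_cpt, abs_of_pos hs0]), T.off hs hφ'⟩)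
    set F : ℝ → ℝ := fun φ => (Real.sqrt s)⁻¹ * P (a + φ) with hF
    have hFp : IsPrim 0 (2 * π) F (tF1 u x θ s) := by
      have h1 := (hP.shift).const_mul (Real.sqrt s)⁻¹
      have h2 : (fun φ => (Real.sqrt s)⁻¹ * (s * ⟪gradient u (cpt x s (a + φ)), tau (a + φ)⟫))
          = tF1 u x θ s := by
        funext φ
        unfold tF1
        rw [← ha, ← mul_assoc]
        congr 1
        rw [inv_mul_eq_div, div_eq_iff hsq.ne', hsq2]
      rw [← h2]
      exact h1
    have hFv : ∀ φ ∈ Ioo (0:ℝ) (2 * π), F φ = (Real.sqrt s)⁻¹ * u (cpt x s (a + φ)) := by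
      intro φ hφ
      simp only [hF]
      rw [hPe ⟨by linarith [hφ.1], by linarith [hφ.2]⟩]
    have hub : ∀ φ ∈ Ioo (0:ℝ) (2 * π), |u (cpt x s (a + φ))| ≤ M := by
      intro φ hφ
      apply hM
      refine ⟨hsub (by rw [mem_closedBall, dist_cpt, abs_of_pos hs0]), T.off hs ?_⟩
      rw [← ha]
      exact ⟨by linarith [hφ.1], by linarith [hφ.2]⟩
    have hF1L : IsL2 0 (2*π) (tF1 u x θ s) :=
      ((hg.isL2_tau (a + 0) (a + 2 * π)).shift (a := 0) (b := 2 * π)).const_mul _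
    have hHL : IsL2 0 (2*π) (tH u x θ s) :=
      ((hg.isL2_dir (a + 0) (a + 2 * π)).shift (a := 0) (b := 2 * π)).const_mul _
    -- flux
    have hfl : |∫ φ in (0:ℝ)..(2*π), tH u x θ s φ| ≤ N * s * Real.sqrt s := by
      unfold tH
      rw [intervalIntegral.integral_const_mul,
        integral_shift_period (periodic_dir u x s) (θ s), abs_mul, abs_of_pos hsq]
      have h1 := hflux hs
      have h2 := QMC.abs_rhs_le h hf hU hs0.le hs.2.le (v := fun _ => 1) (M := 1)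
        (fun y _ => by simp)
      simp only [mul_one] at h2
      rw [← h1, abs_mul, abs_of_pos hs0] at h2
      have h3 : |∫ θ in (-π)..π, ⟪gradient u (cpt x s θ), dir θ⟫| ≤ lam * π * s := by
        have : s * |∫ θ in (-π)..π, ⟪gradient u (cpt x s θ), dir θ⟫| ≤ s * (lam * π * s) := by
          linarith
        exact le_of_mul_le_mul_left this hs0
      calc Real.sqrt s * |∫ θ in (-π)..π, ⟪gradient u (cpt x s θ), dir θ⟫|
          ≤ Real.sqrt s * (lam * π * s) := mul_le_mul_of_nonneg_left h3 hsq.le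
        _ ≤ Real.sqrt s * (N * s) := by gcongr
        _ = N * s * Real.sqrt s := by ring
    -- mean
    have hmean : |∫ φ in (0:ℝ)..(2*π), F φ| * Real.sqrt s ≤ N := by
      have h1 : ‖∫ φ in (0:ℝ)..(2*π), F φ‖ ≤ ((Real.sqrt s)⁻¹ * M) * |2 * π - 0| := by
        apply intervalIntegral.norm_integral_le_of_norm_le_const_ae
        have hne : ∀ᵐ φ : ℝ, φ ≠ 2 * π := by
          rw [ae_iff]; simp
        filter_upwards [hne] with φ h1 h2
        rw [uIoc_of_le hle] at h2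
        have h3 : φ ∈ Ioo (0:ℝ) (2*π) := ⟨h2.1, lt_of_le_of_ne h2.2 h1⟩
        rw [hFv φ h3, Real.norm_eq_abs, abs_mul, abs_of_pos (inv_pos.2 hsq)]
        exact mul_le_mul_of_nonneg_left (hub φ h3) (inv_pos.2 hsq).le
      rw [Real.norm_eq_abs, sub_zero, abs_of_nonneg hle] at h1
      calc |∫ φ in (0:ℝ)..(2*π), F φ| * Real.sqrt s
          ≤ ((Real.sqrt s)⁻¹ * M * (2 * π)) * Real.sqrt s := by gcongr
        _ = 2 * π * M := by field_simp
        _ ≤ N := hN2
    -- energy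
    have hX : cX F (tH u x θ s) = ∫ θ in (-π)..π, u (cpt x s θ) * ⟪gradient u (cpt x s θ), dir θ⟫ := by
      rw [← integral_shift_period (periodic_u_dir u x s) a]
      unfold cX
      apply intervalIntegral.integral_congr_ae
      have hne : ∀ᵐ φ : ℝ, φ ≠ 2 * π := by
        rw [ae_iff]; simp
      filter_upwards [hne] with φ h1 h2
      rw [uIoc_of_le hle] at h2
      have h3 : φ ∈ Ioo (0:ℝ) (2*π) := ⟨h2.1, lt_of_le_of_ne h2.2 h1⟩
      rw [hFv φ h3]
      unfold tH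
      rw [← ha]
      field_simp
    have hXe : |cX F (tH u x θ s) - s ^ (-1:ℝ) * Dr u K x s| ≤ N * s := by
      have hMb : ∀ y ∈ ball x s \ K, |u y - (fun _ : E2 => (0:ℝ)) y| ≤ M := by
        intro y hy
        simp only [sub_zero]
        exact hM y ⟨hsub (ball_subset_closedBall hy.1), hy.2⟩
      have h1 := hen hs M hMb
      simp only [sub_zero] at h1 hMb
      have h2 := QMC.abs_rhs_le h hf hU hs0.le hs.2.le hMb
      rw [hX]
      have h3 : (∫ θ in (-π)..π, u (cpt x s θ) * ⟪gradient u (cpt x s θ), dir θ⟫)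
          - s ^ (-1:ℝ) * Dr u K x s = s⁻¹ * ∫ y in ball x s, f y * u y := by
        rw [Real.rpow_neg_one, h1]
        field_simp
        ring
      rw [h3, abs_mul, abs_of_pos (inv_pos.2 hs0)]
      calc s⁻¹ * |∫ y in ball x s, f y * u y| ≤ s⁻¹ * (lam * M * π * s ^ 2) := by gcongr
        _ = (lam * M * π) * s := by field_simp
        _ ≤ N * s := by gcongr
    obtain ⟨hR, hT⟩ := hforce hs
    have hNs : 0 ≤ N * s := by
      have : 0 ≤ N := by linarith
      positivity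
    refine ⟨F, ⟨hFp, hF1L, hHL, hfl, hmean, hXe, by linarith, by linarith, ?_, ?_⟩⟩
    · rw [Real.rpow_neg_one]
      have := hND s hs
      rw [inv_mul_le_iff₀ hs0]
      linarith
    · exact (T.slope s hs).trans hN4
  have main' : ∀ s, ∃ F : ℝ → ℝ, (∃ F : ℝ → ℝ,
      TipCircle N s (s ^ (-1:ℝ) * Dr u K x s) (s * θ1 s) (e s) F (tF1 u x θ s) (tH u x θ s)) →
      TipCircle N s (s ^ (-1:ℝ) * Dr u K x s) (s * θ1 s) (e s) F (tF1 u x θ s) (tH u x θ s) := by
    intro s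
    by_cases hF : ∃ F : ℝ → ℝ,
      TipCircle N s (s ^ (-1:ℝ) * Dr u K x s) (s * θ1 s) (e s) F (tF1 u x θ s) (tH u x θ s)
    · obtain ⟨F, hF⟩ := hF
      exact ⟨F, fun _ => hF⟩
    · exact ⟨0, fun h => absurd h hF⟩
  choose F hF using main'
  refine ⟨F, ?_⟩
  filter_upwards [main] with s hs hs'
  exact hF s (hs hs')

end Crest.Agent.R135.Tip
end
end

-- ▼ part R135/TipDecay
section

/-!
# R135 (TIP): decay of the polar angle of the crack at a tip (helper633)
-/

set_option autoImplicit false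

open MeasureTheory Set Filter Topology Metric
open scoped Real Interval RealInnerProductSpace ENNReal NNReal Gradient

noncomputable section

namespace Crest.Agent.R135.Tip

open CrackAlg

variable {U : Set E2} {lam : ℝ} {u : E2 → ℝ} {K : Set E2} {x : E2} {r0 : ℝ} {θ θ1 : ℝ → ℝ}

/-- the force balance in averaged form (input from INNER) -/
structure ForceBal (u : E2 → ℝ) (x : E2) (r0 C : ℝ) (θ θ1 e : ℝ → ℝ) : Prop where
  nonneg : ∀ s, 0 ≤ e s
  int : ∀ a b, 0 < a → a ≤ b → b ≤ r0 → IntervalIntegrable e volume a b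
  bd : ∀ a b, 0 < a → a ≤ b → b ≤ r0 → ∫ s in a..b, e s ≤ C * b ^ (3/2 : ℝ)
  eq : ∀ᵐ s, s ∈ Ioo 0 r0 →
      |cR (tF1 u x θ s) (tH u x θ s) - 1 / Real.sqrt (1 + (s * θ1 s)^2)| ≤ e s ∧
      |cT (tF1 u x θ s) (tH u x θ s) - (s * θ1 s) / Real.sqrt (1 + (s * θ1 s)^2)| ≤ e s

theorem TipCurve.mono (T : TipCurve K x r0 θ θ1) {r1 : ℝ} (h1 : 0 < r1) (h : r1 ≤ r0) :
    TipCurve K x r1 θ θ1 :=
  ⟨h1, fun s hs => T.der s ⟨hs.1, hs.2.trans_le h⟩, T.cont.mono (Ioo_subset_Ioo_right h),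
    fun s hs => T.slope s ⟨hs.1, hs.2.trans_le h⟩, fun s hs => T.mem s ⟨hs.1, hs.2.trans_le h⟩,
    fun z hz h0 h2 => T.uniq z hz h0 (h2.trans_le h)⟩

theorem angle_decay_tip (h : IsQM U lam u K) {M : ℝ} (hM : ∀ y ∈ U \ K, |u y| ≤ M) (hM0 : 0 ≤ M)
    (hr0 : 0 < r0) (hr01 : r0 ≤ 1) (hU : closedBall x r0 ⊆ U) (T : TipCurve K x r0 θ θ1)
    {e : ℝ → ℝ} {C : ℝ} (hC : 0 ≤ C) (hF : ForceBal u x r0 C θ θ1 e)
    {D0 : ℝ} (hD0 : ∀ s ∈ Ioo 0 r0, Dr u K x s ≤ D0 * s)
    (hlim : Tendsto (fun s => s ^ (-1:ℝ) * Dr u K x s) (𝓝[>] 0) (𝓝 1)) :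
    ∃ γ θ0 C' : ℝ, 0 < γ ∧ 0 ≤ C' ∧ ∀ s, 0 < s → s < r0/2 → |θ s - θ0| ≤ C' * s ^ γ := by
  set r1 := r0/2 with hr1
  have hr10 : 0 < r1 := by positivity
  have hr1r0 : r1 < r0 := by rw [hr1]; linarith
  have hr11 : r1 ≤ 1 := by linarith
  have hlam := h.lam_nonneg
  have hpi := Real.pi_pos
  set N : ℝ := lam * π + 2 * π * M + lam * M * π + 1 + |D0| + 3 * C with hN
  have hp1 : 0 ≤ lam * π := by positivity
  have hp2 : 0 ≤ 2 * π * M := by positivity
  have hp3 : 0 ≤ lam * M * π := by positivity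
  have hp4 : 0 ≤ |D0| := abs_nonneg _
  have hD0' : D0 ≤ |D0| := le_abs_self _
  have hU1 : closedBall x r1 ⊆ U := (closedBall_subset_closedBall hr1r0.le).trans hU
  have T1 := T.mono hr10 hr1r0.le
  have hforce1 : ∀ᵐ s, s ∈ Ioo 0 r1 →
      |cR (tF1 u x θ s) (tH u x θ s) - 1 / Real.sqrt (1 + (s * θ1 s)^2)| ≤ e s ∧
      |cT (tF1 u x θ s) (tH u x θ s) - (s * θ1 s) / Real.sqrt (1 + (s * θ1 s)^2)| ≤ e s := by
    filter_upwards [hF.eq] with s hs hs'
    exact hs ⟨hs'.1, hs'.2.trans hr1r0⟩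
  obtain ⟨F, hFc⟩ := ae_tipCircle h hM hr10 hU1 T1 (e := e) (N := N) (by rw [hN]; linarith)
    (by rw [hN]; linarith) (by rw [hN]; linarith) (by rw [hN]; linarith) (fun s hs => by
      refine (hD0 s ⟨hs.1, hs.2.trans hr1r0⟩).trans ?_
      apply mul_le_mul_of_nonneg_right _ hs.1.le
      rw [hN]; linarith) hforce1
  obtain ⟨P, hP, hP0, hP1⟩ := exists_P hr10 hC hF.nonneg
    (fun a b ha hab hb => hF.int a b ha hab (hb.trans hr1r0.le))
    (fun a b ha hab hb => hF.bd a b ha hab (hb.trans hr1r0.le))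
  have hA : LocPrim r1 (fun s => Dr u K x s) (fun s => cE (tF1 u x θ s) (tH u x θ s)) := by
    intro a b ha hab hb
    refine (QMC.isPrim_Dr h hU ha.le hab (hb.trans hr1r0.le)).congr_ae hab ?_
    filter_upwards [QMC.ae_goodCirc_qm h hU] with s hs hs'
    have hg := hs ⟨ha.trans hs'.1, (hs'.2.trans_le hb).trans hr1r0⟩
    exact (cE_eq hg θ).symm
  have hθ : LocPrim r1 θ θ1 := by
    intro a b ha hab hb
    apply isPrim_of_hasDerivAt hab
    · intro s hs
      exact T.der s ⟨ha.trans_le hs.1, (hs.2.trans hb).trans_lt hr1r0⟩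
    · apply T.cont.mono
      intro s hs
      exact ⟨ha.trans_le hs.1, (hs.2.trans hb).trans_lt hr1r0⟩
  have hN0 : 0 ≤ N := by rw [hN]; linarith
  have hP1' : ∀ s, 0 < s → s ≤ r1 → P s ≤ N * s ^ (1/2 : ℝ) := by
    intro s hs hsr
    refine (hP1 s hs hsr).trans ?_
    apply mul_le_mul_of_nonneg_right _ (Real.rpow_nonneg hs.le _)
    rw [hN]; linarith
  obtain ⟨γ, θ0, C', hγ, hC', hdec, -⟩ := crack_decay hr10 hr11 hN0 hA hlim hθ hP hF.nonneg hP0
    hP1' hFc
  exact ⟨γ, θ0, C', hγ, hC', fun s hs hsr => hdec s hs hsr.le⟩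

end Crest.Agent.R135.Tip
end
end

-- ▼ part R135/Inner9
section

/-!
# R135, block INNER (helper828), part 9: averaged force balance at a tip
-/

set_option autoImplicit false

open MeasureTheory Set Filter Topology Metric
open scoped ENNReal NNReal ContDiff Gradient Real

noncomputable section

namespace Crest.Agent.R135

namespace Inner

theorem measurable_FB (u : E2 → ℝ) (x₀ : E2) : Measurable (FB u x₀) := by
  have h1 : StronglyMeasurable (fun p : ℝ × ℝ => stress u x₀ (cpt x₀ p.1 p.2)) :=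
    ((measurable_stress u x₀).comp (continuous_cpt x₀).measurable).stronglyMeasurable
  have h2 : StronglyMeasurable (fun s : ℝ => ∫ θ in Ioc (-π) π, stress u x₀ (cpt x₀ s θ)) :=
    h1.integral_prod_right' (ν := volume.restrict (Ioc (-π) π))
  have e : FB u x₀ = fun s => s • ∫ θ in Ioc (-π) π, stress u x₀ (cpt x₀ s θ) := by
    funext s
    unfold FB circI
    rw [intervalIntegral.integral_of_le (by linarith [Real.pi_pos])]
  rw [e]
  exact measurable_id.smul h2.measurable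

theorem one_le_norm_pder (θ θ1 : ℝ → ℝ) (r : ℝ) : 1 ≤ ‖pder θ θ1 r‖ := by
  have h := norm_sq_pder θ θ1 r
  have h2 := norm_nonneg (pder θ θ1 r)
  nlinarith [sq_nonneg (r * θ1 r)]

theorem continuousOn_utan_pder {θ θ1 : ℝ → ℝ} {S : Set ℝ} (h : ContinuousOn θ S)
    (h1 : ContinuousOn θ1 S) : ContinuousOn (utan (pder θ θ1)) S := by
  have hp : ContinuousOn (pder θ θ1) S := by
    unfold pder
    exact (continuous_dir.comp_continuousOn h).add
      ((continuousOn_id.mul h1).smul (continuous_tau.comp_continuousOn h))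
  unfold utan
  refine (hp.norm.inv₀ fun s _ => ?_).smul hp
  have := one_le_norm_pder θ θ1 s
  linarith

variable {U K : Set E2} {lam : ℝ} {u : E2 → ℝ} {x₀ : E2}

theorem Dr_le_of_isQM (h : IsQM U lam u K) {ρ : ℝ} (hρ : 0 < ρ) (hU : closedBall x₀ ρ ⊆ U) :
    Dr u K x₀ ρ ≤ 2 * π * ρ + lam * ρ^2 := by
  have h1 := h.energy_le hρ hU
  have h2 : ENNReal.ofReal (Dr u K x₀ ρ) ≤ ENNReal.ofReal (2 * π * ρ + lam * ρ ^ 2) := by
    rw [← dirE_closedBall h hU]
    exact le_self_add.trans h1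
  have h3 : 0 ≤ 2 * π * ρ + lam * ρ^2 := by
    have := h.lam_nonneg
    positivity
  exact (ENNReal.ofReal_le_ofReal_iff h3).1 h2

/-- **Averaged force balance at a tip** (input of helper633's `arc_end`). -/
theorem tip_force (h : IsQM U lam u K) {r0 : ℝ} (hr0 : 0 < r0) (hU : closedBall x₀ r0 ⊆ U)
    {R : ℝ} {θ θ1 : ℝ → ℝ} (T : Tip.TipCurve K x₀ R θ θ1) :
    ∃ (e : ℝ → ℝ) (r1 C : ℝ), 0 < r1 ∧ r1 ≤ r0 ∧ r1 < R ∧ 0 ≤ C ∧ Measurable e ∧
      (∀ s, 0 ≤ e s) ∧
      (∀ᵐ s, s ∈ Ioo 0 r1 →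
        |CrackAlg.cR (fun φ => Real.sqrt s * inner ℝ (∇ u (cpt x₀ s (θ s + φ))) (tau (θ s + φ)))
            (fun φ => Real.sqrt s * inner ℝ (∇ u (cpt x₀ s (θ s + φ))) (dir (θ s + φ))) -
            1 / Real.sqrt (1 + (s * θ1 s)^2)| ≤ e s ∧
        |CrackAlg.cT (fun φ => Real.sqrt s * inner ℝ (∇ u (cpt x₀ s (θ s + φ))) (tau (θ s + φ)))
            (fun φ => Real.sqrt s * inner ℝ (∇ u (cpt x₀ s (θ s + φ))) (dir (θ s + φ))) -
            (s * θ1 s) / Real.sqrt (1 + (s * θ1 s)^2)| ≤ e s) ∧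
      (∀ ρ, 0 < ρ → ρ ≤ r1 → IntervalIntegrable e volume (ρ/2) ρ ∧
        ∫ s in (ρ/2)..ρ, e s ≤ C * (ρ * Real.sqrt ρ)) := by
  have hlam := h.lam_nonneg
  obtain ⟨r1, hr1, hr1r0, hr1R, hr1lam, hr1one⟩ : ∃ r1 : ℝ, 0 < r1 ∧ r1 ≤ r0 ∧ r1 < R ∧
      lam * r1 ≤ 1/4 ∧ r1 ≤ 1 := by
    refine ⟨min (min r0 (R/2)) (min 1 (1/(4*(lam+1)))), ?_, ?_, ?_, ?_, ?_⟩
    · have := T.pos
      have h3 : 0 < 1/(4*(lam+1)) := by positivity
      exact lt_min (lt_min hr0 (by linarith)) (lt_min one_pos h3)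
    · exact (min_le_left _ _).trans (min_le_left _ _)
    · have h3 := (min_le_left (min r0 (R/2)) (min 1 (1/(4*(lam+1))))).trans (min_le_right _ _)
      have := T.pos
      linarith
    · have h3 := (min_le_right (min r0 (R/2)) (min 1 (1/(4*(lam+1))))).trans (min_le_right _ _)
      calc lam * min (min r0 (R/2)) (min 1 (1/(4*(lam+1)))) ≤ lam * (1/(4*(lam+1))) := by gcongr
        _ ≤ 1/4 := by
          rw [mul_one_div, div_le_div_iff₀ (by positivity) (by norm_num)]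
          linarith
    · exact (min_le_right _ _).trans (min_le_left _ _)
  have hUr : ∀ ρ, ρ ≤ r1 → closedBall x₀ ρ ⊆ U := fun ρ hρ =>
    (closedBall_subset_closedBall (hρ.trans hr1r0)).trans hU
  -- the error function
  set V : ℝ → E2 := (Ioo 0 R).piecewise (utan (pder θ θ1)) (fun _ => 0) with hV
  have hθc : ContinuousOn θ (Ioo 0 R) := fun s hs => (T.der s hs).continuousAt.continuousWithinAt
  have hVm : Measurable V :=
    (continuousOn_utan_pder hθc T.cont).measurable_piecewise continuousOn_const measurableSet_Ioo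
  set e : ℝ → ℝ := fun s => ‖FB u x₀ s - V s‖ with he
  have hem : Measurable e := ((measurable_FB u x₀).sub hVm).norm
  have hee : ∀ s ∈ Ioo 0 R, e s = ferr u x₀ θ θ1 s := by
    intro s hs
    rw [he, hV]
    simp only [ferr, piecewise_eq_of_mem _ _ _ hs]
  have hprim : ∀ a b, 0 < a → a ≤ b → b < R → IsPrim a b θ θ1 := by
    intro a b ha hab hb
    have hsub : Icc a b ⊆ Ioo 0 R := fun s hs => ⟨ha.trans_le hs.1, hs.2.trans_lt hb⟩
    exact isPrim_of_hasDerivAt hab (fun s hs => T.der s (hsub hs)) (T.cont.mono hsub)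
  have hcurve : ∀ a b, 0 < a → a ≤ b → b < R →
      K ∩ {y | a ≤ ‖y - x₀‖ ∧ ‖y - x₀‖ ≤ b} = (fun r => cpt x₀ r (θ r)) '' Icc a b := by
    intro a b ha hab hb
    ext y
    constructor
    · rintro ⟨hy, hy1, hy2⟩
      rw [← dist_eq_norm] at hy1 hy2
      exact ⟨dist y x₀, ⟨hy1, hy2⟩,
        (T.uniq y hy (ha.trans_le hy1) (hy2.trans_lt hb)).symm⟩
    · rintro ⟨s, hs, rfl⟩
      have hs0 : 0 < s := ha.trans_le hs.1
      refine ⟨T.mem s ⟨hs0, hs.2.trans_lt hb⟩, ?_⟩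
      simp only [mem_ofPred_eq]
      rw [← dist_eq_norm, dist_cpt, abs_of_pos hs0]
      exact ⟨hs.1, hs.2⟩
  refine ⟨e, r1, Real.sqrt lam * (4 * π + 2 + 2), hr1, hr1r0, hr1R, by positivity, hem,
    fun s => norm_nonneg _, ?_, ?_⟩
  · filter_upwards [force_components h (hUr r1 le_rfl) θ θ1] with s hs hsm
    rw [hee s ⟨hsm.1, hsm.2.trans hr1R⟩]
    exact hs hsm
  · intro ρ hρ hρ1
    have hρR : ρ < R := hρ1.trans_lt hr1R
    have hhalf : 0 < ρ/2 := by positivity
    have hle : ρ/2 ≤ ρ := by linarith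
    have hP := hprim (ρ/2) ρ hhalf hle hρR
    have hi := ferr_intervalIntegrable h hhalf hle le_rfl (hUr ρ hρ1) hP
    have hcongr : ∀ s ∈ uIoc (ρ/2) ρ, ferr u x₀ θ θ1 s = e s := by
      intro s hs
      rw [uIoc_of_le hle] at hs
      exact (hee s ⟨hhalf.trans hs.1, hs.2.trans_lt hρR⟩).symm
    have hi' : IntervalIntegrable e volume (ρ/2) ρ := hi.congr (fun s hs => hcongr s hs)
    refine ⟨hi', ?_⟩
    have hlt : ρ/2 < ρ := by linarith
    have hlr : lam * ρ ≤ 1/4 := (by gcongr : lam * ρ ≤ lam * r1).trans hr1lam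
    have hmain := ferr_integral_le h hhalf hlt le_rfl (hUr ρ hρ1) hP
      (hcurve (ρ/2) ρ hhalf hle hρR) hlr
    have hE : ∫ s in (ρ/2)..ρ, e s = ∫ s in (ρ/2)..ρ, ferr u x₀ θ θ1 s := by
      apply intervalIntegral.integral_congr_ae
      exact Eventually.of_forall fun s hs => (hcongr s hs).symm
    rw [hE]
    refine hmain.trans ?_
    have hD := Dr_le_of_isQM h hρ (hUr ρ hρ1)
    have h4 : 2 * Dr u K x₀ ρ + (ρ - ρ/2)/2 + ρ ≤ (4 * π + 2 + 2) * ρ := by
      have h5 : lam * ρ^2 ≤ 1/4 * ρ := by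
        calc lam * ρ^2 = (lam * ρ) * ρ := by ring
          _ ≤ 1/4 * ρ := by gcongr
      nlinarith [Real.pi_pos]
    have h6 : 0 ≤ Real.sqrt (lam * ρ) := Real.sqrt_nonneg _
    calc Real.sqrt (lam * ρ) * (2 * Dr u K x₀ ρ + (ρ - ρ/2)/2 + ρ)
        ≤ Real.sqrt (lam * ρ) * ((4 * π + 2 + 2) * ρ) := by gcongr
      _ = Real.sqrt lam * (4 * π + 2 + 2) * (ρ * Real.sqrt ρ) := by
        rw [Real.sqrt_mul hlam]
        ring

end Inner

end Crest.Agent.R135
end
end

-- ▼ part R135/TipForce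
section

/-!
# R135 (TIP): the force balance of `Inner9` in the form used by `TipFinal` (helper633)
-/

set_option autoImplicit false

open MeasureTheory Set Filter Topology Metric
open scoped Real Interval RealInnerProductSpace ENNReal NNReal Gradient

noncomputable section

namespace Crest.Agent.R135.Tip

open CrackAlg

variable {U : Set E2} {lam : ℝ} {u : E2 → ℝ} {K : Set E2} {x : E2} {r0 : ℝ} {θ θ1 : ℝ → ℝ}

/-- dyadic bounds sum up -/
theorem dyadic_sum {e : ℝ → ℝ} {r1 C : ℝ} (he : ∀ s, 0 ≤ e s) (hC : 0 ≤ C)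
    (hd : ∀ ρ, 0 < ρ → ρ ≤ r1 → IntervalIntegrable e volume (ρ/2) ρ ∧
        ∫ s in (ρ/2)..ρ, e s ≤ C * (ρ * Real.sqrt ρ)) (n : ℕ) :
    ∀ a b, 0 < a → a ≤ b → b ≤ r1 → b ≤ 2^n * a →
      IntervalIntegrable e volume a b ∧ ∫ s in a..b, e s ≤ 2 * C * (b * Real.sqrt b) := by
  induction n with
  | zero =>
    intro a b ha hab hb hn
    have : a = b := le_antisymm hab (by simpa using hn)
    subst this
    refine ⟨IntervalIntegrable.refl, ?_⟩
    rw [intervalIntegral.integral_same]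
    have := Real.sqrt_nonneg a
    positivity
  | succ n ih =>
    intro a b ha hab hb hn
    have hb0 : 0 < b := ha.trans_le hab
    obtain ⟨h1, h2⟩ := hd b hb0 hb
    have hs := Real.sqrt_nonneg b
    rcases le_or_gt (b/2) a with h | h
    · have hsub : uIcc a b ⊆ uIcc (b/2) b := by
        rw [uIcc_of_le hab, uIcc_of_le (by linarith)]
        exact Icc_subset_Icc_left h
      have hi : IntervalIntegrable e volume a b := h1.mono_set hsub
      refine ⟨hi, ?_⟩
      have : ∫ s in a..b, e s ≤ ∫ s in (b/2)..b, e s :=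
        intervalIntegral.integral_mono_interval h hab le_rfl
          (Eventually.of_forall he) h1
      have h3 : 0 ≤ C * (b * Real.sqrt b) := by positivity
      linarith
    · obtain ⟨i1, i2⟩ := ih a (b/2) ha h.le (by linarith) (by rw [pow_succ] at hn; linarith)
      refine ⟨i1.trans h1, ?_⟩
      rw [← intervalIntegral.integral_add_adjacent_intervals i1 h1]
      have h3 : Real.sqrt (b/2) ≤ Real.sqrt b := Real.sqrt_le_sqrt (by linarith)
      have h4 : 2 * C * (b/2 * Real.sqrt (b/2)) ≤ 2 * C * (b/2 * Real.sqrt b) := by gcongr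
      linarith

theorem mul_sqrt_eq_rpow {b : ℝ} (hb : 0 < b) : b * Real.sqrt b = b ^ (3/2 : ℝ) := by
  rw [Real.sqrt_eq_rpow]
  nth_rewrite 1 [← Real.rpow_one b]
  rw [← Real.rpow_add hb]
  norm_num

theorem exists_forceBal (h : IsQM U lam u K) {r : ℝ} (hr : 0 < r) (hU : closedBall x r ⊆ U)
    (T : TipCurve K x r θ θ1) : ∃ r' C : ℝ, ∃ e : ℝ → ℝ, 0 < r' ∧ r' ≤ r ∧ 0 ≤ C ∧
      ForceBal u x r' C θ θ1 e := by
  obtain ⟨e, r1, C, hr1, hr1r, -, hC, -, he, hae, hd⟩ := Inner.tip_force h hr hU T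
  have key : ∀ a b, 0 < a → a ≤ b → b ≤ r1 →
      IntervalIntegrable e volume a b ∧ ∫ s in a..b, e s ≤ 2 * C * (b * Real.sqrt b) := by
    intro a b ha hab hb
    obtain ⟨n, hn⟩ := pow_unbounded_of_one_lt (b/a) (one_lt_two (α := ℝ))
    exact dyadic_sum he hC hd n a b ha hab hb ((div_le_iff₀ ha).1 hn.le)
  refine ⟨r1, 2 * C, e, hr1, hr1r, by positivity, ⟨he, fun a b ha hab hb => (key a b ha hab hb).1,
    fun a b ha hab hb => ?_, ?_⟩⟩
  · rw [← mul_sqrt_eq_rpow (ha.trans_le hab)]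
    exact (key a b ha hab hb).2
  · exact hae

end Crest.Agent.R135.Tip
end
end

-- ▼ part R135/TipEnd
section

/-!
# R135 (TIP): from convergence of the polar angle with a rate to `IsArcEndPoint` (helper633)
-/

set_option autoImplicit false

open Set Filter Topology Metric MeasureTheory
open scoped RealInnerProductSpace

namespace Crest.Agent.R135.Tip

open Crest.Agent.R135.Arc
open Crest.AnalysisR.PDE.MumfordShah

theorem norm_dir_sub_le (a b : ℝ) : ‖dir a - dir b‖ ≤ |a - b| := by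
  have h : ∀ x ∈ (univ : Set ℝ), HasDerivWithinAt dir (tau x) univ x := fun x _ =>
    (hasDerivAt_dir x).hasDerivWithinAt
  have := convex_univ.norm_image_sub_le_of_norm_hasDerivWithin_le (f := dir) (C := 1) h
    (fun x _ => by rw [norm_tau]) (mem_univ b) (mem_univ a)
  simpa using this

theorem isArcEndPoint_of_angle {K Ω : Set E2} {x0 : E2} {r0 C c α r2 θ0 C' γ : ℝ} {θ θ1 : ℝ → ℝ}
    (H : TipHyp K x0 r0 C c α) (hr20 : r2 < r0) (hT : TipCurve K x0 r2 θ θ1) (hγ : 0 < γ)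
    (hC' : 0 ≤ C')
    (hdec : ∀ s, 0 < s → s < r2 → |θ s - θ0| ≤ C' * s ^ γ) (hΩ : ball x0 r0 ⊆ Ω) :
    IsArcEndPoint Ω K x0 := by
  have hC := H.Cpos
  have hα := H.αpos
  have hr2 := hT.pos
  set r := min r2 1 with hr
  have hr0 : 0 < r := lt_min hr2 one_pos
  have hrr2 : r ≤ r2 := min_le_left _ _
  have hr1 : r ≤ 1 := min_le_right _ _
  have hγ' : 0 < min γ α := lt_min hγ hα
  refine isArcEndPoint_of_moving (C := C + C' + 1) (γ := min γ α) (c := min c 1) hr0
    (by positivity) hγ' (lt_min H.cpos one_pos) H.mem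
    ((inter_subset_inter_right _ (ball_subset_ball (by linarith))).trans H.closed)
    ((ball_subset_ball (by linarith)).trans hΩ) ?_ ?_
  · intro ρ hρ hρr
    have hρ1 : ρ ≤ 1 := by linarith
    have hρp : ρ ^ (1 + γ) ≤ ρ ^ (1 + min γ α) :=
      Real.rpow_le_rpow_of_exponent_ge hρ hρ1 (by linarith [min_le_left γ α])
    have key : ∀ s, 0 < s → s ≤ ρ →
        dist (cpt x0 s (θ s)) (x0 + s • dir θ0) ≤ (C + C' + 1) * ρ ^ (1 + min γ α) := by
      intro s hs hsρ
      have h1 : dist (cpt x0 s (θ s)) (x0 + s • dir θ0) = s * ‖dir (θ s) - dir θ0‖ := by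
        rw [cpt, dist_eq_norm, show x0 + s • dir (θ s) - (x0 + s • dir θ0)
          = s • (dir (θ s) - dir θ0) by rw [smul_sub]; abel, norm_smul, Real.norm_eq_abs,
          abs_of_pos hs]
      rw [h1]
      have h2 := norm_dir_sub_le (θ s) θ0
      have h3 := hdec s hs (by linarith)
      have h4 : s ^ γ ≤ ρ ^ γ := Real.rpow_le_rpow hs.le hsρ hγ.le
      have h5 : ρ ^ (1 + γ) = ρ * ρ ^ γ := by rw [Real.rpow_add hρ, Real.rpow_one]
      have h6 : 0 < ρ ^ (1 + min γ α) := by positivity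
      calc s * ‖dir (θ s) - dir θ0‖ ≤ ρ * (C' * ρ ^ γ) := by
            have : ‖dir (θ s) - dir θ0‖ ≤ C' * ρ ^ γ :=
              h2.trans (h3.trans (mul_le_mul_of_nonneg_left h4 hC'))
            gcongr
        _ = C' * ρ ^ (1 + γ) := by rw [h5]; ring
        _ ≤ C' * ρ ^ (1 + min γ α) := mul_le_mul_of_nonneg_left hρp hC'
        _ ≤ _ := by
          apply mul_le_mul_of_nonneg_right _ h6.le
          linarith
    have hpos : 0 ≤ (C + C' + 1) * ρ ^ (1 + min γ α) := by positivity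
    refine ⟨dir θ0, norm_dir _, ?_, ?_⟩
    · intro z hz hd
      refine ⟨0, dist z x0, dist_nonneg, ?_⟩
      have e1 : rt (a1 0) (b1 0) (dir θ0) = dir θ0 := by simp [a1, b1, rt]
      rw [e1]
      rcases eq_or_ne z x0 with rfl | hzx
      · simpa using hpos
      · have h0 : 0 < dist z x0 := dist_pos.2 hzx
        have h1 := hT.uniq z hz h0 (by linarith)
        have h2 := key (dist z x0) h0 hd
        rwa [← h1] at h2
    · intro k t ht htρ
      have e1 : rt (a1 k) (b1 k) (dir θ0) = dir θ0 := by simp [a1, b1, rt]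
      rw [e1]
      rcases eq_or_lt_of_le ht with h0 | h0
      · refine ⟨x0, H.mem, ?_⟩
        rw [← h0]
        simpa using hpos
      · exact ⟨cpt x0 t (θ t), hT.mem t ⟨h0, by linarith⟩, key t h0 htρ⟩
  · intro y hy hyx hyr ρ hρ hρc
    have hd : 0 < dist y x0 := dist_pos.2 hyx
    obtain ⟨v, hv⟩ := H.flat y hy hyx (by linarith) ρ hρ
      (hρc.trans (mul_le_mul_of_nonneg_right (min_le_left _ _) hd.le))
    have h1 : ρ / dist y x0 ≤ 1 := by
      rw [div_le_one hd]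
      exact hρc.trans ((mul_le_mul_of_nonneg_right (min_le_right _ _) hd.le).trans (by rw [one_mul]))
    have h0 : 0 < ρ / dist y x0 := by positivity
    have h2 : (ρ / dist y x0)^α ≤ (ρ / dist y x0)^(min γ α) :=
      Real.rpow_le_rpow_of_exponent_ge h0 h1 (min_le_right _ _)
    have h3 : C * ρ * (ρ / dist y x0)^α ≤ (C + C' + 1) * ρ * (ρ / dist y x0)^(min γ α) := by
      gcongr
      linarith
    refine ⟨v, hv.1, fun z hz hd => (hv.2.1 z hz hd).trans h3, fun t ht => ?_⟩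
    obtain ⟨z, hz, hd⟩ := hv.2.2 t ht
    exact ⟨z, hz, hd.trans h3⟩

end Crest.Agent.R135.Tip
end

-- ▼ part R135/TipFinal
section

/-!
# R135 (TIP): assembly of `arc_end` modulo the force balance (helper633)
-/

set_option autoImplicit false

open MeasureTheory Set Filter Topology Metric
open scoped Real Interval RealInnerProductSpace ENNReal NNReal Gradient
open Crest.AnalysisR.PDE.MumfordShah

noncomputable section

namespace Crest.Agent.R135.Tip

open Arc

theorem exists_tipHyp {U : Set E2} {lam : ℝ} {u : E2 → ℝ} {K : Set E2} (h : IsSQM U lam u K)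
    {x : E2} (hx : x ∈ K) {R ε₀ : ℝ} (hR : 0 < R) (hRU : closedBall x R ⊆ U) (hε₀ : 0 < ε₀)
    (hD : ∀ r : ℝ, 0 < r → r ≤ R → ε₀ * r ≤ Dr u K x r) :
    ∃ r0 C c α : ℝ, r0 ≤ 1 ∧ r0 ≤ R ∧ TipHyp K x r0 C c α := by
  obtain ⟨ε, c', C', γ', hε, hc', hC', hγ', hflat⟩ := line_flat
  obtain ⟨c, hc, hc4, hann⟩ := tip_annulus ε hε
  obtain ⟨r₁, hr₁, hann'⟩ := hann h.toIsQM x hx R ε₀ hR hRU hε₀ hD
  have hlam := h.lam_nonneg
  set r0 : ℝ := min (min r₁ (R/2)) (min 1 (ε/(lam+1))) with hr0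
  have hr00 : 0 < r0 := by
    rw [hr0]
    refine lt_min (lt_min hr₁ (by linarith)) (lt_min one_pos (by positivity))
  have h1 : r0 ≤ r₁ := (min_le_left _ _).trans (min_le_left _ _)
  have h2 : r0 ≤ R/2 := (min_le_left _ _).trans (min_le_right _ _)
  have h3 : r0 ≤ 1 := (min_le_right _ _).trans (min_le_left _ _)
  have h4 : r0 ≤ ε/(lam+1) := (min_le_right _ _).trans (min_le_right _ _)
  refine ⟨r0, C' * c ^ (-γ'), c' * c, γ', h3, by linarith, ⟨hr00, by positivity, by positivity,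
    hγ', hx, ?_, ?_, ?_⟩⟩
  · intro y hy
    apply h.closed ⟨hy.1, ?_⟩
    apply hRU
    have := hy.2
    rw [mem_ball] at this
    rw [mem_closedBall]
    linarith
  · intro η hη
    obtain ⟨r, hr, hr'⟩ := tip_blowup h.toIsQM hx hR hRU hε₀ hD η hη
    exact ⟨r, hr, fun ρ hρ hρr => (hr' ρ hρ hρr.le).1⟩
  · intro y hy hyx hyr ρ hρ hρc
    have hd : 0 < dist y x := dist_pos.2 hyx
    obtain ⟨hl, hDr⟩ := hann' y hy hd (by linarith)
    have hr : 0 < c * dist y x := by positivity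
    have hr1 : c * dist y x ≤ r0 / 4 := by
      have : c * dist y x ≤ 1/4 * r0 := mul_le_mul hc4 hyr.le hd.le (by norm_num)
      linarith
    have hsub : closedBall y (c * dist y x) ⊆ U := by
      intro z hz
      apply hRU
      rw [mem_closedBall] at hz ⊢
      have := dist_triangle z y x
      linarith
    have hlamr : lam * (c * dist y x) ≤ ε := by
      have g1 : c * dist y x ≤ ε/(lam+1) := by linarith
      have g2 : (c * dist y x) * (lam + 1) ≤ ε := by
        rwa [le_div_iff₀ (by linarith)] at g1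
      nlinarith
    obtain ⟨v, hv⟩ := hflat h y hy (c * dist y x) hr (by linarith) hsub hlamr hDr hl y hy
      (by rw [dist_self]; positivity) ρ hρ (by
        calc ρ ≤ c' * c * dist y x := hρc
          _ = c' * (c * dist y x) := by ring)
    refine ⟨v, ?_⟩
    have e : C' * ρ * (ρ / (c * dist y x)) ^ γ' = C' * c ^ (-γ') * ρ * (ρ / dist y x) ^ γ' := by
      have : ρ / (c * dist y x) = c⁻¹ * (ρ / dist y x) := by field_simp
      rw [this, Real.mul_rpow (by positivity) (by positivity), Real.inv_rpow hc.le,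
        Real.rpow_neg hc.le]
      ring
    rw [← e]
    exact hv

/-- `arc_end` from the force balance -/
theorem arc_end_of_force {U : Set E2} {lam M : ℝ} {u : E2 → ℝ} {K : Set E2} (h : IsSQM U lam u K)
    (hM : ∀ y ∈ U \ K, |u y| ≤ M)
    {x : E2} (hx : x ∈ K) {R ε₀ : ℝ} (hR : 0 < R) (hRU : closedBall x R ⊆ U) (hε₀ : 0 < ε₀)
    (hD : ∀ r : ℝ, 0 < r → r ≤ R → ε₀ * r ≤ Dr u K x r)
    (hforce : ∀ (r : ℝ) (θ θ1 : ℝ → ℝ), 0 < r → r ≤ 1 → closedBall x r ⊆ U →
      TipCurve K x r θ θ1 → ∃ r' C : ℝ, ∃ e : ℝ → ℝ, 0 < r' ∧ r' ≤ r ∧ 0 ≤ C ∧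
        ForceBal u x r' C θ θ1 e) : IsArcEndPoint U K x := by
  obtain ⟨r0, C, c, α, hr01, hr0R, H⟩ := exists_tipHyp h hx hR hRU hε₀ hD
  obtain ⟨r2, hr2, θ, θ1, T⟩ := exists_tipCurve H
  have hr20 := T.pos
  obtain ⟨rD, hrD, hrD'⟩ := tip_blowup h.toIsQM hx hR hRU hε₀ hD 1 one_pos
  set r3 := min r2 rD with hr3
  have hr30 : 0 < r3 := lt_min hr20 hrD
  have hr3r2 : r3 ≤ r2 := min_le_left _ _
  have hr3D : r3 ≤ rD := min_le_right _ _
  have T3 := T.mono hr30 hr3r2
  obtain ⟨r', C', e, hr', hr'3, hC', hF⟩ := hforce r3 θ θ1 hr30 (by linarith)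
    ((closedBall_subset_closedBall (by linarith)).trans hRU) T3
  have T' := T3.mono hr' hr'3
  have hlim : Tendsto (fun s => s ^ (-1:ℝ) * Dr u K x s) (𝓝[>] 0) (𝓝 1) := by
    rw [Metric.tendsto_nhds]
    intro ε hε
    obtain ⟨r, hr, hrr⟩ := tip_blowup h.toIsQM hx hR hRU hε₀ hD (ε/2) (by positivity)
    filter_upwards [Ioc_mem_nhdsGT hr] with s hs
    have g := (hrr s hs.1 hs.2).2
    rw [Real.dist_eq, Real.rpow_neg_one]
    have e1 : s⁻¹ * Dr u K x s - 1 = s⁻¹ * (Dr u K x s - s) := by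
      have := hs.1.ne'
      field_simp
    rw [e1, abs_mul, abs_of_pos (inv_pos.2 hs.1)]
    calc s⁻¹ * |Dr u K x s - s| ≤ s⁻¹ * (ε/2 * s) :=
          mul_le_mul_of_nonneg_left g (inv_pos.2 hs.1).le
      _ = ε/2 := by have := hs.1.ne'; field_simp
      _ < ε := by linarith
  have hM' : ∀ y ∈ U \ K, |u y| ≤ |M| := fun y hy => (hM y hy).trans (le_abs_self M)
  obtain ⟨γ, θ0, C'', hγ, hC'', hdec⟩ := angle_decay_tip h.toIsQM hM' (abs_nonneg M) hr'
    (by linarith) ((closedBall_subset_closedBall (by linarith)).trans hRU) T' hC' hF (D0 := 2)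
    (fun s hs => by
      have := (hrD' s hs.1 (by linarith [hs.2])).2
      have := (abs_le.1 this).2
      linarith) hlim
  exact isArcEndPoint_of_angle H (by linarith) (T'.mono (half_pos hr') (by linarith)) hγ hC'' hdec
    (ball_subset_closedBall.trans ((closedBall_subset_closedBall hr0R).trans hRU))

end Crest.Agent.R135.Tip
end
end

-- ▼ part R135/IF_arc_end
section

/-! INTERFACE arc_end: proved (helper633, helper828). -/

set_option autoImplicit false

open MeasureTheory Set Filter Topology Metric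
open scoped ENNReal NNReal ContDiff Gradient
open Crest.AnalysisR.PDE.OnePhase Crest.AnalysisR.PDE.MumfordShah

namespace Crest.Agent.R135

/-- case (B): end point -/
theorem arc_end {U : Set E2} {lam M : ℝ} {u : E2 → ℝ} {K : Set E2} (h : IsSQM U lam u K)
    (hM : ∀ y ∈ U \ K, |u y| ≤ M)
    {x : E2} (hx : x ∈ K) {R ε₀ : ℝ} (hR : 0 < R) (hRU : closedBall x R ⊆ U) (hε₀ : 0 < ε₀)
    (hD : ∀ r : ℝ, 0 < r → r ≤ R → ε₀ * r ≤ Dr u K x r) : IsArcEndPoint U K x :=
  Tip.arc_end_of_force h hM hx hR hRU hε₀ hD fun _r _θ _θ1 hr _ hU T =>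
    Tip.exists_forceBal h.toIsQM hr hU T

end Crest.Agent.R135
end

-- ▼ part R135/IF_LOC
section

/-!
# INTERFACE LOC (helper253): local structure, everything after B3 + GM

Owners: `small_propagates`, `shape_of_small` helper288; `line_reg`, `local_shape` helper990;
`tip_blowup`, `tip_annulus` helper887; `jump_lower` helper709 (done, Jump.lean);
`conn_line`, `conn_prop`, `exc_line` helper983; `phase_*` helper12; `decay_*` helper427;
`cone_competitor`, `star_prop` helper560; `line_flat`, `arc_or_triple` helper370;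
`arc_end` helper633 + helper828 + helper555.
All constants are absolute. `IsSQM` = strong class (no `Keeps`), file Strong.lean.
-/
end

-- ▼ part R135/IF_MAIN
section

/-!
# R135: local structure at every point of the crack of a strong quasi-minimizer (helper253)
-/

set_option autoImplicit false

open MeasureTheory Set Filter Topology Metric
open scoped ENNReal NNReal ContDiff Gradient
open Crest.AnalysisR.PDE.OnePhase Crest.AnalysisR.PDE.MumfordShah

namespace Crest.Agent.R135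

theorem local_main {U : Set E2} {lam M : ℝ} {u : E2 → ℝ} {K : Set E2} (h : IsSQM U lam u K)
    (hM : ∀ y ∈ U \ K, |u y| ≤ M) {x : E2} (hx : x ∈ K) :
    IsArcInteriorPoint U K x ∨ IsArcEndPoint U K x ∨ IsTripleJunctionPoint U K x := by
  obtain ⟨ε₀, hε₀, key⟩ := arc_or_triple
  have hxU : x ∈ U := h.sub hx
  obtain ⟨R, hR, hRU⟩ := Metric.isOpen_iff.1 h.isOpen x hxU
  have hlam : 0 ≤ lam := h.lam_nonneg
  -- a small radius `R₁` with `closedBall x R₁ ⊆ U`, `R₁ ≤ 1`, `lam * R₁ ≤ ε₀`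
  obtain ⟨R₁, hR₁, hR₁1, hR₁R, hR₁l⟩ : ∃ R₁ : ℝ, 0 < R₁ ∧ R₁ ≤ 1 ∧ R₁ < R ∧ lam * R₁ ≤ ε₀ := by
    refine ⟨min (min 1 (R / 2)) (ε₀ / (lam + 1)), ?_, ?_, ?_, ?_⟩
    · exact lt_min (lt_min one_pos (by linarith)) (div_pos hε₀ (by linarith))
    · exact (min_le_left _ _).trans (min_le_left _ _)
    · have : min (min 1 (R / 2)) (ε₀ / (lam + 1)) ≤ R / 2 :=
        (min_le_left _ _).trans (min_le_right _ _)
      linarith
    · have h1 : min (min 1 (R / 2)) (ε₀ / (lam + 1)) ≤ ε₀ / (lam + 1) := min_le_right _ _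
      calc lam * min (min 1 (R / 2)) (ε₀ / (lam + 1)) ≤ lam * (ε₀ / (lam + 1)) :=
            mul_le_mul_of_nonneg_left h1 hlam
        _ = ε₀ * (lam / (lam + 1)) := by ring
        _ ≤ ε₀ * 1 := by
            apply mul_le_mul_of_nonneg_left _ hε₀.le
            rw [div_le_one (by linarith)]; linarith
        _ = ε₀ := mul_one _
  by_cases hD : ∀ r : ℝ, 0 < r → r ≤ R₁ → ε₀ * r ≤ Dr u K x r
  · exact Or.inr (Or.inl (arc_end h hM hx hR₁
      ((closedBall_subset_ball hR₁R).trans hRU) hε₀ hD))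
  · push Not at hD
    obtain ⟨r, hr, hr1, hr2⟩ := hD
    have hrU : closedBall x r ⊆ U :=
      (closedBall_subset_closedBall hr1).trans ((closedBall_subset_ball hR₁R).trans hRU)
    rcases key h x hx r hr (hr1.trans hR₁1) hrU
      ((mul_le_mul_of_nonneg_left hr1 hlam).trans hR₁l) hr2.le with h1 | h1
    · exact Or.inl h1
    · exact Or.inr (Or.inr h1)

end Crest.Agent.R135
end

-- ▼ part R135/Final

/-!
# R135: final assembly (helper823)
-/

set_option autoImplicit false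

open MeasureTheory Set Filter Topology Metric
open scoped ENNReal NNReal
open Crest.AnalysisR.PDE.OnePhase Crest.AnalysisR.PDE.MumfordShah

namespace Crest.Agent.R135

theorem main_shapes {Ω : Set E2} (hΩo : IsOpen Ω) {g u : E2 → ℝ} {K : Set E2} {G : E2 → E2}
    (hgm : Measurable g) (hgb : ∃ M : ℝ, ∀ x ∈ Ω, ‖g x‖ ≤ M)
    (hmin : IsAbsoluteMinimizer Ω g u K G) (hred : IsReduced Ω K) :
    ∀ x ∈ K, IsArcInteriorPoint Ω K x ∨ IsArcEndPoint Ω K x ∨ IsTripleJunctionPoint Ω K x := by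
  intro x hx
  have hKΩ : K ⊆ Ω := hmin.1.1
  obtain ⟨R, hR, hRΩ, lam, M, -, ut, hQ, hM⟩ := exists_isSQM hΩo hgm hgb hmin hred (hKΩ hx)
  have hxV : x ∈ ball x R := mem_ball_self hR
  have hM' : ∀ y ∈ ball x R \ (K ∩ ball x R), |ut y| ≤ M := fun y hy =>
    hM y ⟨hy.1, fun hyK => hy.2 ⟨hyK, hy.1⟩⟩
  have h := local_main hQ hM' (x := x) ⟨hx, hxV⟩
  exact Arc.Shape.mono (ball_subset_closedBall.trans hRΩ) h

theorem main {Ω : Set E2} (hΩo : IsOpen Ω) {g u : E2 → ℝ} {K : Set E2} {G : E2 → E2}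
    (hgm : Measurable g) (hgb : ∃ M : ℝ, ∀ x ∈ Ω, ‖g x‖ ≤ M)
    (hmin : IsAbsoluteMinimizer Ω g u K G) (hred : IsReduced Ω K) :
    (∀ x ∈ K, IsArcInteriorPoint Ω K x ∨ IsArcEndPoint Ω K x ∨ IsTripleJunctionPoint Ω K x) ∧
      ∀ U : Set (EuclideanSpace ℝ (Fin 2)), IsOpen U → IsCompact (closure U) → closure U ⊆ Ω →
        Set.Finite {C : Set (EuclideanSpace ℝ (Fin 2)) |
          ∃ x ∈ K ∩ U, C = connectedComponentIn K x} :=
  reduce_to_shapes hmin.1.2.1 (main_shapes hΩo hgm hgb hmin hred)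

end Crest.Agent.R135
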