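import Mathlib
import Crest.Agent.R135.Core
import Crest.Agent.R135.PolarD

/-!
# R135: analytic Janiszewski (helper804)

Calculus of `LocConstOn` and `Keeps`, the splitting lemma, moving and removing of compact pieces
of the crack. No planar topology is used: only the Poincaré lemma on convex sets.
-/

set_option autoImplicit false

open MeasureTheory Set Filter Topology Metric
open scoped ENNReal NNReal ContDiff Gradient Manifold

namespace Crest.Agent.R135

/-! ### elementary facts on `LocConstOn` -/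

lemma LocConstOn.mono' {W W' : Set E2} {c : E2 → ℝ} (h : LocConstOn W c) (hs : W' ⊆ W) :
    LocConstOn W' c := fun x hx => h x (hs hx)

lemma LocConstOn.const (W : Set E2) (a : ℝ) : LocConstOn W (fun _ => a) :=
  fun _ _ => Eventually.of_forall fun _ => rfl

lemma LocConstOn.add' {W : Set E2} {c d : E2 → ℝ} (hc : LocConstOn W c) (hd : LocConstOn W d) :
    LocConstOn W (fun y => c y + d y) := by
  intro x hx
  filter_upwards [hc x hx, hd x hx] with y h1 h2
  rw [h1, h2]

lemma LocConstOn.sub {W : Set E2} {c d : E2 → ℝ} (hc : LocConstOn W c) (hd : LocConstOn W d) :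
    LocConstOn W (fun y => c y - d y) := by
  intro x hx
  filter_upwards [hc x hx, hd x hx] with y h1 h2
  rw [h1, h2]

lemma LocConstOn.mul {W : Set E2} {c d : E2 → ℝ} (hc : LocConstOn W c) (hd : LocConstOn W d) :
    LocConstOn W (fun y => c y * d y) := by
  intro x hx
  filter_upwards [hc x hx, hd x hx] with y h1 h2
  rw [h1, h2]

lemma LocConstOn.neg' {W : Set E2} {c : E2 → ℝ} (hc : LocConstOn W c) :
    LocConstOn W (fun y => - c y) := by
  intro x hx
  filter_upwards [hc x hx] with y h1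
  rw [h1]


/-- pre-composition with a map continuous on the set -/
lemma LocConstOn.comp {W V : Set E2} {c : E2 → ℝ} (hc : LocConstOn W c) {Ψ : E2 → E2}
    (hΨ : ∀ x ∈ V, ContinuousAt Ψ x) (hm : ∀ x ∈ V, Ψ x ∈ W) :
    LocConstOn V (fun y => c (Ψ y)) := by
  intro x hx
  exact (hΨ x hx).eventually (hc _ (hm x hx))

lemma LocConstOn.congr {W : Set E2} {c d : E2 → ℝ} (hc : LocConstOn W c)
    (h : ∀ x ∈ W, ∀ᶠ y in 𝓝 x, d y = c y) : LocConstOn W d := by
  intro x hx
  have hx' := (h x hx).self_of_nhds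
  filter_upwards [hc x hx, h x hx] with y h1 h2
  rw [h2, h1, hx']


lemma LocConstOn.continuousOn {W : Set E2} {c : E2 → ℝ} (hc : LocConstOn W c) :
    ContinuousOn c W := by
  intro x hx
  have : ContinuousAt c x :=
    (continuousAt_const (y := c x)).congr (by
      filter_upwards [hc x hx] with y hy using hy.symm)
  exact this.continuousWithinAt

/-- a locally constant function is constant on preconnected sets -/
lemma LocConstOn.eq_of_preconnected {W S : Set E2} {c : E2 → ℝ} (hc : LocConstOn W c)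
    (hS : IsPreconnected S) (hSW : S ⊆ W) {x y : E2} (hx : x ∈ S) (hy : y ∈ S) : c x = c y := by
  have hSp : PreconnectedSpace S := isPreconnected_iff_preconnectedSpace.1 hS
  have hf : IsLocallyConstant (fun z : S => c z) := by
    rw [IsLocallyConstant.iff_eventually_eq]
    intro z
    have := hc z (hSW z.2)
    exact (continuous_subtype_val.tendsto z).eventually this
  exact hf.apply_eq_of_isPreconnected isPreconnected_univ (x := ⟨x, hx⟩) (y := ⟨y, hy⟩)
    (mem_univ _) (mem_univ _)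

/-- locally constant from vanishing derivative -/
lemma locConstOn_of_hasFDerivAt {W : Set E2} (hW : IsOpen W) {c : E2 → ℝ}
    (h : ∀ x ∈ W, HasFDerivAt c (0 : E2 →L[ℝ] ℝ) x) : LocConstOn W c := by
  intro x hx
  obtain ⟨ε, hε, hb⟩ := Metric.isOpen_iff.1 hW x hx
  filter_upwards [ball_mem_nhds x hε] with y hy
  refine (convex_ball x ε).is_const_of_fderivWithin_eq_zero (𝕜 := ℝ)
    (fun z hz => (h z (hb hz)).differentiableAt.differentiableWithinAt) (fun z hz => ?_)
    hy (mem_ball_self hε)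
  exact (h z (hb hz)).hasFDerivWithinAt.fderivWithin
    (isOpen_ball.uniqueDiffWithinAt hz)

/-- the converse: vanishing derivative of a locally constant function -/
lemma LocConstOn.hasFDerivAt {W : Set E2} {c : E2 → ℝ} (h : LocConstOn W c) {x : E2}
    (hx : x ∈ W) : HasFDerivAt c (0 : E2 →L[ℝ] ℝ) x :=
  (hasFDerivAt_const (c x) x).congr_of_eventuallyEq (h x hx)

/-! ### primitive of `c ∇η` -/

/-- If near every point of the convex open set `W` either `η` or `c` is constant, then the form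
`c dη` is exact on `W`. -/
lemma exists_primitive_smul {W : Set E2} (hW : IsOpen W) (hWc : Convex ℝ W) {η c : E2 → ℝ}
    (hη : ContDiff ℝ ∞ η)
    (h : ∀ x ∈ W, (∀ᶠ y in 𝓝 x, η y = η x) ∨ (∀ᶠ y in 𝓝 x, c y = c x)) :
    ∃ g : E2 → ℝ, ∀ x ∈ W, HasFDerivAt g (c x • fderiv ℝ η x) x := by
  have hη1 : ContDiff ℝ ∞ (fderiv ℝ η) := hη.fderiv_right (by exact_mod_cast le_rfl)
  have hη2 : Differentiable ℝ (fderiv ℝ η) := hη1.differentiable (by simp)
  set om : E2 → (E2 →L[ℝ] ℝ) := fun x => c x • fderiv ℝ η x with hom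
  have key : ∀ x ∈ W, ∃ om' : E2 →L[ℝ] (E2 →L[ℝ] ℝ), HasFDerivAt om om' x ∧
      ∀ v w, om' v w = om' w v := by
    intro x hx
    rcases h x hx with h1 | h1
    · refine ⟨0, ?_, by simp⟩
      have h2 : om =ᶠ[𝓝 x] fun _ => 0 := by
        filter_upwards [h1.eventually_nhds] with y hy
        have : fderiv ℝ η y = 0 := by
          have h3 : η =ᶠ[𝓝 y] fun _ => η x := hy
          rw [h3.fderiv_eq]
          simp
        simp [hom, this]
      exact (hasFDerivAt_const _ _).congr_of_eventuallyEq h2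
    · refine ⟨c x • fderiv ℝ (fderiv ℝ η) x, ?_, ?_⟩
      · have h2 : om =ᶠ[𝓝 x] fun y => c x • fderiv ℝ η y := by
          filter_upwards [h1] with y hy
          simp [hom, hy]
        exact ((hη2 x).hasFDerivAt.const_smul (c x)).congr_of_eventuallyEq h2
      · intro v w
        have hsym : IsSymmSndFDerivAt ℝ η x :=
          (hη.contDiffAt).isSymmSndFDerivAt (by
            simp only [minSmoothness_of_isRCLikeNormedField]
            exact WithTop.coe_le_coe.2 (le_top : (2 : ℕ∞) ≤ ⊤))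
        have := hsym.eq v w
        simp [this]
  refine hWc.exists_forall_hasFDerivAt_of_fderiv_symmetric hW
    (fun x hx => ((key x hx).choose_spec.1).differentiableAt.differentiableWithinAt) ?_
  intro x hx v w
  obtain ⟨om', h1, h2⟩ := key x hx
  rw [h1.fderiv]
  exact h2 v w

/-- the two halves of a locally constant function produced by a cut-off -/
lemma split_aux {W : Set E2} (hW : IsOpen W) (hWc : Convex ℝ W) {η c : E2 → ℝ}
    (hη : ContDiff ℝ ∞ η)
    (h : ∀ x ∈ W, (∀ᶠ y in 𝓝 x, η y = η x) ∨ (∀ᶠ y in 𝓝 x, c y = c x)) :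
    ∃ g : E2 → ℝ, (∀ x ∈ W, HasFDerivAt g (c x • fderiv ℝ η x) x) ∧
      (∀ V ⊆ W, IsOpen V → (∀ x ∈ V, (∀ᶠ y in 𝓝 x, η y = 0) ∨ (∀ᶠ y in 𝓝 x, c y = c x)) →
        LocConstOn V (fun y => η y * c y - g y)) ∧
      (∀ V ⊆ W, IsOpen V → (∀ x ∈ V, (∀ᶠ y in 𝓝 x, η y = 1) ∨ (∀ᶠ y in 𝓝 x, c y = c x)) →
        LocConstOn V (fun y => (1 - η y) * c y + g y)) := by
  obtain ⟨g, hg⟩ := exists_primitive_smul hW hWc hη h
  have hηd : Differentiable ℝ η := hη.differentiable (by simp)
  refine ⟨g, hg, ?_, ?_⟩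
  · intro V hVW hV hx0
    refine locConstOn_of_hasFDerivAt hV fun x hx => ?_
    have h1 : HasFDerivAt (fun y => η y * c y) (c x • fderiv ℝ η x) x := by
      rcases hx0 x hx with h2 | h2
      · have h3 : (fun y => η y * c y) =ᶠ[𝓝 x] fun _ => 0 := by
          filter_upwards [h2] with y hy; simp [hy]
        have h4 : fderiv ℝ η x = 0 := by
          have h5 : η =ᶠ[𝓝 x] fun _ => 0 := h2
          rw [h5.fderiv_eq]; simp
        rw [h4, smul_zero]
        exact (hasFDerivAt_const _ _).congr_of_eventuallyEq h3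
      · have h3 : (fun y => η y * c y) =ᶠ[𝓝 x] fun y => η y * c x := by
          filter_upwards [h2] with y hy; simp [hy]
        exact ((hηd x).hasFDerivAt.mul_const (c x)).congr_of_eventuallyEq h3
    have h5 := h1.sub (hg x (hVW hx))
    rw [sub_self] at h5
    exact h5
  · intro V hVW hV hx0
    refine locConstOn_of_hasFDerivAt hV fun x hx => ?_
    have h1 : HasFDerivAt (fun y => (1 - η y) * c y) (c x • (-fderiv ℝ η x)) x := by
      rcases hx0 x hx with h2 | h2
      · have h3 : (fun y => (1 - η y) * c y) =ᶠ[𝓝 x] fun _ => 0 := by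
          filter_upwards [h2] with y hy; simp [hy]
        have h4 : fderiv ℝ η x = 0 := by
          have h5 : η =ᶠ[𝓝 x] fun _ => 1 := h2
          rw [h5.fderiv_eq]; simp
        rw [h4, neg_zero, smul_zero]
        exact (hasFDerivAt_const _ _).congr_of_eventuallyEq h3
      · have h3 : (fun y => (1 - η y) * c y) =ᶠ[𝓝 x] fun y => (1 - η y) * c x := by
          filter_upwards [h2] with y hy; simp [hy]
        exact (((hηd x).hasFDerivAt.const_sub 1).mul_const (c x)).congr_of_eventuallyEq h3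
    have h5 := h1.add (hg x (hVW hx))
    have h6 : c x • (-fderiv ℝ η x) + c x • fderiv ℝ η x = 0 := by simp
    rwa [h6] at h5

/-! ### connectedness of annuli and of exterior domains -/

lemma dist_cpt' {x : E2} {t θ : ℝ} (ht : 0 ≤ t) : dist (cpt x t θ) x = t := by
  rw [dist_eq_norm]; simp [cpt, norm_smul, abs_of_nonneg ht]

lemma isPreconnected_cpt_image (x : E2) {S T : Set ℝ} (hS : IsPreconnected S)
    (hT : IsPreconnected T) :
    IsPreconnected ((fun p : ℝ × ℝ => cpt x p.1 p.2) '' (S ×ˢ T)) :=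
  (hS.prod hT).image _ (continuous_cpt x).continuousOn

lemma isPreconnected_dist_gt (x : E2) {R : ℝ} (hR : 0 ≤ R) :
    IsPreconnected {y : E2 | R < dist y x} := by
  have h4 : {y : E2 | R < dist y x} = (fun p : ℝ × ℝ => cpt x p.1 p.2) '' (Ioi R ×ˢ univ) := by
    ext y
    constructor
    · intro hy
      have hy' : R < dist y x := hy
      obtain ⟨θ, -, h⟩ := exists_cpt_eq (x := x) (hR.trans_lt hy') (Metric.mem_sphere.2 rfl) 0
      exact ⟨(dist y x, θ), ⟨hy', mem_univ _⟩, h⟩
    · rintro ⟨⟨t, θ⟩, ⟨ht, -⟩, rfl⟩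
      have ht' : R < t := ht
      simpa [dist_cpt' (hR.trans ht'.le)] using ht'
  rw [h4]; exact isPreconnected_cpt_image x isPreconnected_Ioi isPreconnected_univ

/-! ### the splitting lemma (J-a) -/

/-- **Splitting lemma.** A function locally constant off the union of a compact piece `K1 ⊆ U` and
a disjoint relatively closed piece `K2` is the sum of a function locally constant off `K1` (in the
whole plane, zero near infinity) and of a function locally constant off `K2`. -/
theorem locConst_split {U K1 K2 : Set E2} (hU : IsOpen U) (hK1 : IsCompact K1) (h1U : K1 ⊆ U)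
    (hK2 : closure K2 ∩ U ⊆ K2) (hd : Disjoint K1 K2) {c : E2 → ℝ}
    (hc : LocConstOn (U \ (K1 ∪ K2)) c) :
    ∃ c1 c2 : E2 → ℝ, LocConstOn (univ \ K1) c1 ∧ LocConstOn (U \ K2) c2 ∧
      (∀ y ∈ U \ (K1 ∪ K2), c y = c1 y + c2 y) ∧ ∃ R : ℝ, ∀ y, R < ‖y‖ → c1 y = 0 := by
  set V : Set E2 := U \ closure K2 with hV
  have hVo : IsOpen V := hU.sdiff isClosed_closure
  have h1V : K1 ⊆ V := fun y hy => ⟨h1U hy, fun h => disjoint_left.1 hd hy (hK2 ⟨h, h1U hy⟩)⟩
  obtain ⟨T, hT, h1T, hTV⟩ := exists_compact_between hK1 hVo h1V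
  obtain ⟨η, hη1, hη0, -⟩ := exists_contMDiffMap_one_nhds_of_subset_interior (n := (⊤ : ℕ∞))
    𝓘(ℝ, E2) hK1.isClosed h1T
  have hηs : ContDiff ℝ ∞ (η : E2 → ℝ) := η.contMDiff.contDiff
  have hη1' : ∀ x ∈ K1, ∀ᶠ y in 𝓝 x, η y = 1 := fun x hx =>
    (eventually_nhdsSet_iff_forall.1 hη1) x hx
  have hη0' : ∀ x, x ∉ V → ∀ᶠ y in 𝓝 x, η y = 0 := by
    intro x hx
    have hxT : x ∉ T := fun h => hx (hTV h)
    filter_upwards [hT.isClosed.isOpen_compl.mem_nhds hxT] with y hy using hη0 y hy
  have hη0'' : ∀ x ∈ K2, ∀ᶠ y in 𝓝 x, η y = 0 := fun x hx =>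
    hη0' x fun h => h.2 (subset_closure hx)
  have hex : ∀ x ∈ (univ : Set E2), (∀ᶠ y in 𝓝 x, η y = η x) ∨ (∀ᶠ y in 𝓝 x, c y = c x) := by
    intro x _
    by_cases h1 : x ∈ K1
    · left
      have := hη1' x h1
      filter_upwards [this] with y hy
      rw [hy, this.self_of_nhds]
    by_cases h2 : x ∈ V
    · right
      exact hc x ⟨h2.1, fun h => h.elim h1 fun h => h2.2 (subset_closure h)⟩
    · left
      have := hη0' x h2
      filter_upwards [this] with y hy
      rw [hy, this.self_of_nhds]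
  obtain ⟨g, hg, hg1, hg2⟩ := split_aux isOpen_univ convex_univ hηs hex
  have hc1 : LocConstOn (univ \ K1) (fun y => η y * c y - g y) := by
    refine hg1 _ (subset_univ _) (isOpen_univ.sdiff hK1.isClosed) fun x hx => ?_
    by_cases h2 : x ∈ V
    · right
      exact hc x ⟨h2.1, fun h => h.elim hx.2 fun h => h2.2 (subset_closure h)⟩
    · left; exact hη0' x h2
  have hUK2 : IsOpen (U \ K2) := by
    have : U \ K2 = V := by
      ext y
      exact ⟨fun h => ⟨h.1, fun h' => h.2 (hK2 ⟨h', h.1⟩)⟩,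
        fun h => ⟨h.1, fun h' => h.2 (subset_closure h')⟩⟩
    rw [this]; exact hVo
  have hc2 : LocConstOn (U \ K2) (fun y => (1 - η y) * c y + g y) := by
    refine hg2 _ (subset_univ _) hUK2 fun x hx => ?_
    by_cases h1 : x ∈ K1
    · left; exact hη1' x h1
    · right; exact hc x ⟨hx.1, fun h => h.elim h1 hx.2⟩
  -- constancy near infinity
  obtain ⟨R0, hR0, hTR⟩ := hT.isBounded.exists_pos_norm_le
  have hconst : ∃ k : ℝ, ∀ y : E2, R0 < ‖y‖ → η y * c y - g y = k := by
    have hne : R0 < ‖cpt 0 (R0 + 1) 0‖ := by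
      rw [← dist_zero_right, dist_cpt' (by linarith)]; linarith
    refine ⟨_, fun y hy => hc1.eq_of_preconnected (isPreconnected_dist_gt 0 hR0.le) ?_
      (x := y) (y := cpt 0 (R0 + 1) 0) ?_ ?_⟩
    · intro z hz
      refine ⟨mem_univ _, fun hzK => ?_⟩
      have h5 : z ∈ T := interior_subset (h1T hzK)
      have h6 : R0 < dist z 0 := hz
      rw [dist_zero_right] at h6
      exact absurd (hTR z h5) (not_le.2 h6)
    · simpa using hy
    · simpa using hne
  obtain ⟨k, hk⟩ := hconst
  refine ⟨fun y => (η y * c y - g y) - k, fun y => ((1 - η y) * c y + g y) + k,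
    hc1.sub (LocConstOn.const _ k), hc2.add' (LocConstOn.const _ k), fun y _ => by ring,
    R0, fun y hy => by simp only [hk y hy, sub_self]⟩

/-! ### calculus of `Keeps` -/

lemma Keeps.mono {U K L L' B : Set E2} (h : Keeps U K L B) (hL : L ⊆ L') : Keeps U K L' B := by
  intro c hc
  obtain ⟨c', h1, h2⟩ := h c hc
  exact ⟨c', h1.mono' (sdiff_subset_sdiff_right hL), h2⟩


lemma Keeps.of_subset {U K L B : Set E2} (h : K ⊆ L) : Keeps U K L B := fun c hc =>
  ⟨c, hc.mono' (sdiff_subset_sdiff_right h), fun _ _ => rfl⟩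

lemma Keeps.refl (U K B : Set E2) : Keeps U K K B := Keeps.of_subset subset_rfl

lemma Keeps.trans {U K L M B : Set E2} (h1 : Keeps U K L B) (h2 : Keeps U L M B)
    (hLB : L \ B ⊆ K) : Keeps U K M B := by
  intro c hc
  obtain ⟨c', h3, h4⟩ := h1 c hc
  obtain ⟨c'', h5, h6⟩ := h2 c' h3
  refine ⟨c'', h5, fun y hy => ?_⟩
  rw [h6 y ⟨hy.1, ?_⟩, h4 y hy]
  rintro (h | h)
  · exact hy.2 (Or.inl (hLB ⟨h, fun h' => hy.2 (Or.inr h')⟩))
  · exact hy.2 (Or.inr h)




end Crest.Agent.R135
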