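import Crest.Agent.R135.RegPot

-- ▼ part R135/RegDec
section

/-!
# Row 135 (Mumford-Shah): solutions of `Δ u = f` (regularity toolbox, part 3)
-/

set_option autoImplicit false
open MeasureTheory Metric Set Filter Topology Laplacian InnerProductSpace
open scoped RealInnerProductSpace NNReal ENNReal ContDiff Gradient

namespace Crest.Agent.R135.Reg
open Crest.Agent.R097

/-- `Δ u = f` weakly in `U` -/
def WLap (U : Set P) (u f : P → ℝ) : Prop :=
  ∀ φ : P → ℝ, ContDiff ℝ ∞ φ → HasCompactSupport φ → tsupport φ ⊆ U →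
    ∫ x, u x * (Δ φ) x = ∫ x, f x * φ x

theorem continuous_lap {φ : P → ℝ} (hφ : ContDiff ℝ ∞ φ) : Continuous (Δ φ) := by
  have hφ2 : ContDiff ℝ 2 φ := contDiff_infty.mp hφ 2
  have := Crest.Agent.R097.Hm.continuousOn_lap isOpen_univ hφ2.contDiffOn
  rwa [← continuousOn_univ]

theorem lap_eq_zero {φ : P → ℝ} {x : P} (hx : x ∉ tsupport φ) : (Δ φ) x = 0 :=
  Crest.Agent.R097.Hm.tsupport_lap_subset φ x hx

theorem hasCompactSupport_lap {φ : P → ℝ} (hc : HasCompactSupport φ) :
    HasCompactSupport (Δ φ) := by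
  refine HasCompactSupport.of_support_subset_isCompact hc ?_
  intro x hx
  by_contra h
  exact hx (lap_eq_zero h)

/-- the weak Laplacian of the potential -/
theorem pot_weak {f : P → ℝ} (hf : MemLp f 2) (hs : ∀ y, y ∉ ball (0 : P) 1 → f y = 0)
    {φ : P → ℝ} (hφ : ContDiff ℝ ∞ φ) (hc : HasCompactSupport φ) :
    ∫ x, pot 0 f x * (Δ φ) x = c0 * ∫ x, f x * φ x := by
  have hfi := integrable_of_L2 hf hs
  have hΔc := continuous_lap hφ
  obtain ⟨R0, hR0⟩ := (hc.isCompact.isBounded).subset_closedBall (0 : P)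
  set R : ℝ := R0 + 2 with hR
  set k : P → ℝ := (ball (0 : P) R).indicator (Lk 0) with hk
  have hki : Integrable k :=
    (integrable_indicator_iff isOpen_ball.measurableSet).mpr (integrableOn_Lk_zero R)
  have h1 : Integrable (fun p : P × P => (f p.2) * (k (p.1 - p.2)))
      ((volume : Measure P).prod volume) := by
    have := hfi.convolution_integrand (ContinuousLinearMap.mul ℝ ℝ) hki
    simpa using this
  obtain ⟨C, hC⟩ := (hasCompactSupport_lap hc).exists_bound_of_continuous hΔc
  have h2 : Integrable (fun p : P × P => Lk 0 (p.1 - p.2) * f p.2 * (Δ φ) p.1)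
      ((volume : Measure P).prod volume) := by
    have h3 : Integrable (fun p : P × P => (Δ φ) p.1 * ((f p.2) * (k (p.1 - p.2))))
        ((volume : Measure P).prod volume) :=
      h1.bdd_mul (hΔc.comp continuous_fst).aestronglyMeasurable
        (Eventually.of_forall fun p => hC p.1)
    refine h3.congr (Eventually.of_forall fun p => ?_)
    simp only
    by_cases h4 : p.1 ∈ tsupport φ
    · by_cases h5 : p.2 ∈ ball (0 : P) 1
      · have : p.1 - p.2 ∈ ball (0 : P) R := by
          have h6 := hR0 h4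
          rw [mem_closedBall_zero_iff] at h6
          rw [mem_ball_zero_iff] at h5 ⊢
          have := norm_sub_le p.1 p.2
          linarith
        rw [hk, indicator_of_mem this]
        ring
      · rw [hs _ h5]
        ring
    · rw [lap_eq_zero h4]
      ring
  calc ∫ x, pot 0 f x * (Δ φ) x = ∫ x, ∫ y, Lk 0 (x - y) * f y * (Δ φ) x := by
        congr 1
        funext x
        rw [integral_mul_const]
        rfl
    _ = ∫ y, ∫ x, Lk 0 (x - y) * f y * (Δ φ) x := integral_integral_swap h2
    _ = ∫ y, f y * (c0 * φ y) := by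
        congr 1
        funext y
        rw [← Lk_zero_test y hφ hc, ← integral_const_mul]
        congr 1
        funext x
        ring
    _ = c0 * ∫ x, f x * φ x := by
        rw [← integral_const_mul]
        congr 1
        funext y
        ring

/-- splitting a solution of `Δ u = f` in the unit disc -/
theorem decomp_unit {u f : P → ℝ} (hu : LocallyIntegrableOn u (ball 0 1))
    (hf : MemLp f 2 (volume.restrict (ball 0 1))) (h : WLap (ball 0 1) u f) :
    ∃ H : P → ℝ, Harm H (ball 0 1) ∧ ∀ᵐ x ∂(volume.restrict (ball (0 : P) 1)),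
      u x = H x + c0⁻¹ * pot 0 ((ball (0 : P) 1).indicator f) x := by
  set f1 : P → ℝ := (ball (0 : P) 1).indicator f with hf1
  have hf12 : MemLp f1 2 := (memLp_indicator_iff_restrict isOpen_ball.measurableSet).mpr hf
  have hs : ∀ y, y ∉ ball (0 : P) 1 → f1 y = 0 := fun y hy => indicator_of_notMem hy _
  have hpc := continuous_pot_zero hf12 hs
  have hFc : Continuous fun x => c0⁻¹ * pot 0 f1 x := continuous_const.mul hpc
  obtain ⟨H, hH, hae⟩ := weyl (f := fun x => u x - c0⁻¹ * pot 0 f1 x) isOpen_ball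
    (hu.sub (hFc.locallyIntegrable.locallyIntegrableOn _)) (by
    intro φ hφ hc hsφ
    have i1 : Integrable fun x => u x * (Δ φ) x := by
      have h1 : IntegrableOn (fun x => u x * (Δ φ) x) (tsupport φ) :=
        (hu.integrableOn_compact_subset hsφ hc.isCompact).mul_continuousOn
          (continuous_lap hφ).continuousOn hc.isCompact
      rw [← integrableOn_univ]
      refine h1.of_forall_sdiff_eq_zero MeasurableSet.univ ?_
      intro x hx
      rw [lap_eq_zero hx.2, mul_zero]
    have i2 : Integrable fun x => c0⁻¹ * pot 0 f1 x * (Δ φ) x :=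
      (hFc.mul (continuous_lap hφ)).integrable_of_hasCompactSupport (hasCompactSupport_lap hc).mul_left
    have h2 : ∫ x, c0⁻¹ * pot 0 f1 x * (Δ φ) x = ∫ x, f1 x * φ x := by
      simp_rw [mul_assoc]
      rw [integral_const_mul, pot_weak hf12 hs hφ hc, ← mul_assoc, inv_mul_cancel₀ c0_pos.ne', one_mul]
    simp_rw [sub_mul]
    rw [integral_sub i1 i2, h φ hφ hc hsφ, h2, sub_eq_zero]
    congr 1
    funext x
    by_cases hx : x ∈ ball (0 : P) 1
    · rw [hf1, indicator_of_mem hx]
    · rw [image_eq_zero_of_notMem_tsupport (fun h => hx (hsφ h)), mul_zero, mul_zero])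
  refine ⟨H, hH, ?_⟩
  filter_upwards [hae] with x hx
  rw [← hx]
  ring

/-! ### scaling -/

theorem hasFDerivAt_aff (x0 : P) (c : ℝ) (x : P) :
    HasFDerivAt (fun x : P => c • (x - x0)) (c • ContinuousLinearMap.id ℝ P) x :=
  ((hasFDerivAt_id x).sub_const x0).const_smul c

theorem fderiv_aff {F : Type*} [NormedAddCommGroup F] [NormedSpace ℝ F] {g : P → F} {x0 : P}
    {c : ℝ} {x : P} (hg : DifferentiableAt ℝ g (c • (x - x0))) :
    fderiv ℝ (fun x => g (c • (x - x0))) x = c • fderiv ℝ g (c • (x - x0)) := by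
  have h := hg.hasFDerivAt.comp x (hasFDerivAt_aff x0 c x)
  have h2 : (fderiv ℝ g (c • (x - x0))).comp (c • ContinuousLinearMap.id ℝ P)
      = c • fderiv ℝ g (c • (x - x0)) := by
    ext v
    simp
  rw [h2] at h
  exact h.fderiv

theorem lap_aff {g : P → ℝ} {x0 : P} {c : ℝ} {x : P} (hg : ContDiffAt ℝ 2 g (c • (x - x0))) :
    (Δ (fun x => g (c • (x - x0)))) x = c ^ 2 * (Δ g) (c • (x - x0)) := by
  rw [Hm.lap_F, Hm.lap_F]
  have hc : ContinuousAt (fun x : P => c • (x - x0)) x := (hasFDerivAt_aff x0 c x).continuousAt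
  have h1 : ∀ᶠ y in 𝓝 x, DifferentiableAt ℝ g (c • (y - x0)) := by
    have h2 : ∀ᶠ z in 𝓝 (c • (x - x0)), ContDiffAt ℝ 2 g z :=
      hg.eventually (by simp)
    exact (hc.eventually h2).mono fun y hy => hy.differentiableAt (by norm_num)
  have h3 : fderiv ℝ (fun x => g (c • (x - x0))) =ᶠ[𝓝 x] fun y => c • fderiv ℝ g (c • (y - x0)) :=
    h1.mono fun y hy => fderiv_aff hy
  have h4 : DifferentiableAt ℝ (fderiv ℝ g) (c • (x - x0)) :=
    (hg.fderiv_right (m := 1) (by norm_num)).differentiableAt (by norm_num)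
  have h5 : fderiv ℝ (fderiv ℝ (fun x => g (c • (x - x0)))) x
      = c • (c • fderiv ℝ (fderiv ℝ g) (c • (x - x0))) := by
    rw [h3.fderiv_eq]
    have h6 : DifferentiableAt ℝ (fun y => fderiv ℝ g (c • (y - x0))) x :=
      h4.comp x (hasFDerivAt_aff x0 c x).differentiableAt
    rw [fderiv_fun_const_smul h6, fderiv_aff h4]
  rw [h5, Finset.mul_sum]
  refine Finset.sum_congr rfl fun i _ => ?_
  simp only [smul_apply, smul_eq_mul]
  ring

theorem mem_ball_aff {x0 x : P} {R : ℝ} (hR : 0 < R) :
    R⁻¹ • (x - x0) ∈ ball (0 : P) 1 ↔ x ∈ ball x0 R := by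
  rw [mem_ball_zero_iff, norm_smul, norm_inv, Real.norm_eq_abs, abs_of_pos hR, mem_ball,
    dist_eq_norm, inv_mul_lt_iff₀ hR, mul_one]

theorem contDiff_aff (x0 : P) (c : ℝ) : ContDiff ℝ ∞ (fun x : P => c • (x - x0)) :=
  (contDiff_id.sub contDiff_const).const_smul c

theorem harm_aff {H : P → ℝ} {x0 : P} {R : ℝ} (hR : 0 < R) (hH : Harm H (ball 0 1)) :
    Harm (fun x => H (R⁻¹ • (x - x0))) (ball x0 R) := by
  constructor
  · refine hH.1.comp (contDiff_aff x0 R⁻¹).contDiffOn ?_
    intro x hx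
    exact (mem_ball_aff hR).mpr hx
  · intro x hx
    have h1 := (mem_ball_aff (x0 := x0) hR).mpr hx
    rw [lap_aff (hH.contDiffOn_two.contDiffAt (isOpen_ball.mem_nhds h1)), hH.2 _ h1, mul_zero]

/-- change of variables -/
theorem integral_aff {F : Type*} [NormedAddCommGroup F] [NormedSpace ℝ F] (g : P → F) (x0 : P)
    {R : ℝ} (hR : 0 < R) : ∫ x, g (R⁻¹ • (x - x0)) = R ^ 2 • ∫ z, g z := by
  rw [integral_sub_right_eq_self (fun x => g (R⁻¹ • x)) x0, Measure.integral_comp_smul]
  simp only [finrank_euclideanSpace, Fintype.card_fin]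
  congr 1
  rw [abs_of_pos (by positivity), inv_pow, inv_inv]

theorem integral_aff' {F : Type*} [NormedAddCommGroup F] [NormedSpace ℝ F] (g : P → F) (x0 : P)
    {R : ℝ} (hR : 0 < R) : ∫ x, g x = R ^ 2 • ∫ z, g (x0 + R • z) := by
  rw [← integral_aff (fun z => g (x0 + R • z)) x0 hR]
  congr 1
  funext x
  rw [smul_inv_smul₀ hR.ne']
  simp

theorem WLap.aff {u f : P → ℝ} {x0 : P} {R : ℝ} (hR : 0 < R) (h : WLap (ball x0 R) u f) :
    WLap (ball 0 1) (fun z => u (x0 + R • z)) (fun z => R ^ 2 * f (x0 + R • z)) := by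
  intro φ hφ hc hs
  have h1 : ContDiff ℝ ∞ (fun x : P => φ (R⁻¹ • (x - x0))) :=
    hφ.comp (contDiff_aff x0 R⁻¹)
  have h2 : tsupport (fun x : P => φ (R⁻¹ • (x - x0))) ⊆ (fun z => x0 + R • z) '' tsupport φ := by
    have hcl : IsClosed ((fun z : P => x0 + R • z) '' tsupport φ) := by
      have hcont : Continuous fun z : P => x0 + R • z := by fun_prop
      exact (hc.isCompact.image hcont).isClosed
    refine closure_minimal ?_ hcl
    intro x hx
    refine ⟨R⁻¹ • (x - x0), subset_tsupport _ hx, ?_⟩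
    simp only
    rw [smul_inv_smul₀ hR.ne']
    simp
  have h3 : HasCompactSupport (fun x : P => φ (R⁻¹ • (x - x0))) := by
    have hcont : Continuous fun z : P => x0 + R • z := by fun_prop
    exact (hc.isCompact.image hcont).of_isClosed_subset (isClosed_tsupport _) h2
  have h4 : tsupport (fun x : P => φ (R⁻¹ • (x - x0))) ⊆ ball x0 R := by
    intro x hx
    obtain ⟨z, hz, rfl⟩ := h2 hx
    have := hs hz
    rw [mem_ball_zero_iff] at this
    rw [mem_ball, dist_eq_norm]
    simp only [add_sub_cancel_left, norm_smul, Real.norm_eq_abs, abs_of_pos hR]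
    nlinarith
  have h5 := h _ h1 h3 h4
  have h6 : ∀ x, (Δ (fun x : P => φ (R⁻¹ • (x - x0)))) x = (R⁻¹) ^ 2 * (Δ φ) (R⁻¹ • (x - x0)) :=
    fun x => lap_aff (contDiff_infty.mp hφ 2).contDiffAt
  simp_rw [h6] at h5
  rw [integral_aff' _ x0 hR, integral_aff' (fun x => f x * φ (R⁻¹ • (x - x0))) x0 hR] at h5
  have h7 : ∀ z : P, R⁻¹ • (x0 + R • z - x0) = z := by
    intro z
    rw [add_sub_cancel_left, inv_smul_smul₀ hR.ne']
  simp_rw [h7] at h5
  have hR2 : R ^ 2 ≠ 0 := by positivity
  have h8 := smul_right_injective ℝ hR2 h5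
  have h9 : ∫ z, u (x0 + R • z) * (Δ φ) z = R ^ 2 * ∫ z, u (x0 + R • z) * ((R⁻¹) ^ 2 * (Δ φ) z) := by
    rw [← integral_const_mul]
    congr 1
    funext z
    field_simp
  rw [h9, h8, ← integral_const_mul]
  congr 1
  funext z
  ring

theorem qmp_aff (x0 : P) {c : ℝ} (hc : c ≠ 0) :
    Measure.QuasiMeasurePreserving (fun x : P => c • (x - x0)) volume volume := by
  have h1 : Measure.QuasiMeasurePreserving (fun x : P => c • x) volume volume :=
    ⟨by fun_prop, (Measure.quasiMeasurePreserving_smul (volume : Measure P) hc).2⟩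
  exact h1.comp (measurePreserving_sub_right volume x0).quasiMeasurePreserving

theorem qmp_aff' (x0 : P) {R : ℝ} (hR : R ≠ 0) :
    Measure.QuasiMeasurePreserving (fun z : P => x0 + R • z) volume volume := by
  have h1 : Measure.QuasiMeasurePreserving (fun x : P => R • x) volume volume :=
    ⟨by fun_prop, (Measure.quasiMeasurePreserving_smul (volume : Measure P) hR).2⟩
  exact (measurePreserving_add_left volume x0).quasiMeasurePreserving.comp h1

/-- change of variables for integrability on balls -/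
theorem integrableOn_aff {g : P → ℝ} {x0 : P} {R : ℝ} (hR : 0 < R)
    (hg : IntegrableOn g (ball x0 R)) : IntegrableOn (fun z => g (x0 + R • z)) (ball 0 1) := by
  rw [← integrable_indicator_iff isOpen_ball.measurableSet] at hg ⊢
  have h1 : Integrable fun z => (ball x0 R).indicator g (x0 + R • z) := by
    have h2 : Integrable fun z => (ball x0 R).indicator g (x0 + z) := hg.comp_add_left x0
    exact h2.comp_smul hR.ne'
  refine h1.congr (Eventually.of_forall fun z => ?_)
  have h3 : x0 + R • z ∈ ball x0 R ↔ z ∈ ball (0 : P) 1 := by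
    rw [← mem_ball_aff (x0 := x0) hR, add_sub_cancel_left, inv_smul_smul₀ hR.ne']
  by_cases hz : z ∈ ball (0 : P) 1
  · simp only [indicator_of_mem hz, indicator_of_mem (h3.mpr hz)]
  · simp only [indicator_of_notMem hz, indicator_of_notMem (fun h => hz (h3.mp h))]

theorem setIntegral_aff {g : P → ℝ} {x0 : P} {R : ℝ} (hR : 0 < R) :
    ∫ x in ball x0 R, g x = R ^ 2 * ∫ z in ball (0 : P) 1, g (x0 + R • z) := by
  rw [← integral_indicator isOpen_ball.measurableSet, ← integral_indicator isOpen_ball.measurableSet,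
    integral_aff' _ x0 hR, smul_eq_mul]
  congr 2
  funext z
  have h3 : x0 + R • z ∈ ball x0 R ↔ z ∈ ball (0 : P) 1 := by
    rw [← mem_ball_aff (x0 := x0) hR, add_sub_cancel_left, inv_smul_smul₀ hR.ne']
  by_cases hz : z ∈ ball (0 : P) 1
  · simp only [indicator_of_mem hz, indicator_of_mem (h3.mpr hz)]
  · simp only [indicator_of_notMem hz, indicator_of_notMem (fun h => hz (h3.mp h))]

/-- **The basic splitting.** A solution of `Δ u = f` in a disc is the sum of a harmonic function and
a small continuous function, which is `C¹` with small gradient if `f` is bounded. -/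
theorem decomp : ∃ C : ℝ, 0 < C ∧ ∀ (x0 : P) (R : ℝ), 0 < R → ∀ u f : P → ℝ,
    LocallyIntegrableOn u (ball x0 R) → MemLp f 2 (volume.restrict (ball x0 R)) →
    WLap (ball x0 R) u f →
    ∃ H F : P → ℝ, Harm H (ball x0 R) ∧ (∀ᵐ x ∂(volume.restrict (ball x0 R)), u x = H x + F x) ∧
      Continuous F ∧ (∀ x ∈ ball x0 R, |F x| ≤ C * R * √(∫ y in ball x0 R, f y ^ 2)) ∧
      ∀ A : ℝ, (∀ x ∈ ball x0 R, |f x| ≤ A) → ContDiff ℝ 1 F ∧
        ∀ x ∈ ball x0 R, |F x| ≤ C * A * R ^ 2 ∧ ‖fderiv ℝ F x‖ ≤ C * A * R := by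
  set V : ℝ := (volume (ball (0 : P) 1)).toReal with hV
  have hV0 : 0 ≤ V := ENNReal.toReal_nonneg
  set C1 : ℝ := c0⁻¹ * √(∫ z in ball (0 : P) 2, Lk 0 z ^ 2) with hC1
  set C2 : ℝ := c0⁻¹ * ∫ z in ball (0 : P) 2, ‖z‖ ^ (-1 : ℝ) with hC2
  have hc := c0_pos
  have hC10 : 0 ≤ C1 := by positivity
  have hC20 : 0 ≤ C2 := by
    have : 0 ≤ ∫ z in ball (0 : P) 2, ‖z‖ ^ (-1 : ℝ) := integral_nonneg fun z => by positivity
    positivity
  refine ⟨C1 + C1 * √V + C2 + 1, by positivity, ?_⟩
  intro x0 R hR u f hu hf h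
  set v : P → ℝ := fun z => u (x0 + R • z) with hv
  set g : P → ℝ := fun z => R ^ 2 * f (x0 + R • z) with hg
  have hmeas : AEStronglyMeasurable g (volume.restrict (ball (0 : P) 1)) := by
    have h1 : AEStronglyMeasurable ((ball x0 R).indicator f) volume :=
      (aestronglyMeasurable_indicator_iff isOpen_ball.measurableSet).mpr hf.1
    have h2 : AEStronglyMeasurable (fun z => (ball x0 R).indicator f (x0 + R • z)) volume :=
      h1.comp_quasiMeasurePreserving (qmp_aff' x0 hR.ne')
    have h3 : AEStronglyMeasurable (fun z => R ^ 2 * (ball x0 R).indicator f (x0 + R • z))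
        (volume.restrict (ball (0 : P) 1)) := (h2.const_mul (R ^ 2)).restrict
    refine h3.congr ?_
    filter_upwards [ae_restrict_mem isOpen_ball.measurableSet] with z hz
    have h4 : x0 + R • z ∈ ball x0 R := by
      rw [← mem_ball_aff (x0 := x0) hR, add_sub_cancel_left, inv_smul_smul₀ hR.ne']
      exact hz
    rw [indicator_of_mem h4]
  have hf2 : IntegrableOn (fun x => f x ^ 2) (ball x0 R) := hf.integrable_sq
  have hg2 : MemLp g 2 (volume.restrict (ball (0 : P) 1)) := by
    rw [memLp_two_iff_integrable_sq hmeas]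
    have h1 := (integrableOn_aff hR hf2).const_mul ((R ^ 2) ^ 2)
    refine h1.congr (Eventually.of_forall fun z => ?_)
    simp only [hg]
    ring
  have hvl : LocallyIntegrableOn v (ball (0 : P) 1) := by
    rw [locallyIntegrableOn_iff isOpen_ball.isLocallyClosed] at hu ⊢
    intro k hk hkc
    have hcont : Continuous fun z : P => x0 + R • z := by fun_prop
    have h1 := hu ((fun z : P => x0 + R • z) '' k) (by
      rintro _ ⟨z, hz, rfl⟩
      rw [← mem_ball_aff (x0 := x0) hR, add_sub_cancel_left, inv_smul_smul₀ hR.ne']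
      exact hk hz) (hkc.image hcont)
    have hm1 : MeasurableSet ((fun z : P => x0 + R • z) '' k) := (hkc.image hcont).measurableSet
    rw [← integrable_indicator_iff hm1] at h1
    rw [← integrable_indicator_iff hkc.measurableSet]
    have h2 : Integrable fun z => ((fun z : P => x0 + R • z) '' k).indicator u (x0 + z) :=
      h1.comp_add_left x0
    have h3 := h2.comp_smul hR.ne'
    refine h3.congr (Eventually.of_forall fun z => ?_)
    have h4 : x0 + R • z ∈ ((fun z : P => x0 + R • z) '' k) ↔ z ∈ k := by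
      constructor
      · rintro ⟨w, hw, hwz⟩
        have : w = z := by
          have := add_left_cancel hwz
          exact smul_right_injective P hR.ne' this
        rwa [← this]
      · intro hz
        exact ⟨z, hz, rfl⟩
    by_cases hz : z ∈ k
    · simp only [indicator_of_mem hz, indicator_of_mem (h4.mpr hz), hv]
    · simp only [indicator_of_notMem hz, indicator_of_notMem (fun h => hz (h4.mp h))]
  obtain ⟨H, hH, hae⟩ := decomp_unit hvl hg2 (h.aff hR)
  set g1 : P → ℝ := (ball (0 : P) 1).indicator g with hg1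
  have hg12 : MemLp g1 2 := (memLp_indicator_iff_restrict isOpen_ball.measurableSet).mpr hg2
  have hs : ∀ y, y ∉ ball (0 : P) 1 → g1 y = 0 := fun y hy => indicator_of_notMem hy _
  have hpc := continuous_pot_zero hg12 hs
  have hcont : Continuous fun x : P => R⁻¹ • (x - x0) := by fun_prop
  refine ⟨fun x => H (R⁻¹ • (x - x0)), fun x => c0⁻¹ * pot 0 g1 (R⁻¹ • (x - x0)), harm_aff hR hH,
    ?_, continuous_const.mul (hpc.comp hcont), ?_, ?_⟩
  · have h1 : ∀ᵐ z : P, z ∈ ball (0 : P) 1 → v z = H z + c0⁻¹ * pot 0 g1 z :=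
      (ae_restrict_iff' isOpen_ball.measurableSet).mp hae
    have h2 := (qmp_aff x0 (inv_ne_zero hR.ne')).ae h1
    rw [ae_restrict_iff' isOpen_ball.measurableSet]
    filter_upwards [h2] with x hx hxb
    have h3 := hx ((mem_ball_aff hR).mpr hxb)
    rw [← h3, hv]
    simp only
    rw [smul_inv_smul₀ hR.ne']
    simp
  · intro x hx
    have h1 := (mem_ball_aff (x0 := x0) hR).mpr hx
    rw [mem_ball_zero_iff] at h1
    have h2 := abs_pot_zero_le hg12 hs h1.le
    have h3 : ∫ y, g1 y ^ 2 = R ^ 2 * ∫ y in ball x0 R, f y ^ 2 := by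
      rw [setIntegral_aff hR]
      have h4 : ∀ y, g1 y ^ 2 = (ball (0 : P) 1).indicator (fun y => g y ^ 2) y := by
        intro y
        simp only [hg1, indicator]
        split_ifs <;> simp
      simp_rw [h4]
      rw [integral_indicator isOpen_ball.measurableSet, ← mul_assoc, ← integral_const_mul]
      congr 1
      funext y
      simp only [hg]
      ring
    rw [h3, Real.sqrt_mul (by positivity), Real.sqrt_sq hR.le] at h2
    have h5 : 0 ≤ √(∫ y in ball x0 R, f y ^ 2) := Real.sqrt_nonneg _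
    calc |c0⁻¹ * pot 0 g1 (R⁻¹ • (x - x0))| = c0⁻¹ * |pot 0 g1 (R⁻¹ • (x - x0))| := by
          rw [abs_mul, abs_of_pos (by positivity)]
      _ ≤ c0⁻¹ * (√(∫ z in ball (0 : P) 2, Lk 0 z ^ 2) * (R * √(∫ y in ball x0 R, f y ^ 2))) :=
          mul_le_mul_of_nonneg_left h2 (by positivity)
      _ = C1 * R * √(∫ y in ball x0 R, f y ^ 2) := by rw [hC1]; ring
      _ ≤ (C1 + C1 * √V + C2 + 1) * R * √(∫ y in ball x0 R, f y ^ 2) := by
          apply mul_le_mul_of_nonneg_right _ h5
          apply mul_le_mul_of_nonneg_right _ hR.le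
          have : 0 ≤ C1 * √V := by positivity
          linarith
  · intro A hA
    have hA0 : 0 ≤ A := (abs_nonneg _).trans (hA x0 (mem_ball_self hR))
    have hgA : ∀ y, |g1 y| ≤ R ^ 2 * A := by
      intro y
      by_cases hy : y ∈ ball (0 : P) 1
      · rw [hg1, indicator_of_mem hy, hg]
        simp only
        rw [abs_mul, abs_of_pos (by positivity)]
        apply mul_le_mul_of_nonneg_left _ (by positivity)
        apply hA
        rw [← mem_ball_aff (x0 := x0) hR, add_sub_cancel_left, inv_smul_smul₀ hR.ne']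
        exact hy
      · rw [hs y hy, abs_zero]
        positivity
    obtain ⟨hd, hdc⟩ := pot_C1 hgA hg12.1 hs
    have hC1 : ContDiff ℝ 1 (pot 0 g1) := by
      rw [show (1 : WithTop ℕ∞) = 0 + 1 from by norm_num, contDiff_succ_iff_fderiv]
      refine ⟨fun x => (hd x).differentiableAt, by simp, ?_⟩
      have : fderiv ℝ (pot 0 g1) = potD 0 g1 := funext fun x => (hd x).fderiv
      rw [this, contDiff_zero]
      exact hdc
    refine ⟨contDiff_const.mul (hC1.comp ((contDiff_aff x0 R⁻¹).of_le (by simp))), ?_⟩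
    intro x hx
    have h1 := (mem_ball_aff (x0 := x0) hR).mpr hx
    rw [mem_ball_zero_iff] at h1
    constructor
    · have h2 := abs_pot_zero_le hg12 hs h1.le
      have h3 : ∫ y, g1 y ^ 2 ≤ (R ^ 2 * A) ^ 2 * V := by
        have h4 : Integrable ((ball (0 : P) 1).indicator (fun _ => (R ^ 2 * A) ^ 2)) :=
          (integrable_indicator_iff isOpen_ball.measurableSet).mpr
            (integrableOn_const measure_ball_lt_top.ne)
        calc ∫ y, g1 y ^ 2 ≤ ∫ y, (ball (0 : P) 1).indicator (fun _ => (R ^ 2 * A) ^ 2) y := by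
              refine integral_mono hg12.integrable_sq h4 fun y => ?_
              by_cases hy : y ∈ ball (0 : P) 1
              · simp only [indicator_of_mem hy]
                rw [← sq_abs (g1 y)]
                exact pow_le_pow_left₀ (abs_nonneg _) (hgA y) 2
              · simp only [indicator_of_notMem hy, hs y hy]
                norm_num
          _ = (R ^ 2 * A) ^ 2 * V := by
              rw [integral_indicator isOpen_ball.measurableSet, setIntegral_const, smul_eq_mul,
                mul_comm]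
              rfl
      have h5 : √(∫ y, g1 y ^ 2) ≤ R ^ 2 * A * √V := by
        calc √(∫ y, g1 y ^ 2) ≤ √((R ^ 2 * A) ^ 2 * V) := Real.sqrt_le_sqrt h3
          _ = R ^ 2 * A * √V := by
              rw [Real.sqrt_mul (by positivity), Real.sqrt_sq (by positivity)]
      calc |c0⁻¹ * pot 0 g1 (R⁻¹ • (x - x0))| = c0⁻¹ * |pot 0 g1 (R⁻¹ • (x - x0))| := by
            rw [abs_mul, abs_of_pos (by positivity)]
        _ ≤ c0⁻¹ * (√(∫ z in ball (0 : P) 2, Lk 0 z ^ 2) * (R ^ 2 * A * √V)) := by
            apply mul_le_mul_of_nonneg_left _ (by positivity)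
            exact h2.trans (mul_le_mul_of_nonneg_left h5 (Real.sqrt_nonneg _))
        _ = (C1 * √V) * A * R ^ 2 := by rw [‹C1 = _›]; ring
        _ ≤ (C1 + C1 * √V + C2 + 1) * A * R ^ 2 := by
            apply mul_le_mul_of_nonneg_right _ (by positivity)
            apply mul_le_mul_of_nonneg_right _ hA0
            linarith
    · have h2 := norm_potD_le hgA hg12.1 hs h1.le
      have h3 : fderiv ℝ (fun x => c0⁻¹ * pot 0 g1 (R⁻¹ • (x - x0))) x
          = c0⁻¹ • (R⁻¹ • potD 0 g1 (R⁻¹ • (x - x0))) := by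
        have h4 : DifferentiableAt ℝ (fun x => pot 0 g1 (R⁻¹ • (x - x0))) x :=
          ((hd _).differentiableAt).comp x (hasFDerivAt_aff x0 R⁻¹ x).differentiableAt
        rw [fderiv_const_mul h4, fderiv_aff (hd _).differentiableAt, (hd _).fderiv]
      rw [h3, norm_smul, norm_smul, Real.norm_eq_abs, Real.norm_eq_abs, abs_of_pos (by positivity),
        abs_of_pos (by positivity)]
      calc c0⁻¹ * (R⁻¹ * ‖potD 0 g1 (R⁻¹ • (x - x0))‖)
          ≤ c0⁻¹ * (R⁻¹ * (R ^ 2 * A * ∫ z in ball (0 : P) 2, ‖z‖ ^ (-1 : ℝ))) := by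
            apply mul_le_mul_of_nonneg_left _ (by positivity)
            exact mul_le_mul_of_nonneg_left h2 (by positivity)
        _ = C2 * A * R := by
            rw [hC2]
            field_simp
        _ ≤ (C1 + C1 * √V + C2 + 1) * A * R := by
            apply mul_le_mul_of_nonneg_right _ hR.le
            apply mul_le_mul_of_nonneg_right _ hA0
            have : 0 ≤ C1 * √V := by positivity
            linarith

end Crest.Agent.R135.Reg
end

-- ▼ part R135/RegC1
section

/-!
# Row 135 (Mumford-Shah): `C¹` representatives (regularity toolbox, part 4)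
-/

set_option autoImplicit false
open MeasureTheory Metric Set Filter Topology Laplacian InnerProductSpace
open scoped RealInnerProductSpace NNReal ENNReal ContDiff Gradient

namespace Crest.Agent.R135.Reg
open Crest.Agent.R097 Crest.AnalysisR.PDE.OnePhase

/-- two continuous functions that agree a.e. on an open set agree -/
theorem eq_of_ae_eq_open {V : Set P} (hV : IsOpen V) {f g : P → ℝ} (hf : ContinuousOn f V)
    (hg : ContinuousOn g V) (h : ∀ᵐ x ∂(volume.restrict V), f x = g x) : EqOn f g V :=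
  Measure.eqOn_open_of_ae_eq h hV hf hg

/-- patching of local continuous representatives -/
theorem exists_patch {U : Set P} {u : P → ℝ}
    (h : ∀ x ∈ U, ∃ (V : Set P) (w : P → ℝ), IsOpen V ∧ x ∈ V ∧ V ⊆ U ∧ ContinuousOn w V ∧
      ∀ᵐ y ∂(volume.restrict V), u y = w y) :
    ∃ ut : P → ℝ, (∀ᵐ y ∂(volume.restrict U), u y = ut y) ∧ ContinuousOn ut U := by
  classical
  choose! V w hVo hxV hVU hwc hae using h
  set ut : P → ℝ := fun x => if x ∈ U then w x x else u x with hut
  have key : ∀ x ∈ U, EqOn ut (w x) (V x) := by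
    intro x hx y hy
    have hyU := hVU x hx hy
    rw [hut]
    simp only [hyU, if_true]
    have h1 : EqOn (w y) (w x) (V y ∩ V x) := by
      refine eq_of_ae_eq_open ((hVo y hyU).inter (hVo x hx)) ((hwc y hyU).mono inter_subset_left)
        ((hwc x hx).mono inter_subset_right) ?_
      have h2 := ae_restrict_of_ae_restrict_of_subset (inter_subset_left (t := V x)) (hae y hyU)
      have h3 := ae_restrict_of_ae_restrict_of_subset (inter_subset_right (s := V y)) (hae x hx)
      filter_upwards [h2, h3] with z hz1 hz2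
      rw [← hz1, ← hz2]
    exact h1 ⟨hxV y hyU, hy⟩
  refine ⟨ut, ?_, ?_⟩
  · obtain ⟨T, hTU, hTc, hT⟩ := TopologicalSpace.isOpen_biUnion_countable U V
      (fun x hx => hVo x hx)
    have hcov : U ⊆ ⋃ x ∈ T, V x := by
      rw [hT]
      intro x hx
      exact mem_biUnion hx (hxV x hx)
    have h1 : ∀ᵐ y ∂(volume.restrict (⋃ x ∈ T, V x)), u y = ut y := by
      rw [ae_restrict_biUnion_iff _ hTc]
      intro x hx
      have hxU := hTU hx
      filter_upwards [hae x hxU, ae_restrict_mem (hVo x hxU).measurableSet] with y hy hyV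
      rw [hy, key x hxU hyV]
    exact ae_restrict_of_ae_restrict_of_subset hcov h1
  · intro x hx
    exact (((hwc x hx).congr (key x hx)).continuousAt ((hVo x hx).mem_nhds (hxV x hx))).continuousWithinAt

/-- weak Laplacian restricted to a smaller set -/
theorem WLap.mono {U V : Set P} {u f : P → ℝ} (h : WLap U u f) (hVU : V ⊆ U) : WLap V u f :=
  fun φ hφ hc hs => h φ hφ hc (hs.trans hVU)

theorem WLap.congr {U : Set P} {u f v g : P → ℝ} (h : WLap U u f)
    (huv : ∀ᵐ x ∂(volume.restrict U), u x = v x) (hfg : ∀ᵐ x ∂(volume.restrict U), f x = g x)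
    (hU : MeasurableSet U) : WLap U v g := by
  intro φ hφ hc hs
  rw [ae_restrict_iff' hU] at huv hfg
  have h1 : ∫ x, v x * (Δ φ) x = ∫ x, u x * (Δ φ) x := by
    apply integral_congr_ae
    filter_upwards [huv] with x hx
    by_cases hxs : x ∈ tsupport φ
    · rw [hx (hs hxs)]
    · rw [lap_eq_zero hxs, mul_zero, mul_zero]
  have h2 : ∫ x, g x * φ x = ∫ x, f x * φ x := by
    apply integral_congr_ae
    filter_upwards [hfg] with x hx
    by_cases hxs : x ∈ tsupport φ
    · rw [hx (hs hxs)]
    · rw [image_eq_zero_of_notMem_tsupport hxs, mul_zero, mul_zero]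
  rw [h1, h2, h φ hφ hc hs]

/-- solutions of `Δ u = f`, `f ∈ L²_loc`, are continuous -/
theorem exists_continuous_rep {U : Set P} (hU : IsOpen U) {u f : P → ℝ}
    (hu : LocallyIntegrableOn u U)
    (hf : ∀ x ∈ U, ∃ r > 0, ball x r ⊆ U ∧ MemLp f 2 (volume.restrict (ball x r)))
    (h : WLap U u f) :
    ∃ ut : P → ℝ, (∀ᵐ y ∂(volume.restrict U), u y = ut y) ∧ ContinuousOn ut U := by
  apply exists_patch
  intro x hx
  obtain ⟨r, hr, hrU, hfr⟩ := hf x hx
  obtain ⟨C, hC, hdec⟩ := decomp
  obtain ⟨H, F, hH, hae, hFc, -, -⟩ := hdec x r hr u f (hu.mono_set hrU) hfr (h.mono hrU)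
  exact ⟨ball x r, fun y => H y + F y, isOpen_ball, mem_ball_self hr, hrU,
    hH.1.continuousOn.add hFc.continuousOn, hae⟩

/-- continuous solutions of `Δ u = f` with `f` locally bounded are `C¹` -/
theorem contDiffOn_one_of_WLap {U : Set P} (hU : IsOpen U) {u f : P → ℝ}
    (hu : ContinuousOn u U) (hfm : AEStronglyMeasurable f (volume.restrict U))
    (hf : ∀ x ∈ U, ∃ r > 0, ∃ A : ℝ, ball x r ⊆ U ∧ ∀ y ∈ ball x r, |f y| ≤ A)
    (h : WLap U u f) : ContDiffOn ℝ 1 u U := by
  intro x hx
  obtain ⟨r, hr, A, hrU, hA⟩ := hf x hx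
  obtain ⟨C, hC, hdec⟩ := decomp
  have hfin : IsFiniteMeasure (volume.restrict (ball x r)) :=
    ⟨by rw [Measure.restrict_apply_univ]; exact measure_ball_lt_top⟩
  have hf2 : MemLp f 2 (volume.restrict (ball x r)) := by
    refine MemLp.of_bound (hfm.mono_set hrU) A ?_
    filter_upwards [ae_restrict_mem isOpen_ball.measurableSet] with y hy
    exact hA y hy
  obtain ⟨H, F, hH, hae, hFc, -, hF⟩ := hdec x r hr u f
    ((hu.mono hrU).locallyIntegrableOn isOpen_ball.measurableSet) hf2 (h.mono hrU)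
  obtain ⟨hF1, -⟩ := hF A hA
  have he : EqOn u (fun y => H y + F y) (ball x r) :=
    eq_of_ae_eq_open isOpen_ball (hu.mono hrU) (hH.1.continuousOn.add hFc.continuousOn) hae
  have h1 : ContDiffOn ℝ 1 (fun y => H y + F y) (ball x r) :=
    (hH.1.of_le (by simp)).add hF1.contDiffOn
  exact ((h1.congr he).contDiffAt (isOpen_ball.mem_nhds (mem_ball_self hr))).contDiffWithinAt

/-- from the weak Euler-Lagrange equation to the weak Laplacian -/
theorem wlap_of_weakGrad {U : Set P} {u f : P → ℝ} {G : P → P}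
    (hu : IsWeakGradOn U u G)
    (h0 : ∀ φ : P → ℝ, ContDiff ℝ ∞ φ → HasCompactSupport φ → tsupport φ ⊆ U →
      ∫ x in U, ⟪G x, ∇ φ x⟫_ℝ = - ∫ x in U, f x * φ x) : WLap U u f := by
  obtain ⟨hu1, hG1, hw⟩ := hu
  have htest : ∀ φ : P → ℝ, ContDiff ℝ ∞ φ → HasCompactSupport φ → tsupport φ ⊆ U →
      ∀ i, ContDiff ℝ ∞ (fun x => partialD φ i x) ∧ HasCompactSupport (fun x => partialD φ i x) ∧
        tsupport (fun x => partialD φ i x) ⊆ U := by
    intro φ hφ hc hs i
    have h1 : ContDiff ℝ ∞ (fun x => partialD φ i x) := by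
      unfold partialD
      exact (hφ.fderiv_right (by simp)).clm_apply contDiff_const
    have h2 : tsupport (fun x => partialD φ i x) ⊆ tsupport φ :=
      tsupport_fderiv_apply_subset ℝ _
    exact ⟨h1, hc.of_isClosed_subset (isClosed_tsupport _) h2, h2.trans hs⟩
  intro φ hφ hc hs
  have hφ2 : ContDiff ℝ 2 φ := contDiff_infty.mp hφ 2
  have e1 : ∀ x, (Δ φ) x = ∑ i, partialD (fun y => partialD φ i y) i x := by
    intro x
    exact Crest.Agent.R097.laplacian_eq_sum hφ2.contDiffAt
  have e2 : ∫ x, u x * (Δ φ) x = ∑ i, ∫ x, u x * partialD (fun y => partialD φ i y) i x := by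
    rw [← integral_finsetSum]
    · congr 1
      ext x
      rw [e1, Finset.mul_sum]
    · intro i _
      obtain ⟨a1, a2, a3⟩ := htest φ hφ hc hs i
      obtain ⟨b1, b2, b3⟩ := htest _ a1 a2 a3 i
      exact int_mul_test hu1 b1.continuous b2 b3
  rw [e2]
  have e3 : ∀ i, ∫ x, u x * partialD (fun y => partialD φ i y) i x
      = - ∫ x, G x i * partialD φ i x := by
    intro i
    obtain ⟨a1, a2, a3⟩ := htest φ hφ hc hs i
    obtain ⟨b1, b2, b3⟩ := htest _ a1 a2 a3 i
    have := hw _ a1 a2 a3 i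
    rw [setInt_test b3, setInt_test a3] at this
    exact this
  simp_rw [e3]
  rw [Finset.sum_neg_distrib, ← integral_finsetSum]
  · have e4 := h0 φ hφ hc hs
    rw [setIntegral_eq_integral_of_forall_compl_eq_zero, setInt_test hs] at e4
    · rw [← neg_neg (∫ x, f x * φ x), ← e4]
      congr 2
      ext x
      rw [PiLp.inner_apply]
      refine Finset.sum_congr rfl fun i _ => ?_
      rw [gradient_coord]
      simp [bv, partialD, mul_comm]
    · intro x hx
      have : ∇ φ x = 0 := by
        rw [← norm_eq_zero, norm_gradient, norm_eq_zero]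
        exact fderiv_eq_zero_of_notMem_tsupport (fun h => hx (hs h))
      rw [this, inner_zero_right]
  · intro i _
    obtain ⟨a1, a2, a3⟩ := htest φ hφ hc hs i
    exact int_mul_test (locInt_coord hG1 i) a1.continuous a2 a3

/-- the weak gradient of a function with a `C¹` representative is the classical gradient -/
theorem weakGrad_eq_grad {U : Set P} (hU : IsOpen U) {u h : P → ℝ} {G : P → P}
    (hu : IsWeakGradOn U u G) (hh : ContDiffOn ℝ 1 h U)
    (hae : ∀ᵐ x ∂(volume.restrict U), u x = h x) : ∀ᵐ x ∂(volume.restrict U), G x = ∇ h x := by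
  obtain ⟨hu1, hG1, hw⟩ := hu
  have hcoord : ∀ i : Fin 2, ∀ᵐ x ∂(volume.restrict U), G x i = fderiv ℝ h x (bv i) := by
    intro i
    have hfc : ContinuousOn (fun x => fderiv ℝ h x (bv i)) U := by
      have h1 : ContinuousOn (fderiv ℝ h) U := hh.continuousOn_fderiv_of_isOpen hU (by simp)
      exact h1.clm_apply continuousOn_const
    have hLI : LocallyIntegrableOn (fun x => G x i - fderiv ℝ h x (bv i)) U :=
      (locInt_coord hG1 i).sub (hfc.locallyIntegrableOn hU.measurableSet)
    have h2 : ∀ᵐ x ∂volume, x ∈ U → G x i - fderiv ℝ h x (bv i) = 0 := by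
      apply hU.ae_eq_zero_of_integral_contDiff_smul_eq_zero hLI
      intro φ hφ hc hs
      have h2 : tsupport (fun x => partialD φ i x) ⊆ tsupport φ :=
        tsupport_fderiv_apply_subset ℝ _
      have a3 : tsupport (fun x => partialD φ i x) ⊆ U := h2.trans hs
      have e1 : ∫ x, G x i * φ x = - ∫ x, u x * partialD φ i x := by
        have := hw φ hφ hc hs i
        rw [setInt_test a3, setInt_test hs] at this
        rw [this, neg_neg]
      have e2 : ∫ x, u x * partialD φ i x = ∫ x, h x * partialD φ i x := by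
        rw [← setInt_test a3, ← setInt_test (f := h) a3]
        apply integral_congr_ae
        filter_upwards [hae] with x hx
        rw [hx]
      obtain ⟨g, hg, hgc, hgv⟩ := Hm.exists_ext (m := 1) hU hh hc.isCompact hs
      obtain ⟨C, hC⟩ := lip_of_contDiff_compact (contDiff_infty.mp hφ 1) hc
      have e3 := ibp1 (f := g) hg hC hc (bv i)
      have e4 : ∫ x, h x * partialD φ i x = ∫ x, g x * fderiv ℝ φ x (bv i) := by
        congr 1
        ext x
        by_cases hx : x ∈ tsupport φ
        · rw [(hgv x hx).eq_of_nhds]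
          rfl
        · have : fderiv ℝ φ x = 0 := fderiv_eq_zero_of_notMem_tsupport hx
          simp [partialD, this]
      have e5 : ∫ x, fderiv ℝ g x (bv i) * φ x = ∫ x, fderiv ℝ h x (bv i) * φ x := by
        congr 1
        ext x
        by_cases hx : x ∈ tsupport φ
        · rw [(hgv x hx).fderiv_eq]
        · rw [image_eq_zero_of_notMem_tsupport hx, mul_zero, mul_zero]
      have e6 : ∫ x, G x i * φ x = ∫ x, fderiv ℝ h x (bv i) * φ x := by
        rw [e1, e2, e4, e3, e5, neg_neg]
      have e7 := integral_sub (int_mul_test (locInt_coord hG1 i) hφ.continuous hc hs)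
        (int_mul_test (hfc.locallyIntegrableOn hU.measurableSet) hφ.continuous hc hs)
      rw [e6, sub_self] at e7
      rw [← e7]
      congr 1
      ext x
      rw [smul_eq_mul]
      ring
    rw [ae_restrict_iff' hU.measurableSet]
    filter_upwards [h2] with x hx hxΩ
    have := hx hxΩ
    linarith
  filter_upwards [ae_all_iff.mpr hcoord] with x hx
  ext i
  rw [hx i, gradient_coord]

end Crest.Agent.R135.Reg
end

-- ▼ part R135/RegEst

/-!
# Row 135 (Mumford-Shah): main regularity theorem and interior estimates (regularity toolbox, part 5)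
-/

set_option autoImplicit false
open MeasureTheory Metric Set Filter Topology Laplacian InnerProductSpace
open scoped RealInnerProductSpace NNReal ENNReal ContDiff Gradient

namespace Crest.Agent.R135.Reg
open Crest.Agent.R097 Crest.AnalysisR.PDE.OnePhase

/-- **Regularity off the crack.** If `u` has a weak gradient `G` on the open set `U` and
`Δ u = β (u - g)` weakly there, with `g` bounded and `u` locally square integrable, then `u` has a
`C¹` representative, whose gradient is `G` a.e. -/
theorem exists_C1_rep {U : Set P} (hU : IsOpen U) {u g : P → ℝ} {G : P → P} {β M : ℝ}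
    (hu : IsWeakGradOn U u G)
    (hu2 : ∀ x ∈ U, ∃ r > 0, ball x r ⊆ U ∧ MemLp u 2 (volume.restrict (ball x r)))
    (hgm : AEStronglyMeasurable g (volume.restrict U)) (hgM : ∀ x ∈ U, |g x| ≤ M)
    (hEL : ∀ φ : P → ℝ, ContDiff ℝ ∞ φ → HasCompactSupport φ → tsupport φ ⊆ U →
      (∫ x in U, ⟪G x, ∇ φ x⟫_ℝ) + β * ∫ x in U, (u x - g x) * φ x = 0) :
    ∃ ut : P → ℝ, ContDiffOn ℝ 1 ut U ∧ (∀ᵐ x ∂(volume.restrict U), u x = ut x) ∧
      (∀ᵐ x ∂(volume.restrict U), G x = ∇ ut x) ∧ WLap U ut (fun x => β * (ut x - g x)) := by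
  have hw : WLap U u (fun x => β * (u x - g x)) := by
    apply wlap_of_weakGrad hu
    intro φ hφ hc hs
    have h1 := hEL φ hφ hc hs
    have h2 : ∫ x in U, β * (u x - g x) * φ x = β * ∫ x in U, (u x - g x) * φ x := by
      rw [← integral_const_mul]
      congr 1
      funext x
      ring
    rw [h2]
    linarith
  have hfin : ∀ x r, IsFiniteMeasure (volume.restrict (ball (x : P) r)) := fun x r =>
    ⟨by rw [Measure.restrict_apply_univ]; exact measure_ball_lt_top⟩
  obtain ⟨ut, hae, hutc⟩ := exists_continuous_rep hU hu.1 (fun x hx => by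
    obtain ⟨r, hr, hrU, hur⟩ := hu2 x hx
    have := hfin x r
    refine ⟨r, hr, hrU, ?_⟩
    have hg2 : MemLp g 2 (volume.restrict (ball x r)) := by
      refine MemLp.of_bound (hgm.mono_set hrU) M ?_
      filter_upwards [ae_restrict_mem isOpen_ball.measurableSet] with y hy
      exact hgM y (hrU hy)
    exact (hur.sub hg2).const_mul β) hw
  have hw' : WLap U ut (fun x => β * (ut x - g x)) := by
    refine hw.congr hae ?_ hU.measurableSet
    filter_upwards [hae] with x hx
    rw [hx]
  have hC1 : ContDiffOn ℝ 1 ut U := by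
    refine contDiffOn_one_of_WLap hU hutc ?_ ?_ hw'
    · exact ((hutc.aestronglyMeasurable hU.measurableSet).sub hgm).const_mul β
    · intro x hx
      obtain ⟨r, hr, hrU⟩ := Metric.isOpen_iff.mp hU x hx
      obtain ⟨B, hB⟩ := (isCompact_closedBall x (r / 2)).exists_bound_of_continuousOn
        (hutc.mono ((closedBall_subset_ball (half_lt_self hr)).trans hrU))
      refine ⟨r / 2, by positivity, |β| * (B + M), (ball_subset_ball (by linarith)).trans hrU, ?_⟩
      intro y hy
      rw [abs_mul]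
      apply mul_le_mul_of_nonneg_left _ (abs_nonneg _)
      have h1 := hB y (ball_subset_closedBall hy)
      have h2 := hgM y (hrU (ball_subset_ball (by linarith) hy))
      rw [Real.norm_eq_abs] at h1
      exact (abs_sub _ _).trans (add_le_add h1 h2)
  exact ⟨ut, hC1, hae, weakGrad_eq_grad hU hu hC1 hae, hw'⟩

/-! ### interior estimates -/

/-- harmonic functions are bounded by their means -/
theorem harm_mean_bound : ∃ C : ℝ, 0 < C ∧ ∀ (h : P → ℝ) (x : P) (R : ℝ), 0 < R →
    ContDiffOn ℝ 2 h (ball x R) → (∀ y ∈ ball x R, (Δ h) y = 0) → IntegrableOn h (ball x R) →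
    |h x| ≤ C / R ^ 2 * ∫ y in ball x R, |h y| := by
  have hκ : 0 < Hm.kap 2 1 := Hm.kap_pos 1
  refine ⟨(Hm.kap 2 1)⁻¹ * 4, by positivity, ?_⟩
  intro h x R hR hh h0 hi
  have ht : 0 < R / 2 := by linarith
  have h1 := Hm.mean_ker 1 ht (show R / 2 < R by linarith) hh
    (fun y hy => h0 y (ball_subset_ball (by linarith) hy))
  have h2 : |Hm.MM 1 (R / 2) h x| ≤ 4 / R ^ 2 * ∫ y in ball x R, |h y| := by
    unfold Hm.MM
    rw [← integral_const_mul, ← integral_indicator isOpen_ball.measurableSet, ← Real.norm_eq_abs]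
    refine norm_integral_le_of_norm_le ?_ (Eventually.of_forall fun y => ?_)
    · rw [integrable_indicator_iff isOpen_ball.measurableSet]
      exact hi.abs.const_mul _
    · by_cases hy : y ∈ ball x R
      · rw [indicator_of_mem hy, norm_mul, Real.norm_eq_abs, Real.norm_eq_abs, mul_comm]
        refine mul_le_mul_of_nonneg_right ((Hm.abs_ker_le 1 ht.le x y).trans (le_of_eq ?_))
          (abs_nonneg _)
        field_simp
        norm_num
      · rw [indicator_of_notMem hy]
        rw [mem_ball, dist_eq_norm, not_lt] at hy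
        rw [Hm.ker_zero 1 ht (by linarith), mul_zero, norm_zero]
  have h3 : h x = (Hm.kap 2 1)⁻¹ * Hm.MM 1 (R / 2) h x := by
    rw [h1, ← mul_assoc, inv_mul_cancel₀ hκ.ne', one_mul]
  rw [h3, abs_mul, abs_of_pos (by positivity)]
  calc (Hm.kap 2 1)⁻¹ * |Hm.MM 1 (R / 2) h x| ≤ (Hm.kap 2 1)⁻¹ * (4 / R ^ 2 * ∫ y in ball x R, |h y|) :=
        mul_le_mul_of_nonneg_left h2 (by positivity)
    _ = _ := by ring

/-- gradients of harmonic functions are bounded by their means -/
theorem harm_fderiv_mean_bound : ∃ C : ℝ, 0 < C ∧ ∀ (H : P → ℝ) (x : P) (R : ℝ), 0 < R →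
    Harm H (ball x R) → IntegrableOn (fun y => ‖fderiv ℝ H y‖) (ball x R) →
    ‖fderiv ℝ H x‖ ≤ C / R ^ 2 * ∫ y in ball x R, ‖fderiv ℝ H y‖ := by
  obtain ⟨C, hC, hmb⟩ := harm_mean_bound
  refine ⟨C, hC, ?_⟩
  intro H x R hR hH hi
  have hI : 0 ≤ ∫ y in ball x R, ‖fderiv ℝ H y‖ := integral_nonneg fun y => norm_nonneg _
  refine ContinuousLinearMap.opNorm_le_bound _ (by positivity) fun v => ?_
  set ℓ : (P →L[ℝ] ℝ) →L[ℝ] ℝ := ContinuousLinearMap.apply ℝ ℝ v with hℓ
  have hD : ContDiffOn ℝ ∞ (fderiv ℝ H) (ball x R) := Hm.contDiffOn_fderiv isOpen_ball hH.1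
  have hD2 : ContDiffOn ℝ 2 (ℓ ∘ fderiv ℝ H) (ball x R) :=
    contDiffOn_infty.mp (ℓ.contDiff.comp_contDiffOn hD) 2
  have h0 : ∀ y ∈ ball x R, (Δ (ℓ ∘ fderiv ℝ H)) y = 0 := by
    intro y hy
    have h1 : ContDiffAt ℝ 2 (fderiv ℝ H) y :=
      (contDiffOn_infty.mp hD 2).contDiffAt (isOpen_ball.mem_nhds hy)
    rw [h1.laplacian_CLM_comp_left, Function.comp, Hm.lap_fderiv isOpen_ball hH.1 hH.2 y hy, map_zero]
  have hm : AEStronglyMeasurable (fderiv ℝ H) (volume.restrict (ball x R)) :=
    (hD.continuousOn).aestronglyMeasurable isOpen_ball.measurableSet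
  have hi2 : IntegrableOn (ℓ ∘ fderiv ℝ H) (ball x R) :=
    ℓ.integrable_comp ((integrable_norm_iff hm).mp hi)
  have h1 := hmb (ℓ ∘ fderiv ℝ H) x R hR hD2 h0 hi2
  have h2 : ∫ y in ball x R, |(ℓ ∘ fderiv ℝ H) y| ≤ (∫ y in ball x R, ‖fderiv ℝ H y‖) * ‖v‖ := by
    rw [← integral_mul_const]
    refine integral_mono hi2.abs (hi.mul_const _) fun y => ?_
    exact (fderiv ℝ H y).le_opNorm v
  calc ‖(fderiv ℝ H x) v‖ = |(ℓ ∘ fderiv ℝ H) x| := rfl
    _ ≤ C / R ^ 2 * ∫ y in ball x R, |(ℓ ∘ fderiv ℝ H) y| := h1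
    _ ≤ C / R ^ 2 * ((∫ y in ball x R, ‖fderiv ℝ H y‖) * ‖v‖) :=
        mul_le_mul_of_nonneg_left h2 (by positivity)
    _ = _ := by ring

/-- interior gradient bound for `Δ u = f`, `f` bounded -/
theorem fderiv_bound : ∃ C : ℝ, 0 < C ∧ ∀ (u f : P → ℝ) (x : P) (R A : ℝ), 0 < R →
    ContDiffOn ℝ 1 u (ball x R) → AEStronglyMeasurable f (volume.restrict (ball x R)) →
    (∀ y ∈ ball x R, |f y| ≤ A) → WLap (ball x R) u f →
    IntegrableOn (fun y => ‖fderiv ℝ u y‖) (ball x R) →
    ‖fderiv ℝ u x‖ ≤ C / R ^ 2 * (∫ y in ball x R, ‖fderiv ℝ u y‖) + C * A * R := by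
  obtain ⟨C1, hC1, hdec⟩ := decomp
  obtain ⟨C2, hC2, hmb⟩ := harm_fderiv_mean_bound
  set V : ℝ := (volume (ball (0 : P) 1)).toReal with hV
  have hV0 : 0 ≤ V := ENNReal.toReal_nonneg
  refine ⟨C2 + C2 * C1 * V + C1, by positivity, ?_⟩
  intro u f x R A hR hu hfm hA h hi
  have hA0 : 0 ≤ A := (abs_nonneg _).trans (hA x (mem_ball_self hR))
  have hfin : IsFiniteMeasure (volume.restrict (ball x R)) :=
    ⟨by rw [Measure.restrict_apply_univ]; exact measure_ball_lt_top⟩
  have hf2 : MemLp f 2 (volume.restrict (ball x R)) := by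
    refine MemLp.of_bound hfm A ?_
    filter_upwards [ae_restrict_mem isOpen_ball.measurableSet] with y hy
    exact hA y hy
  obtain ⟨H, F, hH, hae, hFc, -, hF⟩ := hdec x R hR u f
    (hu.continuousOn.locallyIntegrableOn isOpen_ball.measurableSet) hf2 h
  obtain ⟨hF1, hFb⟩ := hF A hA
  have he : EqOn u (fun y => H y + F y) (ball x R) :=
    eq_of_ae_eq_open isOpen_ball hu.continuousOn (hH.1.continuousOn.add hFc.continuousOn) hae
  have hfd : ∀ y ∈ ball x R, fderiv ℝ u y = fderiv ℝ H y + fderiv ℝ F y := by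
    intro y hy
    have h1 : u =ᶠ[𝓝 y] fun y => H y + F y := he.eventuallyEq_of_mem (isOpen_ball.mem_nhds hy)
    rw [h1.fderiv_eq, fderiv_fun_add
      ((hH.1.contDiffAt (isOpen_ball.mem_nhds hy)).differentiableAt (by simp))
      ((hF1.contDiffAt).differentiableAt (by simp))]
  have hfdH : ∀ y ∈ ball x R, ‖fderiv ℝ H y‖ ≤ ‖fderiv ℝ u y‖ + C1 * A * R := by
    intro y hy
    have h1 : fderiv ℝ H y = fderiv ℝ u y - fderiv ℝ F y := by rw [hfd y hy]; abel
    rw [h1]
    exact (norm_sub_le _ _).trans (by linarith [(hFb y hy).2])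
  have hmH : AEStronglyMeasurable (fun y => ‖fderiv ℝ H y‖) (volume.restrict (ball x R)) :=
    ((Hm.contDiffOn_fderiv isOpen_ball hH.1).continuousOn.norm).aestronglyMeasurable
      isOpen_ball.measurableSet
  have hiH : IntegrableOn (fun y => ‖fderiv ℝ H y‖) (ball x R) := by
    refine Integrable.mono' (hi.add (integrable_const (C1 * A * R))) hmH ?_
    filter_upwards [ae_restrict_mem isOpen_ball.measurableSet] with y hy
    rw [norm_norm]
    exact hfdH y hy
  have h1 := hmb H x R hR hH hiH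
  have h2 : ∫ y in ball x R, ‖fderiv ℝ H y‖ ≤ (∫ y in ball x R, ‖fderiv ℝ u y‖) + C1 * A * R * (V * R ^ 2) := by
    have h3 : ∫ y in ball x R, (‖fderiv ℝ u y‖ + C1 * A * R)
        = (∫ y in ball x R, ‖fderiv ℝ u y‖) + C1 * A * R * (V * R ^ 2) := by
      rw [integral_add hi (integrable_const _), setIntegral_const, smul_eq_mul]
      congr 1
      have h4 : volume.real (ball x R) = V * R ^ 2 := by
        rw [Measure.real, Measure.addHaar_ball _ _ hR.le, ENNReal.toReal_mul,
          ENNReal.toReal_ofReal (by positivity)]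
        simp [hV, mul_comm]
      rw [h4]
      ring
    rw [← h3]
    refine setIntegral_mono_on hiH (hi.add (integrable_const _)) isOpen_ball.measurableSet hfdH
  have h3 : ‖fderiv ℝ u x‖ ≤ ‖fderiv ℝ H x‖ + C1 * A * R := by
    rw [hfd x (mem_ball_self hR)]
    exact (norm_add_le _ _).trans (by linarith [(hFb x (mem_ball_self hR)).2])
  have hI : 0 ≤ ∫ y in ball x R, ‖fderiv ℝ u y‖ := integral_nonneg fun y => norm_nonneg _
  calc ‖fderiv ℝ u x‖ ≤ C2 / R ^ 2 * ((∫ y in ball x R, ‖fderiv ℝ u y‖) + C1 * A * R * (V * R ^ 2))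
        + C1 * A * R := by
        have := mul_le_mul_of_nonneg_left h2 (show 0 ≤ C2 / R ^ 2 by positivity)
        linarith
    _ = C2 / R ^ 2 * (∫ y in ball x R, ‖fderiv ℝ u y‖) + (C2 * C1 * V + C1) * A * R := by
        field_simp
        ring
    _ ≤ _ := by
        have e1 : C2 / R ^ 2 * (∫ y in ball x R, ‖fderiv ℝ u y‖)
            ≤ (C2 + C2 * C1 * V + C1) / R ^ 2 * (∫ y in ball x R, ‖fderiv ℝ u y‖) := by
          apply mul_le_mul_of_nonneg_right _ hI
          apply div_le_div_of_nonneg_right _ (by positivity)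
          have : 0 ≤ C2 * C1 * V := by positivity
          linarith
        have e2 : (C2 * C1 * V + C1) * A * R ≤ (C2 + C2 * C1 * V + C1) * A * R := by
          apply mul_le_mul_of_nonneg_right _ hR.le
          apply mul_le_mul_of_nonneg_right _ hA0
          linarith
        linarith

end Crest.Agent.R135.Reg
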